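import Crest.Agent.R097.Lip
import Crest.Prelude.Def_OnePhase

/-! S0LM: Lipschitz functions and the Sobolev notions of `Def_OnePhase`; a Sobolev minimiser which is
a.e. equal to a nonnegative Lipschitz function gives a Lipschitz minimiser. -/
set_option autoImplicit false
open MeasureTheory Metric Set Filter Topology ContinuousLinearMap
open scoped NNReal RealInnerProductSpace Gradient ContDiff ENNReal Convolution
open Crest.AnalysisR.PDE.OnePhase

namespace Crest.Agent.R097
variable {d : ℕ}

theorem S0L_partialD_eq (g : E d → ℝ) (i : Fin d) (x : E d) : partialD g i x = fderiv ℝ g x (bv i) := rfl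

theorem S0L_locInt_lip {K : ℝ≥0} {u : E d → ℝ} (hu : LipschitzWith K u) : LocallyIntegrable u :=
  hu.continuous.locallyIntegrable

theorem S0L_locInt_of_bdd {F : Type*} [NormedAddCommGroup F] {f : E d → F} {C : ℝ}
    (hm : AEStronglyMeasurable f volume) (hC : ∀ x, ‖f x‖ ≤ C) : LocallyIntegrable f := by
  intro x
  refine ⟨ball x 1, ball_mem_nhds _ one_pos, ?_⟩
  exact Measure.integrableOn_of_bounded (M := C) measure_ball_lt_top.ne hm
    (Eventually.of_forall hC)

theorem S0L_locInt_grad {K : ℝ≥0} {u : E d → ℝ} (hu : LipschitzWith K u) :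
    LocallyIntegrable (fun x => ∇ u x) :=
  S0L_locInt_of_bdd (C := K) (measurable_grad u).aestronglyMeasurable (norm_grad_le hu)

/-- integration by parts: the a.e. gradient of a Lipschitz function is a weak gradient -/
theorem lip_ibp {K : ℝ≥0} {u : E d → ℝ} (hu : LipschitzWith K u) {φ : E d → ℝ}
    (hφ : ContDiff ℝ ∞ φ) (hc : HasCompactSupport φ) (i : Fin d) :
    ∫ x, u x * partialD φ i x = - ∫ x, (∇ u x) i * φ x := by
  obtain ⟨D, hD⟩ := hφ.lipschitzWith_of_hasCompactSupport hc (by norm_num)
  have key := LipschitzWith.integral_lineDeriv_mul_eq (μ := volume) hu hD hc (bv i)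
  have e1 : ∀ᵐ x, lineDeriv ℝ u x (bv i) * φ x = (∇ u x) i * φ x := by
    filter_upwards [hu.ae_differentiableAt] with x hx
    rw [hx.lineDeriv_eq_fderiv, gradient_coord]
  have e2 : ∀ x, lineDeriv ℝ φ x (-bv i) * u x = - (u x * partialD φ i x) := by
    intro x
    rw [(hφ.differentiable (by norm_num)).differentiableAt.lineDeriv_eq_fderiv, map_neg, S0L_partialD_eq]
    ring
  rw [integral_congr_ae e1, integral_congr_ae (Eventually.of_forall e2), integral_neg] at key
  linarith

theorem wg_lip {K : ℝ≥0} {u : E d → ℝ} (hu : LipschitzWith K u) {Ω : Set (E d)} :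
    IsWeakGradOn Ω u (fun x => ∇ u x) := by
  refine ⟨(S0L_locInt_lip hu).locallyIntegrableOn _, (S0L_locInt_grad hu).locallyIntegrableOn _, ?_⟩
  intro φ hφ hc hs i
  rw [setIntegral_eq_integral_of_forall_compl_eq_zero, setIntegral_eq_integral_of_forall_compl_eq_zero]
  · exact lip_ibp hu hφ hc i
  · intro x hx
    have : x ∉ tsupport φ := fun h => hx (hs h)
    rw [image_eq_zero_of_notMem_tsupport this, mul_zero]
  · intro x hx
    have : x ∉ tsupport φ := fun h => hx (hs h)
    rw [S0L_partialD_eq, fderiv_eq_zero_of_notMem_tsupport this]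
    simp

/-- uniqueness of the weak gradient on the whole space -/
theorem wg_uniq {u v : E d → ℝ} {G H : E d → E d} (hu : IsWeakGradOn univ u G)
    (hv : IsWeakGradOn univ v H) (huv : u =ᵐ[volume] v) : G =ᵐ[volume] H := by
  have hG : LocallyIntegrable G := locallyIntegrableOn_univ.1 hu.2.1
  have hH : LocallyIntegrable H := locallyIntegrableOn_univ.1 hv.2.1
  have key : ∀ i : Fin d, ∀ᵐ x : E d, G x i - H x i = 0 := by
    intro i
    have hGi : LocallyIntegrable (fun x => G x i) := by
      intro x
      obtain ⟨s, hs, hs'⟩ := hG x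
      exact ⟨s, hs, (EuclideanSpace.proj i : E d →L[ℝ] ℝ).integrable_comp hs'⟩
    have hHi : LocallyIntegrable (fun x => H x i) := by
      intro x
      obtain ⟨s, hs, hs'⟩ := hH x
      exact ⟨s, hs, (EuclideanSpace.proj i : E d →L[ℝ] ℝ).integrable_comp hs'⟩
    refine ae_eq_zero_of_integral_contDiff_smul_eq_zero (hGi.sub hHi) fun φ hφ hc => ?_
    have e1 := hu.2.2 φ hφ hc (subset_univ _) i
    have e2 := hv.2.2 φ hφ hc (subset_univ _) i
    simp only [Measure.restrict_univ] at e1 e2
    have e3 : ∫ x, u x * partialD φ i x = ∫ x, v x * partialD φ i x :=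
      integral_congr_ae (by filter_upwards [huv] with x hx; rw [hx])
    have i1 : Integrable (fun x => φ x • G x i) :=
      hGi.integrable_smul_left_of_hasCompactSupport hφ.continuous hc
    have i2 : Integrable (fun x => φ x • H x i) :=
      hHi.integrable_smul_left_of_hasCompactSupport hφ.continuous hc
    simp only [smul_sub]
    rw [integral_sub i1 i2]
    simp only [smul_eq_mul]
    have e4 : ∫ x, φ x * G x i = ∫ x, G x i * φ x := by congr 1; ext x; ring
    have e5 : ∫ x, φ x * H x i = ∫ x, H x i * φ x := by congr 1; ext x; ring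
    rw [e4, e5]
    linarith
  have h2 : ∀ᵐ x : E d, ∀ i, G x i - H x i = 0 := ae_all_iff.2 key
  filter_upwards [h2] with x hx
  ext i
  have := hx i
  linarith

/-- the derivative of a mollified Lipschitz function -/
theorem moll_fderiv {K : ℝ≥0} {W : E d → ℝ} (hW : LipschitzWith K W) (φ : ContDiffBump (0 : E d))
    (x : E d) : HasFDerivAt (φ.normed volume ⋆[lsmul ℝ ℝ, volume] W)
      ((φ.normed volume ⋆[lsmul ℝ ℝ, volume] (fderiv ℝ W)) x) x := by
  have hρc : Continuous (φ.normed volume : E d → ℝ) := φ.continuous_normed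
  have hρi : Integrable (φ.normed volume : E d → ℝ) volume :=
    hρc.integrable_of_hasCompactSupport φ.hasCompactSupport_normed
  have hsub : ∀ y : E d, Measurable (fun t : E d => y - t) := fun y => measurable_const.sub measurable_id
  have hdiff : ∀ᵐ t : E d, DifferentiableAt ℝ W (x - t) := by
    have h1 := hW.ae_differentiableAt (μ := (volume : Measure (E d)))
    exact (quasiMeasurePreserving_sub_left_of_right_invariant volume x).ae h1
  have key := hasFDerivAt_integral_of_dominated_loc_of_lip (μ := (volume : Measure (E d)))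
    (F := fun y t => φ.normed volume t • W (y - t))
    (F' := fun t => φ.normed volume t • fderiv ℝ W (x - t)) (x₀ := x)
    (bound := fun t => ‖φ.normed volume t‖ * K) (s := univ) univ_mem
    (Eventually.of_forall fun y =>
      (hρc.smul (hW.continuous.comp (continuous_const.sub continuous_id))).aestronglyMeasurable)
    ((hρc.smul (hW.continuous.comp (continuous_const.sub continuous_id))).integrable_of_hasCompactSupport
      (φ.hasCompactSupport_normed.smul_right))
    (hρc.aestronglyMeasurable.smul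
      ((measurable_fderiv ℝ W).comp (hsub x)).aestronglyMeasurable)
    (Eventually.of_forall fun t => ?_)
    (hρi.norm.mul_const _)
    (by
      filter_upwards [hdiff] with t ht
      have h1 : HasFDerivAt (fun y : E d => y - t) (ContinuousLinearMap.id ℝ (E d)) x :=
        (hasFDerivAt_id x).sub_const t
      have h2 := ht.hasFDerivAt.comp x h1
      rw [ContinuousLinearMap.comp_id] at h2
      exact h2.const_smul (φ.normed volume t))
  · exact key.2
  · intro y _ z _
    rw [edist_dist, edist_dist]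
    rw [← ENNReal.ofReal_coe_nnreal, ← ENNReal.ofReal_mul (by positivity)]
    refine ENNReal.ofReal_le_ofReal ?_
    rw [dist_eq_norm, ← smul_sub, norm_smul]
    have h3 := hW.dist_le_mul (y - t) (z - t)
    rw [dist_eq_norm, dist_sub_right] at h3
    have h4 : (((Real.nnabs (‖φ.normed volume t‖ * (K : ℝ))) : ℝ≥0) : ℝ) = ‖φ.normed volume t‖ * K := by
      rw [Real.coe_nnabs, abs_of_nonneg (by positivity)]
    rw [h4, mul_assoc]
    exact mul_le_mul_of_nonneg_left h3 (norm_nonneg _)

/-- norm of a mollification -/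
theorem moll_norm_le {F : Type*} [NormedAddCommGroup F] [NormedSpace ℝ F] {f : E d → F} {C : ℝ}
    (hC : ∀ x, ‖f x‖ ≤ C) (φ : ContDiffBump (0 : E d)) (x : E d) :
    ‖(φ.normed volume ⋆[lsmul ℝ ℝ, volume] f) x‖ ≤ C := by
  have hρi : Integrable (φ.normed volume : E d → ℝ) volume :=
    φ.continuous_normed.integrable_of_hasCompactSupport φ.hasCompactSupport_normed
  have h1 : ‖(φ.normed volume ⋆[lsmul ℝ ℝ, volume] f) x‖ ≤ ∫ t, φ.normed volume t * C := by
    refine norm_integral_le_of_norm_le (hρi.mul_const C) (Eventually.of_forall fun t => ?_)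
    simp only [lsmul_apply, norm_smul]
    rw [Real.norm_of_nonneg (φ.nonneg_normed t)]
    exact mul_le_mul_of_nonneg_left (hC _) (φ.nonneg_normed t)
  rw [integral_mul_const, φ.integral_normed, one_mul] at h1
  exact h1

/-- Lipschitz functions with compact support have zero trace -/
theorem hzt_lip {K : ℝ≥0} {W : E d → ℝ} (hW : LipschitzWith K W) {c : E d} {r : ℝ}
    (hs : ∀ x, x ∉ closedBall c r → W x = 0) :
    HasZeroTrace (ball c (r + 1)) W (fun x => ∇ W x) := by
  intro ε hε
  set φ : ℕ → ContDiffBump (0 : E d) := fun k =>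
    { rIn := 1 / (2 * ((k : ℝ) + 2)), rOut := 1 / ((k : ℝ) + 2)
      rIn_pos := by positivity
      rIn_lt_rOut := by
        apply one_div_lt_one_div_of_lt (by positivity)
        have : (0 : ℝ) ≤ k := Nat.cast_nonneg k
        linarith } with hφ
  have hrO : ∀ k, (φ k).rOut = 1 / ((k : ℝ) + 2) := fun k => rfl
  have hrI : ∀ k, (φ k).rIn = 1 / (2 * ((k : ℝ) + 2)) := fun k => rfl
  have hrO2 : ∀ k, (φ k).rOut ≤ 1 / 2 := by
    intro k
    rw [hrO]
    apply one_div_le_one_div_of_le (by norm_num)
    have : (0 : ℝ) ≤ k := Nat.cast_nonneg k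
    linarith
  have hlim : Tendsto (fun k => (φ k).rOut) atTop (𝓝 0) := by
    simp only [hrO, one_div]
    have h1 : Tendsto (fun k : ℕ => ((k : ℝ) + 2)) atTop atTop :=
      tendsto_atTop_add_const_right _ _ tendsto_natCast_atTop_atTop
    exact h1.inv_tendsto_atTop
  have hrat : ∀ᶠ k in atTop, (φ k).rOut ≤ 2 * (φ k).rIn := by
    refine Eventually.of_forall fun k => le_of_eq ?_
    rw [hrO, hrI]
    have : ((k : ℝ) + 2) ≠ 0 := by positivity
    field_simp
  set f : ℕ → E d → ℝ := fun k => (φ k).normed volume ⋆[lsmul ℝ ℝ, volume] W with hf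
  have hfs : ∀ k, ContDiff ℝ ∞ (f k) := fun k =>
    (φ k).hasCompactSupport_normed.contDiff_convolution_left (lsmul ℝ ℝ) ((φ k).contDiff_normed)
      (S0L_locInt_lip hW)
  have hf0 : ∀ k x, x ∉ closedBall c (r + 1 / 2) → f k x = 0 := by
    intro k x hx
    have : f k x = ∫ t, (φ k).normed volume t • W (x - t) := rfl
    rw [this]
    apply integral_eq_zero_of_ae
    refine Eventually.of_forall fun t => ?_
    by_cases ht : t ∈ ball (0 : E d) (φ k).rOut
    · have h1 : W (x - t) = 0 := by
        apply hs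
        intro h2
        apply hx
        rw [mem_closedBall, dist_eq_norm] at h2 ⊢
        rw [mem_ball_zero_iff] at ht
        have h3 : x - c = (x - t - c) + t := by abel
        rw [h3]
        have := hrO2 k
        linarith [norm_add_le (x - t - c) t]
      simp [h1]
    · have h1 : (φ k).normed volume t = 0 := by
        by_contra h2
        have h3 : t ∈ Function.support ((φ k).normed (volume : Measure (E d))) := h2
        rw [(φ k).support_normed_eq] at h3
        exact ht h3
      simp [h1]
  have hfts : ∀ k, tsupport (f k) ⊆ closedBall c (r + 1 / 2) := fun k =>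
    closure_minimal (fun x hx => by by_contra h; exact hx (hf0 k x h)) isClosed_closedBall
  have hfK : ∀ k x, ‖W x - f k x‖ ≤ K * (φ k).rOut := by
    intro k x
    rw [← dist_eq_norm, dist_comm]
    refine (φ k).dist_normed_convolution_le hW.continuous.aestronglyMeasurable fun y hy => ?_
    refine (hW.dist_le_mul y x).trans ?_
    exact mul_le_mul_of_nonneg_left (le_of_lt hy) K.2
  have hgr : ∀ k x, ‖∇ W x - ∇ (f k) x‖ = ‖fderiv ℝ W x - ((φ k).normed volume ⋆[lsmul ℝ ℝ, volume] (fderiv ℝ W)) x‖ := by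
    intro k x
    have h1 : fderiv ℝ (f k) x = ((φ k).normed volume ⋆[lsmul ℝ ℝ, volume] (fderiv ℝ W)) x :=
      (moll_fderiv hW (φ k) x).fderiv
    rw [← h1]
    simp only [gradient]
    rw [← map_sub, LinearIsometryEquiv.norm_map]
  set B := ball c (r + 1) with hB
  have hBfin : volume B ≠ ⊤ := measure_ball_lt_top.ne
  have L1 : Tendsto (fun k => ∫⁻ x in B, ‖W x - f k x‖ₑ ^ 2) atTop (𝓝 0) := by
    have h0 : (0 : ℝ≥0∞) = ∫⁻ x in B, (0 : ℝ≥0∞) := by simp
    rw [h0]
    refine tendsto_lintegral_of_dominated_convergence (fun _ => (ENNReal.ofReal K) ^ 2) ?_ ?_ ?_ ?_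
    · intro k
      exact ((hW.continuous.sub (hfs k).continuous).measurable.enorm).pow_const 2
    · intro k
      refine Eventually.of_forall fun x => ?_
      have h1 : ‖W x - f k x‖ₑ ≤ ENNReal.ofReal K := by
        rw [← ofReal_norm]
        refine ENNReal.ofReal_le_ofReal ((hfK k x).trans ?_)
        have := hrO2 k
        have h2 := mul_le_mul_of_nonneg_left (show (φ k).rOut ≤ 1 by linarith) K.2
        simpa using h2
      exact pow_le_pow_left' h1 2
    · simp only [lintegral_const, Measure.restrict_apply MeasurableSet.univ, univ_inter]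
      exact ENNReal.mul_ne_top (by simp) hBfin
    · refine Eventually.of_forall fun x => ?_
      have h1 : Tendsto (fun k => ‖W x - f k x‖) atTop (𝓝 0) := by
        refine squeeze_zero (fun k => norm_nonneg _) (fun k => hfK k x) ?_
        simpa using hlim.const_mul (K : ℝ)
      have h2 : Tendsto (fun k => ‖W x - f k x‖ₑ) atTop (𝓝 0) := by
        simp only [← ofReal_norm]
        simpa using ENNReal.tendsto_ofReal h1
      simpa using ENNReal.Tendsto.pow (n := 2) h2
  have L2 : Tendsto (fun k => ∫⁻ x in B, ‖∇ W x - ∇ (f k) x‖ₑ ^ 2) atTop (𝓝 0) := by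
    have h0 : (0 : ℝ≥0∞) = ∫⁻ x in B, (0 : ℝ≥0∞) := by simp
    rw [h0]
    refine tendsto_lintegral_of_dominated_convergence (fun _ => (ENNReal.ofReal (2 * K)) ^ 2) ?_ ?_ ?_ ?_
    · intro k
      exact (((measurable_grad W).sub (measurable_grad (f k))).enorm).pow_const 2
    · intro k
      refine Eventually.of_forall fun x => ?_
      have h1 : ‖∇ W x - ∇ (f k) x‖ₑ ≤ ENNReal.ofReal (2 * K) := by
        rw [← ofReal_norm]
        refine ENNReal.ofReal_le_ofReal ?_
        rw [hgr]
        have h2 := norm_fderiv_le_of_lip hW x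
        have h3 := moll_norm_le (norm_fderiv_le_of_lip hW) (φ k) x
        linarith [norm_sub_le (fderiv ℝ W x) (((φ k).normed volume ⋆[lsmul ℝ ℝ, volume] (fderiv ℝ W)) x)]
      exact pow_le_pow_left' h1 2
    · simp only [lintegral_const, Measure.restrict_apply MeasurableSet.univ, univ_inter]
      exact ENNReal.mul_ne_top (ENNReal.pow_ne_top ENNReal.ofReal_ne_top) hBfin
    · have h1 := ContDiffBump.ae_convolution_tendsto_right_of_locallyIntegrable (μ := (volume : Measure (E d)))
        (φ := φ) hlim hrat (g := fderiv ℝ W)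
        (S0L_locInt_of_bdd (C := K) (measurable_fderiv ℝ W).aestronglyMeasurable (norm_fderiv_le_of_lip hW))
      filter_upwards [ae_restrict_of_ae h1] with x hx
      have h2 : Tendsto (fun k => ‖∇ W x - ∇ (f k) x‖) atTop (𝓝 0) := by
        simp only [hgr]
        have := (tendsto_const_nhds (x := fderiv ℝ W x)).sub hx
        simpa using this.norm
      have h3 : Tendsto (fun k => ‖∇ W x - ∇ (f k) x‖ₑ) atTop (𝓝 0) := by
        simp only [← ofReal_norm]
        simpa using ENNReal.tendsto_ofReal h2
      simpa using ENNReal.Tendsto.pow (n := 2) h3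
  obtain ⟨k, hk1, hk2⟩ := (((tendsto_order.1 L1).2 ε hε).and ((tendsto_order.1 L2).2 ε hε)).exists
  refine ⟨f k, hfs k, (isCompact_closedBall c (r + 1 / 2)).of_isClosed_subset (isClosed_tsupport _) (hfts k),
    (hfts k).trans (closedBall_subset_ball (by linarith)), hk1, hk2⟩

/-- the zero trace condition only depends on the a.e. classes -/
theorem hzt_congr {B : Set (E d)} {w w' : E d → ℝ} {g g' : E d → E d} (h : HasZeroTrace B w g)
    (h1 : w =ᵐ[volume] w') (h2 : g =ᵐ[volume] g') : HasZeroTrace B w' g' := by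
  intro ε hε
  obtain ⟨φ, a, b, c, e1, e2⟩ := h ε hε
  refine ⟨φ, a, b, c, ?_, ?_⟩
  · refine lt_of_le_of_lt (le_of_eq (lintegral_congr_ae ?_)) e1
    filter_upwards [ae_restrict_of_ae h1] with x hx
    rw [hx]
  · refine lt_of_le_of_lt (le_of_eq (lintegral_congr_ae ?_)) e2
    filter_upwards [ae_restrict_of_ae h2] with x hx
    rw [hx]

/-- the Sobolev energy of a Lipschitz function -/
theorem energy_lip {K : ℝ≥0} {u : E d → ℝ} (hu : LipschitzWith K u) (c : E d) (r : ℝ) :
    onePhaseEnergy (ball c r) u (fun x => ∇ u x) = ENNReal.ofReal (Jr u (ball c r)) := by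
  have hfin : volume (ball c r) ≠ ⊤ := measure_ball_lt_top.ne
  have i1 : IntegrableOn (fun x => ‖fderiv ℝ u x‖ ^ 2) (ball c r) := by
    refine Measure.integrableOn_of_bounded (M := (K : ℝ) ^ 2) hfin
      ((measurable_fderiv ℝ u).norm.pow_const 2).aestronglyMeasurable ?_
    exact Eventually.of_forall fun x => by
      rw [Real.norm_of_nonneg (sq_nonneg _)]
      exact pow_le_pow_left₀ (norm_nonneg _) (norm_fderiv_le_of_lip hu x) 2
  unfold onePhaseEnergy Jr
  rw [ENNReal.ofReal_add (integral_nonneg fun x => sq_nonneg _) ENNReal.toReal_nonneg,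
    ENNReal.ofReal_toReal (measure_ne_top_of_subset inter_subset_right hfin),
    ofReal_integral_eq_lintegral_ofReal i1 (Eventually.of_forall fun x => sq_nonneg _)]
  congr 1
  refine lintegral_congr fun x => ?_
  rw [ENNReal.ofReal_pow (norm_nonneg _), ← norm_gradient, ofReal_norm]

theorem energy_congr {B : Set (E d)} {u v : E d → ℝ} {G H : E d → E d} (h1 : u =ᵐ[volume] v)
    (h2 : G =ᵐ[volume] H) : onePhaseEnergy B u G = onePhaseEnergy B v H := by
  unfold onePhaseEnergy
  congr 1
  · refine lintegral_congr_ae ?_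
    filter_upwards [ae_restrict_of_ae h2] with x hx
    rw [hx]
  · apply measure_congr
    filter_upwards [h1] with x hx
    have : (0 < u x ∧ x ∈ B) = (0 < v x ∧ x ∈ B) := by rw [hx]
    exact this

/-- minimality passes to the Lipschitz representative -/
theorem LM_of_min {u : E d → ℝ} {G : E d → E d} (hu : IsGlobalMinimizer u G) {K : ℝ≥0} {U : E d → ℝ}
    (hU : LipschitzWith K U) (hU0 : ∀ x, 0 ≤ U x) (h : u =ᵐ[volume] U) : LM U K := by
  obtain ⟨_, hwg, _, hmin⟩ := hu
  have hG : G =ᵐ[volume] fun x => ∇ U x := wg_uniq hwg (wg_lip hU) h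
  refine ⟨hU0, hU, fun x₀ r hr w hw0 hwl hw => ?_⟩
  obtain ⟨L, hwL⟩ := hwl
  have hW : LipschitzWith (L + K) (fun x => w x - U x) := hwL.sub hU
  have hfinB : volume (ball x₀ (r + 1)) ≠ ⊤ := measure_ball_lt_top.ne
  have hbd : ∀ (f : E d → ℝ) (C : ℝ≥0∞), C ≠ ⊤ → (∀ x ∈ ball x₀ (r + 1), ‖f x‖ₑ ^ 2 ≤ C) →
      ∫⁻ x in ball x₀ (r + 1), ‖f x‖ₑ ^ 2 < ⊤ := by
    intro f C hC hf
    calc ∫⁻ x in ball x₀ (r + 1), ‖f x‖ₑ ^ 2 ≤ ∫⁻ x in ball x₀ (r + 1), C :=
          setLIntegral_mono' measurableSet_ball hf
      _ = C * volume (ball x₀ (r + 1)) := by simp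
      _ < ⊤ := ENNReal.mul_lt_top hC.lt_top measure_ball_lt_top
  have hz : HasZeroTrace (ball x₀ (r + 1)) (fun x => w x - u x) (fun x => ∇ w x - G x) := by
    refine hzt_congr (hzt_lip hW (c := x₀) (r := r) (fun x hx => by simp [hw x hx])) ?_ ?_
    · filter_upwards [h] with x hx
      rw [hx]
    · filter_upwards [hG, hwL.ae_differentiableAt, hU.ae_differentiableAt] with x hx h1 h2
      rw [hx]
      simp only [gradient]
      rw [fderiv_fun_sub h1 h2, map_sub]
  have key := hmin x₀ (r + 1) (by linarith) w (fun x => ∇ w x) hw0 (wg_lip hwL) ?_ ?_ hz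
  · rw [energy_congr h hG, energy_lip hU, energy_lip hwL] at key
    rwa [ENNReal.ofReal_le_ofReal_iff] at key
    unfold Jr
    positivity
  · refine hbd w (ENNReal.ofReal (|w x₀| + L * (r + 1)) ^ 2) (by simp) fun x hx => ?_
    have h1 : ‖w x‖ ≤ |w x₀| + L * (r + 1) := by
      have h2 := hwL.dist_le_mul x x₀
      rw [Real.dist_eq] at h2
      have h3 : |w x| ≤ |w x₀| + |w x - w x₀| := by
        have := abs_add_le (w x₀) (w x - w x₀)
        simpa using this
      have h4 : (L : ℝ) * dist x x₀ ≤ L * (r + 1) :=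
        mul_le_mul_of_nonneg_left (le_of_lt hx) L.2
      rw [Real.norm_eq_abs]
      linarith
    have h2 : ‖w x‖ₑ ≤ ENNReal.ofReal (|w x₀| + L * (r + 1)) := by
      rw [← ofReal_norm]
      exact ENNReal.ofReal_le_ofReal h1
    gcongr
  · calc ∫⁻ x in ball x₀ (r + 1), ‖∇ w x‖ₑ ^ 2 ≤ ∫⁻ x in ball x₀ (r + 1), (ENNReal.ofReal L) ^ 2 := by
          refine lintegral_mono fun x => ?_
          have h2 : ‖∇ w x‖ₑ ≤ ENNReal.ofReal L := by
            rw [← ofReal_norm]
            exact ENNReal.ofReal_le_ofReal (norm_grad_le hwL x)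
          gcongr
      _ = (ENNReal.ofReal L) ^ 2 * volume (ball x₀ (r + 1)) := by simp
      _ < ⊤ := ENNReal.mul_lt_top (by simp) measure_ball_lt_top

end Crest.Agent.R097
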