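import Crest.Agent.R097.Calc

/-!
# Row 97: interface of the regularity part (definitions only)
-/

set_option autoImplicit false
open MeasureTheory Metric Set Filter Topology InnerProductSpace
open scoped RealInnerProductSpace NNReal ENNReal Gradient Laplacian

namespace Crest.Agent.R097

variable {d : ℕ}

noncomputable instance instNACGBil : NormedAddCommGroup (E d →L[ℝ] E d →L[ℝ] ℝ) := inferInstance
noncomputable instance instNSBil : NormedSpace ℝ (E d →L[ℝ] E d →L[ℝ] ℝ) := inferInstance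

/-- bilinear forms -/
abbrev Bil (d : ℕ) := E d →L[ℝ] E d →L[ℝ] ℝ
/-- trilinear forms -/
abbrev Tri (d : ℕ) := E d →L[ℝ] E d →L[ℝ] E d →L[ℝ] ℝ

/-- second derivative -/
noncomputable def D2 (u : E d → ℝ) (x : E d) : Bil d := fderiv ℝ (fderiv ℝ u) x
/-- third derivative -/
noncomputable def D3 (u : E d → ℝ) (x : E d) : Tri d := fderiv ℝ (fderiv ℝ (fderiv ℝ u)) x

/-- the positivity set -/
def Om (u : E d → ℝ) : Set (E d) := {x | 0 < u x}

/-- symmetric trace-free bilinear forms -/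
structure STF2 (A : Bil d) : Prop where
  symm : ∀ x y, A x y = A y x
  tr : ∑ i, A (bv i) (bv i) = 0

/-- symmetric trace-free trilinear forms -/
structure STF3 (B : Tri d) : Prop where
  symm12 : ∀ x y z, B x y z = B y x z
  symm23 : ∀ x y z, B x y z = B x z y
  tr : ∀ x, ∑ i, B x (bv i) (bv i) = 0

/-- The constraint set: the possible 3-jets `(Du, D²u, D³u)` at a regular free boundary point
(`|Du| = 1`, `u = 0` on the free boundary, and their tangential derivatives). -/
structure KK (e : E d) (A : Bil d) (B : Tri d) : Prop where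
  norm_e : ‖e‖ = 1
  stfA : STF2 A
  stfB : STF3 B
  eig : ∀ t, ⟪e, t⟫_ℝ = 0 → A e t = 0
  bdry : ∀ t, ⟪e, t⟫_ℝ = 0 → B t t e = A e e * A t t - ∑ i, (A t (bv i)) ^ 2

/-- the cubic polynomial with jets `e, A, B` at `0` -/
noncomputable def cub (e : E d) (A : Bil d) (B : Tri d) (x : E d) : ℝ :=
  ⟪e, x⟫_ℝ + A x x / 2 + B x x x / 6

/-- `u` is `C³` up to the free boundary at `y`, with the jets `e, A, B` -/
structure Jets (u : E d → ℝ) (y e : E d) (A : Bil d) (B : Tri d) : Prop where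
  kk : KK e A B
  t1 : Tendsto (fderiv ℝ u) (𝓝[Om u] y) (𝓝 (innerSL ℝ e))
  t2 : Tendsto (D2 u) (𝓝[Om u] y) (𝓝 A)
  t3 : Tendsto (D3 u) (𝓝[Om u] y) (𝓝 B)

/-- regular points of the free boundary -/
def RegPt (u : E d → ℝ) (y : E d) : Prop := ∃ e A B, Jets u y e A B

/-- the trapping condition `(P + a)⁺ ≤ u ≤ (P + b)⁺` on `D` -/
def Sand (u P : E d → ℝ) (a b : ℝ) (D : Set (E d)) : Prop :=
  ∀ x ∈ D, max (P x + a) 0 ≤ u x ∧ u x ≤ max (P x + b) 0

end Crest.Agent.R097
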