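import Crest.Agent.R097.HarmReg
import Crest.Agent.R097.Iface

/-!
# Row 97: 3-jets of harmonic functions
-/

set_option autoImplicit false
open MeasureTheory Metric Set Laplacian InnerProductSpace Topology Filter
open scoped RealInnerProductSpace NNReal ContDiff Gradient

namespace Crest.Agent.R097.Hm
noncomputable section
variable {d : ℕ}

/-- integrate a bound on the derivative -/
lemma int_bound {R S : ℝ → ℝ} {A : ℝ} {n : ℕ} (hA : 0 ≤ A)
    (hd : ∀ s ∈ Icc (0:ℝ) 1, HasDerivAt R (S s) s) (h0 : R 0 = 0)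
    (hS : ∀ s ∈ Icc (0:ℝ) 1, |S s| ≤ A * s ^ n) : ∀ s ∈ Icc (0:ℝ) 1, |R s| ≤ A * s ^ (n + 1) := by
  intro s hs
  have h1 := image_norm_le_of_norm_deriv_right_le_deriv_boundary (f := R) (f' := S)
    (a := 0) (b := 1) (B := fun s => A / (n + 1) * s ^ (n + 1)) (B' := fun s => A * s ^ n)
    (fun t ht => (hd t ht).continuousAt.continuousWithinAt)
    (fun t ht => (hd t ⟨ht.1, ht.2.le⟩).hasDerivWithinAt)
    (by rw [h0]; simp)
    (fun t => by
      have h := (hasDerivAt_pow (n + 1) t).const_mul (A / ((n:ℝ) + 1))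
      refine h.congr_deriv ?_
      have : ((n:ℝ) + 1) ≠ 0 := by positivity
      have e : (n + 1 - 1 : ℕ) = n := rfl
      rw [e]
      push_cast
      field_simp)
    (fun t ht => hS t ⟨ht.1, ht.2.le⟩)
    hs
  rw [Real.norm_eq_abs] at h1
  refine h1.trans ?_
  have h2 : A / ((n:ℝ) + 1) ≤ A := by
    apply div_le_self hA
    have : (0:ℝ) ≤ n := by positivity
    linarith
  exact mul_le_mul_of_nonneg_right h2 (pow_nonneg hs.1 _)

/-- derivative along a line of an operator valued function, applied to a vector -/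
lemma had_app {G : Type*} [NormedAddCommGroup G] [NormedSpace ℝ G] {L : ℝ → (E d →L[ℝ] G)}
    {L' : E d →L[ℝ] G} {s : ℝ} (v : E d) (h : HasDerivAt L L' s) :
    HasDerivAt (fun s => L s v) (L' v) s := by
  have h1 := (ContinuousLinearMap.apply ℝ G v).hasFDerivAt.comp_hasDerivAt s h
  exact h1

lemma line_der {G : Type*} [NormedAddCommGroup G] [NormedSpace ℝ G] {D : Set (E d)}
    (hD : IsOpen D) {f : E d → G} {x v : E d} {s : ℝ} (hs : x + s • v ∈ D)
    (hf : ContDiffOn ℝ ∞ f D) :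
    HasDerivAt (fun s : ℝ => f (x + s • v)) (fderiv ℝ f (x + s • v) v) s := by
  have hd : HasFDerivAt f (fderiv ℝ f (x + s • v)) (x + s • v) :=
    ((hf.contDiffAt (hD.mem_nhds hs)).differentiableAt (by simp)).hasFDerivAt
  have h1 : HasDerivAt (fun t : ℝ => t • v) ((1 : ℝ) • v) s := (hasDerivAt_id s).smul_const v
  have h2 : HasDerivAt (fun t : ℝ => x + t • v) v s := by simpa using h1.const_add x
  exact hd.comp_hasDerivAt s h2

theorem harm_jets' (d : ℕ) : ∃ C : ℝ, 1 ≤ C ∧ ∀ (x : E d) (r : ℝ), 0 < r → ∀ (h : E d → ℝ) (M : ℝ),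
    ContDiffOn ℝ 2 h (ball x r) → (∀ y ∈ ball x r, (Δ h) y = 0) → (∀ y ∈ ball x r, |h y| ≤ M) →
    STF2 (D2 h x) ∧ STF3 (D3 h x) ∧ ‖fderiv ℝ h x‖ ≤ C * M / r ∧ ‖D2 h x‖ ≤ C * M / r ^ 2 ∧
    ‖D3 h x‖ ≤ C * M / r ^ 3 ∧
    ∀ y ∈ ball x (r / 2), |h y - (h x + fderiv ℝ h x (y - x) + D2 h x (y - x) (y - x) / 2
      + D3 h x (y - x) (y - x) (y - x) / 6)| ≤ C * M * (‖y - x‖ / r) ^ 4 := by
  obtain ⟨C1, hC10, hC1⟩ := grad_sup_F d
  set K : ℝ := max C1 1 with hK
  have hK1 : 1 ≤ K := le_max_right _ _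
  have hCK : C1 ≤ K := le_max_left _ _
  have hK0 : 0 < K := by linarith
  refine ⟨(8 * K) ^ 4, one_le_pow₀ (by linarith), ?_⟩
  intro x r hr h M hh2 hΔ hM
  have hM0 : 0 ≤ M := (abs_nonneg _).trans (hM x (mem_ball_self hr))
  have hh : ContDiffOn ℝ ∞ h (ball x r) := harm_smooth' isOpen_ball hh2 hΔ
  -- iterated gradients on shrinking balls
  have key : ∀ {F : Type} [NormedAddCommGroup F] [NormedSpace ℝ F] (f : E d → F) (ρ B : ℝ),
      0 < ρ → r / 8 ≤ r - ρ → 0 ≤ B →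
      ContDiffOn ℝ ∞ f (ball x r) → (∀ y ∈ ball x r, (Δ f) y = 0) →
      (∀ y ∈ ball x (ρ + r / 8), ‖f y‖ ≤ B) → ∀ y ∈ ball x ρ, ‖fderiv ℝ f y‖ ≤ 8 * K * B / r := by
    intro F _ _ f ρ B hρ hρr hB0 hf h0 hB y hy
    have hs1 : ball y (r / 8) ⊆ ball x (ρ + r / 8) := by
      intro z hz
      rw [mem_ball] at hy hz ⊢
      have := dist_triangle z y x
      linarith
    have hs2 : ball x (ρ + r / 8) ⊆ ball x r := ball_subset_ball (by linarith)
    have h1 := hC1 f y (r / 8) B (by linarith) (contDiffOn_infty.mp (hf.mono (hs1.trans hs2)) 2)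
      (fun z hz => h0 z (hs2 (hs1 hz))) (fun z hz => hB z (hs1 hz))
    refine h1.trans ?_
    rw [div_div_eq_mul_div]
    apply div_le_div_of_nonneg_right _ hr.le
    nlinarith [mul_nonneg (sub_nonneg.mpr hCK) hB0]
  have hf1 := contDiffOn_fderiv isOpen_ball hh
  have hf2 := contDiffOn_fderiv isOpen_ball hf1
  have hf3 := contDiffOn_fderiv isOpen_ball hf2
  have hl1 := lap_fderiv isOpen_ball hh hΔ
  have hl2 := lap_fderiv isOpen_ball hf1 hl1
  have hl3 := lap_fderiv isOpen_ball hf2 hl2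
  set q : ℝ := 8 * K / r with hq
  have hq0 : 0 < q := by positivity
  have b1 : ∀ y ∈ ball x (7 * r / 8), ‖fderiv ℝ h y‖ ≤ q * M := by
    intro y hy
    have := key h (7 * r / 8) M (by linarith) (by linarith) hM0 hh hΔ
      (fun z hz => hM z (ball_subset_ball (by linarith) hz)) y hy
    rw [hq]; rw [div_mul_eq_mul_div]; exact this
  have b2 : ∀ y ∈ ball x (6 * r / 8), ‖fderiv ℝ (fderiv ℝ h) y‖ ≤ q ^ 2 * M := by
    intro y hy
    have := key (fderiv ℝ h) (6 * r / 8) (q * M) (by linarith) (by linarith) (by positivity) hf1 hl1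
      (fun z hz => b1 z (ball_subset_ball (by linarith) hz)) y hy
    refine this.trans (le_of_eq ?_)
    rw [hq]; ring
  have b3 : ∀ y ∈ ball x (5 * r / 8), ‖fderiv ℝ (fderiv ℝ (fderiv ℝ h)) y‖ ≤ q ^ 3 * M := by
    intro y hy
    have := key (fderiv ℝ (fderiv ℝ h)) (5 * r / 8) (q ^ 2 * M) (by linarith) (by linarith)
      (by positivity) hf2 hl2
      (fun z hz => b2 z (ball_subset_ball (by linarith) hz)) y hy
    refine this.trans (le_of_eq ?_)
    rw [hq]; ring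
  have b4 : ∀ y ∈ ball x (4 * r / 8), ‖fderiv ℝ (fderiv ℝ (fderiv ℝ (fderiv ℝ h))) y‖
      ≤ q ^ 4 * M := by
    intro y hy
    have := key (fderiv ℝ (fderiv ℝ (fderiv ℝ h))) (4 * r / 8) (q ^ 3 * M) (by linarith)
      (by linarith) (by positivity) hf3 hl3
      (fun z hz => b3 z (ball_subset_ball (by linarith) hz)) y hy
    refine this.trans (le_of_eq ?_)
    rw [hq]; ring
  have hx8 : ∀ ρ, 0 < ρ → x ∈ ball x ρ := fun ρ h => mem_ball_self h
  have h8K : 1 ≤ 8 * K := by linarith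
  have hpow : ∀ j : ℕ, j ≤ 4 → (8 * K) ^ j ≤ (8 * K) ^ 4 := fun j hj => pow_le_pow_right₀ h8K hj
  have hxa : ContDiffAt ℝ ∞ h x := hh.contDiffAt (ball_mem_nhds x hr)
  have hD1x : ContDiffAt ℝ ∞ (fderiv ℝ h) x := hxa.fderiv_right (by simp)
  refine ⟨⟨fun a b => symm2 hxa a b, ?_⟩, ⟨fun a b c => ?_, fun a b c => symm3 hxa a b c, ?_⟩,
    ?_, ?_, ?_, ?_⟩
  · have := hΔ x (mem_ball_self hr)
    rw [lap_F] at this
    exact this
  · have := symm2 hD1x a b
    unfold D3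
    rw [this]
  · intro a
    have h1 := hl1 x (mem_ball_self hr)
    rw [lap_F] at h1
    have h2 := congrArg (fun T : E d →L[ℝ] ℝ => T a) h1
    simp only [_root_.sum_apply, _root_.zero_apply] at h2
    rw [← h2]
    refine Finset.sum_congr rfl fun i _ => ?_
    unfold D3
    rw [symm3 hxa (bv i) (bv i) a, symm2 hD1x (bv i) a]
  · refine (b1 x (hx8 _ (by linarith))).trans ?_
    rw [hq, div_mul_eq_mul_div]
    apply div_le_div_of_nonneg_right _ hr.le
    have := hpow 1 (by norm_num)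
    rw [pow_one] at this
    exact mul_le_mul_of_nonneg_right this hM0
  · refine (b2 x (hx8 _ (by linarith))).trans ?_
    rw [hq, div_pow, div_mul_eq_mul_div]
    apply div_le_div_of_nonneg_right _ (by positivity)
    exact mul_le_mul_of_nonneg_right (hpow 2 (by norm_num)) hM0
  · refine (b3 x (hx8 _ (by linarith))).trans ?_
    rw [hq, div_pow, div_mul_eq_mul_div]
    apply div_le_div_of_nonneg_right _ (by positivity)
    exact mul_le_mul_of_nonneg_right (hpow 3 (by norm_num)) hM0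
  · intro y hy
    set v : E d := y - x with hv
    have hvr : ‖v‖ < r / 2 := by
      rw [mem_ball, dist_eq_norm] at hy
      exact hy
    have hseg : ∀ s ∈ Icc (0:ℝ) 1, x + s • v ∈ ball x (4 * r / 8) := by
      intro s hs
      rw [mem_ball, dist_eq_norm, add_sub_cancel_left, norm_smul, Real.norm_eq_abs,
        abs_of_nonneg hs.1]
      have : s * ‖v‖ ≤ 1 * ‖v‖ := mul_le_mul_of_nonneg_right hs.2 (norm_nonneg _)
      linarith
    have hsegr : ∀ s ∈ Icc (0:ℝ) 1, x + s • v ∈ ball x r :=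
      fun s hs => ball_subset_ball (by linarith) (hseg s hs)
    have hg0 : ∀ s ∈ Icc (0:ℝ) 1, HasDerivAt (fun s : ℝ => h (x + s • v))
        (fderiv ℝ h (x + s • v) v) s := fun s hs => line_der isOpen_ball (hsegr s hs) hh
    have hg1 : ∀ s ∈ Icc (0:ℝ) 1, HasDerivAt (fun s : ℝ => fderiv ℝ h (x + s • v) v)
        (fderiv ℝ (fderiv ℝ h) (x + s • v) v v) s :=
      fun s hs => had_app v (line_der isOpen_ball (hsegr s hs) hf1)
    have hg2 : ∀ s ∈ Icc (0:ℝ) 1, HasDerivAt (fun s : ℝ => fderiv ℝ (fderiv ℝ h) (x + s • v) v v)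
        (fderiv ℝ (fderiv ℝ (fderiv ℝ h)) (x + s • v) v v v) s :=
      fun s hs => had_app v (had_app v (line_der isOpen_ball (hsegr s hs) hf2))
    have hg3 : ∀ s ∈ Icc (0:ℝ) 1, HasDerivAt
        (fun s : ℝ => fderiv ℝ (fderiv ℝ (fderiv ℝ h)) (x + s • v) v v v)
        (fderiv ℝ (fderiv ℝ (fderiv ℝ (fderiv ℝ h))) (x + s • v) v v v v) s :=
      fun s hs => had_app v (had_app v (had_app v (line_der isOpen_ball (hsegr s hs) hf3)))
    set A : ℝ := q ^ 4 * M * ‖v‖ ^ 4 with hA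
    have hA0 : 0 ≤ A := by positivity
    have e4 : ∀ s ∈ Icc (0:ℝ) 1,
        |fderiv ℝ (fderiv ℝ (fderiv ℝ (fderiv ℝ h))) (x + s • v) v v v v| ≤ A * s ^ 0 := by
      intro s hs
      have h1 := b4 _ (hseg s hs)
      set T := fderiv ℝ (fderiv ℝ (fderiv ℝ (fderiv ℝ h))) (x + s • v) with hT
      have n1 : ‖T v‖ ≤ ‖T‖ * ‖v‖ := T.le_opNorm v
      have n2 : ‖T v v‖ ≤ ‖T v‖ * ‖v‖ := (T v).le_opNorm v
      have n3 : ‖T v v v‖ ≤ ‖T v v‖ * ‖v‖ := (T v v).le_opNorm v
      have n4 : ‖T v v v v‖ ≤ ‖T v v v‖ * ‖v‖ := (T v v v).le_opNorm v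
      have hv0 : 0 ≤ ‖v‖ := norm_nonneg v
      rw [pow_zero, mul_one, ← Real.norm_eq_abs]
      calc ‖T v v v v‖ ≤ ‖T v v v‖ * ‖v‖ := n4
        _ ≤ (‖T v v‖ * ‖v‖) * ‖v‖ := mul_le_mul_of_nonneg_right n3 hv0
        _ ≤ ((‖T v‖ * ‖v‖) * ‖v‖) * ‖v‖ :=
          mul_le_mul_of_nonneg_right (mul_le_mul_of_nonneg_right n2 hv0) hv0
        _ ≤ (((‖T‖ * ‖v‖) * ‖v‖) * ‖v‖) * ‖v‖ :=
          mul_le_mul_of_nonneg_right (mul_le_mul_of_nonneg_right
            (mul_le_mul_of_nonneg_right n1 hv0) hv0) hv0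
        _ = ‖T‖ * ‖v‖ ^ 4 := by ring
        _ ≤ A := mul_le_mul_of_nonneg_right h1 (by positivity)
    have hx0 : x + (0:ℝ) • v = x := by simp
    have r3 := int_bound (R := fun s => fderiv ℝ (fderiv ℝ (fderiv ℝ h)) (x + s • v) v v v
      - fderiv ℝ (fderiv ℝ (fderiv ℝ h)) x v v v) hA0
      (fun s hs => (hg3 s hs).sub_const _) (by simp only [hx0, sub_self]) e4
    have r2 := int_bound (R := fun s => fderiv ℝ (fderiv ℝ h) (x + s • v) v v
      - fderiv ℝ (fderiv ℝ h) x v v - fderiv ℝ (fderiv ℝ (fderiv ℝ h)) x v v v * s) hA0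
      (fun s hs => (((hg2 s hs).sub_const _).sub ((hasDerivAt_id s).const_mul _)).congr_deriv
        (by ring))
      (by simp only [hx0, sub_self, mul_zero]) r3
    have r1 := int_bound (R := fun s => fderiv ℝ h (x + s • v) v - fderiv ℝ h x v
      - fderiv ℝ (fderiv ℝ h) x v v * s
      - fderiv ℝ (fderiv ℝ (fderiv ℝ h)) x v v v * (s ^ 2 / 2)) hA0
      (fun s hs => ((((hg1 s hs).sub_const _).sub ((hasDerivAt_id s).const_mul _)).sub
        (((hasDerivAt_pow 2 s).div_const 2).const_mul _)).congr_deriv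
        (by push_cast; ring))
      (by simp only [hx0, sub_self, mul_zero]; norm_num) r2
    have r0 := int_bound (R := fun s => h (x + s • v) - h x - fderiv ℝ h x v * s
      - fderiv ℝ (fderiv ℝ h) x v v * (s ^ 2 / 2)
      - fderiv ℝ (fderiv ℝ (fderiv ℝ h)) x v v v * (s ^ 3 / 6)) hA0
      (fun s hs => (((((hg0 s hs).sub_const _).sub ((hasDerivAt_id s).const_mul _)).sub
        (((hasDerivAt_pow 2 s).div_const 2).const_mul _)).sub
        (((hasDerivAt_pow 3 s).div_const 6).const_mul _)).congr_deriv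
        (by push_cast; ring))
      (by simp only [hx0, sub_self, mul_zero]; norm_num) r1
    have r := r0 1 ⟨zero_le_one, le_rfl⟩
    simp only [one_smul, one_pow, mul_one] at r
    have hxv : x + v = y := by rw [hv]; abel
    rw [hxv] at r
    unfold D2 D3
    have h1 : h y - (h x + fderiv ℝ h x v + fderiv ℝ (fderiv ℝ h) x v v / 2
        + fderiv ℝ (fderiv ℝ (fderiv ℝ h)) x v v v / 6)
        = h y - h x - fderiv ℝ h x v - fderiv ℝ (fderiv ℝ h) x v v * (1 / 2)
        - fderiv ℝ (fderiv ℝ (fderiv ℝ h)) x v v v * (1 / 6) := by ring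
    rw [h1]
    refine r.trans (le_of_eq ?_)
    rw [hA, hq, div_pow, div_pow]
    ring

end
end Crest.Agent.R097.Hm
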