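import Crest.Agent.R097.HarmMV

/-!
# Row 97: the weak maximum principle
-/

set_option autoImplicit false
open MeasureTheory Metric Set Laplacian InnerProductSpace Topology Filter
open scoped RealInnerProductSpace NNReal ENNReal ContDiff
open Crest.Agent.R077 (pdv ev lap_eq lap_radial contDiff_radial green_smooth)

namespace Crest.Agent.R097.Hm
noncomputable section
variable {d : ℕ}

lemma lap_normsq (x : E d) : (Δ (fun y : E d => ‖y‖ ^ 2)) x = 2 * (d : ℝ) := by
  have h := lap_radial (n := d) (φ0 := fun t => t) (φ1 := fun _ => 1) (φ2 := fun _ => 0)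
    (x := (0 : E d)) (fun t _ => hasDerivAt_id t) (fun t _ => hasDerivAt_const t 1)
    continuous_const x
  simpa using h

lemma lap_add_at {f g : E d → ℝ} {x : E d} (hf : ContDiffAt ℝ 2 f x) (hg : ContDiffAt ℝ 2 g x) :
    (Δ (fun y => f y + g y)) x = (Δ f) x + (Δ g) x := by
  have h := hf.laplacian_add hg
  exact h

lemma lap_const_mul_at {f : E d → ℝ} {x : E d} (c : ℝ) (hf : ContDiffAt ℝ 2 f x) :
    (Δ (fun y => c * f y)) x = c * (Δ f) x := by
  have h := laplacian_smul c hf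
  exact h

/-- weak maximum principle -/
theorem max_principle (hd : 0 < d) {D : Set (E d)} (hD : IsOpen D) (hb : Bornology.IsBounded D)
    {h : E d → ℝ} (hc : ContinuousOn h (closure D)) (h2 : ContDiffOn ℝ 2 h D)
    (hΔ : ∀ x ∈ D, 0 ≤ (Δ h) x) {M : ℝ} (hM : ∀ x ∈ frontier D, h x ≤ M) :
    ∀ x ∈ closure D, h x ≤ M := by
  have hcomp : IsCompact (closure D) := hb.isCompact_closure
  obtain ⟨R, hR0, hR⟩ : ∃ R : ℝ, 0 < R ∧ ∀ x ∈ closure D, ‖x‖ ≤ R := by
    obtain ⟨R, hR⟩ := hcomp.isBounded.exists_norm_le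
    exact ⟨max R 1, by positivity, fun x hx => (hR x hx).trans (le_max_left _ _)⟩
  intro x hx
  by_contra hcon
  push Not at hcon
  -- choose ε
  set ε : ℝ := (h x - M) / (2 * R ^ 2) with hε
  have hε0 : 0 < ε := by
    rw [hε]
    have : 0 < h x - M := by linarith
    positivity
  have hwc : ContinuousOn (fun y => h y + ε * ‖y‖ ^ 2) (closure D) :=
    hc.add (continuousOn_const.mul (continuous_norm.pow 2).continuousOn)
  obtain ⟨z, hz, hzmax⟩ := hcomp.exists_isMaxOn ⟨x, hx⟩ hwc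
  have hzx : h x + ε * ‖x‖ ^ 2 ≤ h z + ε * ‖z‖ ^ 2 := hzmax hx
  by_cases hzD : z ∈ D
  · have hza : ContDiffAt ℝ 2 h z := h2.contDiffAt (hD.mem_nhds hzD)
    have hn : ContDiffAt ℝ 2 (fun y : E d => ‖y‖ ^ 2) z := (contDiff_norm_sq ℝ).contDiffAt
    have hloc : IsLocalMin (fun y => -(h y + ε * ‖y‖ ^ 2)) z := by
      filter_upwards [hD.mem_nhds hzD] with y hy
      have := hzmax (subset_closure hy)
      simp only [mem_ofPred_eq] at this ⊢
      linarith
    have h3 := Crest.Agent.R077.laplacian_nonneg_of_isLocalMin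
      ((hza.add (contDiffAt_const.mul hn)).neg) hloc
    rw [lap_neg, lap_add_at hza (contDiffAt_const.mul hn), lap_const_mul_at ε hn, lap_normsq] at h3
    have h4 := hΔ z hzD
    have h5 : (0:ℝ) < d := by exact_mod_cast hd
    nlinarith
  · have hzf : z ∈ frontier D := by
      rw [frontier, hD.interior_eq]
      exact ⟨hz, hzD⟩
    have h3 := hM z hzf
    have h4 := hR z hz
    have h5 : ε * ‖z‖ ^ 2 ≤ (h x - M) / 2 := by
      have : ‖z‖ ^ 2 ≤ R ^ 2 := pow_le_pow_left₀ (norm_nonneg _) h4 2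
      calc ε * ‖z‖ ^ 2 ≤ ε * R ^ 2 := mul_le_mul_of_nonneg_left this hε0.le
        _ = (h x - M) / 2 := by rw [hε]; field_simp
    have h6 : 0 ≤ ε * ‖x‖ ^ 2 := by positivity
    linarith

/-- enlarge a closed ball of `C²` points -/
lemma exists_larger {f : E d → ℝ} {x : E d} {r : ℝ} (hr : 0 ≤ r)
    (hf : ∀ y ∈ closedBall x r, ContDiffAt ℝ 2 f y) :
    ∃ R, r < R ∧ ContDiffOn ℝ 2 f (ball x R) := by
  have hopen : IsOpen {y | ContDiffAt ℝ 2 f y} := by
    rw [isOpen_iff_mem_nhds]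
    intro y hy
    exact ContDiffAt.eventually hy (by simp)
  have hsub : closedBall x r ⊆ {y | ContDiffAt ℝ 2 f y} := hf
  obtain ⟨δ, hδ, hδ2⟩ := (isCompact_closedBall x r).exists_thickening_subset_open hopen hsub
  refine ⟨r + δ, by linarith, fun y hy => ?_⟩
  have : y ∈ thickening δ (closedBall x r) := by
    rw [thickening_closedBall hδ hr, add_comm]
    exact hy
  have h3 : ContDiffAt ℝ 2 f y := hδ2 this
  exact h3.contDiffWithinAt

end
end Crest.Agent.R097.Hm
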