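import Crest.Agent.R097.HF3
import Crest.Agent.R097.HarmJets
import Crest.Agent.R097.HarmMax
import Crest.Agent.R097.Sob

/-!
# Row 97: the harmonic toolbox in the forms of part 2 (namespace `HB`), and Weyl's lemma for weak gradients
-/

set_option autoImplicit false
open MeasureTheory Metric Set Filter Topology Laplacian InnerProductSpace
open scoped RealInnerProductSpace NNReal ContDiff Gradient

namespace Crest.Agent.R097.HB
variable {d : ℕ}

theorem weyl_cont {D : Set (E d)} (hD : IsOpen D) {h : E d → ℝ} (hc : ContinuousOn h D)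
    (hw : ∀ φ : E d → ℝ, ContDiff ℝ (⊤ : ℕ∞) φ → HasCompactSupport φ → tsupport φ ⊆ D →
      ∫ x, h x * (Δ φ) x = 0) :
    ContDiffOn ℝ (⊤ : ℕ∞) h D ∧ ∀ x ∈ D, (Δ h) x = 0 := Hm.weyl_cont' hD hc hw

theorem harm_smooth {D : Set (E d)} (hD : IsOpen D) {h : E d → ℝ} (h2 : ContDiffOn ℝ 2 h D)
    (h0 : ∀ x ∈ D, (Δ h) x = 0) : ContDiffOn ℝ (⊤ : ℕ∞) h D := Hm.harm_smooth' hD h2 h0

theorem max_principle (hd : 0 < d) {D : Set (E d)} (hD : IsOpen D) (hb : Bornology.IsBounded D)
    {h : E d → ℝ} (hc : ContinuousOn h (closure D)) (h2 : ContDiffOn ℝ 2 h D)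
    (hΔ : ∀ x ∈ D, 0 ≤ (Δ h) x) {M : ℝ} (hM : ∀ x ∈ frontier D, h x ≤ M) :
    ∀ x ∈ closure D, h x ≤ M := Hm.max_principle hd hD hb hc h2 hΔ hM

theorem harnack (d : ℕ) : ∃ C : ℝ, 1 ≤ C ∧ ∀ (x : E d) (r : ℝ), 0 < r → ∀ (h : E d → ℝ) (κ : ℝ),
    ContDiffOn ℝ 2 h (ball x r) → (∀ y ∈ ball x r, 0 ≤ h y) → (∀ y ∈ ball x r, |(Δ h) y| ≤ κ) →
    ∀ y ∈ ball x (r / 2), ∀ z ∈ ball x (r / 2), h y ≤ C * h z + C * κ * r ^ 2 := Hm.harnack' d

theorem harm_jets (d : ℕ) : ∃ C : ℝ, 1 ≤ C ∧ ∀ (x : E d) (r : ℝ), 0 < r → ∀ (h : E d → ℝ) (M : ℝ),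
    ContDiffOn ℝ 2 h (ball x r) → (∀ y ∈ ball x r, (Δ h) y = 0) → (∀ y ∈ ball x r, |h y| ≤ M) →
    STF2 (D2 h x) ∧ STF3 (D3 h x) ∧ ‖fderiv ℝ h x‖ ≤ C * M / r ∧ ‖D2 h x‖ ≤ C * M / r ^ 2 ∧
    ‖D3 h x‖ ≤ C * M / r ^ 3 ∧
    ∀ y ∈ ball x (r / 2), |h y - (h x + fderiv ℝ h x (y - x) + D2 h x (y - x) (y - x) / 2
      + D3 h x (y - x) (y - x) (y - x) / 6)| ≤ C * M * (‖y - x‖ / r) ^ 4 := Hm.harm_jets' d

end Crest.Agent.R097.HB

namespace Crest.Agent.R097
open Crest.AnalysisR.PDE.OnePhase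
variable {d : ℕ}

lemma locInt_coord {G : E d → E d} {Ω : Set (E d)} (hG : LocallyIntegrableOn G Ω) (i : Fin d) :
    LocallyIntegrableOn (fun x => G x i) Ω := by
  intro x hx
  obtain ⟨s, hs, hi⟩ := hG x hx
  exact ⟨s, hs, (EuclideanSpace.proj (𝕜 := ℝ) i).integrable_comp hi⟩

/-- product of a locally integrable function with a compactly supported continuous one -/
lemma int_mul_test {Ω : Set (E d)} {f φ : E d → ℝ} (hf : LocallyIntegrableOn f Ω)
    (hφ : Continuous φ) (hc : HasCompactSupport φ) (hs : tsupport φ ⊆ Ω) :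
    Integrable (fun x => f x * φ x) := by
  have h1 : IntegrableOn (fun x => f x * φ x) (tsupport φ) :=
    (hf.integrableOn_compact_subset hs hc.isCompact).mul_continuousOn hφ.continuousOn hc.isCompact
  rw [← integrableOn_univ]
  refine h1.of_forall_sdiff_eq_zero MeasurableSet.univ ?_
  intro x hx
  rw [image_eq_zero_of_notMem_tsupport hx.2, mul_zero]

lemma setInt_test {Ω : Set (E d)} {f φ : E d → ℝ} (hs : tsupport φ ⊆ Ω) :
    ∫ x in Ω, f x * φ x = ∫ x, f x * φ x :=
  setIntegral_eq_integral_of_forall_compl_eq_zero fun x hx => by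
    rw [image_eq_zero_of_notMem_tsupport (fun h => hx (hs h)), mul_zero]

/-- Weyl's lemma for a function with a weak gradient -/
theorem weyl_grad {Ω : Set (E d)} (hΩ : IsOpen Ω) {u : E d → ℝ} {G : E d → E d}
    (hu : IsWeakGradOn Ω u G)
    (h0 : ∀ φ : E d → ℝ, ContDiff ℝ ∞ φ → HasCompactSupport φ → tsupport φ ⊆ Ω →
      ∫ x in Ω, ⟪G x, ∇ φ x⟫_ℝ = 0) :
    ∃ h : E d → ℝ, Harm h Ω ∧ (∀ᵐ x ∂(volume.restrict Ω), u x = h x) ∧
      ∀ᵐ x ∂(volume.restrict Ω), G x = ∇ h x := by
  obtain ⟨hu1, hG1, hw⟩ := hu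
  have htest : ∀ φ : E d → ℝ, ContDiff ℝ ∞ φ → HasCompactSupport φ → tsupport φ ⊆ Ω →
      ∀ i, ContDiff ℝ ∞ (fun x => partialD φ i x) ∧ HasCompactSupport (fun x => partialD φ i x) ∧
        tsupport (fun x => partialD φ i x) ⊆ Ω := by
    intro φ hφ hc hs i
    have h1 : ContDiff ℝ ∞ (fun x => partialD φ i x) := by
      unfold partialD
      exact (hφ.fderiv_right (by simp)).clm_apply contDiff_const
    have h2 : tsupport (fun x => partialD φ i x) ⊆ tsupport φ :=
      tsupport_fderiv_apply_subset ℝ _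
    exact ⟨h1, hc.of_isClosed_subset (isClosed_tsupport _) h2, h2.trans hs⟩
  obtain ⟨h, hH, hae⟩ := weyl hΩ hu1 (by
    intro φ hφ hc hs
    have hφ2 : ContDiff ℝ 2 φ := contDiff_infty.mp hφ 2
    have e1 : ∀ x, (Δ φ) x = ∑ i, partialD (fun y => partialD φ i y) i x := by
      intro x
      exact laplacian_eq_sum hφ2.contDiffAt
    have e2 : ∫ x, u x * (Δ φ) x = ∑ i, ∫ x, u x * partialD (fun y => partialD φ i y) i x := by
      rw [← integral_finsetSum]
      · congr 1
        ext x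
        rw [e1, Finset.mul_sum]
      · intro i _
        obtain ⟨a1, a2, a3⟩ := htest φ hφ hc hs i
        obtain ⟨b1, b2, b3⟩ := htest _ a1 a2 a3 i
        exact int_mul_test hu1 b1.continuous b2 b3
    rw [e2]
    have e3 : ∀ i, ∫ x, u x * partialD (fun y => partialD φ i y) i x
        = - ∫ x, G x i * partialD φ i x := by
      intro i
      obtain ⟨a1, a2, a3⟩ := htest φ hφ hc hs i
      obtain ⟨b1, b2, b3⟩ := htest _ a1 a2 a3 i
      have := hw _ a1 a2 a3 i
      rw [setInt_test b3, setInt_test a3] at this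
      exact this
    simp_rw [e3]
    rw [Finset.sum_neg_distrib, ← integral_finsetSum]
    · have e4 := h0 φ hφ hc hs
      rw [setIntegral_eq_integral_of_forall_compl_eq_zero] at e4
      · rw [← neg_zero, ← e4]
        congr 2
        ext x
        rw [PiLp.inner_apply]
        refine Finset.sum_congr rfl fun i _ => ?_
        rw [gradient_coord]
        simp [bv, partialD, mul_comm]
      · intro x hx
        have : ∇ φ x = 0 := by
          rw [← norm_eq_zero, norm_gradient, norm_eq_zero]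
          exact fderiv_eq_zero_of_notMem_tsupport (fun h => hx (hs h))
        rw [this, inner_zero_right]
    · intro i _
      obtain ⟨a1, a2, a3⟩ := htest φ hφ hc hs i
      exact int_mul_test (locInt_coord hG1 i) a1.continuous a2 a3)
  refine ⟨h, hH, hae, ?_⟩
  have hcoord : ∀ i : Fin d, ∀ᵐ x ∂(volume.restrict Ω), G x i = fderiv ℝ h x (bv i) := by
    intro i
    have hfc : ContinuousOn (fun x => fderiv ℝ h x (bv i)) Ω := by
      have h1 := (Hm.contDiffOn_fderiv hΩ hH.1).continuousOn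
      exact h1.clm_apply continuousOn_const
    have hLI : LocallyIntegrableOn (fun x => G x i - fderiv ℝ h x (bv i)) Ω :=
      (locInt_coord hG1 i).sub (hfc.locallyIntegrableOn hΩ.measurableSet)
    have h2 : ∀ᵐ x ∂volume, x ∈ Ω → G x i - fderiv ℝ h x (bv i) = 0 := by
      apply hΩ.ae_eq_zero_of_integral_contDiff_smul_eq_zero hLI
      intro φ hφ hc hs
      obtain ⟨a1, a2, a3⟩ := htest φ hφ hc hs i
      -- integral of `G i φ`
      have e1 : ∫ x, G x i * φ x = - ∫ x, u x * partialD φ i x := by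
        have := hw φ hφ hc hs i
        rw [setInt_test a3, setInt_test hs] at this
        rw [this, neg_neg]
      have e2 : ∫ x, u x * partialD φ i x = ∫ x, h x * partialD φ i x := by
        rw [← setInt_test a3, ← setInt_test (f := h) a3]
        apply integral_congr_ae
        filter_upwards [hae] with x hx
        rw [hx]
      -- integrate by parts for h
      obtain ⟨g, hg, hgc, hgv⟩ := Hm.exists_ext (m := 2) hΩ hH.contDiffOn_two hc.isCompact hs
      obtain ⟨C, hC⟩ := lip_of_contDiff_compact (contDiff_infty.mp hφ 1) hc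
      have e3 := ibp1 (f := g) (hg.of_le (by norm_num)) hC hc (bv i)
      have e4 : ∫ x, h x * partialD φ i x = ∫ x, g x * fderiv ℝ φ x (bv i) := by
        congr 1
        ext x
        by_cases hx : x ∈ tsupport φ
        · rw [(hgv x hx).eq_of_nhds]
          rfl
        · have : fderiv ℝ φ x = 0 := fderiv_eq_zero_of_notMem_tsupport hx
          simp [partialD, this]
      have e5 : ∫ x, fderiv ℝ g x (bv i) * φ x = ∫ x, fderiv ℝ h x (bv i) * φ x := by
        congr 1
        ext x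
        by_cases hx : x ∈ tsupport φ
        · rw [(hgv x hx).fderiv_eq]
        · rw [image_eq_zero_of_notMem_tsupport hx, mul_zero, mul_zero]
      have e6 : ∫ x, G x i * φ x = ∫ x, fderiv ℝ h x (bv i) * φ x := by
        rw [e1, e2, e4, e3, e5, neg_neg]
      have e7 := integral_sub (int_mul_test (locInt_coord hG1 i) hφ.continuous hc hs)
        (int_mul_test (hfc.locallyIntegrableOn hΩ.measurableSet) hφ.continuous hc hs)
      rw [e6, sub_self] at e7
      rw [← e7]
      congr 1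
      ext x
      rw [smul_eq_mul]
      ring
    rw [ae_restrict_iff' hΩ.measurableSet]
    filter_upwards [h2] with x hx hxΩ
    have := hx hxΩ
    linarith
  filter_upwards [ae_all_iff.mpr hcoord] with x hx
  ext i
  rw [hx i, gradient_coord]

end Crest.Agent.R097
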