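import Crest.Agent.R097.S0Test

/-!
# Row 97, part S0: Hilbert projection and harmonic replacement, Hardy inequality in `H¹₀` (helper887)
-/

set_option autoImplicit false
open MeasureTheory Metric Set Filter Topology
open scoped RealInnerProductSpace NNReal ENNReal ContDiff

namespace Crest.Agent.R097

open Crest.AnalysisR.PDE.OnePhase

variable {d : ℕ}

/-- test functions in `B` -/
structure IsTest (φ : E d → ℝ) (B : Set (E d)) : Prop where
  smooth : ContDiff ℝ ∞ φ
  cs : HasCompactSupport φ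
  sub : tsupport φ ⊆ B


theorem S0_grad_add {f g : E d → ℝ} {x : E d} (hf : DifferentiableAt ℝ f x)
    (hg : DifferentiableAt ℝ g x) :
    gradient (fun y => f y + g y) x = gradient f x + gradient g x := by
  unfold gradient
  rw [show (fun y => f y + g y) = f + g from rfl, fderiv_add hf hg, map_add]

theorem S0_grad_sub {f g : E d → ℝ} {x : E d} (hf : DifferentiableAt ℝ f x)
    (hg : DifferentiableAt ℝ g x) :
    gradient (fun y => f y - g y) x = gradient f x - gradient g x := by
  unfold gradient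
  rw [show (fun y => f y - g y) = f - g from rfl, fderiv_sub hf hg, map_sub]

theorem S0_grad_smul {f : E d → ℝ} {x : E d} (a : ℝ) (hf : DifferentiableAt ℝ f x) :
    gradient (fun y => a * f y) x = a • gradient f x := by
  unfold gradient
  have : (fun y => a * f y) = a • f := rfl
  rw [this, fderiv_const_smul hf a, map_smul]

theorem IsTest.diff {φ : E d → ℝ} {B : Set (E d)} (h : IsTest φ B) : Differentiable ℝ φ :=
  h.smooth.differentiable (by simp)

theorem IsTest.add {φ ψ : E d → ℝ} {B : Set (E d)} (h : IsTest φ B) (k : IsTest ψ B) :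
    IsTest (fun x => φ x + ψ x) B := by
  refine ⟨h.smooth.add k.smooth, h.cs.add k.cs, ?_⟩
  exact (tsupport_add φ ψ).trans (union_subset h.sub k.sub)

theorem IsTest.smul {φ : E d → ℝ} {B : Set (E d)} (h : IsTest φ B) (a : ℝ) :
    IsTest (fun x => a * φ x) B := by
  refine ⟨contDiff_const.mul h.smooth, ?_, ?_⟩
  · exact h.cs.mul_left
  · refine (closure_mono ?_).trans h.sub
    intro x hx hx0
    exact hx (by simp [hx0])

theorem IsTest.sub' {φ ψ : E d → ℝ} {B : Set (E d)} (h : IsTest φ B) (k : IsTest ψ B) :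
    IsTest (fun x => φ x - ψ x) B := by
  have := IsTest.add h (IsTest.smul k (-1))
  simpa [sub_eq_add_neg] using this

theorem isTest_zero (B : Set (E d)) : IsTest (fun _ : E d => (0 : ℝ)) B := by
  refine ⟨contDiff_const, HasCompactSupport.zero, ?_⟩
  simp [tsupport]

theorem IsTest.cont_grad {φ : E d → ℝ} {B : Set (E d)} (h : IsTest φ B) :
    Continuous (gradient φ) := by
  unfold gradient
  exact (InnerProductSpace.toDual ℝ (E d)).symm.continuous.comp
    (h.smooth.continuous_fderiv (by simp))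

theorem IsTest.cs_grad {φ : E d → ℝ} {B : Set (E d)} (h : IsTest φ B) :
    HasCompactSupport (gradient φ) := by
  have h1 := (h.cs.fderiv (𝕜 := ℝ)).comp_left (g := (InnerProductSpace.toDual ℝ (E d)).symm)
    (by simp)
  exact h1

theorem IsTest.memLp {φ : E d → ℝ} {B : Set (E d)} (h : IsTest φ B) (p : ℝ≥0∞)
    (μ : Measure (E d)) [IsFiniteMeasureOnCompacts μ] : MemLp φ p μ :=
  h.smooth.continuous.memLp_of_hasCompactSupport h.cs

theorem IsTest.memLp_grad {φ : E d → ℝ} {B : Set (E d)} (h : IsTest φ B) (p : ℝ≥0∞)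
    (μ : Measure (E d)) [IsFiniteMeasureOnCompacts μ] : MemLp (gradient φ) p μ :=
  h.cont_grad.memLp_of_hasCompactSupport h.cs_grad

theorem IsTest.partialD {φ : E d → ℝ} {B : Set (E d)} (h : IsTest φ B) (i : Fin d) :
    IsTest (partialD φ i) B := by
  refine ⟨?_, h.cs.fderiv_apply (𝕜 := ℝ) _, ?_⟩
  · exact (h.smooth.fderiv_right (m := ∞) (by simp)).clm_apply contDiff_const
  · exact (tsupport_fderiv_apply_subset ℝ _).trans h.sub

/-- the space of gradients of test functions in `L²(μ)` -/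
noncomputable def gradSub (B : Set (E d)) (μ : Measure (E d)) : Submodule ℝ (Lp (E d) 2 μ) where
  carrier := {f | ∃ φ, IsTest φ B ∧ f =ᵐ[μ] gradient φ}
  zero_mem' := by
    refine ⟨fun _ => 0, isTest_zero B, ?_⟩
    filter_upwards [Lp.coeFn_zero (E d) 2 μ] with x hx
    rw [hx]
    simp [gradient]
  add_mem' := by
    rintro f g ⟨φ, hφ, hf⟩ ⟨ψ, hψ, hg⟩
    refine ⟨fun x => φ x + ψ x, hφ.add hψ, ?_⟩
    filter_upwards [Lp.coeFn_add f g, hf, hg] with x hx h1 h2
    rw [hx, Pi.add_apply, h1, h2, S0_grad_add (hφ.diff x) (hψ.diff x)]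
  smul_mem' := by
    rintro a f ⟨φ, hφ, hf⟩
    refine ⟨fun x => a * φ x, hφ.smul a, ?_⟩
    filter_upwards [Lp.coeFn_smul a f, hf] with x hx h1
    rw [hx, Pi.smul_apply, h1, S0_grad_smul a (hφ.diff x)]


theorem S0_norm_sq {α F : Type*} [MeasurableSpace α] {μ : Measure α} [NormedAddCommGroup F]
    [InnerProductSpace ℝ F] (f : Lp F 2 μ) : ‖f‖ ^ 2 = ∫ x, ‖f x‖ ^ 2 ∂μ := by
  rw [← real_inner_self_eq_norm_sq, L2.inner_def]
  simp only [real_inner_self_eq_norm_sq]

theorem S0_lintegral_sq {α F : Type*} [MeasurableSpace α] {μ : Measure α} [NormedAddCommGroup F]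
    (f : α → F) : ∫⁻ x, ‖f x‖ₑ ^ 2 ∂μ = (eLpNorm f 2 μ) ^ 2 := by
  have h := eLpNorm_nnreal_pow_eq_lintegral (μ := μ) (f := f) (p := 2) (by norm_num)
  have h2 : ((2 : ℝ≥0) : ℝ) = ((2 : ℕ) : ℝ) := by norm_num
  rw [h2] at h
  simp only [ENNReal.rpow_natCast] at h
  rw [← h]
  norm_num

/-- Hilbert projection onto (the closure of) gradients of test functions. -/
theorem S0_proj (hd : 1 ≤ d) {c : E d} {r : ℝ} (hr : 0 < r) {G : E d → E d}
    (hG : MemLp G 2 (volume.restrict (ball c r))) :
    ∃ (w : E d → ℝ) (g : E d → E d), MemLp w 2 (volume.restrict (ball c r)) ∧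
      MemLp g 2 (volume.restrict (ball c r)) ∧
      HasZeroTrace (ball c r) w g ∧ IsWeakGradOn (ball c r) w g ∧
      (∀ φ, IsTest φ (ball c r) → ∫ x in ball c r, inner ℝ (G x - g x) (gradient φ x) = 0) ∧
      (∫ x in ball c r, inner ℝ (G x - g x) (g x) = 0) ∧
      (∫⁻ x in ball c r, ENNReal.ofReal (r ^ 2 * w x ^ 2 / (r ^ 2 - ‖x - c‖ ^ 2) ^ 2)) ≤
        ∫⁻ x in ball c r, ‖g x‖ₑ ^ 2 := by
  set μ : Measure (E d) := volume.restrict (ball c r) with hμ
  set K := (gradSub (ball c r) μ).topologicalClosure with hK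
  have : CompleteSpace K := (Submodule.isClosed_topologicalClosure _).completeSpace_coe
  set Gl := hG.toLp G with hGl
  set P : Lp (E d) 2 μ := K.starProjection Gl with hP
  have hPK : P ∈ K := Submodule.starProjection_apply_mem K Gl
  have hPc : P ∈ closure ((gradSub (ball c r) μ : Submodule ℝ (Lp (E d) 2 μ)) : Set (Lp (E d) 2 μ)) := by
    rw [hK] at hPK
    exact hPK
  obtain ⟨t, htm, htl⟩ := mem_closure_iff_seq_limit.1 hPc
  choose φ hφ hφt using htm
  set F : ℕ → Lp ℝ 2 μ := fun n => ((hφ n).memLp 2 μ).toLp (φ n) with hF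
  have hFc : ∀ n, (F n : E d → ℝ) =ᵐ[μ] φ n := fun n => MemLp.coeFn_toLp _
  have hdist : ∀ n m, ‖F n - F m‖ ≤ r * ‖t n - t m‖ := by
    intro n m
    have hψ := (hφ n).sub' (hφ m)
    have h1 := S0_poinc_test hd c hr (hψ.smooth.of_le (by simp)) hψ.cs hψ.sub
    have h2 : ‖F n - F m‖ ^ 2 = ∫ x, (φ n x - φ m x) ^ 2 := by
      rw [S0_norm_sq]
      have e1 : ∫ x, ‖(F n - F m : Lp ℝ 2 μ) x‖ ^ 2 ∂μ =
          ∫ x, (φ n x - φ m x) ^ 2 ∂μ := by
        refine integral_congr_ae ?_
        filter_upwards [Lp.coeFn_sub (F n) (F m), hFc n, hFc m] with x h1 h2 h3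
        rw [h1, Pi.sub_apply, h2, h3]
        simp
      rw [e1, hμ]
      refine setIntegral_eq_integral_of_forall_compl_eq_zero (fun x hx => ?_)
      have : x ∉ tsupport (fun x => φ n x - φ m x) := fun h => hx (hψ.sub h)
      rw [image_eq_zero_of_notMem_tsupport this]
      simp
    have h3 : ‖t n - t m‖ ^ 2 = ∫ x, ‖gradient (fun x => φ n x - φ m x) x‖ ^ 2 := by
      rw [S0_norm_sq]
      have e1 : ∫ x, ‖(t n - t m : Lp (E d) 2 μ) x‖ ^ 2 ∂μ =
          ∫ x, ‖gradient (fun x => φ n x - φ m x) x‖ ^ 2 ∂μ := by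
        refine integral_congr_ae ?_
        filter_upwards [Lp.coeFn_sub (t n) (t m), hφt n, hφt m] with x h1 h2 h3
        rw [h1, Pi.sub_apply, h2, h3, S0_grad_sub ((hφ n).diff x) ((hφ m).diff x)]
      rw [e1, hμ]
      refine setIntegral_eq_integral_of_forall_compl_eq_zero (fun x hx => ?_)
      have : x ∉ tsupport (fun x => φ n x - φ m x) := fun h => hx (hψ.sub h)
      have h4 : (fun x => φ n x - φ m x) =ᶠ[𝓝 x] 0 := notMem_tsupport_iff_eventuallyEq.1 this
      rw [norm_gradient, h4.fderiv_eq]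
      simp
    rw [← h2, ← h3] at h1
    have h4 : ‖F n - F m‖ ^ 2 ≤ (r * ‖t n - t m‖) ^ 2 := by
      rw [mul_pow]; exact h1
    exact le_of_sq_le_sq h4 (by positivity)
  have hFcauchy : CauchySeq F := by
    have htc := htl.cauchySeq
    rw [Metric.cauchySeq_iff'] at htc ⊢
    intro ε hε
    obtain ⟨N, hN⟩ := htc (ε / r) (by positivity)
    refine ⟨N, fun n hn => ?_⟩
    have h1 := hN n hn
    rw [dist_eq_norm] at h1 ⊢
    calc ‖F n - F N‖ ≤ r * ‖t n - t N‖ := hdist n N
      _ < r * (ε / r) := by gcongr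
      _ = ε := by field_simp
  obtain ⟨W, hW⟩ := cauchySeq_tendsto_of_complete hFcauchy
  refine ⟨W, P, Lp.memLp W, Lp.memLp P, ?_, ?_, ?_, ?_, ?_⟩
  · -- zero trace
    intro ε hε
    have hε' : ∃ δ : ℝ≥0∞, 0 < δ ∧ δ ^ 2 < ε := by
      rcases eq_or_ne ε ⊤ with rfl | htop
      · exact ⟨1, one_pos, by simp⟩
      · have h0 : 0 < ε.toReal := ENNReal.toReal_pos hε.ne' htop
        refine ⟨ENNReal.ofReal (Real.sqrt (ε.toReal / 2)), by positivity, ?_⟩
        rw [← ENNReal.ofReal_pow (Real.sqrt_nonneg _), Real.sq_sqrt (by positivity)]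
        rw [ENNReal.ofReal_lt_iff_lt_toReal (by positivity) htop]
        linarith
    obtain ⟨δ, hδ, hδε⟩ := hε'
    have h1 := (Lp.tendsto_Lp_iff_tendsto_eLpNorm' F W).1 hW
    have h2 := (Lp.tendsto_Lp_iff_tendsto_eLpNorm' t P).1 htl
    have h3 := (h1.eventually (gt_mem_nhds hδ)).and (h2.eventually (gt_mem_nhds hδ))
    obtain ⟨n, hn1, hn2⟩ := h3.exists
    refine ⟨φ n, (hφ n).smooth, (hφ n).cs, (hφ n).sub, ?_, ?_⟩
    · have e1 : ∫⁻ x in ball c r, ‖W x - φ n x‖ₑ ^ 2 = (eLpNorm (⇑(F n) - ⇑W) 2 μ) ^ 2 := by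
        rw [← S0_lintegral_sq]
        refine lintegral_congr_ae ?_
        filter_upwards [hFc n] with x hx
        rw [Pi.sub_apply, hx, enorm_sub_rev]
      rw [e1]
      exact lt_of_le_of_lt (by gcongr) hδε
    · have e1 : ∫⁻ x in ball c r, ‖P x - gradient (φ n) x‖ₑ ^ 2 =
          (eLpNorm (⇑(t n) - ⇑P) 2 μ) ^ 2 := by
        rw [← S0_lintegral_sq]
        refine lintegral_congr_ae ?_
        filter_upwards [hφt n] with x hx
        rw [Pi.sub_apply, hx, enorm_sub_rev]
      rw [e1]
      exact lt_of_le_of_lt (by gcongr) hδε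
  · -- weak gradient
    have hfin : IsFiniteMeasure μ := ⟨by rw [hμ, Measure.restrict_apply_univ]; exact measure_ball_lt_top⟩
    refine ⟨?_, ?_, ?_⟩
    · exact IntegrableOn.locallyIntegrableOn ((Lp.memLp W).integrable one_le_two)
    · exact IntegrableOn.locallyIntegrableOn ((Lp.memLp P).integrable one_le_two)
    · intro ψ hψ1 hψ2 hψ3 i
      have hψ : IsTest ψ (ball c r) := ⟨hψ1, hψ2, hψ3⟩
      have hψi := hψ.partialD i
      set A : Lp ℝ 2 μ := (hψi.memLp 2 μ).toLp _ with hA
      have hvm : MemLp (fun x => ψ x • ei i) 2 μ := by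
        refine Continuous.memLp_of_hasCompactSupport (hψ1.continuous.smul continuous_const) ?_
        exact hψ2.smul_right
      set Bv : Lp (E d) 2 μ := hvm.toLp _ with hBv
      have hAc : (A : E d → ℝ) =ᵐ[μ] Crest.AnalysisR.PDE.OnePhase.partialD ψ i := MemLp.coeFn_toLp _
      have hBc : (Bv : E d → E d) =ᵐ[μ] fun x => ψ x • ei i := MemLp.coeFn_toLp _
      have e1 : ∀ f : Lp ℝ 2 μ, inner ℝ A f = ∫ x in ball c r, f x *
          Crest.AnalysisR.PDE.OnePhase.partialD ψ i x := by
        intro f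
        rw [L2.inner_def]
        refine integral_congr_ae ?_
        filter_upwards [hAc] with x hx
        rw [hx]
        simp [mul_comm]
      have e2 : ∀ f : Lp (E d) 2 μ, inner ℝ Bv f = ∫ x in ball c r, f x i * ψ x := by
        intro f
        rw [L2.inner_def]
        refine integral_congr_ae ?_
        filter_upwards [hBc] with x hx
        rw [hx]
        simp [ei, inner_smul_left, EuclideanSpace.inner_single_left, mul_comm]
      have h1 : ∀ n, inner ℝ A (F n) = - inner ℝ Bv (t n) := by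
        intro n
        rw [e1, e2]
        have e3 : ∫ x in ball c r, F n x * Crest.AnalysisR.PDE.OnePhase.partialD ψ i x =
            ∫ x, φ n x * fderiv ℝ ψ x (ei i) := by
          rw [← setIntegral_eq_integral_of_forall_compl_eq_zero (s := ball c r)
            (f := fun x => φ n x * fderiv ℝ ψ x (ei i)) (fun x hx => ?_)]
          · refine integral_congr_ae ?_
            filter_upwards [hFc n] with x hx
            rw [hx]
            rfl
          · have : x ∉ tsupport (φ n) := fun h => hx ((hφ n).sub h)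
            simp [image_eq_zero_of_notMem_tsupport this]
        have e4 : ∫ x in ball c r, (t n x) i * ψ x = ∫ x, fderiv ℝ (φ n) x (ei i) * ψ x := by
          rw [← setIntegral_eq_integral_of_forall_compl_eq_zero (s := ball c r)
            (f := fun x => fderiv ℝ (φ n) x (ei i) * ψ x) (fun x hx => ?_)]
          · refine integral_congr_ae ?_
            filter_upwards [hφt n] with x hx
            rw [hx, gradient_apply']
            rfl
          · have : x ∉ tsupport ψ := fun h => hx (hψ.sub h)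
            simp [image_eq_zero_of_notMem_tsupport this]
        rw [e3, e4]
        have hd1 := (hφ n).diff
        have hd2 := hψ.diff
        have c1 : Continuous fun x => fderiv ℝ (φ n) x (ei i) := ((hφ n).partialD i).smooth.continuous
        have c2 : Continuous fun x => fderiv ℝ ψ x (ei i) := hψi.smooth.continuous
        refine integral_mul_fderiv_eq_neg_fderiv_mul_of_integrable ?_ ?_ ?_
          (fun x _ => hd1 x) (fun x _ => hd2 x)
        · exact (c1.mul hψ1.continuous).integrable_of_hasCompactSupport hψ2.mul_left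
        · exact ((hφ n).smooth.continuous.mul c2).integrable_of_hasCompactSupport
            (hφ n).cs.mul_right
        · exact ((hφ n).smooth.continuous.mul hψ1.continuous).integrable_of_hasCompactSupport
            (hφ n).cs.mul_right
      have h2 : Tendsto (fun n => inner ℝ A (F n)) atTop (𝓝 (inner ℝ A W)) :=
        tendsto_const_nhds.inner hW
      have h3 : Tendsto (fun n => - inner ℝ Bv (t n)) atTop (𝓝 (- inner ℝ Bv P)) :=
        (tendsto_const_nhds.inner htl).neg
      have h4 : inner ℝ A W = - inner ℝ Bv P := by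
        refine tendsto_nhds_unique h2 ?_
        simp_rw [h1]
        exact h3
      rw [e1, e2] at h4
      exact h4
  · -- orthogonality
    intro ψ hψ
    set Q : Lp (E d) 2 μ := (hψ.memLp_grad 2 μ).toLp _ with hQ
    have hQc : (Q : E d → E d) =ᵐ[μ] gradient ψ := MemLp.coeFn_toLp _
    have hQK : Q ∈ K := by
      refine Submodule.le_topologicalClosure _ ?_
      exact ⟨ψ, hψ, hQc⟩
    have h1 := Submodule.starProjection_inner_eq_zero (K := K) Gl Q hQK
    rw [L2.inner_def] at h1
    rw [← h1]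
    refine integral_congr_ae ?_
    filter_upwards [hQc, Lp.coeFn_sub Gl P, MemLp.coeFn_toLp hG] with x h2 h3 h4
    rw [h2, h3, Pi.sub_apply, ← hGl] at *
    rw [h4]
  · have h1 := Submodule.starProjection_inner_eq_zero (K := K) Gl P hPK
    rw [L2.inner_def] at h1
    rw [← h1]
    refine integral_congr_ae ?_
    filter_upwards [Lp.coeFn_sub Gl P, MemLp.coeFn_toLp hG] with x h3 h4
    rw [h3, Pi.sub_apply, ← hGl] at *
    rw [h4]
  · -- Hardy
    have hmeas : TendstoInMeasure μ (fun n => (F n : E d → ℝ)) atTop (W : E d → ℝ) :=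
      tendstoInMeasure_of_tendsto_Lp hW
    obtain ⟨ns, hns, hae⟩ := hmeas.exists_seq_tendsto_ae
    have hpos : ∀ x ∈ ball c r, 0 < r ^ 2 - ‖x - c‖ ^ 2 := by
      intro x hx
      rw [mem_ball, dist_eq_norm] at hx
      have h0 := norm_nonneg (x - c)
      nlinarith
    have hallF : ∀ᵐ x ∂μ, ∀ n, F n x = φ n x := ae_all_iff.2 hFc
    have hmball : ∀ᵐ x ∂μ, x ∈ ball c r := ae_restrict_mem measurableSet_ball
    -- the densities converge
    have h1 : ∀ᵐ x ∂μ, Tendsto (fun k => ENNReal.ofReal (r ^ 2 * φ (ns k) x ^ 2 /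
        (r ^ 2 - ‖x - c‖ ^ 2) ^ 2)) atTop
        (𝓝 (ENNReal.ofReal (r ^ 2 * W x ^ 2 / (r ^ 2 - ‖x - c‖ ^ 2) ^ 2))) := by
      filter_upwards [hae, hallF] with x hx hF
      refine ENNReal.tendsto_ofReal ?_
      have h2 : Tendsto (fun k => φ (ns k) x) atTop (𝓝 (W x)) := by
        refine hx.congr (fun k => hF (ns k))
      exact ((h2.pow 2).const_mul _).div_const _
    have h2 : ∀ n, ∫⁻ x, ENNReal.ofReal (r ^ 2 * φ n x ^ 2 / (r ^ 2 - ‖x - c‖ ^ 2) ^ 2) ∂μ ≤
        ENNReal.ofReal (‖t n‖ ^ 2) := by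
      intro n
      have hI := S0_hardy_int c hr ((hφ n).smooth.of_le (by simp)) (hφ n).cs (hφ n).sub
      have h3 := hardy_test hd c hr ((hφ n).smooth.of_le (by simp)) (hφ n).cs (hφ n).sub
      have h4 : ‖t n‖ ^ 2 = ∫ x, ‖gradient (φ n) x‖ ^ 2 := by
        rw [S0_norm_sq]
        have e1 : ∫ x, ‖(t n : Lp (E d) 2 μ) x‖ ^ 2 ∂μ = ∫ x, ‖gradient (φ n) x‖ ^ 2 ∂μ := by
          refine integral_congr_ae ?_
          filter_upwards [hφt n] with x h1
          rw [h1]
        rw [e1, hμ]
        refine setIntegral_eq_integral_of_forall_compl_eq_zero (fun x hx => ?_)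
        have : x ∉ tsupport (φ n) := fun h => hx ((hφ n).sub h)
        have h4 : φ n =ᶠ[𝓝 x] 0 := notMem_tsupport_iff_eventuallyEq.1 this
        rw [norm_gradient, h4.fderiv_eq]
        simp
      rw [h4, ← ofReal_integral_eq_lintegral_ofReal hI.restrict
        (Eventually.of_forall fun x => by positivity)]
      refine ENNReal.ofReal_le_ofReal (le_trans ?_ h3)
      exact setIntegral_le_integral hI (Eventually.of_forall fun x => by positivity)
    calc ∫⁻ x, ENNReal.ofReal (r ^ 2 * W x ^ 2 / (r ^ 2 - ‖x - c‖ ^ 2) ^ 2) ∂μ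
        = ∫⁻ x, liminf (fun k => ENNReal.ofReal (r ^ 2 * φ (ns k) x ^ 2 /
          (r ^ 2 - ‖x - c‖ ^ 2) ^ 2)) atTop ∂μ := by
          refine lintegral_congr_ae ?_
          filter_upwards [h1] with x hx
          exact hx.liminf_eq.symm
      _ ≤ liminf (fun k => ∫⁻ x, ENNReal.ofReal (r ^ 2 * φ (ns k) x ^ 2 /
          (r ^ 2 - ‖x - c‖ ^ 2) ^ 2) ∂μ) atTop := by
          refine lintegral_liminf_le' (fun k => ?_)
          refine AEMeasurable.ennreal_ofReal ?_
          have := (S0_hardy_int c hr ((hφ (ns k)).smooth.of_le (by simp)) (hφ (ns k)).cs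
            (hφ (ns k)).sub).restrict (s := ball c r)
          exact this.1.aemeasurable
      _ ≤ liminf (fun k => ENNReal.ofReal (‖t (ns k)‖ ^ 2)) atTop :=
          liminf_le_liminf (Eventually.of_forall fun k => h2 (ns k))
      _ = ENNReal.ofReal (‖P‖ ^ 2) := by
          refine Tendsto.liminf_eq ?_
          refine ENNReal.tendsto_ofReal ?_
          exact ((htl.comp hns.tendsto_atTop).norm).pow 2
      _ = ∫⁻ x, ‖P x‖ₑ ^ 2 ∂μ := by
          rw [S0_lintegral_sq, Lp.norm_def, ENNReal.ofReal_pow ENNReal.toReal_nonneg,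
            ENNReal.ofReal_toReal (Lp.eLpNorm_ne_top P)]

end Crest.Agent.R097
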