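import Crest.Agent.R097.Sob2
import Crest.Agent.R097.S0Proj
import Crest.Agent.R097.Harm

/-! Sob3: a function with square integrable weak gradient is locally square integrable
(Hilbert projection + Weyl's lemma). -/
set_option autoImplicit false
open MeasureTheory Metric Set Filter Topology
open scoped NNReal RealInnerProductSpace Gradient ContDiff Laplacian ENNReal
open Crest.AnalysisR.PDE.OnePhase

namespace Crest.Agent.R097
variable {d : ℕ}

theorem sob_sq {u : E d → ℝ} {G : E d → E d} (h : IsWeakGradOn Set.univ u G)
    (hG : LocallyIntegrable (fun x => ‖G x‖ ^ 2)) : LocallyIntegrable (fun x => u x ^ 2) := by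
  rcases Nat.eq_zero_or_pos d with hd | hd
  · subst hd
    have hc : Continuous (fun x : E 0 => u x ^ 2) := by
      have : Subsingleton (E 0) := inferInstance
      exact continuous_of_const fun x y => by rw [Subsingleton.elim x y]
    exact hc.locallyIntegrable
  intro x₀
  set B := ball x₀ 2 with hB
  rw [isWeakGradOn_univ] at h
  obtain ⟨hu, hGl, hw⟩ := h
  have hG2 : MemLp G 2 (volume.restrict B) := by
    rw [memLp_two_iff_integrable_sq_norm hGl.aestronglyMeasurable.restrict]
    exact (hG.integrableOn_isCompact (isCompact_closedBall x₀ 2)).mono_set ball_subset_closedBall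
  obtain ⟨w, g, hw2, hg2, -, hwg, horth, -, -⟩ := S0_proj hd (c := x₀) (r := 2) (by norm_num) hG2
  have hv : IsWeakGradOn B (fun x => u x - w x) (fun x => G x - g x) := by
    obtain ⟨a1, a2, a3⟩ := hwg
    refine ⟨(hu.locallyIntegrableOn B).sub a1, (hGl.locallyIntegrableOn B).sub a2, fun φ hφ hc ht i => ?_⟩
    have e1 := hw φ hφ hc i
    have e2 := a3 φ hφ hc ht i
    have hti : tsupport (fun x => partialD φ i x) ⊆ B := (tsupport_fderiv_apply_subset ℝ _).trans ht
    have hpc := partialD_cont hφ i
    have hps := partialD_cs hc i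
    have f1 : (∫ x in B, (u x - w x) * partialD φ i x) =
        (∫ x in B, u x * partialD φ i x) - ∫ x in B, w x * partialD φ i x := by
      rw [← integral_sub (int_mul_cs hu hpc hps).integrableOn (int_mul_test a1 hpc hps hti).integrableOn]
      refine integral_congr_ae (Eventually.of_forall fun x => ?_)
      simp only; ring
    have f2 : (∫ x in B, (G x - g x) i * φ x) = (∫ x in B, G x i * φ x) - ∫ x in B, g x i * φ x := by
      rw [← integral_sub (int_mul_cs (locInt_apply hGl i) hφ.continuous hc).integrableOn
        (int_mul_test (locInt_coord a2 i) hφ.continuous hc ht).integrableOn]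
      refine integral_congr_ae (Eventually.of_forall fun x => ?_)
      simp only [PiLp.sub_apply]; ring
    rw [f1, f2, e2, setInt_test (f := u) hti, setInt_test (f := fun x => G x i) ht, e1]; ring
  obtain ⟨v, hv1, hv2, -⟩ := weyl_grad (Ω := B) isOpen_ball hv (fun φ hφ hc ht => horth φ ⟨hφ, hc, ht⟩)
  refine ⟨ball x₀ 1, ball_mem_nhds x₀ one_pos, ?_⟩
  have hsub : ball x₀ 1 ⊆ B := ball_subset_ball (by norm_num)
  have hvc : ContinuousOn v (closedBall x₀ 1) :=
    hv1.1.continuousOn.mono (closedBall_subset_ball (by norm_num))
  have m1 : MemLp v 2 (volume.restrict (ball x₀ 1)) := by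
    obtain ⟨M, hM⟩ := (isCompact_closedBall x₀ 1).exists_bound_of_continuousOn hvc
    have : IsFiniteMeasure (volume.restrict (ball x₀ 1)) :=
      ⟨by rw [Measure.restrict_apply_univ]; exact measure_ball_lt_top⟩
    refine MemLp.of_bound (hvc.mono ball_subset_closedBall |>.aestronglyMeasurable measurableSet_ball) M ?_
    rw [ae_restrict_iff' measurableSet_ball]
    exact Eventually.of_forall fun x hx => hM x (ball_subset_closedBall hx)
  have m2 : MemLp w 2 (volume.restrict (ball x₀ 1)) := hw2.mono_measure (Measure.restrict_mono hsub le_rfl)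
  have m3 : MemLp u 2 (volume.restrict (ball x₀ 1)) := by
    refine (m1.add m2).ae_eq ?_
    have h1 : ∀ᵐ x ∂(volume.restrict (ball x₀ 1)), u x - w x = v x :=
      ae_restrict_of_ae_restrict_of_subset hsub hv2
    filter_upwards [h1] with x hx
    simp only [Pi.add_apply]; linarith
  exact (memLp_two_iff_integrable_sq hu.aestronglyMeasurable.restrict).1 m3

end Crest.Agent.R097
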