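import Crest.Agent.R097.S0Lip
import Crest.Agent.R097.S0LM
import Crest.Agent.R097.Sob3

/-! A3: a Sobolev minimiser has a Lipschitz representative, which is a Lipschitz minimiser (helper887). -/
set_option autoImplicit false
open MeasureTheory Metric Set Filter Topology
open scoped NNReal RealInnerProductSpace Gradient ContDiff Laplacian ENNReal
open Crest.AnalysisR.PDE.OnePhase

namespace Crest.Agent.R097
variable {d : ℕ}

theorem sobolev_to_LM (hd : 1 ≤ d) {u : E d → ℝ} {G : E d → E d} (hu : IsGlobalMinimizer u G)
    (hh : IsOneHomogeneous u) (hne : ¬ (u =ᵐ[volume] 0)) :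
    ∃ (K : ℝ≥0) (U : E d → ℝ), LM U K ∧ Hom1 U ∧ (∃ x, U x ≠ 0) ∧ u =ᵐ[volume] U := by
  have h2 : LocallyIntegrable (fun x => u x ^ 2) := sob_sq hu.2.1 hu.2.2.1
  obtain ⟨K, U, hU, hU0, hae⟩ := S0_lip hd hu hh h2
  refine ⟨K, U, LM_of_min hu hU hU0 hae, ?_, ?_, hae⟩
  · intro r hr
    have h1 : (fun x => U (r • x)) =ᵐ[volume] fun x => r * U x := by
      have hq : Measure.QuasiMeasurePreserving (fun x : E d => r • x) volume volume :=
        ⟨by fun_prop, (Measure.quasiMeasurePreserving_smul (volume : Measure (E d)) hr.ne').2⟩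
      have h3 := hq.ae_eq hae
      filter_upwards [h3, hae] with x h4 h5
      simp only [Function.comp_apply] at h4
      rw [← h4, ← h5, hh r hr x]
    have h2 : (fun x => U (r • x)) = fun x => r * U x := by
      refine (Continuous.ae_eq_iff_eq volume ?_ ?_).1 h1
      · exact hU.continuous.comp (continuous_const_smul r)
      · exact continuous_const.mul hU.continuous
    exact fun x => congrFun h2 x
  · by_contra hcon
    push Not at hcon
    apply hne
    filter_upwards [hae] with x hx
    rw [hx, hcon x]
    rfl

end Crest.Agent.R097
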