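import Crest.Agent.R097.HF3

/-! B1: first variations of Lipschitz minimisers. -/
set_option autoImplicit false
open MeasureTheory Metric Set Filter Topology
open scoped NNReal RealInnerProductSpace Gradient ContDiff Laplacian

namespace Crest.Agent.R097
variable {d : ℕ}

/-- the gradient vanishes outside the support -/
lemma grad_eq_zero_of_notMem {φ : E d → ℝ} {x : E d} (hx : x ∉ tsupport φ) : ∇ φ x = 0 := by
  simp only [gradient, fderiv_eq_zero_of_notMem_tsupport hx, map_zero]

lemma LM.grad_zero {K : ℝ≥0} {u : E d → ℝ} (hu : LM u K) {x : E d} (hx : u x = 0) : ∇ u x = 0 := by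
  simp only [gradient, fderiv_eq_zero_of_nonneg hu.nonneg hx, map_zero]

lemma measurable_inner_grad (u φ : E d → ℝ) : Measurable fun x => inner ℝ (∇ u x) (∇ φ x) :=
  (measurable_grad u).inner (measurable_grad φ)

/-- `⟨∇u, ∇φ⟩` is integrable when `φ` has compact support -/
lemma integrable_inner_grad {K L : ℝ≥0} {u φ : E d → ℝ} (hu : LipschitzWith K u)
    (hφ : LipschitzWith L φ) (hc : HasCompactSupport φ) :
    Integrable fun x => inner ℝ (∇ u x) (∇ φ x) := by
  refine integrable_of_bdd (C := K * L) hc.isCompact (measurable_inner_grad u φ).aestronglyMeasurable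
    (fun x hx => by rw [grad_eq_zero_of_notMem hx, inner_zero_right]) fun x _ => ?_
  refine (abs_real_inner_le_norm _ _).trans ?_
  exact mul_le_mul (norm_grad_le hu x) (norm_grad_le hφ x) (norm_nonneg _) K.2

lemma integrable_sq_grad {L : ℝ≥0} {φ : E d → ℝ} (hφ : LipschitzWith L φ)
    (hc : HasCompactSupport φ) : Integrable fun x => ‖∇ φ x‖ ^ 2 := by
  refine integrable_of_bdd (C := (L : ℝ) ^ 2) hc.isCompact
    ((measurable_grad φ).norm.pow_const 2).aestronglyMeasurable
    (fun x hx => by rw [grad_eq_zero_of_notMem hx]; simp) fun x _ => ?_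
  rw [abs_of_nonneg (sq_nonneg _)]
  exact sq_norm_grad_le hφ x

/-- gradient of `u + t φ` -/
lemma ae_grad_add {K L : ℝ≥0} {u φ : E d → ℝ} (hu : LipschitzWith K u) (hφ : LipschitzWith L φ)
    (t : ℝ) : ∀ᵐ x : E d, ∇ (fun y => u y + t * φ y) x = ∇ u x + t • ∇ φ x := by
  filter_upwards [hu.ae_differentiableAt, hφ.ae_differentiableAt] with x h1 h2
  have h3 : fderiv ℝ (fun y => u y + t * φ y) x = fderiv ℝ u x + t • fderiv ℝ φ x := by
    rw [fderiv_fun_add h1 (h2.const_mul t), fderiv_const_mul h2]
  simp only [gradient, h3, map_add, map_smul]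

lemma lip_add_mul {K L : ℝ≥0} {u φ : E d → ℝ} (hu : LipschitzWith K u) (hφ : LipschitzWith L φ)
    (t : ℝ) : LipschitzWith (K + ‖t‖₊ * L) (fun y => u y + t * φ y) := by
  refine hu.add ?_
  refine LipschitzWith.of_dist_le_mul fun x y => ?_
  rw [Real.dist_eq, ← mul_sub, abs_mul]
  push_cast
  rw [mul_assoc, Real.norm_eq_abs]
  refine mul_le_mul_of_nonneg_left ?_ (abs_nonneg t)
  have := hφ.dist_le_mul x y
  rwa [Real.dist_eq] at this

/-- subharmonicity (competitor `(u - t φ)⁺`) -/
theorem LM.sub {K : ℝ≥0} {u : E d → ℝ} (hu : LM u K) {φ : E d → ℝ} {L : ℝ≥0} (hφ : LipschitzWith L φ)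
    (hc : HasCompactSupport φ) (h0 : ∀ x, 0 ≤ φ x) : ∫ x, inner ℝ (∇ u x) (∇ φ x) ≤ 0 := by
  set B : ℝ := ∫ x, ‖∇ φ x‖ ^ 2 with hB
  have hI := integrable_inner_grad hu.lip hφ hc
  have hS := integrable_sq_grad hφ hc
  -- the inequality for one `t`
  have key : ∀ t : ℝ, 0 < t →
      2 * ∫ x, ({x | t * φ x < u x}).indicator (fun x => inner ℝ (∇ u x) (∇ φ x)) x ≤ t * B := by
    intro t ht
    set v : E d → ℝ := fun x => u x + (-t) * φ x with hv
    set w : E d → ℝ := fun x => max (v x) 0 with hw
    have hvl := lip_add_mul hu.lip hφ (-t)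
    have hwl : LipschitzWith (K + ‖-t‖₊ * L) w := hvl.max_const 0
    have hw0 : ∀ x, 0 ≤ w x := fun x => le_max_right _ _
    have hwsupp : HasCompactSupport (fun x => w x - u x) := by
      refine HasCompactSupport.intro hc.isCompact fun x hx => ?_
      have h1 : φ x = 0 := image_eq_zero_of_notMem_tsupport hx
      simp only [hw, hv, h1, mul_zero, add_zero, max_eq_left (hu.nonneg x), sub_self]
    have h1 := hu.dJ_nonneg hwl hw0 hwsupp
    have hmS : MeasurableSet {x | t * φ x < u x} :=
      measurableSet_lt (hφ.continuous.measurable.const_mul t) hu.lip.continuous.measurable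
    have hle : dJ w u ≤ ∫ x, ((-(2 * t)) *
        ({x | t * φ x < u x}).indicator (fun x => inner ℝ (∇ u x) (∇ φ x)) x +
          t ^ 2 * ‖∇ φ x‖ ^ 2) := by
      unfold dJ
      refine integral_mono_ae (eD_integrable hwl hu.lip hwsupp)
        (((hI.indicator hmS).const_mul _).add (hS.const_mul _)) ?_
      filter_upwards [ae_grad_add hu.lip hφ (-t)] with x hx
      have hposle : pos (w x) ≤ pos (u x) := by
        by_cases hux : 0 < u x
        · rw [pos_of_pos hux]; exact pos_le_one _
        · have hu0 : u x = 0 := le_antisymm (not_lt.1 hux) (hu.nonneg x)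
          have : w x = 0 := by
            simp only [hw, hv]
            refine max_eq_right ?_
            rw [hu0]; have := mul_nonneg ht.le (h0 x); linarith
          rw [this, hu0]
      by_cases hxS : t * φ x < u x
      · have hpos : 0 < v x := by simp only [hv]; linarith
        have heq : w =ᶠ[𝓝 x] v := by
          have := (hvl.continuous.tendsto x).eventually (lt_mem_nhds hpos)
          filter_upwards [this] with y hy
          exact max_eq_left hy.le
        have hg : ∇ w x = ∇ u x + (-t) • ∇ φ x := by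
          rw [← hx]
          simp only [gradient, heq.fderiv_eq]
          rfl
        rw [indicator_of_mem (show x ∈ {x | t * φ x < u x} from hxS)]
        unfold eD
        rw [hg, norm_add_sq_real, inner_smul_right, norm_smul, mul_pow, Real.norm_eq_abs, sq_abs]
        nlinarith
      · have hw00 : w x = 0 := by
          simp only [hw, hv]
          refine max_eq_right ?_
          push Not at hxS
          linarith
        have hg : ∇ w x = 0 := by
          simp only [gradient, fderiv_eq_zero_of_nonneg hw0 hw00, map_zero]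
        rw [indicator_of_notMem (show x ∉ {x | t * φ x < u x} from hxS)]
        unfold eD
        rw [hg, norm_zero]
        have h3 := sq_nonneg ‖∇ u x‖
        have h4 : 0 ≤ t ^ 2 * ‖∇ φ x‖ ^ 2 := by positivity
        nlinarith
    have h2 := h1.trans hle
    rw [integral_add ((hI.indicator hmS).const_mul _) (hS.const_mul _), integral_const_mul,
      integral_const_mul, ← hB] at h2
    have h3 : t * (2 * ∫ x, ({x | t * φ x < u x}).indicator (fun x => inner ℝ (∇ u x) (∇ φ x)) x) ≤
        t * (t * B) := by nlinarith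
    exact le_of_mul_le_mul_left h3 ht
  -- the limit `t → 0`
  have hlim : Tendsto (fun n : ℕ => ∫ x, ({x | (1 / ((n:ℝ) + 1)) * φ x < u x}).indicator
      (fun x => inner ℝ (∇ u x) (∇ φ x)) x) atTop (𝓝 (∫ x, inner ℝ (∇ u x) (∇ φ x))) := by
    refine tendsto_integral_of_dominated_convergence
      (fun x => ‖(inner ℝ (∇ u x) (∇ φ x) : ℝ)‖) ?_ hI.norm ?_ ?_
    · intro n
      have hmS : MeasurableSet {x | (1 / ((n:ℝ) + 1)) * φ x < u x} :=
        measurableSet_lt (hφ.continuous.measurable.const_mul _) hu.lip.continuous.measurable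
      exact ((measurable_inner_grad u φ).indicator hmS).aestronglyMeasurable
    · intro n
      exact Eventually.of_forall fun x => norm_indicator_le_norm_self _ _
    · refine Eventually.of_forall fun x => ?_
      rcases (hu.nonneg x).eq_or_lt with hx | hx
      · have : ∇ u x = 0 := hu.grad_zero hx.symm
        have h1 : ∀ n : ℕ, ({x | (1 / ((n:ℝ) + 1)) * φ x < u x}).indicator
            (fun x => inner ℝ (∇ u x) (∇ φ x)) x = (0:ℝ) := by
          intro n
          rw [indicator_apply]
          split_ifs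
          · rw [this, inner_zero_left]
          · rfl
        simp only [h1, this, inner_zero_left]
        exact tendsto_const_nhds
      · have h1 : Tendsto (fun n : ℕ => (1 / ((n:ℝ) + 1)) * φ x) atTop (𝓝 (0 * φ x)) :=
          (tendsto_one_div_add_atTop_nhds_zero_nat).mul_const _
        rw [zero_mul] at h1
        refine tendsto_const_nhds.congr' ?_
        filter_upwards [h1.eventually (gt_mem_nhds hx)] with n hn
        rw [indicator_of_mem (show x ∈ {x | (1 / ((n:ℝ) + 1)) * φ x < u x} from hn)]
  have hlim2 : Tendsto (fun n : ℕ => (1 / ((n:ℝ) + 1)) * B) atTop (𝓝 (0 * B)) :=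
    (tendsto_one_div_add_atTop_nhds_zero_nat).mul_const _
  rw [zero_mul] at hlim2
  have h5 := le_of_tendsto_of_tendsto (hlim.const_mul 2) hlim2
    (Eventually.of_forall fun n => key (1 / ((n:ℝ) + 1)) (by positivity))
  linarith

/-- more generally `∫ ∇u·∇φ = 0` when `φ` is Lipschitz with compact support and `|φ| ≤ C u` -/
theorem LM.orth {K : ℝ≥0} {u : E d → ℝ} (hu : LM u K) {φ : E d → ℝ} {L : ℝ≥0} (hφ : LipschitzWith L φ)
    (hc : HasCompactSupport φ) {C : ℝ} (h0 : ∀ x, |φ x| ≤ C * u x) : ∫ x, inner ℝ (∇ u x) (∇ φ x) = 0 := by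
  set C' : ℝ := |C| + 1 with hC'
  have hC'0 : 0 < C' := by positivity
  have h0' : ∀ x, |φ x| ≤ C' * u x := by
    intro x
    refine (h0 x).trans (mul_le_mul_of_nonneg_right ?_ (hu.nonneg x))
    have := le_abs_self C
    linarith
  set A : ℝ := ∫ x, inner ℝ (∇ u x) (∇ φ x) with hA
  set B : ℝ := ∫ x, ‖∇ φ x‖ ^ 2 with hB
  have hI := integrable_inner_grad hu.lip hφ hc
  have hS := integrable_sq_grad hφ hc
  have key : ∀ t : ℝ, |t| * C' < 1 → 0 ≤ 2 * t * A + t ^ 2 * B := by
    intro t ht
    set w : E d → ℝ := fun x => u x + t * φ x with hw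
    have hwl := lip_add_mul hu.lip hφ t
    have hlow : ∀ x, (1 - |t| * C') * u x ≤ w x := by
      intro x
      have h1 : |t * φ x| ≤ |t| * (C' * u x) := by
        rw [abs_mul]; exact mul_le_mul_of_nonneg_left (h0' x) (abs_nonneg t)
      have h2 := (abs_le.1 h1).1
      simp only [hw]
      nlinarith
    have hw0 : ∀ x, 0 ≤ w x := fun x =>
      (mul_nonneg (by linarith) (hu.nonneg x)).trans (hlow x)
    have hwsupp : HasCompactSupport (fun x => w x - u x) := by
      refine HasCompactSupport.intro hc.isCompact fun x hx => ?_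
      have h1 : φ x = 0 := image_eq_zero_of_notMem_tsupport hx
      simp only [hw, h1, mul_zero, add_zero, sub_self]
    have h1 := hu.dJ_nonneg hwl hw0 hwsupp
    have heq : dJ w u = ∫ x, ((2 * t) * inner ℝ (∇ u x) (∇ φ x) + t ^ 2 * ‖∇ φ x‖ ^ 2) := by
      unfold dJ
      refine integral_congr_ae ?_
      filter_upwards [ae_grad_add hu.lip hφ t] with x hx
      have hpos : pos (w x) = pos (u x) := by
        rcases (hu.nonneg x).eq_or_lt with hx0 | hx0
        · have : φ x = 0 := by
            have := h0' x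
            rw [← hx0, mul_zero] at this
            exact abs_eq_zero.1 (le_antisymm this (abs_nonneg _))
          simp only [hw, this, mul_zero, add_zero]
        · have : 0 < w x := (mul_pos (by linarith) hx0).trans_le (hlow x)
          rw [pos_of_pos this, pos_of_pos hx0]
      unfold eD
      rw [hpos, sub_self, add_zero, hx, norm_add_sq_real, inner_smul_right, norm_smul, mul_pow,
        Real.norm_eq_abs, sq_abs]
      ring
    rw [heq, integral_add (hI.const_mul _) (hS.const_mul _), integral_const_mul,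
      integral_const_mul, ← hA, ← hB] at h1
    exact h1
  -- both signs of small `t`
  have hlim : Tendsto (fun n : ℕ => (1 / ((n:ℝ) + 1))) atTop (𝓝 0) :=
    tendsto_one_div_add_atTop_nhds_zero_nat
  have hsmall : ∀ᶠ n : ℕ in atTop, (1 / ((n:ℝ) + 1)) * C' < 1 := by
    have h1 := hlim.mul_const C'
    rw [zero_mul] at h1
    exact h1.eventually (gt_mem_nhds one_pos)
  have hle : -(2 * A) ≤ 0 := by
    have h2 := hlim.mul_const B
    rw [zero_mul] at h2
    refine ge_of_tendsto h2 ?_
    filter_upwards [hsmall] with n hn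
    have ht : (0:ℝ) < 1 / ((n:ℝ) + 1) := by positivity
    have h3 := key (1 / ((n:ℝ) + 1)) (by rwa [abs_of_pos ht])
    have h4 : 0 ≤ (1 / ((n:ℝ) + 1)) * (2 * A + (1 / ((n:ℝ) + 1)) * B) := by nlinarith
    have h5 := nonneg_of_mul_nonneg_right h4 ht
    linarith
  have hge : 2 * A ≤ 0 := by
    have h2 := hlim.mul_const B
    rw [zero_mul] at h2
    refine ge_of_tendsto h2 ?_
    filter_upwards [hsmall] with n hn
    have ht : (0:ℝ) < 1 / ((n:ℝ) + 1) := by positivity
    have h3 := key (-(1 / ((n:ℝ) + 1))) (by rwa [abs_neg, abs_of_pos ht])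
    have h4 : 0 ≤ (1 / ((n:ℝ) + 1)) * (-(2 * A) + (1 / ((n:ℝ) + 1)) * B) := by nlinarith
    have h5 := nonneg_of_mul_nonneg_right h4 ht
    linarith
  linarith

/-- product of a compactly supported Lipschitz function and a Lipschitz function -/
lemma lip_mul_of_compact {K L : ℝ≥0} {u η : E d → ℝ} (hu : LipschitzWith K u)
    (hη : LipschitzWith L η) (hc : HasCompactSupport η) :
    ∃ M : ℝ≥0, LipschitzWith M (fun x => η x * u x) := by
  obtain ⟨M, hM⟩ := hc.isCompact.exists_bound_of_continuousOn hu.continuous.continuousOn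
  obtain ⟨N, hN⟩ := hc.exists_bound_of_continuous hη.continuous
  have hN0 : 0 ≤ N := (norm_nonneg _).trans (hN 0)
  set M' : ℝ := max M 0 with hM'
  have hM'0 : 0 ≤ M' := le_max_right _ _
  have hMle : ∀ x ∈ tsupport η, |u x| ≤ M' := fun x hx => (hM x hx).trans (le_max_left _ _)
  refine ⟨⟨L * M' + N * K, by positivity⟩, LipschitzWith.of_dist_le_mul fun x y => ?_⟩
  -- one of the two points in the support
  have hone : ∀ x y : E d, x ∈ tsupport η →
      |η x * u x - η y * u y| ≤ (L * M' + N * K) * dist x y := by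
    intro x y hx
    have h1 : η x * u x - η y * u y = (η x - η y) * u x + η y * (u x - u y) := by ring
    rw [h1]
    refine (abs_add_le _ _).trans ?_
    rw [abs_mul, abs_mul, add_mul]
    have h2 : |η x - η y| ≤ L * dist x y := by
      have := hη.dist_le_mul x y; rwa [Real.dist_eq] at this
    have h3 : |u x - u y| ≤ K * dist x y := by
      have := hu.dist_le_mul x y; rwa [Real.dist_eq] at this
    refine add_le_add ?_ ?_
    · calc |η x - η y| * |u x| ≤ (L * dist x y) * M' :=
            mul_le_mul h2 (hMle x hx) (abs_nonneg _) (by positivity)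
        _ = L * M' * dist x y := by ring
    · calc |η y| * |u x - u y| ≤ N * (K * dist x y) :=
            mul_le_mul (hN y) h3 (abs_nonneg _) hN0
        _ = N * K * dist x y := by ring
  rw [Real.dist_eq]
  show |η x * u x - η y * u y| ≤ (L * M' + N * K) * dist x y
  by_cases hx : x ∈ tsupport η
  · exact hone x y hx
  · by_cases hy : y ∈ tsupport η
    · rw [abs_sub_comm, dist_comm]; exact hone y x hy
    · rw [image_eq_zero_of_notMem_tsupport hx, image_eq_zero_of_notMem_tsupport hy]
      simp only [zero_mul, sub_self, abs_zero]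
      positivity

/-- `∫ ∇u·∇(η u) = 0` (competitor `u (1 + t η)`) -/
theorem LM.eta {K : ℝ≥0} {u : E d → ℝ} (hu : LM u K) {η : E d → ℝ} {L : ℝ≥0} (hη : LipschitzWith L η)
    (hc : HasCompactSupport η) : ∫ x, (η x * ‖∇ u x‖ ^ 2 + u x * inner ℝ (∇ u x) (∇ η x)) = 0 := by
  obtain ⟨M, hM⟩ := lip_mul_of_compact hu.lip hη hc
  obtain ⟨N, hN⟩ := hc.exists_bound_of_continuous hη.continuous
  have h1 := hu.orth hM (hc.mul_right) (C := N) (fun x => by
    rw [abs_mul, abs_of_nonneg (hu.nonneg x)]
    exact mul_le_mul_of_nonneg_right (hN x) (hu.nonneg x))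
  rw [← h1]
  refine integral_congr_ae ?_
  filter_upwards [hu.lip.ae_differentiableAt, hη.ae_differentiableAt] with x h2 h3
  have h4 : ∇ (fun x => η x * u x) x = η x • ∇ u x + u x • ∇ η x := by
    have : fderiv ℝ (fun x => η x * u x) x = η x • fderiv ℝ u x + u x • fderiv ℝ η x :=
      fderiv_fun_mul h3 h2
    simp only [gradient, this, map_add, map_smul]
  rw [h4, inner_add_right, inner_smul_right, inner_smul_right, real_inner_self_eq_norm_sq]

/-- `u` is harmonic where it is positive -/
theorem LM.harm {K : ℝ≥0} {u : E d → ℝ} (hu : LM u K) : Harm u {x | 0 < u x} := by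
  have hU : IsOpen {x | 0 < u x} := isOpen_lt continuous_const hu.lip.continuous
  refine weyl_cont hU hu.lip.continuous.continuousOn fun φ hφ hφc hsub => ?_
  have hφ1 : ContDiff ℝ 1 φ := hφ.of_le (by exact_mod_cast le_top)
  have hφ2 : ContDiff ℝ 2 φ := contDiff_infty.1 hφ 2
  obtain ⟨L, hL⟩ := lip_of_contDiff_compact hφ1 hφc
  -- lower bound for `u` on the support
  obtain ⟨c, hc0, hcle⟩ : ∃ c : ℝ, 0 < c ∧ ∀ x ∈ tsupport φ, c ≤ u x := by
    rcases (tsupport φ).eq_empty_or_nonempty with h | h
    · exact ⟨1, one_pos, fun x hx => by rw [h] at hx; exact absurd hx (notMem_empty x)⟩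
    · obtain ⟨x0, hx0, hmin⟩ := hφc.isCompact.exists_isMinOn h hu.lip.continuous.continuousOn
      exact ⟨u x0, hsub hx0, fun x hx => hmin hx⟩
  obtain ⟨N, hN⟩ := hφc.exists_bound_of_continuous hφ.continuous
  have hN0 : 0 ≤ N := (norm_nonneg _).trans (hN 0)
  have horth := hu.orth hL hφc (C := N / c) (fun x => by
    by_cases hx : x ∈ tsupport φ
    · calc |φ x| ≤ N := hN x
        _ = N / c * c := by field_simp
        _ ≤ N / c * u x := mul_le_mul_of_nonneg_left (hcle x hx) (by positivity)
    · rw [image_eq_zero_of_notMem_tsupport hx, abs_zero]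
      exact mul_nonneg (by positivity) (hu.nonneg x))
  -- Green's formula with the cut off function
  obtain ⟨χ, hχ, hχc, -, -, hχ1⟩ := exists_cutoff hφc.isCompact isOpen_univ (subset_univ _)
  obtain ⟨Lχ, hLχ⟩ := lip_of_contDiff_compact (hχ.of_le (by exact_mod_cast le_top)) hχc
  obtain ⟨M, hM⟩ := lip_mul_of_compact hu.lip hLχ hχc
  have hgreen := green1 hφ2 hM hχc.mul_right
  have e1 : ∫ x, fderiv ℝ (fun x => χ x * u x) x (∇ φ x) = ∫ x, inner ℝ (∇ u x) (∇ φ x) := by
    refine integral_congr_ae (Eventually.of_forall fun x => ?_)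
    by_cases hx : x ∈ tsupport φ
    · have h1 : (fun x => χ x * u x) =ᶠ[𝓝 x] u := by
        filter_upwards [hχ1 x hx] with y hy
        rw [hy, one_mul]
      simp only [h1.fderiv_eq, inner_gradient]
    · simp only [grad_eq_zero_of_notMem hx, map_zero, inner_zero_right]
  have e2 : ∫ x, (χ x * u x) * (Δ φ) x = ∫ x, u x * (Δ φ) x := by
    refine integral_congr_ae (Eventually.of_forall fun x => ?_)
    by_cases hx : x ∈ tsupport φ
    · simp only [(hχ1 x hx).self_of_nhds, one_mul]
    · have h1 : (Δ φ) x = 0 := by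
        have h2 : φ =ᶠ[𝓝 x] fun _ => 0 := by
          rw [notMem_tsupport_iff_eventuallyEq] at hx
          exact hx
        have h3 := InnerProductSpace.laplacian_congr_nhds h2
        rw [h3.self_of_nhds]
        simp
      simp only [h1, mul_zero]
  rw [e1, e2, horth] at hgreen
  linarith

/-- sub-mean value property -/
theorem LM.submvp {K : ℝ≥0} {u : E d → ℝ} (hu : LM u K) (x : E d) {r : ℝ} (hr : 0 < r) :
    u x ≤ ⨍ y in ball x r, u y :=
  submvp_lip hu.lip (fun _ _ h1 h2 h3 => hu.sub h1 h2 h3) x hr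

end Crest.Agent.R097
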