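import Crest.Agent.R097.Lip

/-! B2: inner variations (domain variations) of Lipschitz minimisers. -/
set_option autoImplicit false
open MeasureTheory Metric Set Filter Topology
open scoped NNReal RealInnerProductSpace Gradient ContDiff Laplacian

namespace Crest.Agent.R097

section abs
variable {R : Type*} [NormedRing R] [NormedAlgebra ℝ R] [CompleteSpace R] [StarRing R] [ContinuousStar R]
  [StarModule ℝ R]

omit [StarRing R] [ContinuousStar R] [StarModule ℝ R] in
theorem hasFDerivAt_inv_one_abs :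
    HasFDerivAt (fun s : R => Ring.inverse (1 + s)) (-ContinuousLinearMap.id ℝ R) 0 := by
  have h : HasFDerivAt (Ring.inverse : R → R) (-ContinuousLinearMap.id ℝ R) (1 + 0) := by
    have h0 := hasFDerivAt_ringInverse (𝕜 := ℝ) (1 : Rˣ)
    rw [add_zero]
    refine h0.congr_fderiv ?_
    ext s
    simp
  exact (h.comp (0 : R) ((hasFDerivAt_id (0 : R)).const_add 1)).congr_fderiv (by
    ext s; rfl)

theorem A_expand_abs (dt : R → ℝ) (T : R →L[ℝ] ℝ) (h1 : HasFDerivAt (fun s => dt (1 + s)) T 0) (h0 : dt 1 = 1)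
    {ε : ℝ} (hε : 0 < ε) : ∃ δ : ℝ, 0 < δ ∧ ∀ s : R, ‖s‖ ≤ δ →
    ‖dt (1 + s) • (Ring.inverse (1 + s) * star (Ring.inverse (1 + s))) - 1 - (T s • 1 - s - star s)‖ ≤ ε * ‖s‖ ∧
      |dt (1 + s) - 1 - T s| ≤ ε * ‖s‖ := by
  have h2 := hasFDerivAt_inv_one_abs (R := R)
  have h3 : HasFDerivAt (fun s : R => star (Ring.inverse (1 + s)))
      (((starL' ℝ : R ≃L[ℝ] R) : R →L[ℝ] R).comp (-ContinuousLinearMap.id ℝ R)) 0 := h2.star
  have h5 : HasFDerivAt (fun s : R => dt (1 + s) • (Ring.inverse (1 + s) * star (Ring.inverse (1 + s))))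
      (T.smulRight (1 : R) - ContinuousLinearMap.id ℝ R - ((starL' ℝ : R ≃L[ℝ] R) : R →L[ℝ] R)) 0 := by
    refine (h1.smul (h2.mul' h3)).congr_fderiv ?_
    ext s
    simp [h0]
    abel
  rw [hasFDerivAt_iff_isLittleO_nhds_zero] at h5 h1
  have h6 := h5.bound hε
  have h7 := h1.bound hε
  obtain ⟨δ, hδ, h8⟩ := Metric.eventually_nhds_iff_ball.1 (h6.and h7)
  refine ⟨δ / 2, by positivity, fun s hs => ?_⟩
  obtain ⟨h9, h10⟩ := h8 s (by rw [mem_ball_zero_iff]; linarith)
  constructor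
  · simpa [h0] using h9
  · simpa [h0] using h10

end abs

variable {d : ℕ}

/-- continuous trace -/
noncomputable def trL (d : ℕ) : (E d →L[ℝ] E d) →L[ℝ] ℝ :=
  LinearMap.toContinuousLinearMap
    ((LinearMap.trace ℝ (E d)).comp (ContinuousLinearMap.coeLM ℝ : (E d →L[ℝ] E d) →ₗ[ℝ] (E d →ₗ[ℝ] E d)))

theorem trL_apply (s : E d →L[ℝ] E d) : trL d s = LinearMap.trace ℝ (E d) (s : E d →ₗ[ℝ] E d) := rfl

theorem det_eq_matrix (s : E d →L[ℝ] E d) :
    s.det = (LinearMap.toMatrix (EuclideanSpace.basisFun (Fin d) ℝ).toBasis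
      (EuclideanSpace.basisFun (Fin d) ℝ).toBasis (s : E d →ₗ[ℝ] E d)).det := by
  rw [LinearMap.det_toMatrix]

theorem differentiable_det : Differentiable ℝ (fun s : E d →L[ℝ] E d => s.det) := by
  have h : (fun s : E d →L[ℝ] E d => s.det) = fun s => ∑ σ : Equiv.Perm (Fin d),
      ((Equiv.Perm.sign σ : ℤ) : ℝ) * ∏ i, (s ((EuclideanSpace.basisFun (Fin d) ℝ).toBasis i)) (σ i) := by
    ext s
    rw [det_eq_matrix, Matrix.det_apply']
    simp [LinearMap.toMatrix_apply]
  rw [h]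
  fun_prop

theorem hasFDerivAt_det_one : HasFDerivAt (fun s : E d →L[ℝ] E d => (1 + s).det) (trL d) 0 := by
  have h1 : DifferentiableAt ℝ (fun s : E d →L[ℝ] E d => (1 + s).det) 0 :=
    (differentiable_det (d := d)).differentiableAt.comp (0 : E d →L[ℝ] E d)
      ((differentiableAt_const _).add differentiableAt_id)
  have h2 : fderiv ℝ (fun s : E d →L[ℝ] E d => (1 + s).det) 0 = trL d := by
    ext s
    have h3 : HasDerivAt (fun t : ℝ => (1 + t • s : E d →L[ℝ] E d).det)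
        (fderiv ℝ (fun s : E d →L[ℝ] E d => (1 + s).det) 0 s) 0 := by
      have h30 : HasDerivAt (fun t : ℝ => t • s) s 0 := by
        simpa using (hasDerivAt_id (0 : ℝ)).smul_const s
      have h31 : HasFDerivAt (fun s : E d →L[ℝ] E d => (1 + s).det)
          (fderiv ℝ (fun s : E d →L[ℝ] E d => (1 + s).det) 0) ((0 : ℝ) • s) := by
        have e0 : (0 : ℝ) • s = 0 := zero_smul ℝ s
        rw [e0]; exact h1.hasFDerivAt
      exact h31.comp_hasDerivAt (0 : ℝ) h30
    set b := (EuclideanSpace.basisFun (Fin d) ℝ).toBasis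
    set M := LinearMap.toMatrix b b (s : E d →ₗ[ℝ] E d) with hM
    have h4 : ∀ t : ℝ, (1 + t • s : E d →L[ℝ] E d).det = 1 + M.trace * t +
        (Matrix.det (1 + (Polynomial.X : Polynomial ℝ) • M.map Polynomial.C)).divX.divX.eval t * t ^ 2 := by
      intro t
      rw [det_eq_matrix, ← Matrix.det_one_add_smul]
      congr 1
      simp [hM, b, LinearMap.toMatrix_one]
    have h5 : HasDerivAt (fun t : ℝ => (1 + t • s : E d →L[ℝ] E d).det) M.trace 0 := by
      have hp := ((Matrix.det (1 + (Polynomial.X : Polynomial ℝ) • M.map Polynomial.C)).divX.divX).hasDerivAt (0 : ℝ)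
      have h6 := (((hasDerivAt_id (0 : ℝ)).const_mul M.trace).const_add 1).add (hp.mul ((hasDerivAt_id (0:ℝ)).pow 2))
      refine (h6.congr_deriv (by simp)).congr_of_eventuallyEq (Eventually.of_forall fun t => ?_)
      simp [h4 t]
    rw [h3.unique h5, trL_apply, LinearMap.trace_eq_matrix_trace ℝ b]
  rw [← h2]
  exact h1.hasFDerivAt

/-- expansion of `det (1+s) ‖((1+s)⁻¹)† p‖²` and of `det (1+s)` -/
theorem A_expand (d : ℕ) {ε : ℝ} (hε : 0 < ε) : ∃ δ : ℝ, 0 < δ ∧ ∀ s : E d →L[ℝ] E d, ‖s‖ ≤ δ →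
    (∀ p : E d, |(1 + s).det * ‖star (Ring.inverse (1 + s)) p‖ ^ 2 - ‖p‖ ^ 2 -
      (trL d s * ‖p‖ ^ 2 - 2 * inner ℝ p (s p))| ≤ ε * ‖s‖ * ‖p‖ ^ 2) ∧
    |(1 + s).det - 1 - trL d s| ≤ ε * ‖s‖ := by
  obtain ⟨δ, hδ, h⟩ := A_expand_abs (R := E d →L[ℝ] E d) (fun s => s.det) (trL d) hasFDerivAt_det_one
    (by simp [ContinuousLinearMap.det]) hε
  refine ⟨δ, hδ, fun s hs => ⟨fun p => ?_, (h s hs).2⟩⟩
  have h1 := (h s hs).1
  set B : E d →L[ℝ] E d := Ring.inverse (1 + s) with hB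
  set D : ℝ := (1 + s).det with hD
  set Rm : E d →L[ℝ] E d := D • (B * star B) - 1 - (trL d s • 1 - s - star s) with hR
  have h2 : inner ℝ p (Rm p) = D * ‖star B p‖ ^ 2 - ‖p‖ ^ 2 - (trL d s * ‖p‖ ^ 2 - 2 * inner ℝ p (s p)) := by
    have e1 : Rm p = D • (B (star B p)) - p - (trL d s • p - s p - star s p) := by
      simp [hR]
    rw [e1]
    simp only [inner_sub_right, inner_smul_right]
    have e2 : inner ℝ p (B (star B p)) = ‖star B p‖ ^ 2 := by
      rw [← real_inner_self_eq_norm_sq, ContinuousLinearMap.star_eq_adjoint,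
        ContinuousLinearMap.adjoint_inner_left]
    have e3 : inner ℝ p (star s p) = inner ℝ p (s p) := by
      rw [ContinuousLinearMap.star_eq_adjoint, ContinuousLinearMap.adjoint_inner_right, real_inner_comm]
    rw [e2, e3, real_inner_self_eq_norm_sq]
    ring
  rw [← h2]
  calc |inner ℝ p (Rm p)| ≤ ‖p‖ * ‖Rm p‖ := abs_real_inner_le_norm _ _
    _ ≤ ‖p‖ * (‖Rm‖ * ‖p‖) := by gcongr; exact Rm.le_opNorm p
    _ ≤ ‖p‖ * ((ε * ‖s‖) * ‖p‖) := by gcongr
    _ = ε * ‖s‖ * ‖p‖ ^ 2 := by ring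

theorem flow_exists {X : E d → E d} {C : ℝ≥0} (hL : LipschitzWith C X) {t : ℝ} (ht : |t| * C ≤ 1 / 2) :
    ∃ Φ : E d ≃ₜ E d, (∀ x, Φ x = x + t • X x) ∧ LipschitzWith 2 Φ.symm := by
  have h1 : ApproximatesLinearOn (fun x => x + t • X x)
      ((ContinuousLinearEquiv.refl ℝ (E d) : E d ≃L[ℝ] E d) : E d →L[ℝ] E d) univ (‖t‖₊ * C) := by
    intro x _ y _
    have : x + t • X x - (y + t • X y) - ((ContinuousLinearEquiv.refl ℝ (E d) : E d ≃L[ℝ] E d) : E d →L[ℝ] E d) (x - y)
        = t • (X x - X y) := by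
      simp [smul_sub]; abel
    rw [this, norm_smul]
    have h2 := hL.dist_le_mul x y
    rw [dist_eq_norm, dist_eq_norm] at h2
    push_cast
    rw [mul_assoc]
    gcongr
  have hc : Subsingleton (E d) ∨ (‖t‖₊ * C) <
      ‖((ContinuousLinearEquiv.refl ℝ (E d)).symm : E d →L[ℝ] E d)‖₊⁻¹ := by
    rcases subsingleton_or_nontrivial (E d) with h | h
    · exact Or.inl h
    · right
      have : ‖((ContinuousLinearEquiv.refl ℝ (E d)).symm : E d →L[ℝ] E d)‖₊ = 1 := by
        have : ((ContinuousLinearEquiv.refl ℝ (E d)).symm : E d →L[ℝ] E d) = ContinuousLinearMap.id ℝ (E d) := rfl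
        rw [this]; ext; simp
      rw [this, inv_one, ← NNReal.coe_lt_coe]
      push_cast
      rw [Real.norm_eq_abs]; linarith
  refine ⟨h1.toHomeomorph _ hc, fun x => rfl, ?_⟩
  set Φ := h1.toHomeomorph _ hc with hΦ
  have hΦ' : ∀ x, Φ x = x + t • X x := fun x => rfl
  refine LipschitzWith.of_dist_le_mul fun y y' => ?_
  obtain ⟨x, rfl⟩ := Φ.surjective y
  obtain ⟨x', rfl⟩ := Φ.surjective y'
  rw [Φ.symm_apply_apply, Φ.symm_apply_apply, hΦ', hΦ', dist_eq_norm, dist_eq_norm]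
  have h2 := hL.dist_le_mul x x'
  rw [dist_eq_norm, dist_eq_norm] at h2
  have h3 : ‖x - x'‖ ≤ ‖x + t • X x - (x' + t • X x')‖ + ‖t • (X x - X x')‖ := by
    have : x - x' = (x + t • X x - (x' + t • X x')) - t • (X x - X x') := by
      rw [smul_sub]; abel
    nth_rw 1 [this]
    exact norm_sub_le _ _
  rw [norm_smul, Real.norm_eq_abs] at h3
  have h4 : |t| * ‖X x - X x'‖ ≤ 1 / 2 * ‖x - x'‖ := by
    calc |t| * ‖X x - X x'‖ ≤ |t| * (C * ‖x - x'‖) := by gcongr
      _ = (|t| * C) * ‖x - x'‖ := by ring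
      _ ≤ 1 / 2 * ‖x - x'‖ := by gcongr
  push_cast
  linarith

theorem flow_deriv {X : E d → E d} {t : ℝ} (Φ : E d ≃ₜ E d) (hΦ : ∀ x, Φ x = x + t • X x) {x : E d}
    (hX : DifferentiableAt ℝ X x) (hs : ‖t • fderiv ℝ X x‖ < 1) :
    HasFDerivAt Φ (1 + t • fderiv ℝ X x) x ∧
    HasFDerivAt Φ.symm (Ring.inverse (1 + t • fderiv ℝ X x)) (Φ x) := by
  have h1 : HasFDerivAt Φ (1 + t • fderiv ℝ X x) x := by
    have : (Φ : E d → E d) = fun x => x + t • X x := funext hΦ
    rw [this]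
    exact (hasFDerivAt_id x).add (hX.hasFDerivAt.const_smul t)
  refine ⟨h1, ?_⟩
  obtain ⟨U, hU⟩ : IsUnit (1 + t • fderiv ℝ X x) := by
    have := (Units.oneSub (-(t • fderiv ℝ X x)) (by rwa [norm_neg])).isUnit
    simpa using this
  have h2 : HasFDerivAt Φ ((ContinuousLinearEquiv.unitsEquiv ℝ (E d) U : E d ≃L[ℝ] E d) : E d →L[ℝ] E d) (Φ.symm (Φ x)) := by
    rw [Φ.symm_apply_apply]
    exact h1.congr_fderiv hU.symm
  have h3 := HasFDerivAt.of_local_left_inverse (g := Φ.symm) Φ.symm.continuous.continuousAt h2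
    (Eventually.of_forall fun y => Φ.apply_symm_apply y)
  rw [← hU, Ring.inverse_unit]
  exact h3


theorem dv_eq_trL {X : E d → E d} (x : E d) : dv X x = trL d (fderiv ℝ X x) := by
  rw [trL_apply, LinearMap.trace_eq_matrix_trace ℝ (EuclideanSpace.basisFun (Fin d) ℝ).toBasis, dv, Matrix.trace]
  refine Finset.sum_congr rfl fun i _ => ?_
  rw [Matrix.diag_apply, LinearMap.toMatrix_apply]
  simp [bv]

theorem gradient_inner (f : E d → ℝ) (x v : E d) : inner ℝ (∇ f x) v = fderiv ℝ f x v := by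
  simp [gradient]

/-- the energy density -/
noncomputable def gE (u : E d → ℝ) (x : E d) : ℝ := ‖∇ u x‖ ^ 2 + pos (u x)

theorem gE_bound {K : ℝ≥0} {u : E d → ℝ} (hu : LipschitzWith K u) (x : E d) : ‖gE u x‖ ≤ (K : ℝ) ^ 2 + 1 := by
  have h1 := norm_grad_le hu x
  have h2 := pos_nonneg (u x)
  have h3 := pos_le_one (u x)
  have h4 : ‖∇ u x‖ ^ 2 ≤ (K : ℝ) ^ 2 := pow_le_pow_left₀ (norm_nonneg _) h1 2
  rw [Real.norm_eq_abs, abs_of_nonneg (by unfold gE; positivity)]
  unfold gE; linarith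

theorem gE_meas {u : E d → ℝ} (hu : Continuous u) : Measurable (gE u) :=
  ((measurable_grad u).norm.pow_const 2).add (measurable_pos.comp hu.measurable)

theorem gE_integrableOn {K : ℝ≥0} {u : E d → ℝ} (hu : LipschitzWith K u) {S : Set (E d)} (hS : volume S < ⊤) :
    IntegrableOn (gE u) S :=
  Measure.integrableOn_of_bounded (M := (K : ℝ) ^ 2 + 1) hS.ne (gE_meas hu.continuous).aestronglyMeasurable
    (Eventually.of_forall fun x => gE_bound hu x)

/-- the integrand of the first inner variation -/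
noncomputable def iI (u : E d → ℝ) (X : E d → E d) (x : E d) : ℝ :=
  (‖∇ u x‖ ^ 2 + pos (u x)) * dv X x - 2 * inner ℝ (∇ u x) (fderiv ℝ X x (∇ u x))

theorem iI_meas {u : E d → ℝ} (hu : Continuous u) {X : E d → E d} (hX : ContDiff ℝ 1 X) : Measurable (iI u X) := by
  have h1 : Continuous fun x => fderiv ℝ X x := hX.continuous_fderiv (by norm_num)
  have h2 : Continuous fun x => dv X x := by
    simp_rw [dv_eq_trL]
    exact (trL d).continuous.comp h1
  have h3 : Measurable fun x => fderiv ℝ X x (∇ u x) := by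
    have : Continuous fun p : (E d →L[ℝ] E d) × E d => p.1 p.2 := by fun_prop
    exact this.measurable.comp (h1.measurable.prodMk (measurable_grad u))
  exact ((gE_meas hu).mul h2.measurable).sub (((measurable_grad u).inner h3).const_mul 2)

theorem inner_aux {K : ℝ≥0} {u : E d → ℝ} (hu : LM u K) {X : E d → E d} (hX : ContDiff ℝ 1 X)
    (hc : HasCompactSupport X) {C : ℝ≥0} (hC : LipschitzWith C X) {ε : ℝ} (hε : 0 < ε) :
    ∃ t₀ : ℝ, 0 < t₀ ∧ ∀ t : ℝ, |t| ≤ t₀ →
      -(ε * |t| * (C * ((K : ℝ) ^ 2 + 1) * (volume (tsupport X)).toReal)) ≤ t * ∫ x in tsupport X, iI u X x := by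
  obtain ⟨δ, hδ, hA⟩ := A_expand d hε
  set T : ℝ := ‖trL d‖ with hT
  have hT0 : 0 ≤ T := ContinuousLinearMap.opNorm_nonneg _
  set S := tsupport X with hS
  have hSc : IsCompact S := hc.isCompact
  have hSm : MeasurableSet S := hSc.measurableSet
  have hSf : volume S < ⊤ := hSc.measure_lt_top
  have hDC : ∀ x, ‖fderiv ℝ X x‖ ≤ C := fun x => norm_fderiv_le_of_lipschitz ℝ hC
  refine ⟨min (δ / (C + 1)) (1 / (2 * (C + 1) * (1 + ε + T))), by positivity, fun t ht => ?_⟩
  have hC0 : (0 : ℝ) ≤ C := C.2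
  have ht1 : |t| * (C + 1) ≤ δ := by
    have := ht.trans (min_le_left _ _)
    rwa [le_div_iff₀ (by positivity)] at this
  have ht2 : |t| * (C + 1) * (1 + ε + T) ≤ 1 / 2 := by
    have := ht.trans (min_le_right _ _)
    rw [le_div_iff₀ (by positivity)] at this
    nlinarith
  have ht3 : |t| * C ≤ |t| * (C + 1) := by gcongr; linarith
  have ht4 : |t| * (C + 1) ≤ 1 / 2 := by
    have h0 : 0 ≤ |t| * (C + 1) := by positivity
    nlinarith
  have hs : ∀ x, ‖t • fderiv ℝ X x‖ ≤ |t| * C := fun x => by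
    rw [norm_smul, Real.norm_eq_abs]; gcongr; exact hDC x
  obtain ⟨Φ, hΦ, hΦL⟩ := flow_exists hC (ht3.trans ht4)
  have hΦS : ∀ x ∉ S, Φ x = x := fun x hx => by
    rw [hΦ, image_eq_zero_of_notMem_tsupport hx, smul_zero, add_zero]
  have hΦS' : ∀ x ∉ S, Φ.symm x = x := fun x hx => by
    conv_lhs => rw [← hΦS x hx]
    exact Φ.symm_apply_apply x
  have himg : Φ '' S = S := by
    apply Subset.antisymm
    · rintro _ ⟨x, hx, rfl⟩
      by_contra h
      have h1 := hΦS' _ h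
      rw [Φ.symm_apply_apply] at h1
      rw [← h1] at h
      exact h hx
    · intro y hy
      refine ⟨Φ.symm y, ?_, Φ.apply_symm_apply y⟩
      by_contra h
      have h1 := hΦS _ h
      rw [Φ.apply_symm_apply] at h1
      rw [← h1] at h
      exact h hy
  set w : E d → ℝ := fun y => u (Φ.symm y) with hw
  have hwL : LipschitzWith (K * 2) w := hu.lip.comp hΦL
  have hw0 : ∀ x, 0 ≤ w x := fun x => hu.nonneg _
  have hwu : Function.support (fun x => w x - u x) ⊆ S := by
    intro x hx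
    by_contra h
    apply hx
    simp only [hw]
    rw [hΦS' x h, sub_self]
  have hwu' : tsupport (fun x => w x - u x) ⊆ S := closure_minimal hwu hSc.isClosed
  have hwc : HasCompactSupport (fun x => w x - u x) :=
    hSc.of_isClosed_subset (isClosed_tsupport _) hwu'
  have hJ : 0 ≤ dJ w u := hu.dJ_nonneg hwL hw0 hwc
  have hJ1 : dJ w u = ∫ x in S, eD w u x := by
    unfold dJ
    rw [setIntegral_eq_integral_of_forall_compl_eq_zero]
    intro x hx
    exact eD_zero (fun h => hx (hwu' h))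
  have hJ2 : (∫ x in S, eD w u x) = (∫ x in S, gE w x) - ∫ x in S, gE u x := by
    rw [← integral_sub (gE_integrableOn hwL hSf) (gE_integrableOn hu.lip hSf)]
    refine integral_congr_ae (Eventually.of_forall fun x => ?_)
    simp only [eD, gE]; ring
  have hdiff : Differentiable ℝ X := hX.differentiable (by norm_num)
  have hlt : ∀ x, ‖t • fderiv ℝ X x‖ < 1 := fun x => by
    have := hs x; linarith
  have hder : ∀ x ∈ S, HasFDerivWithinAt Φ (1 + t • fderiv ℝ X x) S x := fun x _ =>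
    (flow_deriv Φ hΦ (hdiff x) (hlt x)).1.hasFDerivWithinAt
  have hJ3 : (∫ x in S, gE w x) = ∫ x in S, |(1 + t • fderiv ℝ X x).det| • gE w (Φ x) := by
    conv_lhs => rw [← himg]
    exact integral_image_eq_integral_abs_det_fderiv_smul volume hSm hder Φ.injective.injOn (gE w)
  have hint : IntegrableOn (fun x => |(1 + t • fderiv ℝ X x).det| • gE w (Φ x)) S := by
    rw [← integrableOn_image_iff_integrableOn_abs_det_fderiv_smul volume hSm hder Φ.injective.injOn (gE w), himg]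
    exact gE_integrableOn hwL hSf
  have hintI : IntegrableOn (iI u X) S := by
    refine Measure.integrableOn_of_bounded (M := ((K : ℝ) ^ 2 + 1) * (T * C) + 2 * (K * (C * K))) hSf.ne
      (iI_meas hu.lip.continuous hX).aestronglyMeasurable (Eventually.of_forall fun x => ?_)
    have h1 := norm_grad_le hu.lip x
    have h2 : |dv X x| ≤ T * C := by
      rw [dv_eq_trL]
      exact ((trL d).le_opNorm _).trans (by gcongr; exact hDC x)
    have h3 : |inner ℝ (∇ u x) (fderiv ℝ X x (∇ u x))| ≤ K * (C * K) := by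
      refine (abs_real_inner_le_norm _ _).trans ?_
      have : ‖fderiv ℝ X x (∇ u x)‖ ≤ C * K :=
        ((fderiv ℝ X x).le_opNorm _).trans (mul_le_mul (hDC x) h1 (norm_nonneg _) hC0)
      exact mul_le_mul h1 this (norm_nonneg _) K.2
    have h4 := gE_bound hu.lip x
    rw [Real.norm_eq_abs]
    unfold iI
    refine (abs_sub _ _).trans ?_
    rw [abs_mul, abs_mul, abs_two]
    have h5 : |‖∇ u x‖ ^ 2 + pos (u x)| ≤ (K : ℝ) ^ 2 + 1 := h4
    gcongr
  have hpt : ∀ᵐ x ∂(volume.restrict S),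
      ‖|(1 + t • fderiv ℝ X x).det| • gE w (Φ x) - gE u x - t * iI u X x‖ ≤ ε * |t| * (C * ((K : ℝ) ^ 2 + 1)) := by
    refine ae_restrict_of_ae ?_
    filter_upwards [hu.lip.ae_differentiableAt] with x hx
    set s : E d →L[ℝ] E d := t • fderiv ℝ X x with hsdef
    have hsn : ‖s‖ ≤ δ := (hs x).trans (ht3.trans ht1)
    obtain ⟨hA1, hA2⟩ := hA s hsn
    have hA1' := hA1 (∇ u x)
    have hTs : |trL d s| ≤ T * ‖s‖ := (trL d).le_opNorm s
    have hsC := hs x
    rw [← hsdef] at hsC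
    have hs0 : 0 ≤ ‖s‖ := norm_nonneg _
    have hdet : 0 < (1 + s).det := by
      have h1 : (1 + s).det ≥ 1 - (ε + T) * ‖s‖ := by
        have := abs_le.1 hA2
        have := abs_le.1 hTs
        nlinarith
      have h2 : (ε + T) * ‖s‖ ≤ 1 / 2 := by
        calc (ε + T) * ‖s‖ ≤ (1 + ε + T) * (|t| * (C + 1)) := by
              apply mul_le_mul (by linarith) (by linarith) hs0 (by positivity)
          _ ≤ 1 / 2 := by linarith
      linarith
    have hwx : w (Φ x) = u x := by simp only [hw]; rw [Φ.symm_apply_apply]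
    have hgw : ∇ w (Φ x) = star (Ring.inverse (1 + s)) (∇ u x) := by
      refine ext_inner_right ℝ fun v => ?_
      rw [gradient_inner, ContinuousLinearMap.star_eq_adjoint, ContinuousLinearMap.adjoint_inner_left,
        gradient_inner]
      have h1 := (flow_deriv Φ hΦ (hdiff x) (hlt x)).2
      have h2 : HasFDerivAt u (fderiv ℝ u x) (Φ.symm (Φ x)) := by
        rw [Φ.symm_apply_apply]; exact hx.hasFDerivAt
      have h3 := h2.comp (Φ x) h1
      have h4 : fderiv ℝ w (Φ x) = (fderiv ℝ u x).comp (Ring.inverse (1 + t • fderiv ℝ X x)) := h3.fderiv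
      rw [h4]; rfl
    have hexp : |(1 + s).det| • gE w (Φ x) - gE u x - t * iI u X x =
        ((1 + s).det * ‖star (Ring.inverse (1 + s)) (∇ u x)‖ ^ 2 - ‖∇ u x‖ ^ 2 -
          (trL d s * ‖∇ u x‖ ^ 2 - 2 * inner ℝ (∇ u x) (s (∇ u x)))) +
        ((1 + s).det - 1 - trL d s) * pos (u x) := by
      rw [abs_of_pos hdet, smul_eq_mul]
      unfold gE iI
      rw [hgw, hwx, dv_eq_trL]
      have e1 : trL d s = t * trL d (fderiv ℝ X x) := by rw [hsdef, map_smul, smul_eq_mul]
      have e2 : inner ℝ (∇ u x) (s (∇ u x)) = t * inner ℝ (∇ u x) (fderiv ℝ X x (∇ u x)) := by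
        rw [hsdef]
        change inner ℝ (∇ u x) (t • (fderiv ℝ X x (∇ u x))) = _
        rw [inner_smul_right]
      rw [e1, e2]
      ring
    rw [hexp, Real.norm_eq_abs]
    refine (abs_add_le _ _).trans ?_
    rw [abs_mul, abs_of_nonneg (pos_nonneg (u x))]
    have h1 := norm_grad_le hu.lip x
    have h4 : ‖∇ u x‖ ^ 2 ≤ (K : ℝ) ^ 2 := pow_le_pow_left₀ (norm_nonneg _) h1 2
    have h5 := pos_le_one (u x)
    have h6 := pos_nonneg (u x)
    calc |(1 + s).det * ‖star (Ring.inverse (1 + s)) (∇ u x)‖ ^ 2 - ‖∇ u x‖ ^ 2 -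
          (trL d s * ‖∇ u x‖ ^ 2 - 2 * inner ℝ (∇ u x) (s (∇ u x)))| + |(1 + s).det - 1 - trL d s| * pos (u x)
        ≤ ε * (|t| * C) * (K : ℝ) ^ 2 + ε * (|t| * C) * 1 := by
          refine add_le_add (hA1'.trans ?_) (mul_le_mul (hA2.trans ?_) h5 h6 (by positivity))
          · gcongr
          · gcongr
      _ = ε * |t| * (C * ((K : ℝ) ^ 2 + 1)) := by ring
  have hest := norm_setIntegral_le_of_norm_le_const_ae hSf hpt
  have hI3 : IntegrableOn (fun x => |(1 + t • fderiv ℝ X x).det| • gE w (Φ x) - gE u x) S :=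
    hint.sub (gE_integrableOn hu.lip hSf)
  have hsplit : (∫ x in S, (|(1 + t • fderiv ℝ X x).det| • gE w (Φ x) - gE u x - t * iI u X x)) =
      dJ w u - t * ∫ x in S, iI u X x := by
    rw [integral_sub hI3 (hintI.const_mul t), integral_sub hint (gE_integrableOn hu.lip hSf), hJ1, hJ2, hJ3,
      integral_const_mul]
  rw [hsplit, Real.norm_eq_abs, Measure.real] at hest
  have := abs_le.1 hest
  nlinarith [this.1, this.2]

/-- first inner variation: competitor `u ∘ (id + t X)⁻¹` -/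
theorem LM.inner {K : ℝ≥0} {u : E d → ℝ} (hu : LM u K) {X : E d → E d} (hX : ContDiff ℝ 1 X)
    (hc : HasCompactSupport X) :
    ∫ x, ((‖∇ u x‖ ^ 2 + pos (u x)) * dv X x - 2 * inner ℝ (∇ u x) (fderiv ℝ X x (∇ u x))) = 0 := by
  obtain ⟨C, hC⟩ := hX.lipschitzWith_of_hasCompactSupport hc (by norm_num)
  change ∫ x, iI u X x = 0
  have h0 : (∫ x, iI u X x) = ∫ x in tsupport X, iI u X x := by
    rw [setIntegral_eq_integral_of_forall_compl_eq_zero]
    intro x hx
    have h1 : fderiv ℝ X x = 0 := by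
      have : X =ᶠ[𝓝 x] fun _ => 0 := by
        rw [notMem_tsupport_iff_eventuallyEq] at hx
        exact hx
      rw [this.fderiv_eq]; simp
    unfold iI
    rw [dv_eq_trL, h1]
    simp
  rw [h0]
  set I := ∫ x in tsupport X, iI u X x
  set M := C * ((K : ℝ) ^ 2 + 1) * (volume (tsupport X)).toReal with hM
  have hM0 : 0 ≤ M := by positivity
  by_contra hne
  have hpos : 0 < |I| := abs_pos.2 hne
  obtain ⟨t₀, ht₀, h⟩ := inner_aux hu hX hc hC (ε := |I| / (2 * (M + 1))) (by positivity)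
  have h1 := h (-(t₀ * SignType.sign I)) (by
    rcases lt_or_gt_of_ne hne with h' | h'
    · rw [sign_neg h']; simp [abs_of_pos ht₀]
    · rw [sign_pos h']; simp [abs_of_pos ht₀])
  have h2 : |-(t₀ * (SignType.sign I : ℝ))| = t₀ := by
    rcases lt_or_gt_of_ne hne with h' | h'
    · rw [sign_neg h']; simp [abs_of_pos ht₀]
    · rw [sign_pos h']; simp [abs_of_pos ht₀]
  have h3 : -(t₀ * (SignType.sign I : ℝ)) * I = -(t₀ * |I|) := by
    rw [neg_mul, mul_assoc, sign_mul_self]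
  rw [h2, h3] at h1
  have h4 : |I| / (2 * (M + 1)) * t₀ * M ≤ |I| / 2 * t₀ := by
    have : |I| / (2 * (M + 1)) * t₀ * M = |I| / 2 * t₀ * (M / (M + 1)) := by
      field_simp
    rw [this]
    have h5 : M / (M + 1) ≤ 1 := by rw [div_le_one (by positivity)]; linarith
    have h6 : 0 ≤ |I| / 2 * t₀ := by positivity
    nlinarith
  have h7 : 0 < |I| * t₀ := by positivity
  nlinarith

end Crest.Agent.R097
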