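import Crest.Agent.R097.Defs

/-! B3b: the free boundary has measure zero. -/
set_option autoImplicit false
open MeasureTheory Metric Set Filter Topology
open scoped NNReal RealInnerProductSpace Gradient ContDiff Laplacian ENNReal

namespace Crest.Agent.R097
variable {d : ℕ}

/-- the boundary of the positivity set of a Lipschitz function with the nondegeneracy property has measure zero -/
theorem null_frontier {K : ℝ≥0} {u : E d → ℝ} (hu : LipschitzWith K u) (h0 : ∀ x, 0 ≤ u x) {ε : ℝ} (hε : 0 < ε)
    (hn : ∀ (x0 : E d) (r : ℝ), 0 < r → (∀ x ∈ ball x0 r, u x ≤ ε * r) → ∀ x ∈ ball x0 (r / 2), u x = 0) :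
    volume (frontier {x | 0 < u x}) = 0 := by
  set S : Set (E d) := frontier {x | 0 < u x} with hS
  have hop : IsOpen {x | 0 < u x} := isOpen_lt continuous_const hu.continuous
  have hSm : MeasurableSet S := isClosed_frontier.measurableSet
  have hSz : ∀ x ∈ S, ¬ 0 < u x := by
    intro x hx h
    rw [hS, hop.frontier_eq] at hx
    exact hx.2 h
  set δ : ℝ := ε / (K + 1) with hδ
  have hK : (0 : ℝ) < K + 1 := by positivity
  have hδp : 0 < δ := by positivity
  -- holes
  have hole : ∀ x0 ∈ S, ∀ r : ℝ, 0 < r → ∃ y ∈ ball x0 r, ∀ z ∈ ball y (δ * r), 0 < u z := by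
    intro x0 hx0 r hr
    by_contra hcon
    push Not at hcon
    have h1 : ∀ x ∈ ball x0 r, u x ≤ ε * r := by
      intro x hx
      by_contra hlt
      push Not at hlt
      obtain ⟨z, hz, hz0⟩ := hcon x hx
      have h2 := hu.dist_le_mul x z
      rw [Real.dist_eq, dist_comm x z] at h2
      rw [mem_ball] at hz
      have h3 : u x - u z ≤ K * dist z x := (le_abs_self _).trans h2
      have h4 : (K : ℝ) * dist z x ≤ (K + 1) * (δ * r) := by
        have := K.2
        have h5 : (0:ℝ) ≤ dist z x := dist_nonneg
        have h6 : (K : ℝ) * dist z x ≤ (K + 1) * dist z x := by nlinarith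
        exact h6.trans (mul_le_mul_of_nonneg_left hz.le hK.le)
      have h5 : (K + 1 : ℝ) * (δ * r) = ε * r := by
        rw [hδ]; field_simp
      linarith
    have h2 := hn x0 r hr h1
    have h3 : x0 ∈ closure {x | 0 < u x} := frontier_subset_closure hx0
    rw [Metric.mem_closure_iff] at h3
    obtain ⟨b, hb, hbd⟩ := h3 (r / 2) (by positivity)
    have := h2 b (by rw [mem_ball, dist_comm]; exact hbd)
    have hb' : 0 < u b := hb
    linarith
  have hae := Besicovitch.ae_tendsto_measure_inter_div (volume : Measure (E d)) S
  rw [ae_restrict_iff' hSm] at hae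
  have key : ∀ᵐ x : E d, x ∉ S := by
    filter_upwards [hae] with x hx hxS
    have ht := hx hxS
    set θ : ℝ≥0∞ := ENNReal.ofReal ((δ / (1 + δ)) ^ Module.finrank ℝ (E d)) with hθ
    have hθp : 0 < θ := by rw [hθ]; exact ENNReal.ofReal_pos.2 (by positivity)
    have hle : ∀ᶠ R in 𝓝[>] (0 : ℝ), volume (S ∩ closedBall x R) / volume (closedBall x R) + θ ≤ 1 := by
      filter_upwards [self_mem_nhdsWithin] with R hR
      have hR' : 0 < R := hR
      set r : ℝ := R / (1 + δ) with hr
      have hrp : 0 < r := by positivity
      obtain ⟨y, hy, hyz⟩ := hole x hxS r hrp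
      have hsub : ball y (δ * r) ⊆ closedBall x R := by
        intro z hz
        rw [mem_ball] at hz hy
        rw [mem_closedBall]
        have h1 : dist z x ≤ dist z y + dist y x := dist_triangle _ _ _
        have h2 : δ * r + r = R := by rw [hr]; field_simp; ring
        linarith
      have hdis : Disjoint (S ∩ closedBall x R) (ball y (δ * r)) := by
        rw [Set.disjoint_left]
        rintro z ⟨hz, -⟩ hz2
        exact hSz z hz (hyz z hz2)
      have hvol : volume (S ∩ closedBall x R) + volume (ball y (δ * r)) ≤ volume (closedBall x R) := by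
        rw [← measure_union hdis measurableSet_ball]
        exact measure_mono (union_subset inter_subset_right hsub)
      have hV0 : volume (closedBall x R) ≠ 0 := (measure_closedBall_pos _ _ hR').ne'
      have hVt : volume (closedBall x R) ≠ ⊤ := measure_closedBall_lt_top.ne
      have hball : volume (ball y (δ * r)) = θ * volume (closedBall x R) := by
        rw [Measure.addHaar_ball_of_pos _ _ (by positivity), Measure.addHaar_closedBall _ _ hR'.le, hθ,
          ← mul_assoc, ← ENNReal.ofReal_mul (by positivity), ← mul_pow]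
        congr 3
        rw [hr]; ring
      rw [hball] at hvol
      have h3 := ENNReal.div_le_div_right hvol (volume (closedBall x R))
      rw [ENNReal.add_div, ENNReal.div_self hV0 hVt, ENNReal.mul_div_cancel_right hV0 hVt] at h3
      exact h3
    have h4 : Tendsto (fun R => volume (S ∩ closedBall x R) / volume (closedBall x R) + θ) (𝓝[>] (0 : ℝ))
        (𝓝 (1 + θ)) := ht.add tendsto_const_nhds
    have h5 : 1 + θ ≤ 1 := le_of_tendsto h4 hle
    have h6 : θ ≤ 0 := by
      have : (1 : ℝ≥0∞) + θ ≤ 1 + 0 := by simpa using h5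
      exact (ENNReal.add_le_add_iff_left ENNReal.one_ne_top).1 this
    exact absurd hθp (not_lt.2 h6)
  exact measure_eq_zero_iff_ae_notMem.2 key

end Crest.Agent.R097
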