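import Crest.Agent.R097.B3a
import Crest.Agent.R097.B3b

/-! B3: nondegeneracy (`nondeg`, in `B3a`), the free boundary has measure zero (`null_frontier`, in `B3b`). -/
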