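import Crest.Agent.R097.B1

/-! B3a: nondegeneracy. Competitor `min u ψ`, `ψ = 4ε(|x-x₀|-r/2)⁺ + K(|x-x₀|-3r/4)⁺`. -/
set_option autoImplicit false
open MeasureTheory Metric Set Filter Topology
open scoped NNReal RealInnerProductSpace Gradient ContDiff Laplacian ENNReal

namespace Crest.Agent.R097
variable {d : ℕ}

/-- the barrier -/
noncomputable def ndPsi (K : ℝ≥0) (ε r : ℝ) (x0 x : E d) : ℝ :=
  4 * ε * max (dist x x0 - r / 2) 0 + K * max (dist x x0 - 3 * r / 4) 0

lemma ndPsi_nonneg {K : ℝ≥0} {ε r : ℝ} (hε : 0 ≤ ε) (x0 x : E d) : 0 ≤ ndPsi K ε r x0 x := by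
  unfold ndPsi
  have h1 : (0:ℝ) ≤ max (dist x x0 - r / 2) 0 := le_max_right _ _
  have h2 : (0:ℝ) ≤ max (dist x x0 - 3 * r / 4) 0 := le_max_right _ _
  positivity

lemma lip_max_dist (x0 : E d) (c : ℝ) : LipschitzWith 1 (fun x : E d => max (dist x x0 - c) 0) := by
  have h1 : LipschitzWith 1 (fun x : E d => dist x x0) := LipschitzWith.dist_left x0
  have h2 : LipschitzWith 1 (fun x : E d => dist x x0 - c) := by
    simpa using h1.sub (LipschitzWith.const c)
  exact h2.max_const 0

lemma lip_const_mul {f : E d → ℝ} {L : ℝ≥0} (hf : LipschitzWith L f) {c : ℝ} (hc : 0 ≤ c) :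
    LipschitzWith (Real.toNNReal c * L) (fun x => c * f x) := by
  refine LipschitzWith.of_dist_le_mul fun x y => ?_
  rw [NNReal.coe_mul, Real.coe_toNNReal _ hc, Real.dist_eq, ← mul_sub, abs_mul, abs_of_nonneg hc, mul_assoc]
  have := hf.dist_le_mul x y
  rw [Real.dist_eq] at this
  exact mul_le_mul_of_nonneg_left this hc

lemma ndPsi_lip {K : ℝ≥0} {ε r : ℝ} (hε : 0 ≤ ε) (x0 : E d) :
    ∃ L : ℝ≥0, LipschitzWith L (ndPsi K ε r x0) := by
  have h1 := lip_const_mul (lip_max_dist x0 (r / 2)) (c := 4 * ε) (by positivity)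
  have h2 := lip_const_mul (lip_max_dist x0 (3 * r / 4)) (c := (K:ℝ)) K.2
  exact ⟨_, h1.add h2⟩

/-- measure estimate -/
lemma nd_measure {K : ℝ≥0} {u : E d → ℝ} (hu : LM u K) {ε : ℝ} (hε : 0 < ε) (x0 : E d) {r : ℝ} (hr : 0 < r)
    (hb : ∀ x ∈ ball x0 r, u x ≤ ε * r) :
    volume.real ({x | 0 < u x} ∩ ball x0 (r / 2)) ≤ 16 * ε ^ 2 * volume.real (ball x0 r) := by
  set ψ : E d → ℝ := ndPsi K ε r x0 with hψ
  obtain ⟨L, hL⟩ := ndPsi_lip (K := K) (r := r) hε.le x0
  rw [← hψ] at hL
  set w : E d → ℝ := fun x => min (u x) (ψ x) with hw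
  have hwL : LipschitzWith (max K L) w := hu.lip.min hL
  have hψ0 : ∀ x, 0 ≤ ψ x := fun x => ndPsi_nonneg hε.le x0 x
  have hw0 : ∀ x, 0 ≤ w x := fun x => le_min (hu.nonneg x) (hψ0 x)
  -- outside of the ball of radius 3r/4
  have hout : ∀ x, 3 * r / 4 ≤ dist x x0 → u x ≤ ψ x := by
    intro x hx
    have hx0 : 0 < dist x x0 := by linarith
    set y : E d := x0 + ((3 * r / 4) / dist x x0) • (x - x0) with hy
    have hnx : ‖x - x0‖ = dist x x0 := (dist_eq_norm x x0).symm
    have hyx0 : dist y x0 = 3 * r / 4 := by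
      rw [hy, dist_eq_norm, add_sub_cancel_left, norm_smul, Real.norm_eq_abs, abs_of_nonneg (by positivity), hnx]
      field_simp
    have hyx : dist x y = dist x x0 - 3 * r / 4 := by
      rw [hy, dist_eq_norm]
      have : x - (x0 + ((3 * r / 4) / dist x x0) • (x - x0)) = (1 - (3 * r / 4) / dist x x0) • (x - x0) := by
        rw [sub_smul, one_smul]; abel
      rw [this, norm_smul, hnx, Real.norm_eq_abs, abs_of_nonneg]
      · field_simp
      · rw [sub_nonneg, div_le_one hx0]; exact hx
    have h1 : u y ≤ ε * r := hb y (by rw [mem_ball, hyx0]; linarith)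
    have h2 := hu.lip.dist_le_mul x y
    rw [Real.dist_eq, hyx] at h2
    have h3 : u x - u y ≤ K * (dist x x0 - 3 * r / 4) := (le_abs_self _).trans h2
    have h4 : ψ x = 4 * ε * (dist x x0 - r / 2) + K * (dist x x0 - 3 * r / 4) := by
      rw [hψ, ndPsi, max_eq_left (by linarith), max_eq_left (by linarith)]
    rw [h4]
    have h5 : ε * r ≤ 4 * ε * (dist x x0 - r / 2) := by
      have : r ≤ 4 * (dist x x0 - r / 2) := by linarith
      nlinarith
    linarith
  -- gradient bound
  have hgrad : ∀ x, ψ x < u x → ‖∇ w x‖ ≤ 4 * ε := by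
    intro x hx
    have hx34 : dist x x0 < 3 * r / 4 := by
      by_contra h
      push Not at h
      exact absurd (hout x h) (not_le.2 hx)
    rw [norm_gradient]
    have hev : w =ᶠ[𝓝 x] fun y => 4 * ε * max (dist y x0 - r / 2) 0 := by
      have h1 : ∀ᶠ y in 𝓝 x, ψ y < u y := (isOpen_lt hL.continuous hu.lip.continuous).mem_nhds hx
      have h2 : ∀ᶠ y in 𝓝 x, dist y x0 < 3 * r / 4 := isOpen_ball.mem_nhds hx34
      filter_upwards [h1, h2] with y hy1 hy2
      have : w y = ψ y := min_eq_right hy1.le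
      rw [this, hψ, ndPsi, max_eq_right (b := (0:ℝ)) (a := dist y x0 - 3 * r / 4) (by linarith)]
      ring
    rw [hev.fderiv_eq]
    have h3 := lip_const_mul (lip_max_dist x0 (r / 2)) (c := 4 * ε) (by positivity)
    have h4 := norm_fderiv_le_of_lip h3 x
    rw [mul_one, Real.coe_toNNReal _ (by positivity)] at h4
    exact h4
  have hc : HasCompactSupport (fun x => w x - u x) := by
    refine HasCompactSupport.intro (isCompact_closedBall x0 (3 * r / 4)) fun x hx => ?_
    rw [mem_closedBall, not_le] at hx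
    have := hout x hx.le
    simp only [hw]
    rw [min_eq_left this, sub_self]
  have hdJ := hu.dJ_nonneg hwL hw0 hc
  have hop : IsOpen {x | 0 < u x} := isOpen_lt continuous_const hu.lip.continuous
  set A : Set (E d) := {x | 0 < u x} ∩ ball x0 (r / 2) with hA
  have hAm : MeasurableSet A := (hop.measurableSet).inter measurableSet_ball
  have hAfin : volume A ≠ ⊤ := ((measure_mono inter_subset_right).trans_lt measure_ball_lt_top).ne
  have hI1 : Integrable ((ball x0 r).indicator (fun _ : E d => 16 * ε ^ 2)) :=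
    (integrable_indicator_iff measurableSet_ball).2 (integrableOn_const measure_ball_lt_top.ne)
  have hI2 : Integrable (A.indicator (fun _ : E d => (1:ℝ))) :=
    (integrable_indicator_iff hAm).2 (integrableOn_const hAfin)
  have hle : ∀ᵐ x : E d, eD w u x ≤ (ball x0 r).indicator (fun _ : E d => 16 * ε ^ 2) x
      - A.indicator (fun _ : E d => (1:ℝ)) x := by
    filter_upwards [ae_grad_eq hwL hu.lip] with x hx
    unfold eD
    rcases le_or_gt (u x) (ψ x) with h | h
    · have hwu : w x = u x := min_eq_left h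
      rw [hx hwu, hwu]
      have hxA : x ∉ A := by
        rintro ⟨h1, h2⟩
        rw [mem_ball] at h2
        have h1' : 0 < u x := h1
        have : ψ x = 0 := by
          rw [hψ, ndPsi, max_eq_right (by linarith), max_eq_right (by linarith)]; ring
        linarith
      rw [indicator_of_notMem hxA]
      have : 0 ≤ (ball x0 r).indicator (fun _ : E d => 16 * ε ^ 2) x :=
        indicator_nonneg (fun _ _ => by positivity) x
      linarith
    · have hx34 : dist x x0 < 3 * r / 4 := by
        by_contra h'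
        push Not at h'
        exact absurd (hout x h') (not_le.2 h)
      have hxB : x ∈ ball x0 r := by rw [mem_ball]; linarith
      rw [indicator_of_mem hxB]
      have hg := hgrad x h
      have hu0 : 0 < u x := (hψ0 x).trans_lt h
      have h1 : ‖∇ w x‖ ^ 2 ≤ 16 * ε ^ 2 := by
        have := norm_nonneg (∇ w x)
        nlinarith
      have h2 : 0 ≤ ‖∇ u x‖ ^ 2 := by positivity
      rw [pos_of_pos hu0]
      by_cases hxA : x ∈ A
      · rw [indicator_of_mem hxA]
        have h2 := hxA.2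
        rw [mem_ball] at h2
        have : ψ x = 0 := by
          rw [hψ, ndPsi, max_eq_right (by linarith), max_eq_right (by linarith)]; ring
        have : w x ≤ 0 := (min_le_right _ _).trans this.le
        rw [pos_of_nonpos this]
        linarith
      · rw [indicator_of_notMem hxA]
        have := pos_le_one (w x)
        linarith
  have hint := integral_mono_ae (eD_integrable hwL hu.lip hc) (hI1.sub hI2) hle
  have h1 : ∫ x, ((ball x0 r).indicator (fun _ : E d => 16 * ε ^ 2) x - A.indicator (fun _ : E d => (1:ℝ)) x)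
      = 16 * ε ^ 2 * volume.real (ball x0 r) - volume.real A := by
    rw [integral_sub hI1 hI2, integral_indicator measurableSet_ball, integral_indicator hAm,
      setIntegral_const, setIntegral_const]
    simp [mul_comm]
  have hint2 : ∫ x, eD w u x ≤ ∫ x, ((ball x0 r).indicator (fun _ : E d => 16 * ε ^ 2) x
      - A.indicator (fun _ : E d => (1:ℝ)) x) := hint
  rw [h1] at hint2
  unfold dJ at hdJ
  linarith

/-- decay step -/
lemma nd_step {K : ℝ≥0} {u : E d → ℝ} (hu : LM u K) {ε : ℝ} (hε : 0 < ε) (hε0 : ε ≤ 1 / (12 * 2 ^ d)) (x0 : E d)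
    {r : ℝ} (hr : 0 < r) (hb : ∀ x ∈ ball x0 r, u x ≤ ε * r) :
    ∀ x ∈ ball x0 (r / 4), u x ≤ (ε / 2) * (r / 4) := by
  intro x hx
  have hr4 : 0 < r / 4 := by positivity
  have h1 := hu.submvp x hr4
  have hsub : ball x (r / 4) ⊆ ball x0 (r / 2) := by
    intro z hz
    rw [mem_ball] at *
    have := dist_triangle z x x0
    linarith
  have hsub2 : ball x (r / 4) ⊆ ball x0 r := hsub.trans (ball_subset_ball (by linarith))
  have h2 := nd_measure hu hε x0 hr hb
  set A : Set (E d) := {x | 0 < u x} ∩ ball x0 (r / 2) with hA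
  have hop : IsOpen {x | 0 < u x} := isOpen_lt continuous_const hu.lip.continuous
  have hAm : MeasurableSet A := (hop.measurableSet).inter measurableSet_ball
  have hAfin : volume A ≠ ⊤ := ((measure_mono inter_subset_right).trans_lt measure_ball_lt_top).ne
  have hI2 : Integrable (A.indicator (fun _ : E d => ε * r)) :=
    (integrable_indicator_iff hAm).2 (integrableOn_const hAfin)
  have hui : IntegrableOn u (ball x (r / 4)) :=
    (hu.lip.continuous.continuousOn.integrableOn_compact (isCompact_closedBall x (r / 4))).mono_set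
      ball_subset_closedBall
  have h3 : ∫ y in ball x (r / 4), u y ≤ ε * r * volume.real A := by
    have e1 : ∫ y in ball x (r / 4), u y ≤ ∫ y in ball x (r / 4), A.indicator (fun _ : E d => ε * r) y := by
      refine setIntegral_mono_on hui hI2.integrableOn measurableSet_ball fun y hy => ?_
      by_cases hyA : y ∈ A
      · rw [indicator_of_mem hyA]; exact hb y (hsub2 hy)
      · rw [indicator_of_notMem hyA]
        by_contra hlt
        push Not at hlt
        exact hyA ⟨hlt, hsub hy⟩
    have e2 : ∫ y in ball x (r / 4), A.indicator (fun _ : E d => ε * r) y ≤ ∫ y, A.indicator (fun _ : E d => ε * r) y :=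
      setIntegral_le_integral hI2 (Eventually.of_forall fun y => indicator_nonneg (fun _ _ => by positivity) y)
    have e3 : ∫ y, A.indicator (fun _ : E d => ε * r) y = ε * r * volume.real A := by
      rw [integral_indicator hAm, setIntegral_const, smul_eq_mul, mul_comm]
    linarith
  have hV : volume.real (ball x0 r) = 4 ^ d * volume.real (ball x (r / 4)) := by
    have e1 : volume (ball x0 r) = ENNReal.ofReal (r ^ Module.finrank ℝ (E d)) * volume (ball (0 : E d) 1) :=
      Measure.addHaar_ball_of_pos _ _ hr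
    have e2 : volume (ball x (r / 4)) = ENNReal.ofReal ((r / 4) ^ Module.finrank ℝ (E d)) * volume (ball (0 : E d) 1) :=
      Measure.addHaar_ball_of_pos _ _ hr4
    rw [Measure.real, Measure.real, e1, e2, ENNReal.toReal_mul, ENNReal.toReal_mul,
      ENNReal.toReal_ofReal (by positivity), ENNReal.toReal_ofReal (by positivity), finrank_euclideanSpace_fin,
      div_pow]
    field_simp
  have hVp : 0 < volume.real (ball x (r / 4)) :=
    ENNReal.toReal_pos (measure_ball_pos _ _ hr4).ne' measure_ball_lt_top.ne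
  rw [setAverage_eq, smul_eq_mul] at h1
  have h4 : u x ≤ (volume.real (ball x (r / 4)))⁻¹ * (ε * r * (16 * ε ^ 2 * (4 ^ d * volume.real (ball x (r / 4))))) := by
    refine h1.trans (mul_le_mul_of_nonneg_left (h3.trans ?_) (by positivity))
    rw [hV] at h2
    exact mul_le_mul_of_nonneg_left h2 (by positivity)
  have h5 : (volume.real (ball x (r / 4)))⁻¹ * (ε * r * (16 * ε ^ 2 * (4 ^ d * volume.real (ball x (r / 4)))))
      = ε * r * (16 * (ε * 2 ^ d) ^ 2) := by
    have : (4:ℝ) ^ d = (2 ^ d) ^ 2 := by rw [← pow_mul, mul_comm, pow_mul]; norm_num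
    rw [this]
    field_simp
  rw [h5] at h4
  have h6 : ε * 2 ^ d ≤ 1 / 12 := by
    calc ε * 2 ^ d ≤ 1 / (12 * 2 ^ d) * 2 ^ d := mul_le_mul_of_nonneg_right hε0 (by positivity)
      _ = 1 / 12 := by field_simp
  have h7 : 0 ≤ ε * 2 ^ d := by positivity
  have h8 : 16 * (ε * 2 ^ d) ^ 2 ≤ 1 / 8 := by nlinarith
  have h9 : ε * r * (16 * (ε * 2 ^ d) ^ 2) ≤ ε * r * (1 / 8) := mul_le_mul_of_nonneg_left h8 (by positivity)
  linarith

lemma nd_zero {K : ℝ≥0} {u : E d → ℝ} (hu : LM u K) {ε : ℝ} (hε : 0 < ε) (hε0 : ε ≤ 1 / (12 * 2 ^ d)) (x0 : E d)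
    {r : ℝ} (hr : 0 < r) (hb : ∀ x ∈ ball x0 r, u x ≤ ε * r) : u x0 = 0 := by
  have key : ∀ k : ℕ, ∀ x ∈ ball x0 (r / 4 ^ k), u x ≤ (ε / 2 ^ k) * (r / 4 ^ k) := by
    intro k
    induction k with
    | zero => simpa using hb
    | succ k ih =>
      have h1 : ε / 2 ^ k ≤ 1 / (12 * 2 ^ d) :=
        (div_le_self hε.le (one_le_pow₀ (by norm_num))).trans hε0
      have := nd_step hu (ε := ε / 2 ^ k) (by positivity) h1 x0 (r := r / 4 ^ k) (by positivity) ih
      have e1 : r / 4 ^ k / 4 = r / 4 ^ (k + 1) := by rw [pow_succ]; field_simp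
      have e2 : ε / 2 ^ k / 2 = ε / 2 ^ (k + 1) := by rw [pow_succ]; field_simp
      rwa [e1, e2] at this
  have h1 : ∀ k : ℕ, u x0 ≤ ε * r * (1 / 8) ^ k := by
    intro k
    have := key k x0 (mem_ball_self (by positivity))
    have e : (ε / 2 ^ k) * (r / 4 ^ k) = ε * r * (1 / 8) ^ k := by
      have : (8:ℝ) ^ k = 2 ^ k * 4 ^ k := by rw [← mul_pow]; norm_num
      rw [div_pow, one_pow, this]; field_simp
    rwa [e] at this
  have h2 : Tendsto (fun k : ℕ => ε * r * (1 / 8 : ℝ) ^ k) atTop (𝓝 (ε * r * 0)) :=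
    (tendsto_pow_atTop_nhds_zero_of_lt_one (by norm_num) (by norm_num)).const_mul _
  have h3 : u x0 ≤ ε * r * 0 := ge_of_tendsto h2 (Eventually.of_forall h1)
  have := hu.nonneg x0
  linarith

/-- nondegeneracy -/
theorem nondeg (d : ℕ) (_hd : 1 ≤ d) : ∃ ε : ℝ, 0 < ε ∧ ∀ (K : ℝ≥0) (u : E d → ℝ), LM u K → ∀ (x0 : E d) (r : ℝ), 0 < r →
    (∀ x ∈ ball x0 r, u x ≤ ε * r) → ∀ x ∈ ball x0 (r / 2), u x = 0 := by
  refine ⟨1 / (12 * 2 ^ d) / 2, by positivity, fun K u hu x0 r hr hb x hx => ?_⟩
  refine nd_zero hu (ε := 1 / (12 * 2 ^ d)) (by positivity) le_rfl x (r := r / 2) (by positivity) fun y hy => ?_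
  have h1 : y ∈ ball x0 r := by
    rw [mem_ball] at *
    have := dist_triangle y x x0
    linarith
  have := hb y h1
  linarith

end Crest.Agent.R097
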