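import Mathlib

/-!
# Row 97 (one-phase cones): basic definitions (shared by all modules)
-/

set_option autoImplicit false
open MeasureTheory Metric Set
open scoped RealInnerProductSpace NNReal ENNReal

namespace Crest.Agent.R097

/-- Euclidean space -/
abbrev E (d : ℕ) := EuclideanSpace ℝ (Fin d)

/-- the one-phase energy of a (Lipschitz) function on a set, as a real number -/
noncomputable def Jr {d : ℕ} (u : E d → ℝ) (B : Set (E d)) : ℝ :=
  (∫ x in B, ‖fderiv ℝ u x‖ ^ 2) + (volume ({x | 0 < u x} ∩ B)).toReal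

/-- Lipschitz minimisers of the one-phase energy (Lipschitz competitors). -/
structure LM {d : ℕ} (u : E d → ℝ) (K : ℝ≥0) : Prop where
  nonneg : ∀ x, 0 ≤ u x
  lip : LipschitzWith K u
  min : ∀ (x₀ : E d) (r : ℝ), 0 < r → ∀ w : E d → ℝ, (∀ x, 0 ≤ w x) →
    (∃ K' : ℝ≥0, LipschitzWith K' w) → (∀ x, x ∉ closedBall x₀ r → w x = u x) →
    Jr u (ball x₀ (r + 1)) ≤ Jr w (ball x₀ (r + 1))

end Crest.Agent.R097
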