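import Crest.Agent.R097.Weiss2

/-! F1: scaling, blow-ups. -/
set_option autoImplicit false
open MeasureTheory Metric Set Filter Topology
open scoped NNReal RealInnerProductSpace Gradient ContDiff Laplacian

namespace Crest.Agent.R097
variable {d : ℕ}

/-- the gradient of a rescaled function -/
lemma grad_blow (u : E d → ℝ) (x0 : E d) {r : ℝ} (hr : r ≠ 0) (x : E d) :
    ∇ (Crest.Agent.R097.blow u x0 r) x = ∇ u (x0 + r • x) := by
  have h1 : fderiv ℝ (Crest.Agent.R097.blow u x0 r) x = fderiv ℝ u (x0 + r • x) := by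
    have h2 : Crest.Agent.R097.blow u x0 r = fun x => r⁻¹ • (fun y => (fun z => u (x0 + z)) (r • y)) x := by
      ext y; simp [Crest.Agent.R097.blow, div_eq_inv_mul]
    have h3 : fderiv ℝ (fun y => (fun z => u (x0 + z)) (r • y)) x = r • fderiv ℝ u (x0 + r • x) := by
      rw [fderiv_comp_smul (f := fun z => u (x0 + z)) r, fderiv_comp_add_left]
    have h4 : fderiv ℝ (fun x => r⁻¹ • (fun y => (fun z => u (x0 + z)) (r • y)) x) x
        = r⁻¹ • fderiv ℝ (fun y => (fun z => u (x0 + z)) (r • y)) x :=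
      congrFun (fderiv_const_smul_field (R := ℝ) (𝕜 := ℝ) (f := fun y => (fun z => u (x0 + z)) (r • y)) r⁻¹) x
    rw [h2, h4, h3, smul_smul, inv_mul_cancel₀ hr, one_smul]
  unfold gradient
  rw [h1]

lemma pos_div (t : ℝ) {r : ℝ} (hr : 0 < r) : pos (t / r) = pos t := by
  unfold pos
  have : 0 < t / r ↔ 0 < t := by
    constructor
    · intro h
      have := mul_pos h hr
      rwa [div_mul_cancel₀ _ hr.ne'] at this
    · intro h; positivity
  simp [this]

lemma blow_lip {K : ℝ≥0} {u : E d → ℝ} (hu : LipschitzWith K u) (x0 : E d) {r : ℝ} (hr : 0 < r) :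
    LipschitzWith K (Crest.Agent.R097.blow u x0 r) := by
  refine LipschitzWith.of_dist_le_mul fun x y => ?_
  have h1 := hu.dist_le_mul (x0 + r • x) (x0 + r • y)
  have h2 : dist (x0 + r • x) (x0 + r • y) = r * dist x y := by
    rw [dist_add_left, dist_smul₀, Real.norm_eq_abs, abs_of_pos hr]
  rw [h2, Real.dist_eq] at h1
  rw [Real.dist_eq, Crest.Agent.R097.blow, Crest.Agent.R097.blow, ← sub_div, abs_div, abs_of_pos hr, div_le_iff₀ hr]
  linarith

/-- change of variables in the energy difference -/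
lemma dJ_blow (w u : E d → ℝ) (x0 : E d) {r : ℝ} (hr : 0 < r) :
    dJ (Crest.Agent.R097.blow w x0 r) (Crest.Agent.R097.blow u x0 r) = (r ^ d)⁻¹ * dJ w u := by
  have h1 : ∀ x, eD (Crest.Agent.R097.blow w x0 r) (Crest.Agent.R097.blow u x0 r) x = eD w u (x0 + r • x) := by
    intro x
    rw [eD, eD, grad_blow w x0 hr.ne', grad_blow u x0 hr.ne', Crest.Agent.R097.blow, Crest.Agent.R097.blow,
      pos_div _ hr, pos_div _ hr]
  rw [dJ, dJ]
  simp_rw [h1]
  have h2 := Measure.integral_comp_smul (volume : Measure (E d)) (fun z => eD w u (x0 + z)) r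
  rw [h2]
  have h3 : ∫ x, eD w u (x0 + x) = ∫ x, eD w u x := integral_add_left_eq_self _ _
  rw [h3, finrank_euclideanSpace, Fintype.card_fin, smul_eq_mul, abs_of_nonneg (by positivity)]

theorem LM.blow {K : ℝ≥0} {u : E d → ℝ} (hu : LM u K) (x0 : E d) {r : ℝ} (hr : 0 < r) :
    LM (blow u x0 r) K := by
  refine LM.of_dJ (fun x => div_nonneg (hu.nonneg _) hr.le) (blow_lip hu.lip x0 hr) fun w L hw hw0 hc => ?_
  -- the competitor at the original scale
  have hri : 0 < r⁻¹ := by positivity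
  set W : E d → ℝ := Crest.Agent.R097.blow w (-(r⁻¹ • x0)) r⁻¹ with hW
  have h1 : ∀ y, W y = r * w (r⁻¹ • (y - x0)) := by
    intro y
    rw [hW, Crest.Agent.R097.blow, div_inv_eq_mul, mul_comm]
    congr 2
    rw [smul_sub]; abel
  have h2 : Crest.Agent.R097.blow W x0 r = w := by
    ext y
    rw [Crest.Agent.R097.blow, h1, add_sub_cancel_left, smul_smul, inv_mul_cancel₀ hr.ne', one_smul,
      mul_div_cancel_left₀ _ hr.ne']
  have h3 : HasCompactSupport (fun y => W y - u y) := by
    have h4 : (fun y => W y - u y) = fun y => r * (fun x => w x - Crest.Agent.R097.blow u x0 r x) (r⁻¹ • (y - x0)) := by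
      ext y
      simp only [h1, Crest.Agent.R097.blow]
      rw [smul_smul, mul_inv_cancel₀ hr.ne', one_smul, add_sub_cancel]
      field_simp
    rw [h4]
    refine HasCompactSupport.mul_left ?_
    let e : E d ≃ₜ E d := (Homeomorph.addRight (-x0)).trans (Homeomorph.smulOfNeZero r⁻¹ hri.ne')
    have h5 := hc.comp_homeomorph e
    have h6 : (fun y => (fun x => w x - Crest.Agent.R097.blow u x0 r x) (r⁻¹ • (y - x0)))
        = (fun x => w x - Crest.Agent.R097.blow u x0 r x) ∘ e := by
      funext y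
      simp [e, sub_eq_add_neg]
    rw [h6]; exact h5
  have h6 : 0 ≤ dJ W u := hu.dJ_nonneg (blow_lip hw _ hri) (fun y => by rw [h1]; exact mul_nonneg hr.le (hw0 _)) h3
  have h7 := dJ_blow W u x0 hr
  rw [h2] at h7
  rw [h7]
  positivity

/-- invariance under linear isometries -/
theorem LM.isom {K : ℝ≥0} {u : E d → ℝ} (hu : LM u K) (L : E d ≃ₗᵢ[ℝ] E d) : LM (fun x => u (L x)) K := by
  have hl : LipschitzWith K (fun x => u (L x)) := by
    refine LipschitzWith.of_dist_le_mul fun x y => ?_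
    have := hu.lip.dist_le_mul (L x) (L y)
    rwa [L.dist_map] at this
  have hg : ∀ (f : E d → ℝ) (x : E d), ‖∇ (fun x => f (L x)) x‖ = ‖∇ f (L x)‖ := by
    intro f x
    rw [norm_gradient, norm_gradient]
    have h1 : fderiv ℝ (f ∘ L.toContinuousLinearEquiv) x =
        (fderiv ℝ f (L.toContinuousLinearEquiv x)).comp (L.toContinuousLinearEquiv : E d →L[ℝ] E d) :=
      ContinuousLinearEquiv.comp_right_fderiv _
    have h2 : (fun x => f (L x)) = f ∘ L.toContinuousLinearEquiv := rfl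
    rw [h2, h1]
    exact ContinuousLinearMap.opNorm_comp_linearIsometryEquiv _ L
  refine LM.of_dJ (fun x => hu.nonneg _) hl fun w M hw hw0 hc => ?_
  set W : E d → ℝ := fun y => w (L.symm y) with hW
  have h2 : ∀ x, W (L x) = w x := fun x => by simp [hW]
  have hWl : LipschitzWith M W := by
    refine LipschitzWith.of_dist_le_mul fun x y => ?_
    have := hw.dist_le_mul (L.symm x) (L.symm y)
    rwa [L.symm.dist_map] at this
  have h3 : HasCompactSupport (fun y => W y - u y) := by
    have h5 := hc.comp_homeomorph L.symm.toHomeomorph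
    have h6 : (fun y => W y - u y) = (fun x => w x - u (L x)) ∘ L.symm.toHomeomorph := by
      funext y
      simp [hW]
    rw [h6]; exact h5
  have h4 : 0 ≤ dJ W u := hu.dJ_nonneg hWl (fun y => hw0 _) h3
  have h5 : dJ w (fun x => u (L x)) = dJ W u := by
    rw [dJ, dJ]
    have h6 := L.measurePreserving.integral_comp L.toHomeomorph.measurableEmbedding (eD W u)
    rw [← h6]
    have h7 : (fun x => W (L x)) = w := funext h2
    refine integral_congr_ae (Eventually.of_forall fun x => ?_)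
    simp only [eD]
    rw [hg u x, ← hg W x, h2, h7]
  rw [h5]; exact h4

/-- blow-up limits at a free boundary point are homogeneous -/
theorem blowup (hd : 1 ≤ d) {K : ℝ≥0} {u : E d → ℝ} (hu : LM u K) {x0 : E d} (hx : x0 ∈ frontier {x | 0 < u x})
    {r : ℕ → ℝ} (hr : ∀ k, 0 < r k) (hr0 : Tendsto r atTop (𝓝 0)) :
    ∃ (φ : ℕ → ℕ) (v : E d → ℝ), StrictMono φ ∧ LM v K ∧ Hom1 v ∧ (∃ x, v x ≠ 0) ∧
      ∀ x, Tendsto (fun k => Crest.Agent.R097.blow u x0 (r (φ k)) x) atTop (𝓝 (v x)) := by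
  have hop : IsOpen {x | 0 < u x} := isOpen_lt continuous_const hu.lip.continuous
  have hx0 : u x0 = 0 := by
    have h1 : x0 ∉ {x | 0 < u x} := by
      intro h
      have h2 : x0 ∈ interior {x | 0 < u x} := by rwa [hop.interior_eq]
      exact hx.2 h2
    exact le_antisymm (not_lt.1 h1) (hu.nonneg x0)
  have hcl : x0 ∈ closure {x | 0 < u x} := hx.1
  have hB : ∀ k, LM (Crest.Agent.R097.blow u x0 (r k)) K := fun k => hu.blow x0 (hr k)
  have hz : ∀ k, Crest.Agent.R097.blow u x0 (r k) 0 = 0 := fun k => by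
    simp [Crest.Agent.R097.blow, hx0]
  obtain ⟨φ, v, hφ, hvl, hv⟩ := arzela (M := 0) (fun k => (hB k).lip) (fun k => by rw [hz k]; simp)
  have hLM : LM v K := lim_LM hd (fun k => hB (φ k)) hv
  refine ⟨φ, v, hφ, hLM, ?_, ?_, hv⟩
  · -- homogeneity by the monotonicity formula
    set u' : E d → ℝ := Crest.Agent.R097.blow u x0 1 with hu'
    have hu'L : LM u' K := hu.blow x0 one_pos
    have hu'0 : u' 0 = 0 := by simp [hu', Crest.Agent.R097.blow, hx0]
    obtain ⟨C, hC⟩ := Ws_bdd d K
    have hmono := Ws_mono hu'L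
    obtain ⟨l, hl⟩ : ∃ l, Tendsto (Ws u') (𝓝[>] 0) (𝓝 l) := by
      refine ⟨sInf (Ws u' '' Ioi 0), MonotoneOn.tendsto_nhdsGT hmono ⟨-C, ?_⟩⟩
      rintro _ ⟨s, hs, rfl⟩
      exact (abs_le.1 (hC u' hu'L hu'0 s hs)).1
    have hbl : ∀ k s, 0 < s → Ws (Crest.Agent.R097.blow u x0 (r (φ k))) s = Ws u' (r (φ k) * s) := by
      intro k s hs
      rw [← Ws_blow hu'L (hr (φ k)) hs]
      congr 1
      ext x
      simp [hu', Crest.Agent.R097.blow]
    have hrφ : Tendsto (fun k => r (φ k)) atTop (𝓝 0) := hr0.comp hφ.tendsto_atTop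
    have hconst : ∀ s : ℝ, 0 < s → Ws v s = l := by
      intro s hs
      have h1 := Ws_lim hd (fun k => hB (φ k)) hv hs
      have h2 : Tendsto (fun k => Ws (Crest.Agent.R097.blow u x0 (r (φ k))) s) atTop (𝓝 l) := by
        have h3 : Tendsto (fun k => r (φ k) * s) atTop (𝓝[>] 0) := by
          refine tendsto_nhdsWithin_iff.2 ⟨?_, Eventually.of_forall fun k => mul_pos (hr _) hs⟩
          simpa using hrφ.mul_const s
        refine (hl.comp h3).congr fun k => ?_
        rw [hbl k s hs]; rfl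
      exact tendsto_nhds_unique h1 h2
    exact hom_of_Ws hLM fun s t hs ht => by rw [hconst s hs, hconst t ht]
  · by_contra hne
    push Not at hne
    obtain ⟨ε, hε, H⟩ := lim_nondeg (d := d) hd
    have h1 := H K _ v (fun k => hB (φ k)) hv 0 1 one_pos (fun x _ => by rw [hne x]; positivity)
    obtain ⟨k, hk⟩ := h1.exists
    have h2 : ∀ y ∈ ball x0 (r (φ k) * (1 / 2)), u y = 0 := by
      intro y hy
      have hrk := hr (φ k)
      have h3 := hk ((r (φ k))⁻¹ • (y - x0)) (by
        rw [mem_ball, dist_zero_right, norm_smul, norm_inv, Real.norm_eq_abs, abs_of_pos hrk]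
        rw [mem_ball, dist_eq_norm] at hy
        rw [inv_mul_lt_iff₀ hrk]
        exact hy)
      rw [Crest.Agent.R097.blow, smul_smul, mul_inv_cancel₀ hrk.ne', one_smul, add_sub_cancel] at h3
      have h4 := (div_eq_zero_iff.1 h3).resolve_right hrk.ne'
      exact h4
    rw [Metric.mem_closure_iff] at hcl
    obtain ⟨y, hy, hxy⟩ := hcl (r (φ k) * (1 / 2)) (mul_pos (hr _) (by norm_num))
    have h5 := h2 y (by rw [mem_ball, dist_comm]; exact hxy)
    have h6 : 0 < u y := hy
    linarith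

/-- blow-up limits of a one-homogeneous function at `x0 ≠ 0` are invariant in the direction `x0` -/
theorem blowup_inv {K : ℝ≥0} {u : E d → ℝ} (hu : LipschitzWith K u) (hh : Hom1 u) {x0 : E d} (hx : u x0 = 0)
    {r : ℕ → ℝ} (hr : ∀ k, 0 < r k) (hr0 : Tendsto r atTop (𝓝 0)) {v : E d → ℝ}
    (h : ∀ x, Tendsto (fun k => Crest.Agent.R097.blow u x0 (r k) x) atTop (𝓝 (v x))) (x : E d) (t : ℝ) :
    v (x + t • x0) = v x := by
  have hK : (0 : ℝ) ≤ K := K.2
  have h1 : Tendsto (fun k => Crest.Agent.R097.blow u x0 (r k) (x + t • x0) - Crest.Agent.R097.blow u x0 (r k) x)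
      atTop (𝓝 (v (x + t • x0) - v x)) := (h _).sub (h _)
  have h2 : Tendsto (fun k => Crest.Agent.R097.blow u x0 (r k) (x + t • x0) - Crest.Agent.R097.blow u x0 (r k) x)
      atTop (𝓝 0) := by
    refine squeeze_zero_norm' (a := fun k => (4 * K * ‖x‖ * |t|) * r k) ?_ (by simpa using hr0.const_mul (4 * K * ‖x‖ * |t|))
    have h3 : ∀ᶠ k in atTop, |r k * t| < 1 / 2 := by
      have : Tendsto (fun k => |r k * t|) atTop (𝓝 0) := by
        have := (hr0.mul_const t).abs
        simpa using this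
      exact this.eventually (gt_mem_nhds (by norm_num))
    filter_upwards [h3] with k hk
    have hrk := hr k
    set ρ := r k with hρ
    obtain ⟨ha, hb⟩ := abs_lt.1 hk
    have hs : 0 < 1 + ρ * t := by linarith
    set s := 1 + ρ * t with hsdef
    have e1 : x0 + ρ • (x + t • x0) = s • (x0 + (ρ / s) • x) := by
      rw [smul_add, smul_add, smul_smul, smul_smul, mul_div_cancel₀ _ hs.ne', hsdef, add_smul, one_smul]
      abel
    have e2 : u (x0 + ρ • (x + t • x0)) = s * u (x0 + (ρ / s) • x) := by rw [e1, hh s hs]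
    have hρs : 0 < ρ / s := div_pos hrk hs
    have b1 : |u (x0 + (ρ / s) • x)| ≤ K * (ρ / s * ‖x‖) := by
      have := hu.dist_le_mul (x0 + (ρ / s) • x) x0
      rw [Real.dist_eq, hx, sub_zero, dist_eq_norm, add_sub_cancel_left, norm_smul, Real.norm_eq_abs,
        abs_of_pos hρs] at this
      exact this
    have b2 : |u (x0 + (ρ / s) • x) - u (x0 + ρ • x)| ≤ K * (|ρ / s - ρ| * ‖x‖) := by
      have := hu.dist_le_mul (x0 + (ρ / s) • x) (x0 + ρ • x)
      rw [Real.dist_eq, dist_add_left, dist_eq_norm, ← sub_smul, norm_smul, Real.norm_eq_abs] at this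
      exact this
    have hs2 : 1 / s ≤ 2 := by
      rw [div_le_iff₀ hs]; linarith
    have b3 : ρ / s ≤ 2 * ρ := by
      rw [div_eq_mul_one_div]; nlinarith
    have b4 : |ρ / s - ρ| ≤ 2 * ρ * (ρ * |t|) := by
      have e3 : ρ / s - ρ = -(ρ / s * (ρ * t)) := by
        field_simp
        rw [hsdef]; ring
      rw [e3, abs_neg, abs_mul, abs_mul, abs_of_pos hrk, abs_of_pos (by positivity : 0 < ρ / s)]
      exact mul_le_mul_of_nonneg_right b3 (by positivity)
    rw [Real.norm_eq_abs, Crest.Agent.R097.blow, Crest.Agent.R097.blow, e2, ← sub_div, abs_div, abs_of_pos hrk,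
      div_le_iff₀ hrk]
    have e4 : s * u (x0 + (ρ / s) • x) - u (x0 + ρ • x)
        = (ρ * t) * u (x0 + (ρ / s) • x) + (u (x0 + (ρ / s) • x) - u (x0 + ρ • x)) := by
      rw [hsdef]; ring
    rw [e4]
    refine (abs_add_le _ _).trans ?_
    rw [abs_mul, abs_mul, abs_of_pos hrk]
    have b5 : ρ * |t| * |u (x0 + (ρ / s) • x)| ≤ ρ * |t| * (K * (2 * ρ * ‖x‖)) := by
      refine mul_le_mul_of_nonneg_left (b1.trans ?_) (by positivity)
      exact mul_le_mul_of_nonneg_left (mul_le_mul_of_nonneg_right b3 (norm_nonneg _)) hK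
    have b6 : |u (x0 + (ρ / s) • x) - u (x0 + ρ • x)| ≤ K * (2 * ρ * (ρ * |t|) * ‖x‖) :=
      b2.trans (mul_le_mul_of_nonneg_left (mul_le_mul_of_nonneg_right b4 (norm_nonneg _)) hK)
    nlinarith
  have h4 := tendsto_nhds_unique h1 h2
  linarith

end Crest.Agent.R097
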