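import Crest.Agent.R097.Defs

/-! C1: Arzela-Ascoli for Lipschitz functions. -/
set_option autoImplicit false
open MeasureTheory Metric Set Filter Topology
open scoped NNReal

namespace Crest.Agent.R097
variable {d : ℕ}

theorem lip_of_ptw {K : ℝ≥0} {u : ℕ → E d → ℝ} {v : E d → ℝ} (hu : ∀ k, LipschitzWith K (u k))
    (h : ∀ x, Tendsto (fun k => u k x) atTop (𝓝 (v x))) : LipschitzWith K v := by
  refine LipschitzWith.of_dist_le_mul fun x y => ?_
  have h1 : Tendsto (fun k => dist (u k x) (u k y)) atTop (𝓝 (dist (v x) (v y))) :=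
    (h x).dist (h y)
  exact le_of_tendsto h1 (Eventually.of_forall fun k => (hu k).dist_le_mul x y)

/-- pointwise convergence of equi-Lipschitz functions is uniform on balls -/
theorem unif_of_ptw {K : ℝ≥0} {u : ℕ → E d → ℝ} {v : E d → ℝ} (hu : ∀ k, LipschitzWith K (u k))
    (h : ∀ x, Tendsto (fun k => u k x) atTop (𝓝 (v x))) (R : ℝ) :
    TendstoUniformlyOn u v atTop (closedBall 0 R) := by
  have hv : LipschitzWith K v := lip_of_ptw hu h
  rw [Metric.tendstoUniformlyOn_iff]
  intro ε hε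
  have hK : (0 : ℝ) ≤ K := K.2
  set δ : ℝ := ε / (3 * (K + 1)) with hδ
  have hδ0 : 0 < δ := by positivity
  have hKδ : K * δ < ε / 3 := by
    rw [hδ]
    have : (K : ℝ) * (ε / (3 * (K + 1))) = (ε / 3) * (K / (K + 1)) := by
      field_simp
    rw [this]
    have h1 : (K : ℝ) / (K + 1) < 1 := by
      rw [div_lt_one (by positivity)]; linarith
    nlinarith
  obtain ⟨t, -, htf, ht⟩ := (isCompact_closedBall (0 : E d) R).finite_cover_balls hδ0
  have h2 : ∀ᶠ k in atTop, ∀ c ∈ t, dist (v c) (u k c) < ε / 3 := by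
    rw [Filter.eventually_all_finite htf]
    intro c _
    have := (Metric.tendsto_nhds.1 (h c)) (ε / 3) (by positivity)
    filter_upwards [this] with k hk
    rwa [dist_comm]
  filter_upwards [h2] with k hk x hx
  have h3 := ht hx
  simp only [mem_iUnion, mem_ball] at h3
  obtain ⟨c, hc, hxc⟩ := h3
  have h4 : dist (v x) (v c) ≤ K * δ :=
    (hv.dist_le_mul x c).trans (mul_le_mul_of_nonneg_left hxc.le hK)
  have h5 : dist (u k c) (u k x) ≤ K * δ := by
    refine ((hu k).dist_le_mul c x).trans (mul_le_mul_of_nonneg_left ?_ hK)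
    rw [dist_comm]; exact hxc.le
  have h6 := hk c hc
  calc dist (v x) (u k x) ≤ dist (v x) (v c) + dist (v c) (u k c) + dist (u k c) (u k x) :=
        dist_triangle4 _ _ _ _
    _ < ε := by linarith

theorem arzela {K : ℝ≥0} {u : ℕ → E d → ℝ} (hu : ∀ k, LipschitzWith K (u k)) {M : ℝ} (hM : ∀ k, |u k 0| ≤ M) :
    ∃ (φ : ℕ → ℕ) (v : E d → ℝ), StrictMono φ ∧ LipschitzWith K v ∧
      ∀ x, Tendsto (fun k => u (φ k) x) atTop (𝓝 (v x)) := by
  have hK : (0 : ℝ) ≤ K := K.2
  let q : ℕ → E d := TopologicalSpace.denseSeq (E d)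
  have hcomp : IsCompact (Set.pi univ fun n : ℕ => Icc (-(M + K * ‖q n‖)) (M + K * ‖q n‖)) :=
    isCompact_univ_pi fun n => isCompact_Icc
  have hbd : ∀ k x, |u k x| ≤ M + K * ‖x‖ := by
    intro k x
    have h1 := (hu k).dist_le_mul x 0
    rw [Real.dist_eq, dist_zero_right] at h1
    have h2 : |u k x| ≤ |u k x - u k 0| + |u k 0| := by
      have := abs_add_le (u k x - u k 0) (u k 0)
      simpa using this
    linarith [hM k]
  obtain ⟨a, -, φ, hφ, hlim⟩ := hcomp.tendsto_subseq (x := fun k n => u k (q n)) (by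
    intro k
    rw [mem_univ_pi]
    intro n
    exact abs_le.1 (hbd k (q n)))
  have hlim' : ∀ n, Tendsto (fun k => u (φ k) (q n)) atTop (𝓝 (a n)) := by
    intro n
    exact (tendsto_pi_nhds.1 hlim) n
  have hcau : ∀ x, CauchySeq (fun k => u (φ k) x) := by
    intro x
    rw [Metric.cauchySeq_iff]
    intro ε hε
    have hδ0 : 0 < ε / (3 * (K + 1)) := by positivity
    have hKδ : K * (ε / (3 * (K + 1))) < ε / 3 := by
      have : (K : ℝ) * (ε / (3 * (K + 1))) = (ε / 3) * (K / (K + 1)) := by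
        field_simp
      rw [this]
      have h1 : (K : ℝ) / (K + 1) < 1 := by
        rw [div_lt_one (by positivity)]; linarith
      nlinarith
    obtain ⟨n, hn⟩ : ∃ n, dist x (q n) < ε / (3 * (K + 1)) := by
      have := (TopologicalSpace.denseRange_denseSeq (E d)).exists_dist_lt x hδ0
      exact this
    have h1 := (hlim' n).cauchySeq
    rw [Metric.cauchySeq_iff] at h1
    obtain ⟨N, hN⟩ := h1 (ε / 3) (by positivity)
    refine ⟨N, fun m hm l hl => ?_⟩
    have h2 := hN m hm l hl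
    have h3 : dist (u (φ m) x) (u (φ m) (q n)) ≤ K * (ε / (3 * (K + 1))) :=
      ((hu _).dist_le_mul x (q n)).trans (mul_le_mul_of_nonneg_left hn.le hK)
    have h4 : dist (u (φ l) (q n)) (u (φ l) x) ≤ K * (ε / (3 * (K + 1))) := by
      refine ((hu _).dist_le_mul (q n) x).trans (mul_le_mul_of_nonneg_left ?_ hK)
      rw [dist_comm]; exact hn.le
    calc dist (u (φ m) x) (u (φ l) x)
        ≤ dist (u (φ m) x) (u (φ m) (q n)) + dist (u (φ m) (q n)) (u (φ l) (q n))
          + dist (u (φ l) (q n)) (u (φ l) x) := dist_triangle4 _ _ _ _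
      _ < ε := by linarith
  choose v hv using fun x => cauchySeq_tendsto_of_complete (hcau x)
  exact ⟨φ, v, hφ, lip_of_ptw (fun k => hu (φ k)) hv, hv⟩

end Crest.Agent.R097
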