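import Crest.Agent.R097.B3
import Crest.Agent.R097.C1

/-! C2: limits of Lipschitz minimisers. -/
set_option autoImplicit false
open MeasureTheory Metric Set Filter Topology
open scoped NNReal RealInnerProductSpace Gradient ContDiff Laplacian

namespace Crest.Agent.R097
variable {d : ℕ}

/-- local form of uniform convergence -/
lemma ptw_ball {K : ℝ≥0} {u : ℕ → E d → ℝ} {v : E d → ℝ} (hu : ∀ k, LipschitzWith K (u k))
    (h : ∀ x, Tendsto (fun k => u k x) atTop (𝓝 (v x))) (x0 : E d) (r : ℝ) {ε : ℝ} (hε : 0 < ε) :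
    ∀ᶠ k in atTop, ∀ x ∈ ball x0 r, |u k x - v x| < ε := by
  have h1 := unif_of_ptw hu h (‖x0‖ + |r|)
  rw [Metric.tendstoUniformlyOn_iff] at h1
  filter_upwards [h1 ε hε] with k hk x hx
  have h2 : x ∈ closedBall (0 : E d) (‖x0‖ + |r|) := by
    rw [mem_closedBall, dist_zero_right]
    have h3 : ‖x‖ ≤ ‖x0‖ + ‖x - x0‖ := by
      have := norm_add_le x0 (x - x0)
      simpa using this
    have h4 : ‖x - x0‖ < r := by rwa [← dist_eq_norm]
    linarith [le_abs_self r]
  have h3 := hk x h2
  rw [dist_comm, Real.dist_eq] at h3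
  exact h3

lemma unif_loc {K : ℝ≥0} {u : ℕ → E d → ℝ} {v : E d → ℝ} (hu : ∀ k, LipschitzWith K (u k))
    (h : ∀ x, Tendsto (fun k => u k x) atTop (𝓝 (v x))) (s : Set (E d)) :
    TendstoLocallyUniformlyOn u v atTop s := by
  rw [Metric.tendstoLocallyUniformlyOn_iff]
  intro ε hε x _
  refine ⟨ball x 1, mem_nhdsWithin_of_mem_nhds (ball_mem_nhds x one_pos), ?_⟩
  filter_upwards [ptw_ball hu h x 1 hε] with k hk y hy
  rw [dist_comm, Real.dist_eq]
  exact hk y hy

/-- nondegeneracy of limits -/
lemma lim_nondeg (hd : 1 ≤ d) : ∃ ε : ℝ, 0 < ε ∧ ∀ (K : ℝ≥0) (u : ℕ → E d → ℝ) (v : E d → ℝ),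
    (∀ k, LM (u k) K) → (∀ x, Tendsto (fun k => u k x) atTop (𝓝 (v x))) →
    ∀ (x0 : E d) (r : ℝ), 0 < r → (∀ x ∈ ball x0 r, v x ≤ ε * r) →
      ∀ᶠ k in atTop, ∀ x ∈ ball x0 (r / 2), u k x = 0 := by
  obtain ⟨ε, hε, H⟩ := nondeg d hd
  refine ⟨ε / 2, by positivity, fun K u v hu h x0 r hr hv => ?_⟩
  filter_upwards [ptw_ball (fun k => (hu k).lip) h x0 r (ε := ε / 2 * r) (by positivity)] with k hk
  refine H K (u k) (hu k) x0 r hr fun x hx => ?_
  have h1 := hv x hx
  have h2 := (abs_lt.1 (hk x hx)).2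
  linarith

/-- outside the free boundary of the limit, gradients converge and positivity stabilises -/
theorem lim_ptw (hd : 1 ≤ d) {K : ℝ≥0} {u : ℕ → E d → ℝ} {v : E d → ℝ} (hu : ∀ k, LM (u k) K)
    (h : ∀ x, Tendsto (fun k => u k x) atTop (𝓝 (v x))) :
    volume (frontier {x | 0 < v x}) = 0 ∧
    ∀ x ∉ frontier {x | 0 < v x}, Tendsto (fun k => ∇ (u k) x) atTop (𝓝 (∇ v x)) ∧
      ∀ᶠ k in atTop, pos (u k x) = pos (v x) := by
  have hlip : ∀ k, LipschitzWith K (u k) := fun k => (hu k).lip
  have hv : LipschitzWith K v := lip_of_ptw hlip h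
  have hv0 : ∀ x, 0 ≤ v x := fun x => ge_of_tendsto (h x) (Eventually.of_forall fun k => (hu k).nonneg x)
  obtain ⟨ε, hε, H⟩ := lim_nondeg (d := d) hd
  have hop : IsOpen {x | 0 < v x} := isOpen_lt continuous_const hv.continuous
  constructor
  · refine null_frontier hv hv0 hε fun x0 r hr hx x hx' => ?_
    have h1 := H K u v hu h x0 r hr hx
    have h2 : Tendsto (fun k => u k x) atTop (𝓝 0) :=
      tendsto_const_nhds.congr' (by filter_upwards [h1] with k hk; exact (hk x hx').symm)
    exact tendsto_nhds_unique (h x) h2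
  · intro x hx
    by_cases hpx : 0 < v x
    · -- positivity set
      obtain ⟨r, hr, hb⟩ : ∃ r > 0, ∀ y ∈ ball x r, v x / 2 < v y := by
        have : ∀ᶠ y in 𝓝 x, v x / 2 < v y :=
          hv.continuous.continuousAt.eventually (lt_mem_nhds (by linarith))
        exact Metric.eventually_nhds_iff_ball.1 this
      have h1 := ptw_ball hlip h x r (ε := v x / 4) (by positivity)
      have h2 : ∀ᶠ k in atTop, ∀ y ∈ ball x r, 0 < u k y := by
        filter_upwards [h1] with k hk y hy
        have := (abs_lt.1 (hk y hy)).1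
        have := hb y hy
        linarith
      refine ⟨?_, ?_⟩
      · have h3 : ∀ᶠ k in atTop, Harm (u k) (ball x r) := by
          filter_upwards [h2] with k hk
          exact ⟨(hu k).harm.1.mono hk, fun y hy => (hu k).harm.2 y (hk y hy)⟩
        exact (harm_lim isOpen_ball h3 (unif_loc hlip h _)).2 x (mem_ball_self hr)
      · filter_upwards [h2] with k hk
        simp [pos, hk x (mem_ball_self hr), hpx]
    · have hvx : v x = 0 := le_antisymm (not_lt.1 hpx) (hv0 x)
      have hx2 : x ∉ closure {x | 0 < v x} := by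
        intro hc
        refine hx ⟨hc, fun hi => hpx ?_⟩
        have h3 : x ∈ {x | 0 < v x} := interior_subset hi
        exact h3
      obtain ⟨r, hr, hb⟩ : ∃ r > 0, ∀ y ∈ ball x r, v y = 0 := by
        have : ∀ᶠ y in 𝓝 x, y ∉ {x | 0 < v x} := by
          have h1 : (closure {x | 0 < v x})ᶜ ∈ 𝓝 x := isClosed_closure.isOpen_compl.mem_nhds hx2
          filter_upwards [h1] with y hy hy2
          exact hy (subset_closure hy2)
        obtain ⟨r, hr, hb⟩ := Metric.eventually_nhds_iff_ball.1 this
        exact ⟨r, hr, fun y hy => le_antisymm (not_lt.1 (hb y hy)) (hv0 y)⟩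
      have h1 := H K u v hu h x r hr (fun y hy => by rw [hb y hy]; positivity)
      have hgv : ∇ v x = 0 := by
        have : fderiv ℝ v x = 0 := fderiv_eq_zero_of_nonneg hv0 hvx
        rw [← norm_eq_zero, norm_gradient, this, norm_zero]
      refine ⟨?_, ?_⟩
      · rw [hgv]
        refine tendsto_const_nhds.congr' ?_
        filter_upwards [h1] with k hk
        have : fderiv ℝ (u k) x = 0 :=
          fderiv_eq_zero_of_nonneg (hu k).nonneg (hk x (mem_ball_self (by positivity)))
        symm
        rw [← norm_eq_zero, norm_gradient, this, norm_zero]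
      · filter_upwards [h1] with k hk
        rw [hk x (mem_ball_self (by positivity)), hvx]

theorem lim_LM (hd : 1 ≤ d) {K : ℝ≥0} {u : ℕ → E d → ℝ} {v : E d → ℝ} (hu : ∀ k, LM (u k) K)
    (h : ∀ x, Tendsto (fun k => u k x) atTop (𝓝 (v x))) : LM v K := by
  have hlip : ∀ k, LipschitzWith K (u k) := fun k => (hu k).lip
  have hv : LipschitzWith K v := lip_of_ptw hlip h
  have hv0 : ∀ x, 0 ≤ v x := fun x => ge_of_tendsto (h x) (Eventually.of_forall fun k => (hu k).nonneg x)
  refine LM.of_dJ hv0 hv fun w L hw hw0 hc => ?_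
  obtain ⟨R, hR0, hR⟩ : ∃ R : ℝ, 0 < R ∧ tsupport (fun x => w x - v x) ⊆ ball 0 R := by
    obtain ⟨R, hR⟩ := hc.isCompact.isBounded.subset_ball_lt 0 0
    exact ⟨R, hR.1, hR.2⟩
  have hwv : ∀ x : E d, R ≤ ‖x‖ → w x = v x := by
    intro x hx
    have : x ∉ tsupport (fun x => w x - v x) := fun h2 => by
      have := hR h2
      rw [mem_ball, dist_zero_right] at this
      linarith
    have h2 := image_eq_zero_of_notMem_tsupport this
    linarith
  -- bound of |w - v|
  obtain ⟨M0, hM0⟩ : ∃ M0 : ℝ, ∀ x, |w x - v x| ≤ M0 := by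
    have hcont : Continuous (fun x => w x - v x) := hw.continuous.sub hv.continuous
    obtain ⟨C, hC⟩ := hcont.bounded_above_of_compact_support hc
    exact ⟨C, fun x => by simpa using hC x⟩
  have hM00 : 0 ≤ M0 := (abs_nonneg _).trans (hM0 0)
  set M : ℝ≥0 := ⟨M0 + 1, by positivity⟩ with hMdef
  have hMc : (M : ℝ) = M0 + 1 := rfl
  set ζ : E d → ℝ := fun x => M * max (R + 1 - ‖x‖) 0 with hζ
  have hζ0 : ∀ x, 0 ≤ ζ x := fun x => mul_nonneg M.2 (le_max_right _ _)
  have hζl : LipschitzWith M ζ := by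
    refine LipschitzWith.of_dist_le_mul fun x y => ?_
    rw [Real.dist_eq, hζ]
    simp only
    rw [← mul_sub, abs_mul, abs_of_nonneg (NNReal.coe_nonneg M)]
    refine mul_le_mul_of_nonneg_left ?_ (NNReal.coe_nonneg M)
    refine (abs_max_sub_max_le_abs _ _ _).trans ?_
    have : R + 1 - ‖x‖ - (R + 1 - ‖y‖) = ‖y‖ - ‖x‖ := by ring
    rw [this, abs_sub_comm, dist_eq_norm]
    exact abs_norm_sub_norm_le x y
  set W : ℕ → E d → ℝ := fun k x => max (u k x - ζ x) (min (w x) (u k x + ζ x)) with hW
  set L' : ℝ≥0 := max (K + M) (max L (K + M)) with hL'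
  have hWl : ∀ k, LipschitzWith L' (W k) := fun k =>
    ((hlip k).sub hζl).max (hw.min ((hlip k).add hζl))
  have hW0 : ∀ k x, 0 ≤ W k x := fun k x =>
    le_max_of_le_right (le_min (hw0 x) (add_nonneg ((hu k).nonneg x) (hζ0 x)))
  have hWout : ∀ k x, R + 1 ≤ ‖x‖ → W k x = u k x := by
    intro k x hx
    have h1 : ζ x = 0 := by
      simp only [hζ]
      rw [max_eq_right (by linarith)]
      ring
    simp only [hW, h1, sub_zero, add_zero]
    rcases le_total (w x) (u k x) with h2 | h2
    · rw [min_eq_left h2, max_eq_left h2]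
    · rw [min_eq_right h2, max_self]
  have hWc : ∀ k, HasCompactSupport (fun x => W k x - u k x) := by
    intro k
    refine HasCompactSupport.of_support_subset_isCompact (isCompact_closedBall (0 : E d) (R + 1)) ?_
    intro x hx
    by_contra h2
    rw [mem_closedBall, dist_zero_right, not_le] at h2
    exact hx (by simp [hWout k x h2.le])
  have hJ : ∀ k, 0 ≤ dJ (W k) (u k) := fun k => (hu k).dJ_nonneg (hWl k) (hW0 k) (hWc k)
  obtain ⟨hnull, hptw⟩ := lim_ptw hd hu h
  -- local stabilisation
  have hloc : ∀ x : E d, ‖x‖ < R + 1 → ∀ᶠ k in atTop, W k =ᶠ[𝓝 x] w := by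
    intro x hx
    set δ : ℝ := (R + 1 - ‖x‖) / 2 with hδ
    have hδ0 : 0 < δ := by rw [hδ]; linarith
    have hδ1 : ∀ y ∈ ball x δ, δ ≤ R + 1 - ‖y‖ := by
      intro y hy
      have h3 : ‖y‖ ≤ ‖x‖ + ‖y - x‖ := by
        have := norm_add_le x (y - x)
        simpa using this
      have h4 : ‖y - x‖ < δ := by rwa [← dist_eq_norm]
      linarith
    have h1 := ptw_ball hlip h x δ (ε := min 1 (M * δ)) (by
      have : (0 : ℝ) < M := by rw [hMc]; positivity
      positivity)
    filter_upwards [h1] with k hk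
    filter_upwards [ball_mem_nhds x hδ0] with y hy
    have h2 := hk y hy
    have h3 : |u k y - v y| < 1 := h2.trans_le (min_le_left _ _)
    have h4 : |u k y - v y| < M * δ := h2.trans_le (min_le_right _ _)
    have h5 : |w y - u k y| ≤ ζ y := by
      have hz : ζ y = M * (R + 1 - ‖y‖) := by
        simp only [hζ]
        rw [max_eq_left (by linarith [hδ1 y hy])]
      rw [hz]
      rcases le_total R ‖y‖ with h6 | h6
      · rw [hwv y h6, abs_sub_comm]
        exact h4.le.trans (mul_le_mul_of_nonneg_left (hδ1 y hy) M.2)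
      · have h7 : |w y - u k y| ≤ |w y - v y| + |u k y - v y| := by
          have := abs_sub_le (w y) (v y) (u k y)
          rwa [abs_sub_comm (v y) (u k y)] at this
        have h8 := hM0 y
        have h9 : (M : ℝ) * 1 ≤ M * (R + 1 - ‖y‖) := mul_le_mul_of_nonneg_left (by linarith) M.2
        rw [hMc] at h9 ⊢
        linarith
    obtain ⟨h6, h7⟩ := abs_le.1 h5
    simp only [hW]
    rw [min_eq_left (by linarith), max_eq_right (by linarith)]
  have hLK : ∀ k x, ‖eD (W k) (u k) x‖ ≤ (closedBall (0 : E d) (R + 1)).indicator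
      (fun _ => (L' : ℝ) ^ 2 + (K : ℝ) ^ 2 + 2) x := by
    intro k x
    by_cases hx : x ∈ closedBall (0 : E d) (R + 1)
    · rw [indicator_of_mem hx, Real.norm_eq_abs, eD]
      have h1 := norm_grad_le (hWl k) x
      have h2 := norm_grad_le (hlip k) x
      have h3 : ‖∇ (W k) x‖ ^ 2 ≤ (L' : ℝ) ^ 2 := pow_le_pow_left₀ (norm_nonneg _) h1 2
      have h4 : ‖∇ (u k) x‖ ^ 2 ≤ (K : ℝ) ^ 2 := pow_le_pow_left₀ (norm_nonneg _) h2 2
      have h5 := sq_nonneg ‖∇ (W k) x‖
      have h6 := sq_nonneg ‖∇ (u k) x‖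
      have h7 := pos_nonneg (W k x)
      have h8 := pos_le_one (W k x)
      have h9 := pos_nonneg (u k x)
      have h10 := pos_le_one (u k x)
      rw [abs_le]
      constructor <;> nlinarith
    · rw [indicator_of_notMem hx]
      have h1 : x ∉ tsupport (fun x => W k x - u k x) := by
        intro h2
        have h3 : tsupport (fun x => W k x - u k x) ⊆ closedBall (0 : E d) (R + 1) := by
          refine closure_minimal ?_ isClosed_closedBall
          intro y hy
          by_contra h2
          rw [mem_closedBall, dist_zero_right, not_le] at h2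
          exact hy (by simp [hWout k y h2.le])
        exact hx (h3 h2)
      rw [eD_zero h1, norm_zero]
  have hmeas : ∀ k, AEStronglyMeasurable (eD (W k) (u k)) volume := fun k =>
    (eD_integrable (hWl k) (hlip k) (hWc k)).aestronglyMeasurable
  have hlim : Tendsto (fun k => dJ (W k) (u k)) atTop (𝓝 (dJ w v)) := by
    refine tendsto_integral_of_dominated_convergence _ hmeas ?_ (fun k => Eventually.of_forall (hLK k)) ?_
    · rw [integrable_indicator_iff measurableSet_closedBall]
      exact integrableOn_const (by exact measure_closedBall_lt_top.ne)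
    · have hs : volume (sphere (0 : E d) (R + 1)) = 0 :=
        Measure.addHaar_sphere_of_ne_zero _ _ (by linarith)
      have h1 : ∀ᵐ x : E d, x ∉ frontier {x | 0 < v x} := by
        rw [ae_iff]
        have h3 : {a : E d | ¬ a ∉ frontier {x | 0 < v x}} = frontier {x | 0 < v x} := by
          ext a; simp
        rw [h3]; exact hnull
      have h2 : ∀ᵐ x : E d, x ∉ sphere (0 : E d) (R + 1) := by
        rw [ae_iff]
        have h3 : {a : E d | ¬ a ∉ sphere (0 : E d) (R + 1)} = sphere (0 : E d) (R + 1) := by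
          ext a; simp
        rw [h3]; exact hs
      filter_upwards [h1, h2] with x hx1 hx2
      obtain ⟨hg, hp⟩ := hptw x hx1
      rcases lt_trichotomy ‖x‖ (R + 1) with h3 | h3 | h3
      · have h4 := hloc x h3
        have h5 : Tendsto (fun k => (‖∇ w x‖ ^ 2 - ‖∇ (u k) x‖ ^ 2) + (pos (w x) - pos (v x)))
            atTop (𝓝 (eD w v x)) := by
          refine Tendsto.add ?_ tendsto_const_nhds
          exact tendsto_const_nhds.sub ((hg.norm).pow 2)
        refine h5.congr' ?_
        filter_upwards [h4, hp] with k hk1 hk2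
        have h6 : ∇ (W k) x = ∇ w x := by
          unfold gradient
          rw [hk1.fderiv_eq]
        rw [eD, h6, hk1.eq_of_nhds, hk2]
      · exact absurd (by simp [h3]) hx2
      · have h4 : ∀ k, eD (W k) (u k) x = 0 := by
          intro k
          have h5 := hLK k x
          rw [indicator_of_notMem (by simp [h3])] at h5
          exact norm_le_zero_iff.1 h5
        have h6 : eD w v x = 0 := by
          refine eD_zero fun h7 => ?_
          have := hR h7
          rw [mem_ball, dist_zero_right] at this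
          linarith
        simp_rw [h4, h6]
        exact tendsto_const_nhds
  exact ge_of_tendsto hlim (Eventually.of_forall hJ)

end Crest.Agent.R097
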