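import Mathlib

/-!
# Row 97: polynomials in `(ζ, c, Q, v)` given by integer data (helper351)
-/

set_option autoImplicit false
open scoped BigOperators

namespace Crest.Agent.R097.CP

/-- a monomial: coefficient and exponents of `ζ, c, Q, v` -/
structure Mon where
  a : ℤ
  i : ℕ
  j : ℕ
  k : ℕ
  l : ℕ

/-- polynomials as lists of monomials -/
abbrev Pol := List Mon

noncomputable def Mon.ev (m : Mon) (z : Fin 4 → ℝ) : ℝ :=
  (m.a : ℝ) * z 0 ^ m.i * z 1 ^ m.j * z 2 ^ m.k * z 3 ^ m.l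

/-- the value of a polynomial at `z = (ζ, c, Q, v)` -/
noncomputable def Pol.ev (p : Pol) (z : Fin 4 → ℝ) : ℝ := (p.map fun m => m.ev z).sum

lemma Pol.ev_nil (z : Fin 4 → ℝ) : Pol.ev [] z = 0 := rfl
lemma Pol.ev_cons (m : Mon) (p : Pol) (z : Fin 4 → ℝ) : Pol.ev (m :: p) z = m.ev z + Pol.ev p z := by
  simp [Pol.ev]

/-- formal partial derivatives -/
def Mon.D0 (m : Mon) : Mon := ⟨m.a * m.i, m.i - 1, m.j, m.k, m.l⟩
def Mon.D1 (m : Mon) : Mon := ⟨m.a * m.j, m.i, m.j - 1, m.k, m.l⟩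
def Mon.D2 (m : Mon) : Mon := ⟨m.a * m.k, m.i, m.j, m.k - 1, m.l⟩
def Mon.D3 (m : Mon) : Mon := ⟨m.a * m.l, m.i, m.j, m.k, m.l - 1⟩

def Mon.D (r : Fin 4) (m : Mon) : Mon :=
  match r with
  | 0 => m.D0
  | 1 => m.D1
  | 2 => m.D2
  | 3 => m.D3

def Pol.D (r : Fin 4) (p : Pol) : Pol := p.map (Mon.D r)

lemma Mon.hasFDerivAt (m : Mon) (z : Fin 4 → ℝ) :
    HasFDerivAt m.ev (∑ r, (m.D r).ev z • (ContinuousLinearMap.proj r : (Fin 4 → ℝ) →L[ℝ] ℝ)) z := by
  have h : ∀ r : Fin 4, HasFDerivAt (fun z : Fin 4 → ℝ => z r)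
      (ContinuousLinearMap.proj r : (Fin 4 → ℝ) →L[ℝ] ℝ) z := fun r =>
    (ContinuousLinearMap.proj r : (Fin 4 → ℝ) →L[ℝ] ℝ).hasFDerivAt
  have h0 := (h 0).pow m.i
  have h1 := (h 1).pow m.j
  have h2 := (h 2).pow m.k
  have h3 := (h 3).pow m.l
  have h4 := ((((hasFDerivAt_const (m.a : ℝ) z).mul h0).mul h1).mul h2).mul h3
  refine (h4.congr_fderiv ?_)
  ext v
  simp only [Fin.sum_univ_four, Mon.D, Mon.D0, Mon.D1, Mon.D2, Mon.D3, Mon.ev, add_apply, smul_apply,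
    smul_eq_mul, ContinuousLinearMap.proj_apply, smul_zero, add_zero, nsmul_eq_mul]
  simp only [Pi.mul_apply]
  push_cast
  ring

lemma Pol.hasFDerivAt (p : Pol) (z : Fin 4 → ℝ) :
    HasFDerivAt p.ev (∑ r, (p.D r).ev z • (ContinuousLinearMap.proj r : (Fin 4 → ℝ) →L[ℝ] ℝ)) z := by
  induction p with
  | nil =>
    have : Pol.ev [] = fun _ : Fin 4 → ℝ => (0 : ℝ) := by ext z; rfl
    rw [this]
    refine (hasFDerivAt_const (0 : ℝ) z).congr_fderiv ?_
    ext v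
    simp [Pol.D, Pol.ev]
  | cons m p ih =>
    have : Pol.ev (m :: p) = fun z => m.ev z + Pol.ev p z := by ext z; rw [Pol.ev_cons]
    rw [this]
    refine ((m.hasFDerivAt z).add ih).congr_fderiv ?_
    ext v
    simp only [add_apply, sum_apply, smul_apply, smul_eq_mul, ← Finset.sum_add_distrib]
    refine Finset.sum_congr rfl fun r _ => ?_
    rw [show Pol.D r (m :: p) = Mon.D r m :: Pol.D r p from rfl, Pol.ev_cons]
    ring

lemma Mon.continuous_ev (m : Mon) : Continuous m.ev := by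
  unfold Mon.ev
  fun_prop

lemma Pol.continuous_ev (p : Pol) : Continuous p.ev := by
  induction p with
  | nil => exact continuous_const
  | cons m p ih =>
    have : Pol.ev (m :: p) = fun z => m.ev z + Pol.ev p z := by ext z; rw [Pol.ev_cons]
    rw [this]
    exact m.continuous_ev.add ih

end Crest.Agent.R097.CP
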