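import Crest.Agent.R097.Red6

/-!
# Row 97: FORMAT OF THE CERTIFICATE (small-state class: `X = γ (M:T) + (y₀ + y₁ M + y₂ M² + y₃ M³) q`)

Link quantities at a point `x` of `Om u ⊆ E (n+1)`: `N = |x| D²u(x)` (kills `x`), eigenvalues
`lam : Fin n → ℝ` on `x^⊥`, `s = u(x)/|x|`, `g = Du - s x/|x|`, `τ = ` tangential part of `|x|² D³u(x)`.
Coefficient functions are `C¹` functions of `z = (P₂, P₃, q, s)`, `P_j = ∑ lam^j`, `q = |g|²`.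
-/

set_option autoImplicit false
open scoped BigOperators

namespace Crest.Agent.R097

/-- a coefficient function of `z = (P₂, P₃, q, s)` together with its partial derivatives -/
structure Coef where
  f : (Fin 4 → ℝ) → ℝ
  d : Fin 4 → (Fin 4 → ℝ) → ℝ

/-- `F` is `C¹` on `P₂ > 0` with the given partial derivatives -/
structure Coef.Ok (F : Coef) : Prop where
  has : ∀ z : Fin 4 → ℝ, 0 < z 0 →
    HasFDerivAt F.f (∑ i, F.d i z • (ContinuousLinearMap.proj i : (Fin 4 → ℝ) →L[ℝ] ℝ)) z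
  cont : ∀ i, ContinuousOn (F.d i) {z | 0 < z 0}

/-- the arguments of the coefficient functions -/
def zv {n : ℕ} (lam g : Fin n → ℝ) (s : ℝ) : Fin 4 → ℝ :=
  ![∑ i, lam i ^ 2, ∑ i, lam i ^ 3, ∑ i, g i ^ 2, s]

/-- tangential derivative (direction `k`) of a coefficient function, in an eigenbasis -/
def Coef.D {n : ℕ} (F : Coef) (lam g : Fin n → ℝ) (s : ℝ) (τ : Fin n → Fin n → Fin n → ℝ)
    (k : Fin n) : ℝ :=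
  F.d 0 (zv lam g s) * (2 * ∑ a, lam a * τ a a k) +
  F.d 1 (zv lam g s) * (3 * ∑ a, lam a ^ 2 * τ a a k) +
  F.d 2 (zv lam g s) * (2 * (lam k - s) * g k) +
  F.d 3 (zv lam g s) * g k

/-- totally symmetric trace-free 3-tensors -/
structure STF {n : ℕ} (τ : Fin n → Fin n → Fin n → ℝ) : Prop where
  s12 : ∀ a b c, τ a b c = τ b a c
  s23 : ∀ a b c, τ a b c = τ a c b
  tr : ∀ k, ∑ a, τ a a k = 0

/-- data of a certificate: `X = γ (M:T) + (y₀ + y₁ M + y₂ M² + y₃ M³) q`, test function `√Z` -/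
structure CertData where
  ga : Coef
  y0 : Coef
  y1 : Coef
  y2 : Coef
  y3 : Coef
  Z : Coef

/-- the divergence of `X` on the link, in an eigenbasis -/
def CertData.divE {n : ℕ} (C : CertData) (lam g : Fin n → ℝ) (s : ℝ)
    (τ : Fin n → Fin n → Fin n → ℝ) : ℝ :=
  C.ga.f (zv lam g s) * (n * (∑ i, lam i ^ 2) + ∑ a, ∑ b, ∑ c, τ a b c ^ 2) +
  (∑ k, C.ga.D lam g s τ k * ∑ a, lam a * τ a a k) +
  (C.y0.f (zv lam g s) * (-(n * s)) + ∑ k, C.y0.D lam g s τ k * g k) +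
  (C.y1.f (zv lam g s) * (∑ i, lam i ^ 2) + ∑ k, C.y1.D lam g s τ k * (lam k * g k)) +
  (C.y2.f (zv lam g s) * ((∑ k, g k * ∑ a, lam a * τ a a k) + (∑ i, lam i ^ 3) -
      s * ∑ i, lam i ^ 2) + ∑ k, C.y2.D lam g s τ k * (lam k ^ 2 * g k)) +
  (C.y3.f (zv lam g s) * ((∑ k, g k * ∑ a, (lam a ^ 2 + lam a * lam k) * τ a a k) +
      (∑ i, lam i ^ 4) - s * ∑ i, lam i ^ 3) + ∑ k, C.y3.D lam g s τ k * (lam k ^ 3 * g k))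

/-- admissible states (closed in `s`, including the boundary states `s = 0`, `q = 1`);
the a priori inequality `u² |D²u|² ≤ (n/(2(n+2))) (1 - |Du|⁴)` is `apriori619_cone` -/
structure Adm {n : ℕ} (lam g : Fin n → ℝ) (s : ℝ) : Prop where
  tr : ∑ i, lam i = 0
  pos : 0 < ∑ i, lam i ^ 2
  s0 : 0 ≤ s
  q1 : (∑ i, g i ^ 2) + s ^ 2 ≤ 1
  ap : s ^ 2 * (∑ i, lam i ^ 2) ≤ (n : ℝ) / (2 * (n + 2)) * (1 - ((∑ i, g i ^ 2) + s ^ 2) ^ 2)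

/-- growth near `P₂ = 0` (and boundedness for bounded `P₂`), smooth version -/
def GrowthA (n : ℕ) (C : CertData) : Prop :=
  ∀ R : ℝ, ∃ K : ℝ, ∀ (lam g : Fin n → ℝ) (s : ℝ), Adm lam g s → ∑ i, lam i ^ 2 ≤ R →
    C.Z.f (zv lam g s) ≤ K * ∑ i, lam i ^ 2 ∧ |C.Z.d 0 (zv lam g s)| ≤ K ∧
    |C.Z.d 1 (zv lam g s)| ≤ K ∧
    |C.Z.d 2 (zv lam g s)| ≤ K * Real.sqrt (∑ i, lam i ^ 2) ∧
    |C.Z.d 3 (zv lam g s)| ≤ K * Real.sqrt (∑ i, lam i ^ 2) ∧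
    |C.y0.f (zv lam g s)| ≤ K * Real.sqrt (∑ i, lam i ^ 2) ∧
    |C.ga.f (zv lam g s)| ≤ K ∧ |C.y1.f (zv lam g s)| ≤ K ∧ |C.y2.f (zv lam g s)| ≤ K ∧
    |C.y3.f (zv lam g s)| ≤ K

/-- homogeneous growth near `P₂ = 0` (and boundedness for bounded `P₂`): `Z ~ |M|^{2 mu}` -/
def GrowthB (n : ℕ) (C : CertData) : Prop :=
  ∃ mu : ℝ, ((n : ℝ) - 1) / (2 * (n + 1)) < mu ∧ mu ≤ 1 ∧ ∀ R : ℝ, ∃ K : ℝ,
    ∀ (lam g : Fin n → ℝ) (s : ℝ), Adm lam g s → ∑ i, lam i ^ 2 ≤ R →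
      C.Z.f (zv lam g s) ≤ K * Real.sqrt (∑ i, lam i ^ 2) ^ (2 * mu) ∧
      |C.Z.d 0 (zv lam g s)| ≤ K * Real.sqrt (∑ i, lam i ^ 2) ^ (2 * mu - 2) ∧
      |C.Z.d 1 (zv lam g s)| ≤ K * Real.sqrt (∑ i, lam i ^ 2) ^ (2 * mu - 3) ∧
      |C.Z.d 2 (zv lam g s)| ≤ K * Real.sqrt (∑ i, lam i ^ 2) ^ (2 * mu) ∧
      |C.Z.d 3 (zv lam g s)| ≤ K * Real.sqrt (∑ i, lam i ^ 2) ^ (2 * mu) ∧
      |C.y0.f (zv lam g s)| ≤ K * Real.sqrt (∑ i, lam i ^ 2) ^ (2 * mu) ∧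
      |C.ga.f (zv lam g s)| ≤ K * Real.sqrt (∑ i, lam i ^ 2) ^ (2 * mu - 2) ∧
      |C.y1.f (zv lam g s)| ≤ K * Real.sqrt (∑ i, lam i ^ 2) ^ (2 * mu - 1) ∧
      |C.y2.f (zv lam g s)| ≤ K * Real.sqrt (∑ i, lam i ^ 2) ^ (2 * mu - 2) ∧
      |C.y3.f (zv lam g s)| ≤ K * Real.sqrt (∑ i, lam i ^ 2) ^ (2 * mu - 3)

/-- **certificate** in link dimension `n` (`d = n+1`) -/
structure Cert (n : ℕ) (C : CertData) (Lam : ℝ) : Prop where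
  okga : C.ga.Ok
  ok0 : C.y0.Ok
  ok1 : C.y1.Ok
  ok2 : C.y2.Ok
  ok3 : C.y3.Ok
  okZ : C.Z.Ok
  Zpos : ∀ (lam g : Fin n → ℝ) (s : ℝ), Adm lam g s → 0 < C.Z.f (zv lam g s)
  lam_gt : (((n : ℝ) - 1) / 2) ^ 2 < Lam
  /-- (PJ) -/
  PJ : ∀ (lam g : Fin n → ℝ) (s : ℝ) (τ : Fin n → Fin n → Fin n → ℝ), Adm lam g s → STF τ →
    (∑ k, C.Z.D lam g s τ k ^ 2) / (4 * C.Z.f (zv lam g s)) + Lam * C.Z.f (zv lam g s) ≤
      C.divE lam g s τ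
  /-- (BJ): `s = 0`, `q = 1`, `-H` one of the eigenvalues -/
  BJ : ∀ (lam : Fin n → ℝ) (k0 : Fin n) (H : ℝ), ∑ i, lam i = 0 → 0 < ∑ i, lam i ^ 2 →
    0 ≤ H → lam k0 = -H →
    0 ≤ H * C.Z.f ![∑ i, lam i ^ 2, ∑ i, lam i ^ 3, 1, 0] +
      C.y0.f ![∑ i, lam i ^ 2, ∑ i, lam i ^ 3, 1, 0] -
      H * C.y1.f ![∑ i, lam i ^ 2, ∑ i, lam i ^ 3, 1, 0] +
      H ^ 2 * C.y2.f ![∑ i, lam i ^ 2, ∑ i, lam i ^ 3, 1, 0] -
      H ^ 3 * C.y3.f ![∑ i, lam i ^ 2, ∑ i, lam i ^ 3, 1, 0] -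
      C.ga.f ![∑ i, lam i ^ 2, ∑ i, lam i ^ 3, 1, 0] *
        (2 * H * (∑ i, lam i ^ 2) + ∑ i, lam i ^ 3)
  growth : GrowthA n C ∨ GrowthB n C

end Crest.Agent.R097
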