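import Crest.Agent.R097.CP0
import Crest.Agent.R097.RCert

/-!
# Row 97: coefficient functions `ρ^e p(ζ, c, Q, v)` (helper351)

`ρ² = A₀ + P₂`, `ζ = A₀/ρ²`, `c = P₃/ρ³`, `Q = q + s²`, `v = s ρ`.
-/

set_option autoImplicit false
open scoped BigOperators

namespace Crest.Agent.R097.CP

/-- `ρ` -/
noncomputable def rh (A0 : ℝ) (z : Fin 4 → ℝ) : ℝ := Real.sqrt (A0 + z 0)

/-- the normalised arguments `(ζ, c, Q, v)` -/
noncomputable def nz (A0 : ℝ) (z : Fin 4 → ℝ) : Fin 4 → ℝ :=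
  ![A0 / rh A0 z ^ 2, z 1 / rh A0 z ^ 3, z 2 + z 3 ^ 2, z 3 * rh A0 z]

/-- the Euler type derivative `e p - 2 ζ p_ζ - 3 c p_c + v p_v` -/
noncomputable def eul (e : ℤ) (p : Pol) (y : Fin 4 → ℝ) : ℝ :=
  e * p.ev y - 2 * y 0 * (p.D 0).ev y - 3 * y 1 * (p.D 1).ev y + y 3 * (p.D 3).ev y

/-- the coefficient function -/
noncomputable def coef (A0 : ℝ) (e : ℤ) (p : Pol) : Coef where
  f z := rh A0 z ^ e * p.ev (nz A0 z)
  d i z := rh A0 z ^ e * (![eul e p (nz A0 z) / (2 * rh A0 z ^ 2),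
    (p.D 1).ev (nz A0 z) / rh A0 z ^ 3,
    (p.D 2).ev (nz A0 z),
    2 * z 3 * (p.D 2).ev (nz A0 z) + rh A0 z * (p.D 3).ev (nz A0 z)] i)

lemma rh_pos {A0 : ℝ} (hA : 0 < A0) {z : Fin 4 → ℝ} (hz : 0 < z 0) : 0 < rh A0 z :=
  Real.sqrt_pos.2 (by linarith)

lemma rh_sq {A0 : ℝ} (hA : 0 < A0) {z : Fin 4 → ℝ} (hz : 0 < z 0) : rh A0 z ^ 2 = A0 + z 0 :=
  Real.sq_sqrt (by linarith)

lemma hasFDerivAt_rh {A0 : ℝ} (hA : 0 < A0) {z : Fin 4 → ℝ} (hz : 0 < z 0) :
    HasFDerivAt (rh A0) ((1 / (2 * rh A0 z)) • (ContinuousLinearMap.proj 0 : (Fin 4 → ℝ) →L[ℝ] ℝ)) z := by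
  have h0 : HasFDerivAt (fun z : Fin 4 → ℝ => A0 + z 0)
      (ContinuousLinearMap.proj 0 : (Fin 4 → ℝ) →L[ℝ] ℝ) z :=
    ((ContinuousLinearMap.proj 0 : (Fin 4 → ℝ) →L[ℝ] ℝ).hasFDerivAt).const_add A0
  exact h0.sqrt (by linarith)

/-- the derivative of `nz` -/
lemma hasFDerivAt_nz {A0 : ℝ} (hA : 0 < A0) {z : Fin 4 → ℝ} (hz : 0 < z 0) :
    HasFDerivAt (nz A0) (ContinuousLinearMap.pi fun i : Fin 4 =>
      (![(-(2 * A0) / rh A0 z ^ 3 * (1 / (2 * rh A0 z))) •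
            (ContinuousLinearMap.proj 0 : (Fin 4 → ℝ) →L[ℝ] ℝ),
        (-(3 * z 1) / rh A0 z ^ 4 * (1 / (2 * rh A0 z))) •
            (ContinuousLinearMap.proj 0 : (Fin 4 → ℝ) →L[ℝ] ℝ)
          + (1 / rh A0 z ^ 3) • (ContinuousLinearMap.proj 1 : (Fin 4 → ℝ) →L[ℝ] ℝ),
        (ContinuousLinearMap.proj 2 : (Fin 4 → ℝ) →L[ℝ] ℝ)
          + (2 * z 3) • (ContinuousLinearMap.proj 3 : (Fin 4 → ℝ) →L[ℝ] ℝ),
        (z 3 * (1 / (2 * rh A0 z))) • (ContinuousLinearMap.proj 0 : (Fin 4 → ℝ) →L[ℝ] ℝ)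
          + rh A0 z • (ContinuousLinearMap.proj 3 : (Fin 4 → ℝ) →L[ℝ] ℝ)] i)) z := by
  have hρ := rh_pos hA hz
  have hρ' := hρ.ne'
  have hr := hasFDerivAt_rh hA hz
  have hp : ∀ r : Fin 4, HasFDerivAt (fun z : Fin 4 → ℝ => z r)
      (ContinuousLinearMap.proj r : (Fin 4 → ℝ) →L[ℝ] ℝ) z := fun r =>
    (ContinuousLinearMap.proj r : (Fin 4 → ℝ) →L[ℝ] ℝ).hasFDerivAt
  have hinv : ∀ k : ℕ, HasFDerivAt (fun z => (rh A0 z ^ k)⁻¹)
      (-(((rh A0 z ^ k) ^ 2)⁻¹ * (k * rh A0 z ^ (k - 1) * (1 / (2 * rh A0 z)))) •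
        (ContinuousLinearMap.proj 0 : (Fin 4 → ℝ) →L[ℝ] ℝ)) z := by
    intro k
    have h1 := hr.pow k
    have h2 := (hasDerivAt_inv (pow_ne_zero k hρ')).comp_hasFDerivAt z h1
    refine h2.congr_fderiv ?_
    ext v
    simp only [smul_apply, smul_eq_mul, ContinuousLinearMap.proj_apply, nsmul_eq_mul]
    ring
  rw [hasFDerivAt_pi]
  intro i
  fin_cases i
  · have h1 := (hinv 2).const_mul A0
    have e1 : (fun z : Fin 4 → ℝ => nz A0 z ((fun i => i) ⟨0, by norm_num⟩)) =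
        fun z => A0 * (rh A0 z ^ 2)⁻¹ := by
      ext z; simp [nz, div_eq_mul_inv]
    rw [e1]
    refine h1.congr_fderiv ?_
    ext v
    simp
    field_simp
  · have h1 := (hp 1).mul (hinv 3)
    have e1 : (fun z : Fin 4 → ℝ => nz A0 z ((fun i => i) ⟨1, by norm_num⟩)) =
        (fun z : Fin 4 → ℝ => z 1) * fun z => (rh A0 z ^ 3)⁻¹ := by
      ext z; simp [nz, div_eq_mul_inv]
    rw [e1]
    refine h1.congr_fderiv ?_
    ext v
    simp
    field_simp
  · have h1 := (hp 2).add ((hp 3).pow 2)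
    refine h1.congr_fderiv ?_
    ext v
    simp
  · have h1 := (hp 3).mul hr
    refine h1.congr_fderiv ?_
    ext v
    simp
    ring

lemma continuousOn_rh (A0 : ℝ) : Continuous (rh A0) := by
  unfold rh; fun_prop

lemma continuousOn_nz {A0 : ℝ} (hA : 0 < A0) : ContinuousOn (nz A0) {z | 0 < z 0} := fun z hz =>
  (hasFDerivAt_nz hA hz).continuousAt.continuousWithinAt

lemma continuousOn_ev {A0 : ℝ} (hA : 0 < A0) (p : Pol) :
    ContinuousOn (fun z => p.ev (nz A0 z)) {z | 0 < z 0} :=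
  p.continuous_ev.comp_continuousOn (continuousOn_nz hA)

lemma continuousOn_zpow {A0 : ℝ} (hA : 0 < A0) (e : ℤ) :
    ContinuousOn (fun z => rh A0 z ^ e) {z | 0 < z 0} :=
  (continuousOn_rh A0).continuousOn.zpow₀ e fun _ hz => Or.inl (rh_pos hA hz).ne'

/-- the coefficient functions are `C¹` with the given partial derivatives -/
theorem coef_ok {A0 : ℝ} (hA : 0 < A0) (e : ℤ) (p : Pol) : (coef A0 e p).Ok := by
  constructor
  · intro z hz
    have hρ := rh_pos hA hz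
    have hρ' := hρ.ne'
    have h1 := (p.hasFDerivAt (nz A0 z)).comp z (hasFDerivAt_nz hA hz)
    have h2 : HasFDerivAt (fun z => rh A0 z ^ e)
        ((e * rh A0 z ^ (e - 1) * (1 / (2 * rh A0 z))) •
          (ContinuousLinearMap.proj 0 : (Fin 4 → ℝ) →L[ℝ] ℝ)) z := by
      have h3 := (hasDerivAt_zpow e (rh A0 z) (Or.inl hρ')).comp_hasFDerivAt z (hasFDerivAt_rh hA hz)
      refine h3.congr_fderiv ?_
      ext v
      simp only [smul_apply, smul_eq_mul, ContinuousLinearMap.proj_apply]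
      ring
    have h4 := h2.mul h1
    refine h4.congr_fderiv ?_
    ext v
    have e1 : rh A0 z ^ (e - 1) = rh A0 z ^ e / rh A0 z := zpow_sub_one₀ hρ' e
    have e0 : nz A0 z 0 = A0 / rh A0 z ^ 2 := rfl
    have ec : nz A0 z 1 = z 1 / rh A0 z ^ 3 := rfl
    have ev' : nz A0 z 3 = z 3 * rh A0 z := rfl
    simp only [add_apply, smul_apply, sum_apply, smul_eq_mul, ContinuousLinearMap.proj_apply,
      ContinuousLinearMap.comp_apply, Fin.sum_univ_four, ContinuousLinearMap.pi_apply, coef, eul,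
      Function.comp_apply, e1, e0, ec, ev']
    simp
    field_simp
    ring
  · intro i
    have hc : ContinuousOn (rh A0) {z | 0 < z 0} := (continuousOn_rh A0).continuousOn
    have hne : ∀ z ∈ {z : Fin 4 → ℝ | 0 < z 0}, rh A0 z ≠ 0 := fun z hz => (rh_pos hA hz).ne'
    have hz : ∀ r : Fin 4, ContinuousOn (fun z : Fin 4 → ℝ => z r) {z | 0 < z 0} := fun r =>
      (continuous_apply r).continuousOn
    have hn : ∀ r : Fin 4, ContinuousOn (fun z : Fin 4 → ℝ => nz A0 z r) {z | 0 < z 0} := fun r =>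
      (continuous_apply r).comp_continuousOn (continuousOn_nz hA)
    refine (continuousOn_zpow hA e).mul ?_
    fin_cases i
    · show ContinuousOn (fun z => eul e p (nz A0 z) / (2 * rh A0 z ^ 2)) _
      refine ContinuousOn.div ?_ (continuousOn_const.mul (hc.pow 2)) fun z hz => ?_
      · unfold eul
        exact (((continuousOn_const.mul (continuousOn_ev hA p)).sub
          ((continuousOn_const.mul (hn 0)).mul (continuousOn_ev hA _))).sub
          ((continuousOn_const.mul (hn 1)).mul (continuousOn_ev hA _))).add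
          ((hn 3).mul (continuousOn_ev hA _))
      · have := hne z hz
        positivity
    · show ContinuousOn (fun z => (p.D 1).ev (nz A0 z) / rh A0 z ^ 3) _
      refine ContinuousOn.div (continuousOn_ev hA _) (hc.pow 3) fun z hz => ?_
      have := hne z hz
      positivity
    · exact continuousOn_ev hA _
    · show ContinuousOn (fun z => 2 * z 3 * (p.D 2).ev (nz A0 z) + rh A0 z * (p.D 3).ev (nz A0 z)) _
      exact ((continuousOn_const.mul (hz 3)).mul (continuousOn_ev hA _)).add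
        (hc.mul (continuousOn_ev hA _))

end Crest.Agent.R097.CP
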