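import Crest.Agent.R097.RCert
import Crest.Agent.R097.TEl2

/-!
# Row 97: (PJ) of the certificate from the blocks

Everything is algebra: the state is `(lam, g, s)`, the third derivatives are `τ`.  Direction `k`
gives the block form `Fb (base …) √q s₀ τ₁ τ₂ w (γ G₃)`.
-/

set_option autoImplicit false
open Finset

namespace Crest.Agent.R097.TEl

variable {n : ℕ}

/-- the base quantities of direction `k`; `p4` is any upper bound of `∑ lam⁴` (it enters only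
through `K₂₂`; the exact `∑ lam⁴` enters `C0` with the factor `y₃`) -/
noncomputable def base (C : CertData) (Lam : ℝ) (lam g : Fin n → ℝ) (s : ℝ) (k : Fin n) (p4 : ℝ) :
    Base where
  g := C.ga.f (zv lam g s)
  k11 := C.ga.f (zv lam g s) * K11 n (lam k) (ps lam 2)
  k12 := C.ga.f (zv lam g s) * K12 n (lam k) (ps lam 2) (ps lam 3)
  k22 := C.ga.f (zv lam g s) * K22 n (lam k) (ps lam 2) p4
  C0 := C.ga.f (zv lam g s) * (n * ps lam 2) - n * s * C.y0.f (zv lam g s)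
    + C.y1.f (zv lam g s) * ps lam 2 + C.y2.f (zv lam g s) * (ps lam 3 - s * ps lam 2)
    + C.y3.f (zv lam g s) * (ps lam 4 - s * ps lam 3)
    - Lam * C.Z.f (zv lam g s)
  Ck := (2 * C.y0.d 2 (zv lam g s) * (lam k - s) + C.y0.d 3 (zv lam g s))
    + lam k * (2 * C.y1.d 2 (zv lam g s) * (lam k - s) + C.y1.d 3 (zv lam g s))
    + lam k ^ 2 * (2 * C.y2.d 2 (zv lam g s) * (lam k - s) + C.y2.d 3 (zv lam g s))
    + lam k ^ 3 * (2 * C.y3.d 2 (zv lam g s) * (lam k - s) + C.y3.d 3 (zv lam g s))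
  L1 := 2 * C.ga.d 2 (zv lam g s) * (lam k - s) + C.ga.d 3 (zv lam g s)
    + 2 * (C.y0.d 0 (zv lam g s) + lam k * C.y1.d 0 (zv lam g s)
      + lam k ^ 2 * C.y2.d 0 (zv lam g s) + lam k ^ 3 * C.y3.d 0 (zv lam g s))
    + C.y2.f (zv lam g s) + lam k * C.y3.f (zv lam g s)
  L2 := 3 * (C.y0.d 1 (zv lam g s) + lam k * C.y1.d 1 (zv lam g s)
      + lam k ^ 2 * C.y2.d 1 (zv lam g s) + lam k ^ 3 * C.y3.d 1 (zv lam g s))
    + C.y3.f (zv lam g s)
  Lw := 2 * C.Z.d 2 (zv lam g s) * (lam k - s) + C.Z.d 3 (zv lam g s)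
  A11 := 2 * C.ga.d 0 (zv lam g s)
  A12 := 3 * C.ga.d 1 (zv lam g s)
  W1 := 2 * C.Z.d 0 (zv lam g s)
  W2 := 3 * C.Z.d 1 (zv lam g s)
  psi := C.Z.f (zv lam g s)

/-- the full square dominates the three diagonals -/
theorem sum_sq_ge {τ : Fin n → Fin n → Fin n → ℝ} (h : STF τ) :
    ∑ k, G3 k (fun i => τ i i k) ≤ ∑ a, ∑ b, ∑ c, τ a b c ^ 2 := by
  have pt : ∀ a b c, ((if a = b then τ a b c ^ 2 else 0) + (if b = c then τ a b c ^ 2 else 0)
      + (if a = c then τ a b c ^ 2 else 0)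
      - 2 * (if a = b then (if b = c then τ a b c ^ 2 else 0) else 0)) ≤ τ a b c ^ 2 := by
    intro a b c
    have h0 := sq_nonneg (τ a b c)
    by_cases hab : a = b
    · subst hab
      by_cases hac : a = c
      · subst hac
        simp only [if_true]; linarith
      · simp only [if_true, if_neg hac]; linarith
    · by_cases hbc : b = c
      · subst hbc
        simp only [if_true, if_neg hab]; linarith
      · simp only [if_neg hab, if_neg hbc]
        by_cases hac : a = c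
        · simp only [if_pos hac]; linarith
        · simp only [if_neg hac]; linarith
  have hsum := sum_le_sum fun a (_ : a ∈ univ) => sum_le_sum fun b (_ : b ∈ univ) =>
    sum_le_sum fun c (_ : c ∈ univ) => pt a b c
  refine le_trans (le_of_eq ?_) hsum
  simp only [sum_sub_distrib, sum_add_distrib, ← mul_sum]
  have e1 : ∑ a, ∑ b, ∑ c, (if a = b then τ a b c ^ 2 else 0) = ∑ k, ∑ i, τ i i k ^ 2 := by
    rw [sum_comm]
    have : ∀ b, ∑ a, ∑ c, (if a = b then τ a b c ^ 2 else 0) = ∑ c, τ b b c ^ 2 := by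
      intro b
      rw [sum_comm]
      refine sum_congr rfl fun c _ => ?_
      simp
    rw [sum_congr rfl fun b _ => this b, sum_comm]
  have e2 : ∑ a, ∑ b, ∑ c, (if b = c then τ a b c ^ 2 else 0) = ∑ k, ∑ i, τ i i k ^ 2 := by
    refine sum_congr rfl fun a _ => ?_
    refine sum_congr rfl fun b _ => ?_
    rw [Finset.sum_ite_eq univ b (fun c => τ a b c ^ 2), if_pos (mem_univ _)]
    rw [h.s12 a b b, h.s23 b a b]
  have e3 : ∑ a, ∑ b, ∑ c, (if a = c then τ a b c ^ 2 else 0) = ∑ k, ∑ i, τ i i k ^ 2 := by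
    rw [sum_comm]
    refine sum_congr rfl fun b _ => ?_
    refine sum_congr rfl fun a _ => ?_
    rw [Finset.sum_ite_eq univ a (fun c => τ a b c ^ 2), if_pos (mem_univ _)]
    rw [h.s23 a b a]
  have e4 : ∑ a, ∑ b, ∑ c, (if a = b then (if b = c then τ a b c ^ 2 else 0) else 0)
      = ∑ k, τ k k k ^ 2 := by
    refine sum_congr rfl fun a _ => ?_
    rw [sum_eq_single a]
    · simp only [if_true]
      rw [Finset.sum_ite_eq univ a (fun c => τ a a c ^ 2), if_pos (mem_univ _)]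
    · intro b _ hb
      simp [Ne.symm hb]
    · intro hh; exact absurd (mem_univ a) hh
  rw [e1, e2, e3, e4]
  simp only [G3, sum_sub_distrib, ← mul_sum]
  ring

/-- the derivative in direction `k` through `τ₁, τ₂, g_k` -/
theorem D_eq (F : Coef) (lam g : Fin n → ℝ) (s : ℝ) (τ : Fin n → Fin n → Fin n → ℝ) (k : Fin n) :
    F.D lam g s τ k = 2 * F.d 0 (zv lam g s) * (∑ a, lam a * τ a a k)
      + 3 * F.d 1 (zv lam g s) * (∑ a, lam a ^ 2 * τ a a k)
      + (2 * F.d 2 (zv lam g s) * (lam k - s) + F.d 3 (zv lam g s)) * g k := by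
  unfold Coef.D
  ring

/-- the key pointwise identity -/
theorem block_eq (C : CertData) (Lam : ℝ) (lam g : Fin n → ℝ) (s : ℝ)
    (τ : Fin n → Fin n → Fin n → ℝ) (k : Fin n) (p4 r s0 : ℝ) (hr : r * s0 = g k)
    (hZ : 0 < C.Z.f (zv lam g s)) :
    Fb (base C Lam lam g s k p4) r s0 (∑ a, lam a * τ a a k) (∑ a, lam a ^ 2 * τ a a k)
      (-(C.Z.D lam g s τ k) / (2 * C.Z.f (zv lam g s)))
      (C.ga.f (zv lam g s) * G3 k (fun i => τ i i k))
    = (base C Lam lam g s k p4).C0 * s0 ^ 2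
      + C.ga.f (zv lam g s) * G3 k (fun i => τ i i k)
      + C.ga.D lam g s τ k * (∑ a, lam a * τ a a k)
      + C.y0.D lam g s τ k * g k + C.y1.D lam g s τ k * (lam k * g k)
      + C.y2.D lam g s τ k * (lam k ^ 2 * g k)
      + C.y3.D lam g s τ k * (lam k ^ 3 * g k)
      + C.y2.f (zv lam g s) * (g k * ∑ a, lam a * τ a a k)
      + C.y3.f (zv lam g s) * (g k * (∑ a, lam a ^ 2 * τ a a k + lam k * ∑ a, lam a * τ a a k))
      - (C.Z.D lam g s τ k) ^ 2 / (4 * C.Z.f (zv lam g s)) := by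
  have hw : ∀ w : ℝ, w = -(C.Z.D lam g s τ k) / (2 * C.Z.f (zv lam g s)) →
      w * C.Z.D lam g s τ k + C.Z.f (zv lam g s) * w ^ 2
        = - ((C.Z.D lam g s τ k) ^ 2 / (4 * C.Z.f (zv lam g s))) := by
    rintro w rfl
    field_simp
    ring
  have hw' := hw _ rfl
  set w : ℝ := -(C.Z.D lam g s τ k) / (2 * C.Z.f (zv lam g s)) with hwdef
  rw [sub_eq_add_neg, ← hw']
  clear hw' hwdef hw
  simp only [D_eq, Fb, base]
  rw [← hr]
  ring

/-- **(PJ) from the blocks** -/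
theorem PJ_of_blocks (C : CertData) (Lam : ℝ) (lam g : Fin n → ℝ) (s : ℝ)
    (τ : Fin n → Fin n → Fin n → ℝ) (hτ : STF τ) (hZ : 0 < C.Z.f (zv lam g s))
    (hga : 0 ≤ C.ga.f (zv lam g s)) (p4 : Fin n → ℝ) (hn : 0 < n)
    (hF : ∀ (k : Fin n) (s0 w : ℝ) (t : Fin n → ℝ), ∑ i, t i = 0 →
      0 ≤ Fb (base C Lam lam g s k (p4 k)) (Real.sqrt (∑ i, g i ^ 2)) s0
        (∑ i, lam i * t i) (∑ i, lam i ^ 2 * t i) w (C.ga.f (zv lam g s) * G3 k t)) :
    (∑ k, C.Z.D lam g s τ k ^ 2) / (4 * C.Z.f (zv lam g s)) + Lam * C.Z.f (zv lam g s) ≤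
      C.divE lam g s τ := by
  set q : ℝ := ∑ i, g i ^ 2 with hq
  have hq0 : 0 ≤ q := sum_nonneg fun i _ => sq_nonneg _
  -- the zero order term
  set C0 : ℝ := C.ga.f (zv lam g s) * (n * ps lam 2) - n * s * C.y0.f (zv lam g s)
    + C.y1.f (zv lam g s) * ps lam 2 + C.y2.f (zv lam g s) * (ps lam 3 - s * ps lam 2)
    + C.y3.f (zv lam g s) * (ps lam 4 - s * ps lam 3)
    - Lam * C.Z.f (zv lam g s) with hC0
  have hbase : ∀ k, (base C Lam lam g s k (p4 k)).C0 = C0 := fun k => rfl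
  -- the sum of the blocks
  set R : Fin n → ℝ := fun k => C.ga.f (zv lam g s) * G3 k (fun i => τ i i k)
      + C.ga.D lam g s τ k * (∑ a, lam a * τ a a k)
      + C.y0.D lam g s τ k * g k + C.y1.D lam g s τ k * (lam k * g k)
      + C.y2.D lam g s τ k * (lam k ^ 2 * g k)
      + C.y3.D lam g s τ k * (lam k ^ 3 * g k)
      + C.y2.f (zv lam g s) * (g k * ∑ a, lam a * τ a a k)
      + C.y3.f (zv lam g s) * (g k * (∑ a, lam a ^ 2 * τ a a k + lam k * ∑ a, lam a * τ a a k))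
      - (C.Z.D lam g s τ k) ^ 2 / (4 * C.Z.f (zv lam g s)) with hR
  have hmain : 0 ≤ C0 + ∑ k, R k := by
    have hblk : ∀ (k : Fin n) (s0 : ℝ), Real.sqrt q * s0 = g k → 0 ≤ C0 * s0 ^ 2 + R k := by
      intro k s0 hs0
      have h1 := hF k s0 (-(C.Z.D lam g s τ k) / (2 * C.Z.f (zv lam g s))) (fun i => τ i i k)
        (hτ.tr k)
      rw [block_eq C Lam lam g s τ k (p4 k) (Real.sqrt q) s0 hs0 hZ, hbase k] at h1
      rw [hR]
      linarith
    rcases hq0.eq_or_lt with h0 | hpos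
    · -- `q = 0`
      have hg : ∀ k, g k = 0 := by
        intro k
        have h1 : g k ^ 2 ≤ q := single_le_sum (f := fun i => g i ^ 2) (fun i _ => sq_nonneg _)
          (mem_univ k)
        have h2 : g k ^ 2 = 0 := le_antisymm (by linarith) (sq_nonneg _)
        exact pow_eq_zero_iff (two_ne_zero) |>.1 h2
      have hRk : ∀ k, 0 ≤ R k := by
        intro k
        have h1 := hblk k 0 (by rw [hg k]; simp)
        simpa using h1
      have hC : 0 ≤ C0 := by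
        have h1 := hF ⟨0, hn⟩ 1 0 (fun _ => 0) (by simp)
        have e : Real.sqrt q = 0 := by rw [← h0]; simp
        rw [e] at h1
        simp only [Fb, hbase, G3] at h1
        simpa using h1
      have := sum_nonneg fun k (_ : k ∈ univ) => hRk k
      linarith
    · have hsq : 0 < Real.sqrt q := Real.sqrt_pos.2 hpos
      have h1 : ∀ k, 0 ≤ C0 * (g k / Real.sqrt q) ^ 2 + R k := fun k =>
        hblk k _ (by field_simp)
      have h2 := sum_nonneg fun k (_ : k ∈ univ) => h1 k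
      rw [sum_add_distrib, ← mul_sum] at h2
      have h3 : ∑ k, (g k / Real.sqrt q) ^ 2 = 1 := by
        have : ∀ k, (g k / Real.sqrt q) ^ 2 = g k ^ 2 / q := by
          intro k; rw [div_pow, Real.sq_sqrt hq0]
        rw [sum_congr rfl fun k _ => this k, ← sum_div, ← hq, div_self hpos.ne']
      rw [h3] at h2
      linarith
  have hS := mul_le_mul_of_nonneg_left (sum_sq_ge hτ) hga
  have hRsum : ∑ k, R k = C.ga.f (zv lam g s) * ∑ k, G3 k (fun i => τ i i k)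
      + (∑ k, C.ga.D lam g s τ k * ∑ a, lam a * τ a a k)
      + (∑ k, C.y0.D lam g s τ k * g k) + (∑ k, C.y1.D lam g s τ k * (lam k * g k))
      + (∑ k, C.y2.D lam g s τ k * (lam k ^ 2 * g k))
      + (∑ k, C.y3.D lam g s τ k * (lam k ^ 3 * g k))
      + C.y2.f (zv lam g s) * (∑ k, g k * ∑ a, lam a * τ a a k)
      + C.y3.f (zv lam g s) * (∑ k, g k * (∑ a, lam a ^ 2 * τ a a k + lam k * ∑ a, lam a * τ a a k))
      - (∑ k, C.Z.D lam g s τ k ^ 2) / (4 * C.Z.f (zv lam g s)) := by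
    rw [hR]
    simp only [sum_sub_distrib, sum_add_distrib, ← mul_sum, ← sum_div]
  have hy3 : ∑ k, g k * ∑ a, (lam a ^ 2 + lam a * lam k) * τ a a k
      = ∑ k, g k * (∑ a, lam a ^ 2 * τ a a k + lam k * ∑ a, lam a * τ a a k) := by
    refine sum_congr rfl fun k _ => ?_
    congr 1
    rw [mul_sum, ← sum_add_distrib]
    exact sum_congr rfl fun a _ => by ring
  rw [hRsum] at hmain
  unfold CertData.divE
  rw [hy3]
  simp only [ps] at hC0
  rw [hC0] at hmain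
  linarith

/-- **(PJ) from leaves**: in every direction some leaf passes the dominance test -/
theorem PJ_of_leaves (C : CertData) (Lam : ℝ) (lam g : Fin n → ℝ) (s : ℝ)
    (τ : Fin n → Fin n → Fin n → ℝ) (hτ : STF τ) (hl : ∑ i, lam i = 0)
    (hZ : 0 < C.Z.f (zv lam g s))
    (hga : 0 ≤ C.ga.f (zv lam g s)) (hn : 0 < n)
    (h : ∀ k : Fin n, ∃ (p4 : ℝ) (c : Leaf), ps lam 4 ≤ p4 ∧
      c.OK (base C Lam lam g s k p4) (∑ i, g i ^ 2)) :
    (∑ k, C.Z.D lam g s τ k ^ 2) / (4 * C.Z.f (zv lam g s)) + Lam * C.Z.f (zv lam g s) ≤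
      C.divE lam g s τ := by
  choose p4 c hp hc using h
  refine PJ_of_blocks C Lam lam g s τ hτ hZ hga p4 hn fun k s0 w t ht => ?_
  have hq0 : 0 ≤ ∑ i, g i ^ 2 := sum_nonneg fun i _ => sq_nonneg _
  have hOK : (c k).OK (base C Lam lam g s k (p4 k)) (Real.sqrt (∑ i, g i ^ 2) ^ 2) := by
    rw [Real.sq_sqrt hq0]; exact hc k
  exact block_nonneg k t lam ht hl hOK hga (hp k) rfl rfl rfl s0 w

/-- convex combination of base quantities -/
def Base.mix (θ : ℝ) (B B' : Base) : Base where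
  g := (1 - θ) * B.g + θ * B'.g
  k11 := (1 - θ) * B.k11 + θ * B'.k11
  k12 := (1 - θ) * B.k12 + θ * B'.k12
  k22 := (1 - θ) * B.k22 + θ * B'.k22
  C0 := (1 - θ) * B.C0 + θ * B'.C0
  Ck := (1 - θ) * B.Ck + θ * B'.Ck
  L1 := (1 - θ) * B.L1 + θ * B'.L1
  L2 := (1 - θ) * B.L2 + θ * B'.L2
  Lw := (1 - θ) * B.Lw + θ * B'.Lw
  A11 := (1 - θ) * B.A11 + θ * B'.A11
  A12 := (1 - θ) * B.A12 + θ * B'.A12
  W1 := (1 - θ) * B.W1 + θ * B'.W1
  W2 := (1 - θ) * B.W2 + θ * B'.W2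
  psi := (1 - θ) * B.psi + θ * B'.psi

lemma abs_mix {θ a b : ℝ} (h0 : 0 ≤ θ) (h1 : θ ≤ 1) :
    |(1 - θ) * a + θ * b| ≤ (1 - θ) * |a| + θ * |b| := by
  calc |(1 - θ) * a + θ * b| ≤ |(1 - θ) * a| + |θ * b| := abs_add_le _ _
    _ = (1 - θ) * |a| + θ * |b| := by
      rw [abs_mul, abs_mul, abs_of_nonneg h0, abs_of_nonneg (by linarith)]

/-- the dominance conditions of one leaf are convex in the base quantities -/
theorem Leaf.OK_mix {c : Leaf} {B B' : Base} {q θ : ℝ} (h0 : 0 ≤ θ) (h1 : θ ≤ 1) (hq : 0 ≤ q)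
    (hB : c.OK B q) (hB' : c.OK B' q) : c.OK (Base.mix θ B B') q := by
  have e1 : c.l1 (Base.mix θ B B') = (1 - θ) * c.l1 B + θ * c.l1 B' := by
    simp only [Leaf.l1, Leaf.f1, Leaf.f2, Leaf.f3, Leaf.Rh1, Leaf.Rh2, Leaf.Rh3, Leaf.e1, Leaf.e2,
      Leaf.e3, Leaf.r11, Leaf.r12, Leaf.r13, Leaf.r22, Leaf.r23, Leaf.r33, Leaf.SKS, Base.mix]
    ring
  have e2 : c.l2 (Base.mix θ B B') = (1 - θ) * c.l2 B + θ * c.l2 B' := by
    simp only [Leaf.l2, Leaf.f1, Leaf.f2, Leaf.f3, Leaf.Rh1, Leaf.Rh2, Leaf.Rh3, Leaf.e1, Leaf.e2,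
      Leaf.e3, Leaf.r11, Leaf.r12, Leaf.r13, Leaf.r22, Leaf.r23, Leaf.r33, Leaf.SKS, Base.mix]
    ring
  have e3 : c.l3 (Base.mix θ B B') = (1 - θ) * c.l3 B + θ * c.l3 B' := by
    simp only [Leaf.l3, Leaf.f1, Leaf.f2, Leaf.f3, Leaf.Rh1, Leaf.Rh2, Leaf.Rh3, Leaf.e1, Leaf.e2,
      Leaf.e3, Leaf.r11, Leaf.r12, Leaf.r13, Leaf.r22, Leaf.r23, Leaf.r33, Leaf.SKS, Base.mix]
    ring
  have eD : 2 * (Base.mix θ B B').C0 + q * c.D' (Base.mix θ B B')
      = (1 - θ) * (2 * B.C0 + q * c.D' B) + θ * (2 * B'.C0 + q * c.D' B') := by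
    simp only [Leaf.D', Leaf.D, Leaf.f1, Leaf.f2, Leaf.f3, Leaf.Rh1, Leaf.Rh2, Leaf.Rh3, Leaf.e1,
      Leaf.e2, Leaf.e3, Leaf.r11, Leaf.r12, Leaf.r13, Leaf.r22, Leaf.r23, Leaf.r33, Leaf.SKS,
      Base.mix]
    ring
  have ebil : ∀ x1 x2 x3 y1 y2 y3 : ℝ, c.bil (Base.mix θ B B') x1 x2 x3 y1 y2 y3
      = (1 - θ) * c.bil B x1 x2 x3 y1 y2 y3 + θ * c.bil B' x1 x2 x3 y1 y2 y3 := by
    intro x1 x2 x3 y1 y2 y3
    simp only [Leaf.bil, Leaf.r11, Leaf.r12, Leaf.r13, Leaf.r22, Leaf.r23, Leaf.r33, Leaf.SKS,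
      Base.mix]
    ring
  have hqm : 0 ≤ q * c.m := mul_nonneg hq hB.hm.le
  have h1' : 0 ≤ 1 - θ := by linarith
  refine ⟨hB.hm, hB.hdet, ?_, ?_, ?_, ?_⟩
  · rw [e1, e2, e3, eD]
    have a1 := abs_mix (a := c.l1 B) (b := c.l1 B') h0 h1
    have a2 := abs_mix (a := c.l2 B) (b := c.l2 B') h0 h1
    have a3 := abs_mix (a := c.l3 B) (b := c.l3 B') h0 h1
    have b1 := mul_le_mul_of_nonneg_left hB.ha h1'
    have b2 := mul_le_mul_of_nonneg_left hB'.ha h0
    linarith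
  · rw [e1, Leaf.q11, Leaf.q12, Leaf.q13, ebil, ebil, ebil]
    have a1 := mul_le_mul_of_nonneg_left (abs_mix (a := c.l1 B) (b := c.l1 B') h0 h1) hqm
    have a2 := abs_mix (a := c.q12 B) (b := c.q12 B') h0 h1
    have a3 := abs_mix (a := c.q13 B) (b := c.q13 B') h0 h1
    have b1 := mul_le_mul_of_nonneg_left hB.hb1 h1'
    have b2 := mul_le_mul_of_nonneg_left hB'.hb1 h0
    simp only [Leaf.q11, Leaf.q12, Leaf.q13] at a1 a2 a3 b1 b2 ⊢
    linarith
  · rw [e2, Leaf.q22, Leaf.q12, Leaf.q23, ebil, ebil, ebil]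
    have a1 := mul_le_mul_of_nonneg_left (abs_mix (a := c.l2 B) (b := c.l2 B') h0 h1) hqm
    have a2 := abs_mix (a := c.q12 B) (b := c.q12 B') h0 h1
    have a3 := abs_mix (a := c.q23 B) (b := c.q23 B') h0 h1
    have b1 := mul_le_mul_of_nonneg_left hB.hb2 h1'
    have b2 := mul_le_mul_of_nonneg_left hB'.hb2 h0
    simp only [Leaf.q22, Leaf.q12, Leaf.q23] at a1 a2 a3 b1 b2 ⊢
    linarith
  · rw [e3, Leaf.q33, Leaf.q13, Leaf.q23, ebil, ebil, ebil]
    have a1 := mul_le_mul_of_nonneg_left (abs_mix (a := c.l3 B) (b := c.l3 B') h0 h1) hqm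
    have a2 := abs_mix (a := c.q13 B) (b := c.q13 B') h0 h1
    have a3 := abs_mix (a := c.q23 B) (b := c.q23 B') h0 h1
    have b1 := mul_le_mul_of_nonneg_left hB.hb3 h1'
    have b2 := mul_le_mul_of_nonneg_left hB'.hb3 h0
    simp only [Leaf.q33, Leaf.q13, Leaf.q23] at a1 a2 a3 b1 b2 ⊢
    linarith

end Crest.Agent.R097.TEl
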