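import Crest.Agent.R097.CP1
import Crest.Agent.R097.PJBlk

/-!
# Row 97: normalised form of the certificate (helper351)

Data: six polynomials in `y = (ζ, c, Q, v)`; `γ = ρ⁻¹ pg`, `y₀ = ρ² p0`, `y₁ = ρ p1`, `y₂ = p2`,
`y₃ = ρ⁻¹ p3`, `Z = ρ pZ`.  Everything in (PJ), (BJ) is `ρ³` resp. `ρ²` times a polynomial in the normalised state
`ξ = λ_k/ρ, ζ, c, Q, v, p₄` (`p₄` an upper bound of `∑ l⁴` in `K₂₂`, `P4 = ∑ l⁴` in `C₀`).
-/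

set_option autoImplicit false
open scoped BigOperators

namespace Crest.Agent.R097.CP

/-- the six polynomials -/
structure Dat where
  g : Pol
  p0 : Pol
  p1 : Pol
  p2 : Pol
  p3 : Pol
  Z : Pol

/-- the certificate data -/
noncomputable def Dat.cert (A0 : ℝ) (D : Dat) : CertData where
  ga := coef A0 (-1) D.g
  y0 := coef A0 2 D.p0
  y1 := coef A0 1 D.p1
  y2 := coef A0 0 D.p2
  y3 := coef A0 (-1) D.p3
  Z := coef A0 1 D.Z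

/-- the normalised base quantities -/
noncomputable def Dat.nb (n : ℕ) (A0 Lam : ℝ) (D : Dat) (ξ p4 P4 : ℝ) (y : Fin 4 → ℝ) :
    TEl.Base where
  g := D.g.ev y
  k11 := D.g.ev y * TEl.K11 n ξ (1 - y 0)
  k12 := D.g.ev y * TEl.K12 n ξ (1 - y 0) (y 1)
  k22 := D.g.ev y * TEl.K22 n ξ (1 - y 0) p4
  C0 := n * D.g.ev y * (1 - y 0) * (y 0 / A0) - n * (y 3 * (y 0 / A0)) * D.p0.ev y
    + D.p1.ev y * (1 - y 0) + D.p2.ev y * (y 1 - y 3 * (y 0 / A0) * (1 - y 0))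
    + D.p3.ev y * (P4 - y 3 * (y 0 / A0) * y 1)
    - Lam * D.Z.ev y * (y 0 / A0)
  Ck := (2 * ξ * (D.p0.D 2).ev y + (D.p0.D 3).ev y)
    + ξ * (2 * ξ * (D.p1.D 2).ev y + (D.p1.D 3).ev y)
    + ξ ^ 2 * (2 * ξ * (D.p2.D 2).ev y + (D.p2.D 3).ev y)
    + ξ ^ 3 * (2 * ξ * (D.p3.D 2).ev y + (D.p3.D 3).ev y)
  L1 := 2 * ξ * (D.g.D 2).ev y + (D.g.D 3).ev y
    + (eul 2 D.p0 y + ξ * eul 1 D.p1 y + ξ ^ 2 * eul 0 D.p2 y + ξ ^ 3 * eul (-1) D.p3 y)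
    + D.p2.ev y + ξ * D.p3.ev y
  L2 := 3 * ((D.p0.D 1).ev y + ξ * (D.p1.D 1).ev y + ξ ^ 2 * (D.p2.D 1).ev y
      + ξ ^ 3 * (D.p3.D 1).ev y) + D.p3.ev y
  Lw := 2 * ξ * (D.Z.D 2).ev y + (D.Z.D 3).ev y
  A11 := eul (-1) D.g y
  A12 := 3 * (D.g.D 1).ev y
  W1 := eul 1 D.Z y
  W2 := 3 * (D.Z.D 1).ev y
  psi := D.Z.ev y

/-- normalised states -/
structure NAdm {n : ℕ} (A0 : ℝ) (l : Fin n → ℝ) (y : Fin 4 → ℝ) : Prop where
  tr : ∑ i, l i = 0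
  sq : ∑ i, l i ^ 2 = 1 - y 0
  cu : ∑ i, l i ^ 3 = y 1
  z0 : 0 < y 0
  z1 : y 0 < 1
  v0 : 0 ≤ y 3
  q0 : 0 ≤ y 2 - y 3 ^ 2 * (y 0 / A0)
  q1 : y 2 ≤ 1
  ap : y 3 ^ 2 * (1 - y 0) ≤ (n : ℝ) / (2 * (n + 2)) * (1 - y 2 ^ 2)

/-- `q = |g|²` of a normalised state -/
noncomputable def qn (A0 : ℝ) (y : Fin 4 → ℝ) : ℝ := y 2 - y 3 ^ 2 * (y 0 / A0)

section
variable {n : ℕ} {A0 : ℝ} {lam g : Fin n → ℝ} {s : ℝ}

/-- the normalisation of an admissible state -/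
lemma nadm_of_adm (hA : 0 < A0) (h : Adm lam g s) :
    NAdm A0 (fun i => lam i / rh A0 (zv lam g s)) (nz A0 (zv lam g s)) ∧
      qn A0 (nz A0 (zv lam g s)) = ∑ i, g i ^ 2 := by
  have hz : 0 < (zv lam g s) 0 := h.pos
  have hz0 : (zv lam g s) 0 = ∑ i, lam i ^ 2 := rfl
  have hz1 : (zv lam g s) 1 = ∑ i, lam i ^ 3 := rfl
  have hz2 : (zv lam g s) 2 = ∑ i, g i ^ 2 := rfl
  have hz3 : (zv lam g s) 3 = s := rfl
  set ρ := rh A0 (zv lam g s) with hρdef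
  have hρ : 0 < ρ := rh_pos hA hz
  have hρ2 : ρ ^ 2 = A0 + ∑ i, lam i ^ 2 := rh_sq hA hz
  have hP : 0 < ∑ i, lam i ^ 2 := h.pos
  have n0 : nz A0 (zv lam g s) 0 = A0 / ρ ^ 2 := rfl
  have n1 : nz A0 (zv lam g s) 1 = (∑ i, lam i ^ 3) / ρ ^ 3 := rfl
  have n2 : nz A0 (zv lam g s) 2 = ∑ i, g i ^ 2 + s ^ 2 := rfl
  have n3 : nz A0 (zv lam g s) 3 = s * ρ := rfl
  have hqn : qn A0 (nz A0 (zv lam g s)) = ∑ i, g i ^ 2 := by
    unfold qn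
    rw [n0, n2, n3]
    field_simp
    ring
  refine ⟨⟨?_, ?_, ?_, ?_, ?_, ?_, ?_, ?_, ?_⟩, hqn⟩
  · rw [← Finset.sum_div, h.tr, zero_div]
  · simp_rw [div_pow]
    rw [← Finset.sum_div, n0, hρ2]
    field_simp
    ring
  · simp_rw [div_pow]
    rw [← Finset.sum_div, n1]
  · rw [n0]; positivity
  · rw [n0, hρ2, div_lt_one (by linarith)]; linarith
  · rw [n3]; exact mul_nonneg h.s0 hρ.le
  · have : nz A0 (zv lam g s) 2 - nz A0 (zv lam g s) 3 ^ 2 * (nz A0 (zv lam g s) 0 / A0)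
      = qn A0 (nz A0 (zv lam g s)) := rfl
    rw [this, hqn]
    exact Finset.sum_nonneg fun i _ => sq_nonneg _
  · rw [n2]; exact h.q1
  · have h1 : nz A0 (zv lam g s) 3 ^ 2 * (1 - nz A0 (zv lam g s) 0) = s ^ 2 * ∑ i, lam i ^ 2 := by
      rw [n0, n3]
      have : ρ ^ 2 - A0 = ∑ i, lam i ^ 2 := by linarith
      rw [← this]
      field_simp
    rw [h1, n2]
    exact h.ap

/-- scaling of the block form -/
lemma Fb_scale (hA : 0 < A0) (h : Adm lam g s) (D : Dat) (Lam : ℝ) (k : Fin n) (p4 r s0 X Y W Gt : ℝ) :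
    TEl.Fb (TEl.base (D.cert A0) Lam lam g s k p4) r s0 X Y W Gt
      = rh A0 (zv lam g s) ^ 3 * TEl.Fb (D.nb n A0 Lam (lam k / rh A0 (zv lam g s))
          (p4 / rh A0 (zv lam g s) ^ 4) ((∑ i, lam i ^ 4) / rh A0 (zv lam g s) ^ 4)
          (nz A0 (zv lam g s))) r s0
          (X / rh A0 (zv lam g s) ^ 3) (Y / rh A0 (zv lam g s) ^ 4) (W / rh A0 (zv lam g s))
          (Gt / rh A0 (zv lam g s) ^ 3) := by
  have hz : 0 < (zv lam g s) 0 := h.pos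
  have hz3 : (zv lam g s) 3 = s := rfl
  have n0 : nz A0 (zv lam g s) 0 = A0 / rh A0 (zv lam g s) ^ 2 := rfl
  have n1 : nz A0 (zv lam g s) 1 = (∑ i, lam i ^ 3) / rh A0 (zv lam g s) ^ 3 := rfl
  have n3 : nz A0 (zv lam g s) 3 = s * rh A0 (zv lam g s) := rfl
  have hρ : 0 < rh A0 (zv lam g s) := rh_pos hA hz
  have hρ2 : ∑ i, lam i ^ 2 = rh A0 (zv lam g s) ^ 2 - A0 := by
    have : rh A0 (zv lam g s) ^ 2 = A0 + ∑ i, lam i ^ 2 := rh_sq hA hz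
    linarith
  simp only [TEl.Fb, TEl.base, Dat.nb, Dat.cert, coef, eul, TEl.ps, hρ2, n0, n1, n3, hz3,
    zpow_neg_one, zpow_one, zpow_zero, Matrix.cons_val_zero, Matrix.cons_val_one,
    Matrix.cons_val]
  generalize rh A0 (zv lam g s) = ρ at *
  generalize nz A0 (zv lam g s) = y at *
  have hz2 : ρ ^ (2 : ℤ) = ρ ^ 2 := by norm_cast
  rw [hz2]
  field_simp
  push_cast
  ring

end

end Crest.Agent.R097.CP
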