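import Crest.Agent.R097.CP2

/-!
# Row 97: `Cert` from the normalised conditions (helper351)
-/

set_option autoImplicit false
open scoped BigOperators

namespace Crest.Agent.R097.CP

/-- the normalised certificate: all conditions are polynomial (in)equalities in the normalised state -/
structure NCert (n : ℕ) (A0 Lam : ℝ) (D : Dat) : Prop where
  Apos : 0 < A0
  lam_gt : (((n : ℝ) - 1) / 2) ^ 2 < Lam
  Zpos : ∀ (l : Fin n → ℝ) (y : Fin 4 → ℝ), NAdm A0 l y → 0 < D.Z.ev y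
  gnn : ∀ (l : Fin n → ℝ) (y : Fin 4 → ℝ), NAdm A0 l y → 0 ≤ D.g.ev y
  PJ : ∀ (l : Fin n → ℝ) (y : Fin 4 → ℝ), NAdm A0 l y → ∀ (k : Fin n) (s0 w : ℝ) (t : Fin n → ℝ),
    ∑ i, t i = 0 → 0 ≤ TEl.Fb (D.nb n A0 Lam (l k) 0 (∑ i, l i ^ 4) y) (Real.sqrt (qn A0 y)) s0
      (∑ i, l i * t i) (∑ i, l i ^ 2 * t i) w (D.g.ev y * TEl.G3 k t)
  BJ : ∀ (l : Fin n → ℝ) (y : Fin 4 → ℝ), NAdm A0 l y → y 2 = 1 → y 3 = 0 → ∀ (k : Fin n) (h : ℝ),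
    0 ≤ h → l k = -h → 0 ≤ h * D.Z.ev y + D.p0.ev y - h * D.p1.ev y + h ^ 2 * D.p2.ev y
      - h ^ 3 * D.p3.ev y - D.g.ev y * (2 * h * (1 - y 0) + y 1)
  Zvan : ∀ Q v : ℝ, D.Z.ev ![1, 0, Q, v] = 0
  p0van : ∀ Q v : ℝ, D.p0.ev ![1, 0, Q, v] = 0

section
variable {n : ℕ} {A0 Lam : ℝ} {D : Dat}

/-- the leaf version of the block condition -/
lemma block_of_leaf {l : Fin n → ℝ} {y : Fin 4 → ℝ} (h : NAdm A0 l y) (hg : 0 ≤ D.g.ev y)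
    (k : Fin n) {p4 : ℝ} (hp : TEl.ps l 4 ≤ p4) {c : TEl.Leaf}
    (hc : c.OK (D.nb n A0 Lam (l k) p4 (∑ i, l i ^ 4) y) (qn A0 y)) (s0 w : ℝ) (t : Fin n → ℝ)
    (ht : ∑ i, t i = 0) :
    0 ≤ TEl.Fb (D.nb n A0 Lam (l k) 0 (∑ i, l i ^ 4) y) (Real.sqrt (qn A0 y)) s0
      (∑ i, l i * t i) (∑ i, l i ^ 2 * t i) w (D.g.ev y * TEl.G3 k t) := by
  have hq : Real.sqrt (qn A0 y) ^ 2 = qn A0 y := Real.sq_sqrt h.q0
  have e2 : TEl.ps l 2 = 1 - y 0 := h.sq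
  have e3 : TEl.ps l 3 = y 1 := h.cu
  have := TEl.block_nonneg (B := D.nb n A0 Lam (l k) p4 (∑ i, l i ^ 4) y) (c := c) (r := Real.sqrt (qn A0 y)) k t l ht h.tr
    (by rw [hq]; exact hc) hg hp (by rw [e2]; rfl) (by rw [e2, e3]; rfl) (by rw [e2]; rfl) s0 w
  exact this

/-- (PJ) -/
lemma pj_of_ncert (H : NCert n A0 Lam D) (hn : 0 < n) (lam g : Fin n → ℝ) (s : ℝ)
    (τ : Fin n → Fin n → Fin n → ℝ) (h : Adm lam g s) (hτ : STF τ) :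
    (∑ k, (D.cert A0).Z.D lam g s τ k ^ 2) / (4 * (D.cert A0).Z.f (zv lam g s))
      + Lam * (D.cert A0).Z.f (zv lam g s) ≤ (D.cert A0).divE lam g s τ := by
  have hρ : 0 < rh A0 (zv lam g s) := rh_pos H.Apos h.pos
  obtain ⟨hN, hq⟩ := nadm_of_adm H.Apos h
  refine TEl.PJ_of_blocks (D.cert A0) Lam lam g s τ hτ ?_ ?_ (fun _ => 0) hn ?_
  · have := H.Zpos _ _ hN
    show 0 < rh A0 (zv lam g s) ^ (1 : ℤ) * D.Z.ev (nz A0 (zv lam g s))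
    positivity
  · have := H.gnn _ _ hN
    show 0 ≤ rh A0 (zv lam g s) ^ (-1 : ℤ) * D.g.ev (nz A0 (zv lam g s))
    positivity
  · intro k s0 w t ht
    rw [Fb_scale H.Apos h D Lam k]
    refine mul_nonneg (by positivity) ?_
    have h1 := H.PJ _ _ hN k s0 (w / rh A0 (zv lam g s)) (fun i => t i / rh A0 (zv lam g s) ^ 2)
      (by rw [← Finset.sum_div, ht, zero_div])
    rw [hq] at h1
    have e1 : ∑ i, lam i / rh A0 (zv lam g s) * (t i / rh A0 (zv lam g s) ^ 2)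
        = (∑ i, lam i * t i) / rh A0 (zv lam g s) ^ 3 := by
      rw [Finset.sum_div]
      refine Finset.sum_congr rfl fun i _ => ?_
      field_simp
    have e2 : ∑ i, (lam i / rh A0 (zv lam g s)) ^ 2 * (t i / rh A0 (zv lam g s) ^ 2)
        = (∑ i, lam i ^ 2 * t i) / rh A0 (zv lam g s) ^ 4 := by
      rw [Finset.sum_div]
      refine Finset.sum_congr rfl fun i _ => ?_
      field_simp
    have e3 : D.g.ev (nz A0 (zv lam g s)) * TEl.G3 k (fun i => t i / rh A0 (zv lam g s) ^ 2)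
        = (D.cert A0).ga.f (zv lam g s) * TEl.G3 k t / rh A0 (zv lam g s) ^ 3 := by
      have : (D.cert A0).ga.f (zv lam g s)
        = rh A0 (zv lam g s) ^ (-1 : ℤ) * D.g.ev (nz A0 (zv lam g s)) := rfl
      rw [this, zpow_neg_one]
      have e4 : TEl.G3 k (fun i => t i / rh A0 (zv lam g s) ^ 2)
        = TEl.G3 k t / rh A0 (zv lam g s) ^ 4 := by
        unfold TEl.G3
        simp_rw [div_pow]
        rw [← Finset.sum_div]
        field_simp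
      rw [e4]
      field_simp
    rw [e1, e2, e3] at h1
    have e5 : (0 : ℝ) / rh A0 (zv lam g s) ^ 4 = 0 := zero_div _
    have e6 : ∑ i, (lam i / rh A0 (zv lam g s)) ^ 4 = (∑ i, lam i ^ 4) / rh A0 (zv lam g s) ^ 4 := by
      rw [Finset.sum_div]
      exact Finset.sum_congr rfl fun i _ => div_pow _ _ _
    rw [e6] at h1
    rw [e5]
    exact h1

/-- (BJ) -/
lemma bj_of_ncert (H : NCert n A0 Lam D) (lam : Fin n → ℝ) (k0 : Fin n) (Hc : ℝ)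
    (h1 : ∑ i, lam i = 0) (h2 : 0 < ∑ i, lam i ^ 2) (h3 : 0 ≤ Hc) (h4 : lam k0 = -Hc) :
    0 ≤ Hc * (D.cert A0).Z.f ![∑ i, lam i ^ 2, ∑ i, lam i ^ 3, 1, 0] +
      (D.cert A0).y0.f ![∑ i, lam i ^ 2, ∑ i, lam i ^ 3, 1, 0] -
      Hc * (D.cert A0).y1.f ![∑ i, lam i ^ 2, ∑ i, lam i ^ 3, 1, 0] +
      Hc ^ 2 * (D.cert A0).y2.f ![∑ i, lam i ^ 2, ∑ i, lam i ^ 3, 1, 0] -
      Hc ^ 3 * (D.cert A0).y3.f ![∑ i, lam i ^ 2, ∑ i, lam i ^ 3, 1, 0] -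
      (D.cert A0).ga.f ![∑ i, lam i ^ 2, ∑ i, lam i ^ 3, 1, 0] *
        (2 * Hc * (∑ i, lam i ^ 2) + ∑ i, lam i ^ 3) := by
  set z : Fin 4 → ℝ := ![∑ i, lam i ^ 2, ∑ i, lam i ^ 3, 1, 0] with hz
  have hz0 : z 0 = ∑ i, lam i ^ 2 := rfl
  have hz1 : z 1 = ∑ i, lam i ^ 3 := rfl
  have hz2 : z 2 = 1 := rfl
  have hz3 : z 3 = 0 := rfl
  have hpos : 0 < z 0 := h2
  have hρ : 0 < rh A0 z := rh_pos H.Apos hpos
  have hρ2 : rh A0 z ^ 2 = A0 + ∑ i, lam i ^ 2 := rh_sq H.Apos hpos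
  have hA := H.Apos
  have n0 : nz A0 z 0 = A0 / rh A0 z ^ 2 := rfl
  have n1 : nz A0 z 1 = (∑ i, lam i ^ 3) / rh A0 z ^ 3 := rfl
  have n2 : nz A0 z 2 = 1 := by show z 2 + z 3 ^ 2 = 1; rw [hz2, hz3]; norm_num
  have n3 : nz A0 z 3 = 0 := by show z 3 * rh A0 z = 0; rw [hz3]; ring
  have hN : NAdm A0 (fun i => lam i / rh A0 z) (nz A0 z) := by
    refine ⟨?_, ?_, ?_, ?_, ?_, ?_, ?_, ?_, ?_⟩
    · rw [← Finset.sum_div, h1, zero_div]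
    · simp_rw [div_pow]
      rw [← Finset.sum_div, n0, hρ2]
      field_simp
      ring
    · simp_rw [div_pow]
      rw [← Finset.sum_div, n1]
    · rw [n0]; positivity
    · rw [n0, hρ2, div_lt_one (by linarith)]; linarith
    · rw [n3]
    · rw [n2, n3]; norm_num
    · rw [n2]
    · rw [n2, n3]; norm_num
  have key := H.BJ _ _ hN n2 n3 k0 (Hc / rh A0 z) (by positivity) (by
    show lam k0 / rh A0 z = _
    rw [h4, neg_div])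
  have e1 : (D.cert A0).Z.f z = rh A0 z * D.Z.ev (nz A0 z) := by
    show rh A0 z ^ (1 : ℤ) * _ = _; rw [zpow_one]
  have e2 : (D.cert A0).y0.f z = rh A0 z ^ 2 * D.p0.ev (nz A0 z) := by
    show rh A0 z ^ (2 : ℤ) * _ = _; norm_cast
  have e3 : (D.cert A0).y1.f z = rh A0 z * D.p1.ev (nz A0 z) := by
    show rh A0 z ^ (1 : ℤ) * _ = _; rw [zpow_one]
  have e4 : (D.cert A0).y2.f z = D.p2.ev (nz A0 z) := by
    show rh A0 z ^ (0 : ℤ) * _ = _; rw [zpow_zero, one_mul]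
  have e5 : (D.cert A0).ga.f z = (rh A0 z)⁻¹ * D.g.ev (nz A0 z) := by
    show rh A0 z ^ (-1 : ℤ) * _ = _; rw [zpow_neg_one]
  have e6 : (D.cert A0).y3.f z = (rh A0 z)⁻¹ * D.p3.ev (nz A0 z) := by
    show rh A0 z ^ (-1 : ℤ) * _ = _; rw [zpow_neg_one]
  rw [e1, e2, e3, e4, e5, e6]
  have hP2 : ∑ i, lam i ^ 2 = rh A0 z ^ 2 * (1 - nz A0 z 0) := by
    rw [n0, hρ2]; field_simp; ring
  have hP3 : ∑ i, lam i ^ 3 = rh A0 z ^ 3 * nz A0 z 1 := by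
    rw [n1]; field_simp
  rw [hP2, hP3]
  have := mul_nonneg (pow_nonneg hρ.le 2) key
  refine le_of_le_of_eq this ?_
  field_simp

end

end Crest.Agent.R097.CP
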