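import Crest.Agent.R097.CP3

/-!
# Row 97: growth conditions and the final `Cert` (helper351)
-/

set_option autoImplicit false
open scoped BigOperators

namespace Crest.Agent.R097.CP

/-- the box of normalised arguments -/
def Bx (V : ℝ) : Set (Fin 4 → ℝ) := Set.Icc ![0, -1, 0, 0] ![1, 1, 1, V]

lemma isCompact_Bx (V : ℝ) : IsCompact (Bx V) := isCompact_Icc

lemma convex_Bx (V : ℝ) : Convex ℝ (Bx V) := convex_Icc _ _

lemma mem_Bx {V : ℝ} {y : Fin 4 → ℝ} : y ∈ Bx V ↔ (0 ≤ y 0 ∧ y 0 ≤ 1) ∧ (-1 ≤ y 1 ∧ y 1 ≤ 1) ∧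
    (0 ≤ y 2 ∧ y 2 ≤ 1) ∧ (0 ≤ y 3 ∧ y 3 ≤ V) := by
  unfold Bx
  rw [Set.mem_Icc, Pi.le_def, Pi.le_def]
  constructor
  · rintro ⟨h1, h2⟩
    exact ⟨⟨h1 0, h2 0⟩, ⟨h1 1, h2 1⟩, ⟨h1 2, h2 2⟩, ⟨h1 3, h2 3⟩⟩
  · rintro ⟨⟨a1, a2⟩, ⟨b1, b2⟩, ⟨c1, c2⟩, ⟨d1, d2⟩⟩
    constructor <;> intro i <;> fin_cases i <;> assumption

/-- polynomials are bounded on the box -/
lemma ev_bdd (V : ℝ) (p : Pol) : ∃ M : ℝ, 0 ≤ M ∧ ∀ y ∈ Bx V, |p.ev y| ≤ M := by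
  obtain ⟨M, hM⟩ := (isCompact_Bx V).exists_bound_of_continuousOn p.continuous_ev.continuousOn
  refine ⟨max M 0, le_max_right _ _, fun y hy => ?_⟩
  have := hM y hy
  rw [Real.norm_eq_abs] at this
  exact this.trans (le_max_left _ _)

/-- polynomials vanishing on `ζ = 1, c = 0` -/
lemma ev_small (V : ℝ) (p : Pol) (hp : ∀ Q v : ℝ, p.ev ![1, 0, Q, v] = 0) :
    ∃ M : ℝ, 0 ≤ M ∧ ∀ y ∈ Bx V, |p.ev y| ≤ M * max |1 - y 0| |y 1| := by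
  obtain ⟨M0, hM0, h0⟩ := ev_bdd V (p.D 0)
  obtain ⟨M1, hM1, h1⟩ := ev_bdd V (p.D 1)
  obtain ⟨M2, hM2, h2⟩ := ev_bdd V (p.D 2)
  obtain ⟨M3, hM3, h3⟩ := ev_bdd V (p.D 3)
  refine ⟨M0 + M1 + M2 + M3, by positivity, fun y hy => ?_⟩
  have hy' := mem_Bx.1 hy
  set y' : Fin 4 → ℝ := ![1, 0, y 2, y 3] with hy'def
  have hmem : y' ∈ Bx V := by
    rw [mem_Bx]
    refine ⟨⟨?_, ?_⟩, ⟨?_, ?_⟩, ?_, ?_⟩
    · show (0 : ℝ) ≤ 1; norm_num
    · show (1 : ℝ) ≤ 1; norm_num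
    · show (-1 : ℝ) ≤ 0; norm_num
    · show (0 : ℝ) ≤ 1; norm_num
    · exact hy'.2.2.1
    · exact hy'.2.2.2
  have hb : ∀ z ∈ Bx V, ‖∑ r, (p.D r).ev z • (ContinuousLinearMap.proj r : (Fin 4 → ℝ) →L[ℝ] ℝ)‖
      ≤ M0 + M1 + M2 + M3 := by
    intro z hz
    refine ContinuousLinearMap.opNorm_le_bound _ (by positivity) fun v => ?_
    have hv : ∀ r : Fin 4, |v r| ≤ ‖v‖ := fun r => norm_le_pi_norm v r
    have e : ∀ (r : Fin 4) (M : ℝ), 0 ≤ M → |(p.D r).ev z| ≤ M → |(p.D r).ev z * v r| ≤ M * ‖v‖ := by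
      intro r M hM hh
      rw [abs_mul]
      exact mul_le_mul hh (hv r) (abs_nonneg _) hM
    have a0 := e 0 M0 hM0 (h0 z hz)
    have a1 := e 1 M1 hM1 (h1 z hz)
    have a2 := e 2 M2 hM2 (h2 z hz)
    have a3 := e 3 M3 hM3 (h3 z hz)
    rw [Real.norm_eq_abs]
    simp only [Fin.sum_univ_four, add_apply, smul_apply, smul_eq_mul, ContinuousLinearMap.proj_apply]
    have b1 := abs_add_le ((p.D 0).ev z * v 0 + (p.D 1).ev z * v 1 + (p.D 2).ev z * v 2) ((p.D 3).ev z * v 3)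
    have b2 := abs_add_le ((p.D 0).ev z * v 0 + (p.D 1).ev z * v 1) ((p.D 2).ev z * v 2)
    have b3 := abs_add_le ((p.D 0).ev z * v 0) ((p.D 1).ev z * v 1)
    linarith
  have key := (convex_Bx V).norm_image_sub_le_of_norm_hasFDerivWithin_le
    (f := p.ev) (f' := fun z => ∑ r, (p.D r).ev z • (ContinuousLinearMap.proj r : (Fin 4 → ℝ) →L[ℝ] ℝ))
    (fun z _ => (p.hasFDerivAt z).hasFDerivWithinAt) hb hmem hy
  rw [hp, sub_zero, Real.norm_eq_abs] at key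
  refine key.trans (mul_le_mul_of_nonneg_left ?_ (by positivity))
  refine (pi_norm_le_iff_of_nonneg (le_max_of_le_left (abs_nonneg _))).2 fun i => ?_
  fin_cases i
  · refine le_trans (le_of_eq ?_) (le_max_left _ _)
    show |y 0 - 1| = _
    rw [abs_sub_comm]
  · refine le_trans (le_of_eq ?_) (le_max_right _ _)
    show |y 1 - 0| = _
    rw [sub_zero]
  · have : |y 2 - y 2| = 0 := by rw [sub_self, abs_zero]
    show |y 2 - y 2| ≤ _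
    rw [this]; exact le_max_of_le_left (abs_nonneg _)
  · have : |y 3 - y 3| = 0 := by rw [sub_self, abs_zero]
    show |y 3 - y 3| ≤ _
    rw [this]; exact le_max_of_le_left (abs_nonneg _)

/-- the derivative in the direction `Q` of a polynomial vanishing on `ζ = 1, c = 0` vanishes there -/
lemma van_D2 {p : Pol} (hp : ∀ Q v : ℝ, p.ev ![1, 0, Q, v] = 0) (Q v : ℝ) :
    (p.D 2).ev ![1, 0, Q, v] = 0 := by
  have h1 := p.hasFDerivAt ![1, 0, Q, v]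
  have h2 : HasDerivAt (fun t : ℝ => (![1, 0, t, v] : Fin 4 → ℝ)) ![0, 0, 1, 0] Q := by
    rw [hasDerivAt_pi]
    intro i
    fin_cases i
    · exact hasDerivAt_const _ _
    · exact hasDerivAt_const _ _
    · exact hasDerivAt_id _
    · exact hasDerivAt_const _ _
  have h3 := h1.comp_hasDerivAt Q h2
  have h4 : (p.ev ∘ fun t : ℝ => (![1, 0, t, v] : Fin 4 → ℝ)) = fun _ => 0 := by
    ext t; exact hp t v
  rw [h4] at h3
  have h5 := h3.unique (hasDerivAt_const Q (0 : ℝ))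
  simpa [Fin.sum_univ_four] using h5

lemma van_D3 {p : Pol} (hp : ∀ Q v : ℝ, p.ev ![1, 0, Q, v] = 0) (Q v : ℝ) :
    (p.D 3).ev ![1, 0, Q, v] = 0 := by
  have h1 := p.hasFDerivAt ![1, 0, Q, v]
  have h2 : HasDerivAt (fun t : ℝ => (![1, 0, Q, t] : Fin 4 → ℝ)) ![0, 0, 0, 1] v := by
    rw [hasDerivAt_pi]
    intro i
    fin_cases i
    · exact hasDerivAt_const _ _
    · exact hasDerivAt_const _ _
    · exact hasDerivAt_const _ _
    · exact hasDerivAt_id _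
  have h3 := h1.comp_hasDerivAt v h2
  have h4 : (p.ev ∘ fun t : ℝ => (![1, 0, Q, t] : Fin 4 → ℝ)) = fun _ => 0 := by
    ext t; exact hp Q t
  rw [h4] at h3
  have h5 := h3.unique (hasDerivAt_const v (0 : ℝ))
  simpa [Fin.sum_univ_four] using h5

/-- `|P₃| ≤ P₂^{3/2}` -/
lemma cube_le {n : ℕ} (lam : Fin n → ℝ) :
    |∑ i, lam i ^ 3| ≤ Real.sqrt (∑ i, lam i ^ 2) * ∑ i, lam i ^ 2 := by
  refine (Finset.abs_sum_le_sum_abs _ _).trans ?_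
  rw [Finset.mul_sum]
  refine Finset.sum_le_sum fun i _ => ?_
  have h1 : |lam i| ≤ Real.sqrt (∑ i, lam i ^ 2) := by
    rw [← Real.sqrt_sq_eq_abs]
    exact Real.sqrt_le_sqrt (Finset.single_le_sum (f := fun i => lam i ^ 2)
      (fun i _ => sq_nonneg _) (Finset.mem_univ i))
  have h2 : |lam i ^ 3| = |lam i| * lam i ^ 2 := by
    rw [abs_pow, ← sq_abs (lam i)]; ring
  rw [h2]
  exact mul_le_mul_of_nonneg_right h1 (sq_nonneg _)

/-- basic bounds at an admissible state -/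
structure SB {n : ℕ} (A0 R : ℝ) (lam g : Fin n → ℝ) (s : ℝ) : Prop where
  rpos : 0 < rh A0 (zv lam g s)
  rV : rh A0 (zv lam g s) ≤ Real.sqrt (A0 + |R|)
  ra : Real.sqrt A0 ≤ rh A0 (zv lam g s)
  s0 : 0 ≤ s
  s1 : s ≤ 1
  box : nz A0 (zv lam g s) ∈ Bx (Real.sqrt (A0 + |R|))
  mx : max |1 - nz A0 (zv lam g s) 0| |nz A0 (zv lam g s) 1| ≤ (∑ i, lam i ^ 2) / A0
  mx' : (∑ i, lam i ^ 2) / A0 ≤ Real.sqrt |R| / A0 * Real.sqrt (∑ i, lam i ^ 2)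

lemma sb_of_adm {n : ℕ} {A0 R : ℝ} (hA : 0 < A0) {lam g : Fin n → ℝ} {s : ℝ} (h : Adm lam g s)
    (hR : ∑ i, lam i ^ 2 ≤ R) : SB A0 R lam g s := by
  have hP0 : 0 < ∑ i, lam i ^ 2 := h.pos
  have hRR : ∑ i, lam i ^ 2 ≤ |R| := hR.trans (le_abs_self R)
  have hρ : 0 < rh A0 (zv lam g s) := rh_pos hA h.pos
  have hρ2 : rh A0 (zv lam g s) ^ 2 = A0 + ∑ i, lam i ^ 2 := rh_sq hA h.pos
  have hρV : rh A0 (zv lam g s) ≤ Real.sqrt (A0 + |R|) :=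
    Real.sqrt_le_sqrt (by show A0 + ∑ i, lam i ^ 2 ≤ A0 + |R|; linarith)
  have haρ : Real.sqrt A0 ≤ rh A0 (zv lam g s) :=
    Real.sqrt_le_sqrt (by show A0 ≤ A0 + ∑ i, lam i ^ 2; linarith)
  have hg2 : 0 ≤ ∑ i, g i ^ 2 := Finset.sum_nonneg fun i _ => sq_nonneg _
  have hs1 : s ≤ 1 := by
    have h1 : s ^ 2 ≤ 1 := by
      have := h.q1
      linarith
    nlinarith [h.s0]
  have hspρ : Real.sqrt (∑ i, lam i ^ 2) ≤ rh A0 (zv lam g s) := Real.sqrt_le_sqrt (by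
    show ∑ i, lam i ^ 2 ≤ A0 + ∑ i, lam i ^ 2; linarith)
  have n0 : nz A0 (zv lam g s) 0 = A0 / rh A0 (zv lam g s) ^ 2 := rfl
  have n1 : nz A0 (zv lam g s) 1 = (∑ i, lam i ^ 3) / rh A0 (zv lam g s) ^ 3 := rfl
  have n2 : nz A0 (zv lam g s) 2 = ∑ i, g i ^ 2 + s ^ 2 := rfl
  have n3 : nz A0 (zv lam g s) 3 = s * rh A0 (zv lam g s) := rfl
  generalize hρe : rh A0 (zv lam g s) = ρ at *
  have h1z : 1 - nz A0 (zv lam g s) 0 = (∑ i, lam i ^ 2) / ρ ^ 2 := by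
    rw [n0, hρ2]; field_simp; ring
  have hdiv : (∑ i, lam i ^ 2) / ρ ^ 2 ≤ (∑ i, lam i ^ 2) / A0 :=
    div_le_div_of_nonneg_left hP0.le hA (by rw [hρ2]; linarith)
  have hm2' : |nz A0 (zv lam g s) 1| ≤ (∑ i, lam i ^ 2) / ρ ^ 2 := by
    rw [n1, abs_div, abs_of_pos (by positivity : 0 < ρ ^ 3), div_le_div_iff₀ (by positivity) (by positivity)]
    have h5 := cube_le lam
    have h6 : Real.sqrt (∑ i, lam i ^ 2) * ∑ i, lam i ^ 2 ≤ ρ * ∑ i, lam i ^ 2 :=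
      mul_le_mul_of_nonneg_right hspρ hP0.le
    have h7 : |∑ i, lam i ^ 3| ≤ ρ * ∑ i, lam i ^ 2 := h5.trans h6
    calc |∑ i, lam i ^ 3| * ρ ^ 2 ≤ (ρ * ∑ i, lam i ^ 2) * ρ ^ 2 :=
          mul_le_mul_of_nonneg_right h7 (by positivity)
      _ = (∑ i, lam i ^ 2) * ρ ^ 3 := by ring
  have hle1 : (∑ i, lam i ^ 2) / ρ ^ 2 ≤ 1 := by
    rw [div_le_one (by positivity), hρ2]; linarith
  refine ⟨by rw [hρe]; exact hρ, by rw [hρe]; exact hρV, by rw [hρe]; exact haρ, h.s0, hs1, ?_, ?_, ?_⟩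
  · rw [mem_Bx]
    refine ⟨⟨?_, ?_⟩, ⟨?_, ?_⟩, ⟨?_, ?_⟩, ⟨?_, ?_⟩⟩
    · rw [n0]; positivity
    · rw [n0, hρ2, div_le_one (by linarith)]; linarith
    · exact (abs_le.1 (hm2'.trans hle1)).1
    · exact (abs_le.1 (hm2'.trans hle1)).2
    · rw [n2]; have := sq_nonneg s; linarith
    · rw [n2]; exact h.q1
    · rw [n3]; exact mul_nonneg h.s0 hρ.le
    · rw [n3]
      calc s * ρ ≤ 1 * Real.sqrt (A0 + |R|) := mul_le_mul hs1 hρV hρ.le zero_le_one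
        _ = Real.sqrt (A0 + |R|) := one_mul _
  · refine max_le ?_ (hm2'.trans hdiv)
    rw [h1z, abs_of_nonneg (by positivity)]
    exact hdiv
  · rw [div_mul_eq_mul_div]
    refine div_le_div_of_nonneg_right ?_ hA.le
    have hsP : Real.sqrt (∑ i, lam i ^ 2) ≤ Real.sqrt |R| := Real.sqrt_le_sqrt hRR
    have hsq : Real.sqrt (∑ i, lam i ^ 2) * Real.sqrt (∑ i, lam i ^ 2) = ∑ i, lam i ^ 2 :=
      Real.mul_self_sqrt hP0.le
    calc ∑ i, lam i ^ 2 = Real.sqrt (∑ i, lam i ^ 2) * Real.sqrt (∑ i, lam i ^ 2) := hsq.symm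
      _ ≤ Real.sqrt |R| * Real.sqrt (∑ i, lam i ^ 2) :=
        mul_le_mul_of_nonneg_right hsP (Real.sqrt_nonneg _)

/-- bounded quantities -/
lemma bd_of {n : ℕ} {A0 : ℝ} (hA : 0 < A0) (R : ℝ) (p : Pol) (e : ℤ) :
    ∃ K : ℝ, 0 ≤ K ∧ ∀ (lam g : Fin n → ℝ) (s : ℝ), Adm lam g s → ∑ i, lam i ^ 2 ≤ R →
      |rh A0 (zv lam g s) ^ e * p.ev (nz A0 (zv lam g s))| ≤ K := by
  obtain ⟨M, hM, bM⟩ := ev_bdd (Real.sqrt (A0 + |R|)) p
  have ha0 : 0 < Real.sqrt A0 := Real.sqrt_pos.2 hA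
  obtain ⟨C, hC⟩ := (isCompact_Icc (a := Real.sqrt A0) (b := Real.sqrt (A0 + |R|))).exists_bound_of_continuousOn
    (f := fun t : ℝ => t ^ e) (continuousOn_id.zpow₀ e fun t ht => Or.inl (by
      have : 0 < t := lt_of_lt_of_le ha0 ht.1
      exact this.ne'))
  refine ⟨|C| * M, by positivity, fun lam g s h hR => ?_⟩
  have hs := sb_of_adm hA h hR
  rw [abs_mul]
  refine mul_le_mul ?_ (bM _ hs.box) (abs_nonneg _) (abs_nonneg _)
  have := hC _ ⟨hs.ra, hs.rV⟩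
  rw [Real.norm_eq_abs] at this
  exact this.trans (le_abs_self C)

/-- small quantities -/
lemma sm_of {n : ℕ} {A0 : ℝ} (hA : 0 < A0) (R : ℝ) (p : Pol) (e : ℤ)
    (hp : ∀ Q v : ℝ, p.ev ![1, 0, Q, v] = 0) :
    ∃ K : ℝ, 0 ≤ K ∧ ∀ (lam g : Fin n → ℝ) (s : ℝ), Adm lam g s → ∑ i, lam i ^ 2 ≤ R →
      |rh A0 (zv lam g s) ^ e * p.ev (nz A0 (zv lam g s))| ≤ K * (∑ i, lam i ^ 2) ∧
      |rh A0 (zv lam g s) ^ e * p.ev (nz A0 (zv lam g s))| ≤ K * Real.sqrt (∑ i, lam i ^ 2) := by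
  obtain ⟨M, hM, bM⟩ := ev_small (Real.sqrt (A0 + |R|)) p hp
  have ha0 : 0 < Real.sqrt A0 := Real.sqrt_pos.2 hA
  obtain ⟨C, hC⟩ := (isCompact_Icc (a := Real.sqrt A0) (b := Real.sqrt (A0 + |R|))).exists_bound_of_continuousOn
    (f := fun t : ℝ => t ^ e) (continuousOn_id.zpow₀ e fun t ht => Or.inl (by
      have : 0 < t := lt_of_lt_of_le ha0 ht.1
      exact this.ne'))
  have hr0 : 0 ≤ Real.sqrt |R| := Real.sqrt_nonneg _
  refine ⟨|C| * (M / A0) + |C| * (M * (Real.sqrt |R| / A0)), by positivity, fun lam g s h hR => ?_⟩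
  have hs := sb_of_adm hA h hR
  have hP0 : 0 < ∑ i, lam i ^ 2 := h.pos
  have hsp : 0 ≤ Real.sqrt (∑ i, lam i ^ 2) := Real.sqrt_nonneg _
  have h1 : |rh A0 (zv lam g s) ^ e| ≤ |C| := by
    have := hC _ ⟨hs.ra, hs.rV⟩
    rw [Real.norm_eq_abs] at this
    exact this.trans (le_abs_self C)
  have h2 : |p.ev (nz A0 (zv lam g s))| ≤ M * ((∑ i, lam i ^ 2) / A0) :=
    (bM _ hs.box).trans (mul_le_mul_of_nonneg_left hs.mx hM)
  have h3 : |p.ev (nz A0 (zv lam g s))| ≤ M * (Real.sqrt |R| / A0 * Real.sqrt (∑ i, lam i ^ 2)) :=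
    h2.trans (mul_le_mul_of_nonneg_left hs.mx' hM)
  rw [abs_mul]
  constructor
  · calc |rh A0 (zv lam g s) ^ e| * |p.ev (nz A0 (zv lam g s))|
        ≤ |C| * (M * ((∑ i, lam i ^ 2) / A0)) := mul_le_mul h1 h2 (abs_nonneg _) (abs_nonneg _)
      _ = |C| * (M / A0) * (∑ i, lam i ^ 2) := by ring
      _ ≤ _ := mul_le_mul_of_nonneg_right (le_add_of_nonneg_right (by positivity)) hP0.le
  · calc |rh A0 (zv lam g s) ^ e| * |p.ev (nz A0 (zv lam g s))|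
        ≤ |C| * (M * (Real.sqrt |R| / A0 * Real.sqrt (∑ i, lam i ^ 2))) :=
          mul_le_mul h1 h3 (abs_nonneg _) (abs_nonneg _)
      _ = |C| * (M * (Real.sqrt |R| / A0)) * Real.sqrt (∑ i, lam i ^ 2) := by ring
      _ ≤ _ := mul_le_mul_of_nonneg_right (le_add_of_nonneg_left (by positivity)) hsp

/-- growth of the data on admissible states with `P₂ ≤ R` -/
lemma growth_of (D : Dat) {A0 : ℝ} (hA : 0 < A0) (hZ : ∀ Q v : ℝ, D.Z.ev ![1, 0, Q, v] = 0)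
    (hp0 : ∀ Q v : ℝ, D.p0.ev ![1, 0, Q, v] = 0) {n : ℕ} (R : ℝ) :
    ∃ K : ℝ, ∀ (lam g : Fin n → ℝ) (s : ℝ), Adm lam g s → ∑ i, lam i ^ 2 ≤ R →
    (D.cert A0).Z.f (zv lam g s) ≤ K * ∑ i, lam i ^ 2 ∧ |(D.cert A0).Z.d 0 (zv lam g s)| ≤ K ∧
    |(D.cert A0).Z.d 1 (zv lam g s)| ≤ K ∧
    |(D.cert A0).Z.d 2 (zv lam g s)| ≤ K * Real.sqrt (∑ i, lam i ^ 2) ∧
    |(D.cert A0).Z.d 3 (zv lam g s)| ≤ K * Real.sqrt (∑ i, lam i ^ 2) ∧
    |(D.cert A0).y0.f (zv lam g s)| ≤ K * Real.sqrt (∑ i, lam i ^ 2) ∧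
    |(D.cert A0).ga.f (zv lam g s)| ≤ K ∧ |(D.cert A0).y1.f (zv lam g s)| ≤ K ∧
    |(D.cert A0).y2.f (zv lam g s)| ≤ K ∧ |(D.cert A0).y3.f (zv lam g s)| ≤ K := by
  obtain ⟨KZ, hKZ, cZ⟩ := sm_of (n := n) hA R D.Z 1 hZ
  obtain ⟨K0, hK0, c0⟩ := sm_of (n := n) hA R D.p0 2 hp0
  obtain ⟨KQ, hKQ, cQ⟩ := sm_of (n := n) hA R (D.Z.D 2) 1 (van_D2 hZ)
  obtain ⟨Kv, hKv, cv⟩ := sm_of (n := n) hA R (D.Z.D 3) 2 (van_D3 hZ)
  obtain ⟨Kg, hKg, cg⟩ := bd_of (n := n) hA R D.g (-1)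
  obtain ⟨K1, hK1, c1⟩ := bd_of (n := n) hA R D.p1 1
  obtain ⟨K2, hK2, c2⟩ := bd_of (n := n) hA R D.p2 0
  obtain ⟨K3, hK3, c3⟩ := bd_of (n := n) hA R D.p3 (-1)
  obtain ⟨Kc, hKc, cc⟩ := bd_of (n := n) hA R (D.Z.D 1) (-2)
  obtain ⟨Ka, hKa, ca⟩ := bd_of (n := n) hA R D.Z (-1)
  obtain ⟨Kb, hKb, cb⟩ := bd_of (n := n) hA R (D.Z.D 0) (-1)
  obtain ⟨Kd, hKd, cd⟩ := bd_of (n := n) hA R (D.Z.D 1) (-1)
  obtain ⟨Ke, hKe, ce⟩ := bd_of (n := n) hA R (D.Z.D 3) (-1)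
  set V : ℝ := Real.sqrt (A0 + |R|) with hV
  have hV0 : 0 ≤ V := Real.sqrt_nonneg _
  have q0 : 0 ≤ 2 * KQ + Kv := by positivity
  have q1 : 0 ≤ Ka + 2 * Kb + 3 * Kd + V * Ke := by positivity
  refine ⟨KZ + K0 + KQ + (2 * KQ + Kv) + Kg + K1 + K2 + K3 + Kc + (Ka + 2 * Kb + 3 * Kd + V * Ke),
    fun lam g s h hR => ?_⟩
  have hs := sb_of_adm hA h hR
  have hP0 : 0 < ∑ i, lam i ^ 2 := h.pos
  have hsp : 0 ≤ Real.sqrt (∑ i, lam i ^ 2) := Real.sqrt_nonneg _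
  have hρ := hs.rpos
  have aZ := cZ lam g s h hR
  have a0 := c0 lam g s h hR
  have aQ := cQ lam g s h hR
  have av := cv lam g s h hR
  have ag := cg lam g s h hR
  have a1 := c1 lam g s h hR
  have a2 := c2 lam g s h hR
  have a3 := c3 lam g s h hR
  have ac := cc lam g s h hR
  have aa := ca lam g s h hR
  have ab := cb lam g s h hR
  have ad := cd lam g s h hR
  have ae := ce lam g s h hR
  have hy := mem_Bx.1 hs.box
  have mono : ∀ {x a b : ℝ}, 0 ≤ x → a ≤ b → a * x ≤ b * x := fun hx hab =>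
    mul_le_mul_of_nonneg_right hab hx
  refine ⟨?_, ?_, ?_, ?_, ?_, ?_, ?_, ?_, ?_, ?_⟩
  · exact ((le_abs_self _).trans aZ.1).trans (mono hP0.le (by linarith))
  · -- `Z.d 0`
    have e : (D.cert A0).Z.d 0 (zv lam g s) = (1 / 2) * (
        rh A0 (zv lam g s) ^ (-1 : ℤ) * D.Z.ev (nz A0 (zv lam g s))
        - 2 * nz A0 (zv lam g s) 0 * (rh A0 (zv lam g s) ^ (-1 : ℤ) * (D.Z.D 0).ev (nz A0 (zv lam g s)))
        - 3 * nz A0 (zv lam g s) 1 * (rh A0 (zv lam g s) ^ (-1 : ℤ) * (D.Z.D 1).ev (nz A0 (zv lam g s)))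
        + nz A0 (zv lam g s) 3 * (rh A0 (zv lam g s) ^ (-1 : ℤ) * (D.Z.D 3).ev (nz A0 (zv lam g s)))) := by
      show rh A0 (zv lam g s) ^ (1 : ℤ) * (eul 1 D.Z (nz A0 (zv lam g s)) / (2 * rh A0 (zv lam g s) ^ 2)) = _
      unfold eul
      rw [zpow_one, zpow_neg_one]
      field_simp
      push_cast
      ring
    rw [e]
    generalize rh A0 (zv lam g s) ^ (-1 : ℤ) * D.Z.ev (nz A0 (zv lam g s)) = X0 at *
    generalize rh A0 (zv lam g s) ^ (-1 : ℤ) * (D.Z.D 0).ev (nz A0 (zv lam g s)) = X1 at *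
    generalize rh A0 (zv lam g s) ^ (-1 : ℤ) * (D.Z.D 1).ev (nz A0 (zv lam g s)) = X2 at *
    generalize rh A0 (zv lam g s) ^ (-1 : ℤ) * (D.Z.D 3).ev (nz A0 (zv lam g s)) = X3 at *
    have u1 : |nz A0 (zv lam g s) 0 * X1| ≤ 1 * Kb := by
      rw [abs_mul]
      exact mul_le_mul (abs_le.2 ⟨by linarith [hy.1.1], hy.1.2⟩) ab (abs_nonneg _) zero_le_one
    have u2 : |nz A0 (zv lam g s) 1 * X2| ≤ 1 * Kd := by
      rw [abs_mul]
      exact mul_le_mul (abs_le.2 hy.2.1) ad (abs_nonneg _) zero_le_one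
    have u3 : |nz A0 (zv lam g s) 3 * X3| ≤ V * Ke := by
      rw [abs_mul]
      exact mul_le_mul (abs_le.2 ⟨by linarith [hy.2.2.2.1], hy.2.2.2.2⟩) ae (abs_nonneg _) hV0
    rw [abs_le] at aa u1 u2 u3 ⊢
    constructor <;> linarith [aa.1, aa.2, u1.1, u1.2, u2.1, u2.2, u3.1, u3.2]
  · -- `Z.d 1`
    have e : (D.cert A0).Z.d 1 (zv lam g s)
        = rh A0 (zv lam g s) ^ (-2 : ℤ) * (D.Z.D 1).ev (nz A0 (zv lam g s)) := by
      show rh A0 (zv lam g s) ^ (1 : ℤ) * ((D.Z.D 1).ev (nz A0 (zv lam g s)) / rh A0 (zv lam g s) ^ 3) = _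
      have : rh A0 (zv lam g s) ^ (-2 : ℤ) = (rh A0 (zv lam g s) ^ 2)⁻¹ := by
        rw [zpow_neg]; norm_cast
      rw [zpow_one, this]
      field_simp
    rw [e]
    exact ac.trans (by linarith)
  · -- `Z.d 2`
    exact aQ.2.trans (mono hsp (by linarith))
  · -- `Z.d 3`
    have e : (D.cert A0).Z.d 3 (zv lam g s)
        = 2 * s * (rh A0 (zv lam g s) ^ (1 : ℤ) * (D.Z.D 2).ev (nz A0 (zv lam g s)))
          + rh A0 (zv lam g s) ^ (2 : ℤ) * (D.Z.D 3).ev (nz A0 (zv lam g s)) := by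
      show rh A0 (zv lam g s) ^ (1 : ℤ) * (2 * s * (D.Z.D 2).ev (nz A0 (zv lam g s))
        + rh A0 (zv lam g s) * (D.Z.D 3).ev (nz A0 (zv lam g s))) = _
      have : rh A0 (zv lam g s) ^ (2 : ℤ) = rh A0 (zv lam g s) ^ 2 := by norm_cast
      rw [zpow_one, this]
      ring
    rw [e]
    have u1 : |2 * s * (rh A0 (zv lam g s) ^ (1 : ℤ) * (D.Z.D 2).ev (nz A0 (zv lam g s)))|
        ≤ 2 * (KQ * Real.sqrt (∑ i, lam i ^ 2)) := by
      rw [abs_mul]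
      refine mul_le_mul ?_ aQ.2 (abs_nonneg _) zero_le_two
      rw [abs_of_nonneg (mul_nonneg zero_le_two hs.s0)]
      linarith [hs.s1]
    refine (abs_add_le _ _).trans ((add_le_add u1 av.2).trans ?_)
    have : 2 * (KQ * Real.sqrt (∑ i, lam i ^ 2)) + Kv * Real.sqrt (∑ i, lam i ^ 2)
      = (2 * KQ + Kv) * Real.sqrt (∑ i, lam i ^ 2) := by ring
    rw [this]
    exact mono hsp (by linarith)
  · exact a0.2.trans (mono hsp (by linarith))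
  · exact ag.trans (by linarith)
  · exact a1.trans (by linarith)
  · exact a2.trans (by linarith)
  · exact a3.trans (by linarith)

/-- **the certificate from the normalised conditions** -/
theorem cert_of_ncert {n : ℕ} {A0 Lam : ℝ} {D : Dat} (H : NCert n A0 Lam D) (hn : 0 < n) :
    Cert n (D.cert A0) Lam where
  okga := coef_ok H.Apos _ _
  ok0 := coef_ok H.Apos _ _
  ok1 := coef_ok H.Apos _ _
  ok2 := coef_ok H.Apos _ _
  ok3 := coef_ok H.Apos _ _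
  okZ := coef_ok H.Apos _ _
  Zpos := by
    intro lam g s h
    have hρ : 0 < rh A0 (zv lam g s) := rh_pos H.Apos h.pos
    have := H.Zpos _ _ (nadm_of_adm H.Apos h).1
    show 0 < rh A0 (zv lam g s) ^ (1 : ℤ) * D.Z.ev (nz A0 (zv lam g s))
    positivity
  lam_gt := H.lam_gt
  PJ := fun lam g s τ h hτ => pj_of_ncert H hn lam g s τ h hτ
  BJ := fun lam k0 Hc h1 h2 h3 h4 => bj_of_ncert H lam k0 Hc h1 h2 h3 h4
  growth := Or.inl fun R => growth_of D H.Apos H.Zvan H.p0van R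

end Crest.Agent.R097.CP
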