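import Crest.Agent.R097.CP0

/-!
# Row 97: sparse integer polynomials with proved evaluation (helper351)

`SP := List (ℤ × List ℕ)`: coefficient and exponent list (variable `i` = `t i`).
-/

set_option autoImplicit false
open scoped BigOperators

namespace Crest.Agent.R097.CQ

/-- sparse polynomials -/
abbrev SP := List (ℤ × List ℕ)

/-- value of a monomial, variables numbered from `i` -/
noncomputable def mon (t : ℕ → ℝ) : ℕ → List ℕ → ℝ
  | _, [] => 1
  | i, e :: es => t i ^ e * mon t (i + 1) es

/-- value of a sparse polynomial -/
noncomputable def ev (t : ℕ → ℝ) : SP → ℝ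
  | [] => 0
  | m :: p => (m.1 : ℝ) * mon t 0 m.2 + ev t p

/-- addition of exponents -/
def zadd : List ℕ → List ℕ → List ℕ
  | [], b => b
  | a, [] => a
  | x :: a, y :: b => (x + y) :: zadd a b

lemma mon_zadd (t : ℕ → ℝ) : ∀ (a b : List ℕ) (i : ℕ), mon t i (zadd a b) = mon t i a * mon t i b
  | [], b, i => by simp [zadd, mon]
  | x :: a, [], i => by simp [zadd, mon]
  | x :: a, y :: b, i => by
    simp only [zadd, mon, mon_zadd t a b (i + 1), pow_add]
    ring

/-- lexicographic comparison: 0 = less, 1 = equal, 2 = greater -/
def lcmp : List ℕ → List ℕ → ℕ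
  | [], [] => 1
  | [], _ :: _ => 0
  | _ :: _, [] => 2
  | x :: a, y :: b => if Nat.blt x y then 0 else if Nat.blt y x then 2 else lcmp a b

lemma lcmp_eq : ∀ {a b : List ℕ}, lcmp a b = 1 → a = b
  | [], [], _ => rfl
  | [], y :: b, h => by simp [lcmp] at h
  | x :: a, [], h => by simp [lcmp] at h
  | x :: a, y :: b, h => by
    simp only [lcmp] at h
    by_cases h1 : Nat.blt x y = true
    · rw [if_pos h1] at h; exact absurd h (by norm_num)
    · by_cases h2 : Nat.blt y x = true
      · rw [if_neg h1, if_pos h2] at h; exact absurd h (by norm_num)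
      · rw [if_neg h1, if_neg h2] at h
        simp only [Nat.blt_eq, not_lt] at h1 h2
        rw [le_antisymm h2 h1, lcmp_eq h]

/-- merge of sorted polynomials (with fuel; always correct for the value) -/
def merge : ℕ → SP → SP → SP
  | 0, p, q => p ++ q
  | _ + 1, [], q => q
  | _ + 1, p, [] => p
  | n + 1, a :: p, b :: q =>
    match lcmp a.2 b.2 with
    | 0 => a :: merge n p (b :: q)
    | 1 => if a.1 + b.1 = 0 then merge n p q else (a.1 + b.1, a.2) :: merge n p q
    | _ => b :: merge n (a :: p) q

lemma ev_append (t : ℕ → ℝ) (p q : SP) : ev t (p ++ q) = ev t p + ev t q := by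
  induction p with
  | nil => simp [ev]
  | cons m p ih => simp only [List.cons_append, ev, ih]; ring

lemma ev_merge (t : ℕ → ℝ) : ∀ (n : ℕ) (p q : SP), ev t (merge n p q) = ev t p + ev t q
  | 0, p, q => ev_append t p q
  | n + 1, [], q => by simp [merge, ev]
  | n + 1, a :: p, [] => by simp [merge, ev]
  | n + 1, a :: p, b :: q => by
    simp only [merge]
    split
    · simp only [ev, ev_merge t n]; ring
    · rename_i h
      have hab := lcmp_eq h
      split_ifs with h0
      · simp only [ev, ev_merge t n, hab]
        have : (a.1 : ℝ) + b.1 = 0 := by exact_mod_cast h0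
        linear_combination (-mon t 0 b.2) * this
      · simp only [ev, ev_merge t n, hab]
        push_cast
        ring
    · simp only [ev, ev_merge t n]; ring

/-- sum -/
def add (p q : SP) : SP := merge (p.length + q.length) p q

lemma ev_add (t : ℕ → ℝ) (p q : SP) : ev t (add p q) = ev t p + ev t q := ev_merge t _ _ _

/-- product with an integer -/
def smul (a : ℤ) (p : SP) : SP := if a = 0 then [] else p.map fun m => (a * m.1, m.2)

lemma ev_smul (t : ℕ → ℝ) (a : ℤ) (p : SP) : ev t (smul a p) = a * ev t p := by
  unfold smul
  split_ifs with h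
  · simp [ev, h]
  · induction p with
    | nil => simp [ev]
    | cons m p ih => simp only [List.map_cons, ev, ih]; push_cast; ring

/-- product with a monomial -/
def mmul (m : ℤ × List ℕ) (p : SP) : SP := p.map fun r => (m.1 * r.1, zadd m.2 r.2)

lemma ev_mmul (t : ℕ → ℝ) (m : ℤ × List ℕ) (p : SP) :
    ev t (mmul m p) = (m.1 : ℝ) * mon t 0 m.2 * ev t p := by
  unfold mmul
  induction p with
  | nil => simp [ev]
  | cons r p ih => simp only [List.map_cons, ev, ih, mon_zadd]; push_cast; ring

/-- product -/
def mul (p q : SP) : SP := p.foldr (fun m acc => add (mmul m q) acc) []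

lemma ev_mul (t : ℕ → ℝ) (p q : SP) : ev t (mul p q) = ev t p * ev t q := by
  unfold mul
  induction p with
  | nil => simp [ev]
  | cons m p ih => simp only [List.foldr_cons, ev_add, ev_mmul, ih, ev]; ring

/-- the constant polynomial -/
def cst (a : ℤ) : SP := [(a, [])]

lemma ev_cst (t : ℕ → ℝ) (a : ℤ) : ev t (cst a) = a := by simp [cst, ev, mon]

/-- power -/
def pw (p : SP) : ℕ → SP
  | 0 => cst 1
  | k + 1 => mul p (pw p k)

lemma ev_pw (t : ℕ → ℝ) (p : SP) (k : ℕ) : ev t (pw p k) = ev t p ^ k := by
  induction k with
  | zero => simp [pw, ev_cst]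
  | succ k ih => simp only [pw, ev_mul, ih]; ring

/-- difference -/
def sub (p q : SP) : SP := add p (smul (-1) q)

lemma ev_sub (t : ℕ → ℝ) (p q : SP) : ev t (sub p q) = ev t p - ev t q := by
  rw [sub, ev_add, ev_smul]; push_cast; ring

/-- the unit exponent list `[0,..,0,k]` with `i` zeros -/
def unitE (i k : ℕ) : List ℕ := List.replicate i 0 ++ [k]

/-- the variable `i` -/
def var (i : ℕ) : SP := [(1, unitE i 1)]

lemma mon_replicate (t : ℕ → ℝ) (i k : ℕ) (l : List ℕ) : mon t k (List.replicate i 0 ++ l) = mon t (k + i) l := by
  induction i generalizing k with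
  | zero => simp
  | succ i ih =>
    rw [List.replicate_succ, List.cons_append, mon, pow_zero, one_mul, ih]
    congr 1
    omega

lemma ev_var (t : ℕ → ℝ) (i : ℕ) : ev t (var i) = t i := by
  simp [var, ev, unitE, mon_replicate, mon]

/-! ### canonical exponent lists -/

/-- drop trailing zeros -/
def trimE : List ℕ → List ℕ
  | [] => []
  | x :: a => match trimE a with
    | [] => if x = 0 then [] else [x]
    | b => x :: b

lemma mon_trimE (t : ℕ → ℝ) : ∀ (a : List ℕ) (i : ℕ), mon t i (trimE a) = mon t i a
  | [], i => rfl
  | x :: a, i => by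
    have ih := mon_trimE t a (i + 1)
    simp only [trimE]
    split
    · rename_i h
      rw [h] at ih
      simp only [mon] at ih
      split_ifs with h0
      · simp [mon, h0, ← ih]
      · simp [mon, ← ih]
    · simp only [mon, ih]

/-- pad with zeros to length `n` -/
def padE : ℕ → List ℕ → List ℕ
  | 0, a => a
  | n + 1, [] => 0 :: padE n []
  | n + 1, x :: a => x :: padE n a

lemma mon_padE (t : ℕ → ℝ) : ∀ (n : ℕ) (a : List ℕ) (i : ℕ), mon t i (padE n a) = mon t i a
  | 0, a, i => rfl
  | n + 1, [], i => by simp [padE, mon, mon_padE t n [] (i + 1)]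
  | n + 1, x :: a, i => by simp [padE, mon, mon_padE t n a (i + 1)]

/-- normal form: pad exponents to length `n`, sort and collect -/
def norm (n : ℕ) (p : SP) : SP := p.foldr (fun m acc => add [(m.1, padE n m.2)] acc) []

lemma ev_norm (t : ℕ → ℝ) (n : ℕ) (p : SP) : ev t (norm n p) = ev t p := by
  unfold norm
  induction p with
  | nil => rfl
  | cons m p ih => simp only [List.foldr_cons, ev_add, ih, ev, mon_padE]; ring

/-! ### division by a power of a variable -/

/-- subtract `k` from the exponent of variable `i` -/
def decE : ℕ → ℕ → List ℕ → Option (List ℕ)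
  | _, 0, a => some a
  | _, _ + 1, [] => none
  | 0, k, x :: a => if Nat.ble k x then some ((x - k) :: a) else none
  | i + 1, k, x :: a => (decE i k a).map fun b => x :: b

lemma mon_decE (t : ℕ → ℝ) : ∀ (i k : ℕ) (a b : List ℕ) (j : ℕ), decE i k a = some b →
    mon t j a = t (j + i) ^ k * mon t j b := by
  intro i
  induction i with
  | zero =>
    intro k a b j h
    cases k with
    | zero => simp only [decE, Option.some.injEq] at h; simp [h]
    | succ k =>
      cases a with
      | nil => simp [decE] at h
      | cons x a =>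
        simp only [decE] at h
        split_ifs at h with h1
        simp only [Option.some.injEq] at h
        subst h
        simp only [Nat.ble_eq] at h1
        simp only [mon, add_zero]
        rw [← mul_assoc, ← pow_add]
        congr 2
        omega
  | succ i ih =>
    intro k a b j h
    cases k with
    | zero => simp only [decE, Option.some.injEq] at h; simp [h]
    | succ k =>
      cases a with
      | nil => simp [decE] at h
      | cons x a =>
        simp only [decE, Option.map_eq_some_iff] at h
        obtain ⟨b', hb', rfl⟩ := h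
        simp only [mon]
        rw [ih (k + 1) a b' (j + 1) hb']
        have : j + 1 + i = j + (i + 1) := by omega
        rw [this]
        ring

/-- division by `t i ^ k` -/
def divV (i k : ℕ) : SP → Option SP
  | [] => some []
  | m :: p => match decE i k m.2, divV i k p with
    | some b, some q => some ((m.1, b) :: q)
    | _, _ => none

lemma ev_divV (t : ℕ → ℝ) (i k : ℕ) : ∀ (p q : SP), divV i k p = some q → ev t p = t i ^ k * ev t q
  | [], q, h => by
    simp only [divV, Option.some.injEq] at h
    subst h; simp [ev]
  | m :: p, q, h => by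
    simp only [divV] at h
    cases h1 : decE i k m.2 with
    | none => simp [h1] at h
    | some b =>
      cases h2 : divV i k p with
      | none => simp [h1, h2] at h
      | some r =>
        simp only [h1, h2, Option.some.injEq] at h
        subst h
        simp only [ev]
        rw [ev_divV t i k p r h2, mon_decE t i k _ b 0 h1, zero_add]
        ring

/-! ### substitution in the data polynomials -/

open Crest.Agent.R097.CP

/-- substitute `ζ, c, Q, v` -/
def toSP (z0 z1 z2 z3 : SP) : Pol → SP
  | [] => []
  | m :: p => add (smul m.a (mul (pw z0 m.i) (mul (pw z1 m.j) (mul (pw z2 m.k) (pw z3 m.l)))))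
      (toSP z0 z1 z2 z3 p)

lemma ev_toSP (t : ℕ → ℝ) (z0 z1 z2 z3 : SP) (p : Pol) :
    ev t (toSP z0 z1 z2 z3 p) = p.ev ![ev t z0, ev t z1, ev t z2, ev t z3] := by
  induction p with
  | nil => rfl
  | cons m p ih =>
    rw [Pol.ev_cons, toSP, ev_add, ih, ev_smul, ev_mul, ev_mul, ev_mul, ev_pw, ev_pw, ev_pw, ev_pw]
    simp only [Mon.ev, Matrix.cons_val_zero, Matrix.cons_val_one, Matrix.cons_val]
    ring

end Crest.Agent.R097.CQ
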