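import Crest.Agent.R097.CQ1
import Crest.Agent.R097.CP3

/-!
# Row 97: the 14 base quantities as sparse integer polynomials (helper351)
-/

set_option autoImplicit false
open scoped BigOperators

namespace Crest.Agent.R097.CQ

open Crest.Agent.R097.CP

/-- the base quantities as sparse polynomials -/
structure BaseP where
  g : SP
  k11 : SP
  k12 : SP
  k22 : SP
  C0 : SP
  Ck : SP
  L1 : SP
  L2 : SP
  Lw : SP
  A11 : SP
  A12 : SP
  W1 : SP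
  W2 : SP
  psi : SP

/-- values -/
noncomputable def BaseP.ev (t : ℕ → ℝ) (B : BaseP) : TEl.Base where
  g := CQ.ev t B.g
  k11 := CQ.ev t B.k11
  k12 := CQ.ev t B.k12
  k22 := CQ.ev t B.k22
  C0 := CQ.ev t B.C0
  Ck := CQ.ev t B.Ck
  L1 := CQ.ev t B.L1
  L2 := CQ.ev t B.L2
  Lw := CQ.ev t B.Lw
  A11 := CQ.ev t B.A11
  A12 := CQ.ev t B.A12
  W1 := CQ.ev t B.W1
  W2 := CQ.ev t B.W2
  psi := CQ.ev t B.psi

/-- all entries times a real number -/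
noncomputable def bsc (κ : ℝ) (B : TEl.Base) : TEl.Base where
  g := κ * B.g
  k11 := κ * B.k11
  k12 := κ * B.k12
  k22 := κ * B.k22
  C0 := κ * B.C0
  Ck := κ * B.Ck
  L1 := κ * B.L1
  L2 := κ * B.L2
  Lw := κ * B.Lw
  A11 := κ * B.A11
  A12 := κ * B.A12
  W1 := κ * B.W1
  W2 := κ * B.W2
  psi := κ * B.psi

lemma ok_of_bsc {κ : ℝ} (hκ : 0 < κ) {B : TEl.Base} {c : TEl.Leaf} {q : ℝ}
    (h : c.OK (bsc κ B) q) : c.OK B q := by
  obtain ⟨hm, hdet, ha, hb1, hb2, hb3⟩ := h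
  have el1 : c.l1 (bsc κ B) = κ * c.l1 B := by
    simp only [TEl.Leaf.l1, TEl.Leaf.f1, TEl.Leaf.f2, TEl.Leaf.f3, TEl.Leaf.Rh1, TEl.Leaf.Rh2,
      TEl.Leaf.Rh3, TEl.Leaf.e1, TEl.Leaf.e2, TEl.Leaf.e3, TEl.Leaf.r11, TEl.Leaf.r12,
      TEl.Leaf.r13, TEl.Leaf.r22, TEl.Leaf.r23, TEl.Leaf.r33, TEl.Leaf.SKS, bsc]
    ring
  have el2 : c.l2 (bsc κ B) = κ * c.l2 B := by
    simp only [TEl.Leaf.l2, TEl.Leaf.f1, TEl.Leaf.f2, TEl.Leaf.f3, TEl.Leaf.Rh1, TEl.Leaf.Rh2,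
      TEl.Leaf.Rh3, TEl.Leaf.e1, TEl.Leaf.e2, TEl.Leaf.e3, TEl.Leaf.r11, TEl.Leaf.r12,
      TEl.Leaf.r13, TEl.Leaf.r22, TEl.Leaf.r23, TEl.Leaf.r33, TEl.Leaf.SKS, bsc]
    ring
  have el3 : c.l3 (bsc κ B) = κ * c.l3 B := by
    simp only [TEl.Leaf.l3, TEl.Leaf.f1, TEl.Leaf.f2, TEl.Leaf.f3, TEl.Leaf.Rh1, TEl.Leaf.Rh2,
      TEl.Leaf.Rh3, TEl.Leaf.e1, TEl.Leaf.e2, TEl.Leaf.e3, TEl.Leaf.r11, TEl.Leaf.r12,
      TEl.Leaf.r13, TEl.Leaf.r22, TEl.Leaf.r23, TEl.Leaf.r33, TEl.Leaf.SKS, bsc]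
    ring
  have eD : 2 * (bsc κ B).C0 + q * c.D' (bsc κ B) = κ * (2 * B.C0 + q * c.D' B) := by
    simp only [TEl.Leaf.D', TEl.Leaf.D, TEl.Leaf.f1, TEl.Leaf.f2, TEl.Leaf.f3, TEl.Leaf.Rh1,
      TEl.Leaf.Rh2,
      TEl.Leaf.Rh3, TEl.Leaf.e1, TEl.Leaf.e2, TEl.Leaf.e3, TEl.Leaf.r11, TEl.Leaf.r12,
      TEl.Leaf.r13, TEl.Leaf.r22, TEl.Leaf.r23, TEl.Leaf.r33, TEl.Leaf.SKS, bsc]
    ring
  have ebil : ∀ x1 x2 x3 y1 y2 y3 : ℝ, c.bil (bsc κ B) x1 x2 x3 y1 y2 y3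
      = κ * c.bil B x1 x2 x3 y1 y2 y3 := by
    intro x1 x2 x3 y1 y2 y3
    simp only [TEl.Leaf.bil, TEl.Leaf.r11, TEl.Leaf.r12,
      TEl.Leaf.r13, TEl.Leaf.r22, TEl.Leaf.r23, TEl.Leaf.r33, TEl.Leaf.SKS, bsc]
    ring
  have e11 : c.q11 (bsc κ B) = κ * c.q11 B := ebil _ _ _ _ _ _
  have e22 : c.q22 (bsc κ B) = κ * c.q22 B := ebil _ _ _ _ _ _
  have e33 : c.q33 (bsc κ B) = κ * c.q33 B := ebil _ _ _ _ _ _
  have e12 : c.q12 (bsc κ B) = κ * c.q12 B := ebil _ _ _ _ _ _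
  have e13 : c.q13 (bsc κ B) = κ * c.q13 B := ebil _ _ _ _ _ _
  have e23 : c.q23 (bsc κ B) = κ * c.q23 B := ebil _ _ _ _ _ _
  rw [el1, el2, el3, eD] at ha
  rw [el1, e12, e13, e11] at hb1
  rw [el2, e12, e23, e22] at hb2
  rw [el3, e13, e23, e33] at hb3
  simp only [abs_mul, abs_of_pos hκ] at ha hb1 hb2 hb3
  refine ⟨hm, hdet, ?_, ?_, ?_, ?_⟩
  · refine le_of_mul_le_mul_left ?_ hκ; linarith
  · refine le_of_mul_le_mul_left ?_ hκ; linarith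
  · refine le_of_mul_le_mul_left ?_ hκ; linarith
  · refine le_of_mul_le_mul_left ?_ hκ; linarith

/-- integer parameters: `A₀ = an/ad`, `Lam = ln/ld`, `p₄` has the denominator `N4` -/
structure Par where
  n : ℕ
  an : ℕ
  ad : ℕ
  ln : ℕ
  ld : ℕ
  N4 : ℕ

namespace Par
variable (P : Par)
noncomputable def A0 : ℝ := (P.an : ℝ) / P.ad
noncomputable def Lam : ℝ := (P.ln : ℝ) / P.ld
/-- common factor of the base polynomials -/
def kap : ℤ := 3 * (P.n + 2) * P.N4 * P.an * P.ld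
end Par

/-- the polynomial `2 ξ p_Q + p_v` -/
def ddQ (X z0 z1 z2 z3 : SP) (p : Pol) : SP :=
  add (smul 2 (mul X (toSP z0 z1 z2 z3 (p.D 2)))) (toSP z0 z1 z2 z3 (p.D 3))

/-- the formal polynomial `e p − 2ζ p_ζ − 3c p_c + v p_v` -/
def eulP (e : ℤ) (p : Pol) : Pol := p.map fun m => ⟨m.a * (e - 2 * m.i - 3 * m.j + m.l), m.i, m.j, m.k, m.l⟩

lemma eulP_ev (e : ℤ) (p : Pol) (y : Fin 4 → ℝ) : (eulP e p).ev y = eul e p y := by
  induction p with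
  | nil => simp [eulP, eul, Pol.D, Pol.ev]
  | cons m p ih =>
    have h1 : eulP e (m :: p) = ⟨m.a * (e - 2 * m.i - 3 * m.j + m.l), m.i, m.j, m.k, m.l⟩ :: eulP e p := rfl
    have h2 : ∀ r, Pol.D r (m :: p) = Mon.D r m :: Pol.D r p := fun r => rfl
    rw [h1, Pol.ev_cons, ih]
    simp only [eul, h2, Pol.ev_cons]
    have k0 : y 0 * (Mon.D 0 m).ev y = m.i * m.ev y := by
      simp only [Mon.D, Mon.D0, Mon.ev]
      rcases Nat.eq_zero_or_pos m.i with h | h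
      · simp [h]
      · obtain ⟨j, hj⟩ := Nat.exists_eq_succ_of_ne_zero h.ne'
        rw [hj, Nat.succ_sub_one, pow_succ]; push_cast; ring
    have k1 : y 1 * (Mon.D 1 m).ev y = m.j * m.ev y := by
      simp only [Mon.D, Mon.D1, Mon.ev]
      rcases Nat.eq_zero_or_pos m.j with h | h
      · simp [h]
      · obtain ⟨j, hj⟩ := Nat.exists_eq_succ_of_ne_zero h.ne'
        rw [hj, Nat.succ_sub_one, pow_succ]; push_cast; ring
    have k3 : y 3 * (Mon.D 3 m).ev y = m.l * m.ev y := by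
      simp only [Mon.D, Mon.D3, Mon.ev]
      rcases Nat.eq_zero_or_pos m.l with h | h
      · simp [h]
      · obtain ⟨j, hj⟩ := Nat.exists_eq_succ_of_ne_zero h.ne'
        rw [hj, Nat.succ_sub_one, pow_succ]; push_cast; ring
    have k4 : (Mon.ev ⟨m.a * (e - 2 * m.i - 3 * m.j + m.l), m.i, m.j, m.k, m.l⟩ y)
        = (e - 2 * m.i - 3 * m.j + m.l) * m.ev y := by
      simp only [Mon.ev]; push_cast; ring
    rw [k4]
    linear_combination 2 * k0 + 3 * k1 - k3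

/-- the base polynomials, `X = ξ`, `C = c`, `Z0 = ζ`, `Qv = Q`, `V = v`; `P4u/N4` = upper bound of
`∑ l⁴` (used in `K₂₂`), `PX/N4` = value used in `C₀` -/
def mkB (P : Par) (X C Z0 Qv V P4u PX : SP) (D : Dat) : BaseP :=
  let T : Pol → SP := toSP Z0 C Qv V
  let g := T D.g
  let p0 := T D.p0
  let p1 := T D.p1
  let p2 := T D.p2
  let p3 := T D.p3
  let Z := T D.Z
  let X2 := mul X X
  let a := sub (cst 1) Z0
  let vz := smul P.ad (mul V Z0)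
  let n : ℤ := P.n
  { g := smul P.kap g
    k11 := smul (P.N4 * P.an * P.ld) (mul (add (smul (n + 2) a) (smul (2 * n) X2)) g)
    k12 := smul (P.N4 * P.an * P.ld) (mul (add (add (smul (n + 2) C) (smul (-2) (mul a X)))
      (smul (2 * n) (mul X X2))) g)
    k22 := smul (P.an * P.ld) (mul (sub (smul (n + 2) (add P4u (smul P.N4 (add (smul (-2) (mul X2 a))
      (smul n (mul X2 X2)))))) (smul P.N4 (mul (sub a (smul n X2)) (sub a (smul n X2))))) g)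
    C0 := smul (3 * (n + 2)) (add (add (smul P.N4 (add (add (smul (n * P.ad * P.ld) (mul a (mul Z0 g)))
        (smul (-(n * P.ld)) (mul vz p0))) (add (smul (P.an * P.ld) (mul a p1))
        (smul P.ld (mul (sub (smul P.an C) (mul vz a)) p2)))))
        (smul P.ld (mul (sub (smul P.an PX) (smul P.N4 (mul vz C))) p3)))
        (smul (-(P.N4 * P.ln * P.ad)) (mul Z0 Z)))
    Ck := smul P.kap (add (add (ddQ X Z0 C Qv V D.p0) (mul X (ddQ X Z0 C Qv V D.p1)))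
      (add (mul X2 (ddQ X Z0 C Qv V D.p2)) (mul (mul X X2) (ddQ X Z0 C Qv V D.p3))))
    L1 := smul P.kap (add (add (ddQ X Z0 C Qv V D.g) (add (T (eulP 2 D.p0)) (mul X (T (eulP 1 D.p1)))))
      (add (add (mul X2 (T (eulP 0 D.p2))) (mul (mul X X2) (T (eulP (-1) D.p3))))
        (add p2 (mul X p3))))
    L2 := smul P.kap (add (smul 3 (add (add (T (D.p0.D 1)) (mul X (T (D.p1.D 1))))
      (add (mul X2 (T (D.p2.D 1))) (mul (mul X X2) (T (D.p3.D 1)))))) p3)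
    Lw := smul P.kap (ddQ X Z0 C Qv V D.Z)
    A11 := smul P.kap (T (eulP (-1) D.g))
    A12 := smul (3 * P.kap) (T (D.g.D 1))
    W1 := smul P.kap (T (eulP 1 D.Z))
    W2 := smul (3 * P.kap) (T (D.Z.D 1))
    psi := smul P.kap Z }

/-- evaluation of the base polynomials -/
theorem mkB_ev (P : Par) (X C Z0 Qv V P4u PX : SP) (D : Dat) (t : ℕ → ℝ)
    (han : 0 < P.an) (had : 0 < P.ad) (hld : 0 < P.ld) (hN : 0 < P.N4) :
    (mkB P X C Z0 Qv V P4u PX D).ev t = bsc P.kap (D.nb P.n P.A0 P.Lam (ev t X)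
      (ev t P4u / P.N4) (ev t PX / P.N4) ![ev t Z0, ev t C, ev t Qv, ev t V]) := by
  have h1 : (P.an : ℝ) ≠ 0 := by positivity
  have h2 : (P.ad : ℝ) ≠ 0 := by positivity
  have h3 : (P.ld : ℝ) ≠ 0 := by positivity
  have h4 : (P.N4 : ℝ) ≠ 0 := by positivity
  have h5 : (P.n : ℝ) + 2 ≠ 0 := by positivity
  simp only [BaseP.ev, bsc, mkB, Dat.nb, TEl.Base.mk.injEq, TEl.K11, TEl.K12, TEl.K22]
  simp only [ev_smul, ev_mul, ev_add, ev_sub, ev_cst, ev_toSP, eulP_ev, ddQ, Par.kap, Par.A0, Par.Lam,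
    Matrix.cons_val_zero, Matrix.cons_val_one, Matrix.cons_val]
  push_cast
  refine ⟨?_, ?_, ?_, ?_, ?_, ?_, ?_, ?_, ?_, ?_, ?_, ?_, ?_, ?_⟩
  · trivial
  · field_simp
  · field_simp; ring
  · field_simp; ring
  · field_simp; ring
  · ring
  · ring
  · ring
  · ring
  · trivial
  · ring
  · trivial
  · ring
  · trivial

end Crest.Agent.R097.CQ
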