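import Mathlib

/-!
# Row 97, scalar parts of the certificate: power sum inequalities (helper226)
-/

set_option autoImplicit false
open Finset

namespace Crest.Agent.R097.SC

variable {ι : Type*}

/-- `m ν_k² ≤ (m-1) ∑ ν²` if `∑ ν = 0` -/
lemma sq_le_of_sum_zero (s : Finset ι) (ν : ι → ℝ) (h0 : ∑ i ∈ s, ν i = 0) {k : ι} (hk : k ∈ s) :
    (s.card : ℝ) * ν k ^ 2 ≤ ((s.card : ℝ) - 1) * ∑ i ∈ s, ν i ^ 2 := by
  classical
  have h1 : ν k = - ∑ i ∈ s.erase k, ν i := by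
    rw [← Finset.add_sum_erase s ν hk] at h0
    linarith
  have h2 : ∑ i ∈ s, ν i ^ 2 = ν k ^ 2 + ∑ i ∈ s.erase k, ν i ^ 2 :=
    (Finset.add_sum_erase s (fun i => ν i ^ 2) hk).symm
  have h3 : (∑ i ∈ s.erase k, ν i) ^ 2 ≤ ((s.erase k).card : ℝ) * ∑ i ∈ s.erase k, ν i ^ 2 :=
    sq_sum_le_card_mul_sum_sq
  have h4 : ((s.erase k).card : ℝ) = (s.card : ℝ) - 1 := by
    rw [Finset.card_erase_of_mem hk, Nat.cast_sub (Finset.card_pos.2 ⟨k, hk⟩)]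
    simp
  rw [h4] at h3
  have h5 : ν k ^ 2 = (∑ i ∈ s.erase k, ν i) ^ 2 := by rw [h1, neg_sq]
  rw [← h5] at h3
  rw [h2]
  nlinarith

/-- one-sided cubic bound -/
lemma cube_le (s : Finset ι) (ν : ι → ℝ) (hm : 2 ≤ s.card) (h0 : ∑ i ∈ s, ν i = 0) {R : ℝ}
    (hR : 0 ≤ R) (h2 : ∑ i ∈ s, ν i ^ 2 = R ^ 2) {δ : ℝ} (hδ : 0 < δ)
    (hδ2 : (s.card : ℝ) * ((s.card : ℝ) - 1) * δ ^ 2 = 1) :
    ∑ i ∈ s, ν i ^ 3 ≤ ((s.card : ℝ) - 2) * δ * R ^ 3 := by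
  set m : ℝ := (s.card : ℝ) with hmdef
  have hm2 : (2 : ℝ) ≤ m := by rw [hmdef]; exact_mod_cast hm
  set b : ℝ := (m - 1) * δ with hb
  have hb0 : 0 ≤ b := by rw [hb]; nlinarith
  have hle : ∀ i ∈ s, ν i ≤ b * R := by
    intro i hi
    have h3 := sq_le_of_sum_zero s ν h0 hi
    rw [h2] at h3
    refine abs_le_of_sq_le_sq' ?_ (by positivity) |>.2
    have h4 : m * (b * R) ^ 2 = (m - 1) * R ^ 2 := by
      rw [hb]
      linear_combination (m - 1) * R ^ 2 * hδ2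
    nlinarith
  have h5 : 0 ≤ ∑ i ∈ s, (b * R - ν i) * (ν i + δ * R) ^ 2 :=
    Finset.sum_nonneg fun i hi => mul_nonneg (sub_nonneg.2 (hle i hi)) (sq_nonneg _)
  have h6 : ∑ i ∈ s, (b * R - ν i) * (ν i + δ * R) ^ 2 =
      (b * R - 2 * δ * R) * ∑ i ∈ s, ν i ^ 2 + (2 * b * δ * R ^ 2 - δ ^ 2 * R ^ 2) * ∑ i ∈ s, ν i
        + m * (b * δ ^ 2 * R ^ 3) - ∑ i ∈ s, ν i ^ 3 := by
    rw [hmdef, ← nsmul_eq_mul, ← Finset.sum_const, Finset.mul_sum, Finset.mul_sum,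
      ← Finset.sum_add_distrib, ← Finset.sum_add_distrib, ← Finset.sum_sub_distrib]
    refine Finset.sum_congr rfl fun i _ => ?_
    ring
  rw [h6, h0, h2] at h5
  have h7 : (b * R - 2 * δ * R) * R ^ 2 + m * (b * δ ^ 2 * R ^ 3) = (m - 2) * δ * R ^ 3 := by
    rw [hb]
    linear_combination δ * R ^ 3 * hδ2
  linarith

/-- **cubic bound** -/
theorem cube_sq_le (s : Finset ι) (ν : ι → ℝ) (hm : 2 ≤ s.card) (h0 : ∑ i ∈ s, ν i = 0) :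
    (s.card : ℝ) * ((s.card : ℝ) - 1) * (∑ i ∈ s, ν i ^ 3) ^ 2 ≤
      ((s.card : ℝ) - 2) ^ 2 * (∑ i ∈ s, ν i ^ 2) ^ 3 := by
  set m : ℝ := (s.card : ℝ) with hmdef
  have hm2 : (2 : ℝ) ≤ m := by rw [hmdef]; exact_mod_cast hm
  have hS : 0 ≤ ∑ i ∈ s, ν i ^ 2 := Finset.sum_nonneg fun i _ => sq_nonneg _
  set R := Real.sqrt (∑ i ∈ s, ν i ^ 2) with hR
  have hR2 : ∑ i ∈ s, ν i ^ 2 = R ^ 2 := (Real.sq_sqrt hS).symm
  have hmm : 0 < m * (m - 1) := by nlinarith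
  set δ : ℝ := (Real.sqrt (m * (m - 1)))⁻¹ with hδ
  have hδ0 : 0 < δ := inv_pos.2 (Real.sqrt_pos.2 hmm)
  have hδ2 : m * (m - 1) * δ ^ 2 = 1 := by
    rw [hδ, inv_pow, Real.sq_sqrt hmm.le, mul_inv_cancel₀ hmm.ne']
  have h1 := cube_le s ν hm h0 (Real.sqrt_nonneg _) hR2 hδ0 hδ2
  have h0' : ∑ i ∈ s, (- ν i) = 0 := by rw [Finset.sum_neg_distrib, h0, neg_zero]
  have hR2' : ∑ i ∈ s, (- ν i) ^ 2 = R ^ 2 := by
    rw [← hR2]; exact Finset.sum_congr rfl fun i _ => by ring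
  have h2 := cube_le s (fun i => - ν i) hm h0' (Real.sqrt_nonneg _) hR2' hδ0 hδ2
  have h3 : ∑ i ∈ s, (- ν i) ^ 3 = - ∑ i ∈ s, ν i ^ 3 := by
    rw [← Finset.sum_neg_distrib]
    exact Finset.sum_congr rfl fun i _ => by ring
  rw [h3] at h2
  have h4 : (∑ i ∈ s, ν i ^ 3) ^ 2 ≤ ((m - 2) * δ * R ^ 3) ^ 2 := by
    refine sq_le_sq' (by linarith) h1
  rw [hR2]
  calc m * (m - 1) * (∑ i ∈ s, ν i ^ 3) ^ 2 ≤ m * (m - 1) * ((m - 2) * δ * R ^ 3) ^ 2 :=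
        mul_le_mul_of_nonneg_left h4 hmm.le
    _ = (m - 2) ^ 2 * (R ^ 2) ^ 3 := by linear_combination (m - 2) ^ 2 * R ^ 6 * hδ2

/-- the bound for the remaining eigenvalues -/
theorem cube_sq_le_erase {n : ℕ} (hn : 3 ≤ n) (l : Fin n → ℝ) (h0 : ∑ i, l i = 0) (k : Fin n) :
    ((n : ℝ) - 1) * ((n : ℝ) - 2) * (∑ i, l i ^ 3 - l k ^ 3 + 3 * l k / (n - 1) *
        (∑ i, l i ^ 2 - l k ^ 2) - 2 * l k ^ 3 / (n - 1) ^ 2) ^ 2 ≤
      ((n : ℝ) - 3) ^ 2 * (∑ i, l i ^ 2 - n / (n - 1) * l k ^ 2) ^ 3 := by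
  classical
  set x := l k with hx
  have hn1 : (0 : ℝ) < (n : ℝ) - 1 := by
    have : (3 : ℝ) ≤ n := by exact_mod_cast hn
    linarith
  set s := Finset.univ.erase k with hs
  have hcard : s.card = n - 1 := by rw [hs, Finset.card_erase_of_mem (Finset.mem_univ k)]; simp
  have hcard' : (s.card : ℝ) = (n : ℝ) - 1 := by
    rw [hcard, Nat.cast_sub (by omega)]; simp
  have e1 : ∑ i ∈ s, l i = - x := by
    have := Finset.add_sum_erase Finset.univ l (Finset.mem_univ k)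
    rw [h0] at this; linarith
  have e2 : ∑ i ∈ s, l i ^ 2 = ∑ i, l i ^ 2 - x ^ 2 := by
    have := Finset.add_sum_erase Finset.univ (fun i => l i ^ 2) (Finset.mem_univ k)
    linarith
  have e3 : ∑ i ∈ s, l i ^ 3 = ∑ i, l i ^ 3 - x ^ 3 := by
    have := Finset.add_sum_erase Finset.univ (fun i => l i ^ 3) (Finset.mem_univ k)
    linarith
  have hc : ∀ c : ℝ, ∑ _i ∈ s, c = ((n : ℝ) - 1) * c := by
    intro c; rw [Finset.sum_const, nsmul_eq_mul, hcard']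
  have f1 : ∑ i ∈ s, (l i + x / (n - 1)) = 0 := by
    rw [Finset.sum_add_distrib, e1, hc]; field_simp; ring
  have f2 : ∑ i ∈ s, (l i + x / (n - 1)) ^ 2 = ∑ i, l i ^ 2 - n / (n - 1) * x ^ 2 := by
    have : ∀ i ∈ s, (l i + x / ((n : ℝ) - 1)) ^ 2 = l i ^ 2 + 2 * (x / (n - 1)) * l i +
        (x / (n - 1)) ^ 2 := fun i _ => by ring
    rw [Finset.sum_congr rfl this, Finset.sum_add_distrib, Finset.sum_add_distrib,
      ← Finset.mul_sum, e1, e2, hc]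
    field_simp; ring
  have f3 : ∑ i ∈ s, (l i + x / (n - 1)) ^ 3 = ∑ i, l i ^ 3 - x ^ 3 + 3 * x / (n - 1) *
        (∑ i, l i ^ 2 - x ^ 2) - 2 * x ^ 3 / (n - 1) ^ 2 := by
    have : ∀ i ∈ s, (l i + x / ((n : ℝ) - 1)) ^ 3 = l i ^ 3 + 3 * (x / (n - 1)) * l i ^ 2 +
        3 * (x / (n - 1)) ^ 2 * l i + (x / (n - 1)) ^ 3 := fun i _ => by ring
    rw [Finset.sum_congr rfl this, Finset.sum_add_distrib, Finset.sum_add_distrib,
      Finset.sum_add_distrib, ← Finset.mul_sum, ← Finset.mul_sum, e1, e2, e3, hc]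
    field_simp; ring
  have key := cube_sq_le s (fun i => l i + x / (n - 1)) (by omega) f1
  rw [f2, f3, hcard'] at key
  have h8 : ((n : ℝ) - 1) * ((n : ℝ) - 2) = ((n : ℝ) - 1) * ((n : ℝ) - 1 - 1) := by ring
  have h9 : ((n : ℝ) - 3) ^ 2 = ((n : ℝ) - 1 - 2) ^ 2 := by ring
  rw [h8, h9]
  exact key

end Crest.Agent.R097.SC
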