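import Crest.Agent.R097.CQ2
import Crest.Agent.R097.SC1

/-!
# Row 97: charts, states, and (PJ) from covers by leaves (helper351)

Chart U: `(ξ, c, ζ, Q, v)`; chart S: `(x, p, s, Q, v)` with `ξ = s x`, `c = s³ p`, `ζ = 1 - s²`.
-/

set_option autoImplicit false
open scoped BigOperators

namespace Crest.Agent.R097.CQ

open Crest.Agent.R097.CP

/-- `R² = ∑_{i≠k} ν_i²` -/
noncomputable def rr (n : ℕ) (x a : ℝ) : ℝ := a - n / (n - 1) * x ^ 2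

/-- `∑_{i≠k} ν_i³` -/
noncomputable def k3 (n : ℕ) (x a c : ℝ) : ℝ :=
  c - x ^ 3 + 3 * x / (n - 1) * (a - x ^ 2) - 2 * x ^ 3 / (n - 1) ^ 2

/-- constant of `∑ ν⁴ ≤ c_n R⁴` -/
noncomputable def cn (n : ℕ) : ℝ := if n = 5 then 7 / 12 else 1 / 2

/-- upper bound of `∑ l⁴` -/
noncomputable def p4up (n : ℕ) (x a c : ℝ) : ℝ :=
  (1 + 1 / ((n : ℝ) - 1) ^ 3) * x ^ 4 + 6 * x ^ 2 * rr n x a / (n - 1) ^ 2 - 4 * x * k3 n x a c / (n - 1)
    + cn n * rr n x a ^ 2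

lemma rr_scale (n : ℕ) (s x a : ℝ) : rr n (s * x) (s ^ 2 * a) = s ^ 2 * rr n x a := by
  unfold rr; ring

lemma k3_scale (n : ℕ) (s x a c : ℝ) : k3 n (s * x) (s ^ 2 * a) (s ^ 3 * c) = s ^ 3 * k3 n x a c := by
  unfold k3; ring

lemma p4up_scale (n : ℕ) (s x a c : ℝ) :
    p4up n (s * x) (s ^ 2 * a) (s ^ 3 * c) = s ^ 4 * p4up n x a c := by
  unfold p4up; rw [rr_scale, k3_scale]; ring

lemma p4_le3 (l : Fin 3 → ℝ) (k : Fin 3) (h : ∑ i, l i = 0) :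
    ∑ i, l i ^ 4 ≤ p4up 3 (l k) (∑ i, l i ^ 2) (∑ i, l i ^ 3) := by
  rw [Fin.sum_univ_succAbove _ k, Fin.sum_univ_two] at h
  rw [Fin.sum_univ_succAbove _ k, Fin.sum_univ_succAbove _ k, Fin.sum_univ_succAbove _ k,
    Fin.sum_univ_two, Fin.sum_univ_two, Fin.sum_univ_two]
  generalize l (k.succAbove 0) = a at *
  generalize l (k.succAbove 1) = b at *
  have hx : l k = -(a + b) := by linarith
  rw [hx]
  unfold p4up rr k3 cn
  norm_num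
  apply le_of_eq
  ring

lemma p4_le4 (l : Fin 4 → ℝ) (k : Fin 4) (h : ∑ i, l i = 0) :
    ∑ i, l i ^ 4 ≤ p4up 4 (l k) (∑ i, l i ^ 2) (∑ i, l i ^ 3) := by
  rw [Fin.sum_univ_succAbove _ k, Fin.sum_univ_three] at h
  rw [Fin.sum_univ_succAbove _ k, Fin.sum_univ_succAbove _ k, Fin.sum_univ_succAbove _ k,
    Fin.sum_univ_three, Fin.sum_univ_three, Fin.sum_univ_three]
  generalize l (k.succAbove 0) = a at *
  generalize l (k.succAbove 1) = b at *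
  generalize l (k.succAbove 2) = d at *
  have hx : l k = -(a + b + d) := by linarith
  rw [hx]
  unfold p4up rr k3 cn
  norm_num
  apply le_of_eq
  ring

lemma p4_le5 (l : Fin 5 → ℝ) (k : Fin 5) (h : ∑ i, l i = 0) :
    ∑ i, l i ^ 4 ≤ p4up 5 (l k) (∑ i, l i ^ 2) (∑ i, l i ^ 3) := by
  rw [Fin.sum_univ_succAbove _ k, Fin.sum_univ_four] at h
  rw [Fin.sum_univ_succAbove _ k, Fin.sum_univ_succAbove _ k, Fin.sum_univ_succAbove _ k,
    Fin.sum_univ_four, Fin.sum_univ_four, Fin.sum_univ_four]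
  generalize l (k.succAbove 0) = a at *
  generalize l (k.succAbove 1) = b at *
  generalize l (k.succAbove 2) = d at *
  generalize l (k.succAbove 3) = e at *
  have hx : l k = -(a + b + d + e) := by linarith
  rw [hx]
  have key : p4up 5 (-(a + b + d + e)) ((-(a + b + d + e)) ^ 2 + (a ^ 2 + b ^ 2 + d ^ 2 + e ^ 2))
      ((-(a + b + d + e)) ^ 3 + (a ^ 3 + b ^ 3 + d ^ 3 + e ^ 3))
      - ((-(a + b + d + e)) ^ 4 + (a ^ 4 + b ^ 4 + d ^ 4 + e ^ 4))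
      = 1 / 6 * (((((a + b) - (d + e)) / 2) ^ 2 - (((b + d) - (a + e)) / 2) ^ 2) ^ 2
        + ((((b + d) - (a + e)) / 2) ^ 2 - (((a + d) - (b + e)) / 2) ^ 2) ^ 2
        + ((((a + d) - (b + e)) / 2) ^ 2 - (((a + b) - (d + e)) / 2) ^ 2) ^ 2) := by
    unfold p4up rr k3 cn
    norm_num
    ring
  nlinarith [sq_nonneg ((((a + b) - (d + e)) / 2) ^ 2 - (((b + d) - (a + e)) / 2) ^ 2),
    sq_nonneg ((((b + d) - (a + e)) / 2) ^ 2 - (((a + d) - (b + e)) / 2) ^ 2),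
    sq_nonneg ((((a + d) - (b + e)) / 2) ^ 2 - (((a + b) - (d + e)) / 2) ^ 2)]

/-- the admissible values of `n` -/
def nOK (n : ℕ) : Prop := n = 3 ∨ n = 4 ∨ n = 5

lemma p4_le {n : ℕ} (hn : nOK n) (l : Fin n → ℝ) (k : Fin n) (h : ∑ i, l i = 0) :
    ∑ i, l i ^ 4 ≤ p4up n (l k) (∑ i, l i ^ 2) (∑ i, l i ^ 3) := by
  rcases hn with rfl | rfl | rfl
  · exact p4_le3 l k h
  · exact p4_le4 l k h
  · exact p4_le5 l k h

/-- domain of chart U -/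
structure DomU (n : ℕ) (A0 ξ c ζ Q v : ℝ) : Prop where
  z0 : 0 < ζ
  z1 : ζ < 1
  v0 : 0 ≤ v
  q0 : 0 ≤ Q - v ^ 2 * (ζ / A0)
  q1 : Q ≤ 1
  ap : v ^ 2 * (1 - ζ) ≤ (n : ℝ) / (2 * (n + 2)) * (1 - Q ^ 2)
  rn : 0 ≤ rr n ξ (1 - ζ)
  reg : ((n : ℝ) - 1) * ((n : ℝ) - 2) * k3 n ξ (1 - ζ) c ^ 2 ≤ ((n : ℝ) - 3) ^ 2 * rr n ξ (1 - ζ) ^ 3

/-- domain of chart S -/
structure DomS (n : ℕ) (A0 x p s Q v : ℝ) : Prop where
  s0 : 0 < s
  s1 : s < 1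
  v0 : 0 ≤ v
  q0 : 0 ≤ Q - v ^ 2 * ((1 - s ^ 2) / A0)
  q1 : Q ≤ 1
  ap : v ^ 2 * s ^ 2 ≤ (n : ℝ) / (2 * (n + 2)) * (1 - Q ^ 2)
  rn : 0 ≤ rr n x 1
  reg : ((n : ℝ) - 1) * ((n : ℝ) - 2) * k3 n x 1 p ^ 2 ≤ ((n : ℝ) - 3) ^ 2 * rr n x 1 ^ 3

lemma domU_of_nadm {n : ℕ} (hn : nOK n) {A0 : ℝ} {l : Fin n → ℝ} {y : Fin 4 → ℝ} (h : NAdm A0 l y)
    (k : Fin n) : DomU n A0 (l k) (y 1) (y 0) (y 2) (y 3) := by
  have hn3 : 3 ≤ n := by rcases hn with h | h | h <;> omega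
  have hc : (0 : ℝ) < (n : ℝ) - 1 := by
    have : (3 : ℝ) ≤ n := by exact_mod_cast hn3
    linarith
  refine ⟨h.z0, h.z1, h.v0, h.q0, h.q1, h.ap, ?_, ?_⟩
  · have h1 := SC.sq_le_of_sum_zero Finset.univ l (by simpa using h.tr) (Finset.mem_univ k)
    simp only [Finset.card_univ, Fintype.card_fin] at h1
    rw [h.sq] at h1
    unfold rr
    rw [sub_nonneg, div_mul_eq_mul_div, div_le_iff₀ hc]
    linarith
  · have h1 := SC.cube_sq_le_erase hn3 l h.tr k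
    rw [h.sq, h.cu] at h1
    exact h1

lemma domS_of_nadm {n : ℕ} (hn : nOK n) {A0 : ℝ} {l : Fin n → ℝ} {y : Fin 4 → ℝ} (h : NAdm A0 l y)
    (k : Fin n) {s : ℝ} (hs : 0 < s) (hs2 : s ^ 2 = 1 - y 0) :
    DomS n A0 (l k / s) (y 1 / s ^ 3) s (y 2) (y 3) := by
  have h1 := domU_of_nadm hn h k
  have e0 : y 0 = 1 - s ^ 2 := by linarith
  have ex : s * (l k / s) = l k := by field_simp
  have ep : s ^ 3 * (y 1 / s ^ 3) = y 1 := by field_simp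
  have ea : s ^ 2 * 1 = 1 - y 0 := by rw [mul_one, hs2]
  have hr : rr n (l k) (1 - y 0) = s ^ 2 * rr n (l k / s) 1 := by
    rw [← rr_scale, ex, ea]
  have hk : k3 n (l k) (1 - y 0) (y 1) = s ^ 3 * k3 n (l k / s) 1 (y 1 / s ^ 3) := by
    rw [← k3_scale, ex, ep, ea]
  refine ⟨hs, ?_, h1.v0, ?_, h1.q1, ?_, ?_, ?_⟩
  · have : s ^ 2 < 1 := by linarith [h1.z0]
    nlinarith
  · rw [← e0]; exact h1.q0
  · rw [hs2]; exact h1.ap
  · have := h1.rn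
    rw [hr] at this
    exact nonneg_of_mul_nonneg_right this (by positivity)
  · have := h1.reg
    rw [hr, hk] at this
    have hs6 : 0 < s ^ 6 := by positivity
    refine le_of_mul_le_mul_left ?_ hs6
    calc s ^ 6 * (((n : ℝ) - 1) * ((n : ℝ) - 2) * k3 n (l k / s) 1 (y 1 / s ^ 3) ^ 2)
        = ((n : ℝ) - 1) * ((n : ℝ) - 2) * (s ^ 3 * k3 n (l k / s) 1 (y 1 / s ^ 3)) ^ 2 := by ring
      _ ≤ _ := this
      _ = _ := by ring

/-! ### scaling of the base -/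

/-- `B'` is the `s`-scaled form of `B` -/
structure SRel (s : ℝ) (B B' : TEl.Base) : Prop where
  g : B'.g = B.g
  k11 : B.k11 = s ^ 2 * B'.k11
  k12 : B.k12 = s ^ 3 * B'.k12
  k22 : B.k22 = s ^ 4 * B'.k22
  C0 : B.C0 = s ^ 2 * B'.C0
  Ck : B.Ck = s ^ 2 * B'.Ck
  L1 : B'.L1 = B.L1
  L2 : B'.L2 = s * B.L2
  Lw : B.Lw = s ^ 2 * B'.Lw
  A11 : B'.A11 = s ^ 2 * B.A11
  A12 : B'.A12 = s ^ 3 * B.A12
  W1 : B'.W1 = B.W1
  W2 : B'.W2 = s * B.W2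
  psi : B.psi = s ^ 2 * B'.psi

lemma Fb_srel {s : ℝ} (hs : 0 < s) {B B' : TEl.Base} (h : SRel s B B') (r s0 X Y W Gt : ℝ) :
    TEl.Fb B r s0 X Y W Gt = TEl.Fb B' r (s * s0) (X / s) (Y / s ^ 2) (s * W) Gt := by
  unfold TEl.Fb
  rw [h.C0, h.Ck, h.L1, h.L2, h.Lw, h.A11, h.A12, h.W1, h.W2, h.psi]
  field_simp

/-- multiplication by `s^k` (`s` = variable 2) -/
def mulS (k : ℕ) (p : SP) : SP := mmul (1, unitE 2 k) p

lemma ev_mulS (t : ℕ → ℝ) (k : ℕ) (p : SP) : ev t (mulS k p) = t 2 ^ k * ev t p := by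
  rw [mulS, ev_mmul, unitE, mon_replicate]
  simp [mon]

/-- the `s`-scaled base polynomials -/
def BaseP.scaleS (B : BaseP) : Option BaseP :=
  match divV 2 2 B.k11, divV 2 3 B.k12, divV 2 4 B.k22, divV 2 2 B.C0, divV 2 2 B.Ck, divV 2 2 B.Lw,
    divV 2 2 B.psi with
  | some a1, some a2, some a3, some a4, some a5, some a6, some a7 => some
    { g := B.g, k11 := a1, k12 := a2, k22 := a3, C0 := a4, Ck := a5, L1 := B.L1, L2 := mulS 1 B.L2,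
      Lw := a6, A11 := mulS 2 B.A11, A12 := mulS 3 B.A12, W1 := B.W1, W2 := mulS 1 B.W2, psi := a7 }
  | _, _, _, _, _, _, _ => none

lemma srel_of_scaleS {B B' : BaseP} (h : B.scaleS = some B') (t : ℕ → ℝ) :
    SRel (t 2) (B.ev t) (B'.ev t) := by
  unfold BaseP.scaleS at h
  cases h1 : divV 2 2 B.k11 with
  | none => simp [h1] at h
  | some a1 =>
  cases h2 : divV 2 3 B.k12 with
  | none => simp [h1, h2] at h
  | some a2 =>
  cases h3 : divV 2 4 B.k22 with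
  | none => simp [h1, h2, h3] at h
  | some a3 =>
  cases h4 : divV 2 2 B.C0 with
  | none => simp [h1, h2, h3, h4] at h
  | some a4 =>
  cases h5 : divV 2 2 B.Ck with
  | none => simp [h1, h2, h3, h4, h5] at h
  | some a5 =>
  cases h6 : divV 2 2 B.Lw with
  | none => simp [h1, h2, h3, h4, h5, h6] at h
  | some a6 =>
  cases h7 : divV 2 2 B.psi with
  | none => simp [h1, h2, h3, h4, h5, h6, h7] at h
  | some a7 =>
  simp only [h1, h2, h3, h4, h5, h6, h7, Option.some.injEq] at h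
  subst h
  have d1 := ev_divV t _ _ _ _ h1
  have d2 := ev_divV t _ _ _ _ h2
  have d3 := ev_divV t _ _ _ _ h3
  have d4 := ev_divV t _ _ _ _ h4
  have d5 := ev_divV t _ _ _ _ h5
  have d6 := ev_divV t _ _ _ _ h6
  have d7 := ev_divV t _ _ _ _ h7
  refine ⟨rfl, d1, d2, d3, d4, d5, rfl, ?_, d6, ?_, ?_, rfl, ?_, d7⟩
  · show ev t (mulS 1 B.L2) = _; rw [ev_mulS, pow_one]; rfl
  · show ev t (mulS 2 B.A11) = _; rw [ev_mulS]; rfl
  · show ev t (mulS 3 B.A12) = _; rw [ev_mulS]; rfl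
  · show ev t (mulS 1 B.W2) = _; rw [ev_mulS, pow_one]; rfl

end Crest.Agent.R097.CQ
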