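import Crest.Agent.R097.CQ3
import Crest.Agent.R097.CP4

/-!
# Row 97: (PJ) of `NCert` from covers of the two charts by leaves (helper351)
-/

set_option autoImplicit false
open scoped BigOperators

namespace Crest.Agent.R097.CQ

open Crest.Agent.R097.CP

/-- denominators of the bound of `∑ l⁴` -/
def N4of : ℕ → ℕ
  | 3 => 8
  | 4 => 54
  | _ => 192

/-- `N4 * p4up` as a polynomial -/
def p4P (n : ℕ) (X a C : SP) : SP :=
  let X2 := mul X X
  match n with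
  | 3 =>
    let R := sub (smul 2 a) (smul 3 X2)
    let K := add (smul 2 C) (mul X (sub (smul 3 a) (smul 6 X2)))
    add (add (smul 9 (mul X2 X2)) (smul 6 (mul X2 R))) (add (smul (-8) (mul X K)) (mul R R))
  | 4 =>
    let R := sub (smul 3 a) (smul 4 X2)
    let K := add (smul 9 C) (mul X (sub (smul 9 a) (smul 20 X2)))
    add (add (smul 56 (mul X2 X2)) (smul 12 (mul X2 R))) (add (smul (-8) (mul X K)) (smul 3 (mul R R)))
  | _ =>
    let R := sub (smul 4 a) (smul 5 X2)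
    let K := add (smul 8 C) (mul X (sub (smul 6 a) (smul 15 X2)))
    add (add (smul 195 (mul X2 X2)) (smul 18 (mul X2 R))) (add (smul (-24) (mul X K)) (smul 7 (mul R R)))

lemma p4P_ev {n : ℕ} (hn : nOK n) (X a C : SP) (t : ℕ → ℝ) :
    ev t (p4P n X a C) / (N4of n : ℝ) = p4up n (ev t X) (ev t a) (ev t C) := by
  rcases hn with rfl | rfl | rfl
  · simp only [p4P, ev_add, ev_sub, ev_smul, ev_mul, N4of, p4up, rr, k3, cn]
    norm_num
    ring
  · simp only [p4P, ev_add, ev_sub, ev_smul, ev_mul, N4of, p4up, rr, k3, cn]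
    norm_num
    ring
  · simp only [p4P, ev_add, ev_sub, ev_smul, ev_mul, N4of, p4up, rr, k3, cn]
    norm_num
    ring

/-- normal form of all fields -/
def BaseP.nf (B : BaseP) : BaseP where
  g := norm 5 B.g
  k11 := norm 5 B.k11
  k12 := norm 5 B.k12
  k22 := norm 5 B.k22
  C0 := norm 5 B.C0
  Ck := norm 5 B.Ck
  L1 := norm 5 B.L1
  L2 := norm 5 B.L2
  Lw := norm 5 B.Lw
  A11 := norm 5 B.A11
  A12 := norm 5 B.A12
  W1 := norm 5 B.W1
  W2 := norm 5 B.W2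
  psi := norm 5 B.psi

lemma BaseP.nf_ev (B : BaseP) (t : ℕ → ℝ) : B.nf.ev t = B.ev t := by
  simp only [BaseP.ev, BaseP.nf, ev_norm]

/-- parameters of a data set -/
structure Pars (P : Par) : Prop where
  n : nOK P.n
  an : 0 < P.an
  ad : 0 < P.ad
  ld : 0 < P.ld
  N4 : P.N4 = N4of P.n

lemma N4of_pos (n : ℕ) : 0 < N4of n := by
  unfold N4of
  split <;> norm_num

lemma kap_pos {P : Par} (h : Pars P) : (0 : ℝ) < (P.kap : ℝ) := by
  have h1 := h.an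
  have h2 := h.ld
  have h3 := N4of_pos P.n
  rw [← h.N4] at h3
  have : 0 < P.kap := by unfold Par.kap; positivity
  exact_mod_cast this

/-- base polynomials of chart U, variables `(ξ, c, ζ, Q, v)` -/
def BU (P : Par) (D : Dat) : BaseP :=
  (mkB P (var 0) (var 1) (var 2) (var 3) (var 4) (p4P P.n (var 0) (sub (cst 1) (var 2)) (var 1)) [] D).nf

theorem BU_ev {P : Par} (h : Pars P) (D : Dat) (t : ℕ → ℝ) :
    (BU P D).ev t = bsc P.kap (D.nb P.n P.A0 P.Lam (t 0) (p4up P.n (t 0) (1 - t 2) (t 1)) 0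
      ![t 2, t 1, t 3, t 4]) := by
  have hN : 0 < P.N4 := by rw [h.N4]; exact N4of_pos _
  rw [BU, BaseP.nf_ev, mkB_ev P _ _ _ _ _ _ _ D t h.an h.ad h.ld hN, h.N4, p4P_ev h.n]
  simp only [ev_var, ev_sub, ev_cst]
  have : ev t [] / ((N4of P.n : ℕ) : ℝ) = 0 := by simp [ev]
  rw [this]
  norm_num

/-- the variables of chart S -/
def XS : SP := [(1, [1, 0, 1])]
def CS : SP := [(1, [0, 1, 3])]
def ZS : SP := [(1, []), (-1, [0, 0, 2])]
def AS : SP := [(1, [0, 0, 2])]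

lemma ev_XS (t : ℕ → ℝ) : ev t XS = t 2 * t 0 := by simp [XS, ev, mon]; ring
lemma ev_CS (t : ℕ → ℝ) : ev t CS = t 2 ^ 3 * t 1 := by simp [CS, ev, mon]; ring
lemma ev_ZS (t : ℕ → ℝ) : ev t ZS = 1 - t 2 ^ 2 := by simp [ZS, ev, mon]; ring
lemma ev_AS (t : ℕ → ℝ) : ev t AS = t 2 ^ 2 := by simp [AS, ev, mon]

/-- base polynomials of chart S, variables `(x, p, s, Q, v)` -/
def BS (P : Par) (D : Dat) : Option BaseP :=
  (mkB P XS CS ZS (var 3) (var 4) (p4P P.n XS AS CS) [] D).nf.scaleS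

/-- the unscaled base at a point of chart S -/
noncomputable def nbS (P : Par) (D : Dat) (x p s Q v : ℝ) : TEl.Base :=
  D.nb P.n P.A0 P.Lam (s * x) (p4up P.n (s * x) (s ^ 2) (s ^ 3 * p)) 0 ![1 - s ^ 2, s ^ 3 * p, Q, v]

lemma bsc_bsc (a b : ℝ) (B : TEl.Base) : bsc a (bsc b B) = bsc (a * b) B := by
  simp only [bsc, mul_assoc]

lemma bsc_one (B : TEl.Base) : bsc 1 B = B := by
  simp only [bsc, one_mul]

lemma srel_bsc {s κ : ℝ} {B B' : TEl.Base} (h : SRel s B B') : SRel s (bsc κ B) (bsc κ B') := by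
  refine ⟨?_, ?_, ?_, ?_, ?_, ?_, ?_, ?_, ?_, ?_, ?_, ?_, ?_, ?_⟩ <;> simp only [bsc]
  · rw [h.g]
  · rw [h.k11]; ring
  · rw [h.k12]; ring
  · rw [h.k22]; ring
  · rw [h.C0]; ring
  · rw [h.Ck]; ring
  · rw [h.L1]
  · rw [h.L2]; ring
  · rw [h.Lw]; ring
  · rw [h.A11]; ring
  · rw [h.A12]; ring
  · rw [h.W1]
  · rw [h.W2]; ring
  · rw [h.psi]; ring

theorem BS_ev {P : Par} (h : Pars P) (D : Dat) {B' : BaseP} (hB : BS P D = some B') (t : ℕ → ℝ) :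
    ∃ B'' : TEl.Base, B'.ev t = bsc P.kap B'' ∧ SRel (t 2) (nbS P D (t 0) (t 1) (t 2) (t 3) (t 4)) B'' := by
  have hκ := kap_pos h
  have hN : 0 < P.N4 := by rw [h.N4]; exact N4of_pos _
  refine ⟨bsc (1 / P.kap) (B'.ev t), ?_, ?_⟩
  · rw [bsc_bsc, mul_one_div, div_self hκ.ne', bsc_one]
  · have h1 := srel_of_scaleS hB t
    rw [BaseP.nf_ev, mkB_ev P _ _ _ _ _ _ _ D t h.an h.ad h.ld hN, h.N4, p4P_ev h.n] at h1
    have h2 := srel_bsc (κ := 1 / P.kap) h1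
    rw [bsc_bsc, one_div_mul_cancel hκ.ne', bsc_one] at h2
    simp only [ev_XS, ev_CS, ev_ZS, ev_AS, ev_var] at h2
    have : ev t [] / ((N4of P.n : ℕ) : ℝ) = 0 := by simp [ev]
    rw [this] at h2
    exact h2

/-- cover of chart U -/
def CoverU (P : Par) (D : Dat) (ζ0 : ℝ) : Prop :=
  ∀ ξ c ζ Q v : ℝ, DomU P.n P.A0 ξ c ζ Q v → ζ ≤ ζ0 → ∃ L : TEl.Leaf,
    L.OK (D.nb P.n P.A0 P.Lam ξ (p4up P.n ξ (1 - ζ) c) 0 ![ζ, c, Q, v]) (Q - v ^ 2 * (ζ / P.A0))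

/-- cover of chart S -/
def CoverS (P : Par) (D : Dat) (s1 : ℝ) : Prop :=
  ∀ x p s Q v : ℝ, DomS P.n P.A0 x p s Q v → s ≤ s1 → ∃ (B' : TEl.Base) (L : TEl.Leaf),
    SRel s (nbS P D x p s Q v) B' ∧ L.OK B' (Q - v ^ 2 * ((1 - s ^ 2) / P.A0))

/-- `C₀` does not depend on `P4` if there is no `y₃` -/
lemma nb_P4 (n : ℕ) (A0 Lam : ℝ) (D : Dat) (h3 : D.p3 = []) (ξ p4 P4 P4' : ℝ) (y : Fin 4 → ℝ) :
    D.nb n A0 Lam ξ p4 P4 y = D.nb n A0 Lam ξ p4 P4' y := by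
  simp only [Dat.nb, h3, Pol.ev_nil, zero_mul]

lemma Fb_p4 (n : ℕ) (A0 Lam : ℝ) (D : Dat) (ξ p4 p4' P4 : ℝ) (y : Fin 4 → ℝ) (r s0 X Y W Gt : ℝ) :
    TEl.Fb (D.nb n A0 Lam ξ p4 P4 y) r s0 X Y W Gt = TEl.Fb (D.nb n A0 Lam ξ p4' P4 y) r s0 X Y W Gt := rfl

/-- **(PJ) from the covers** -/
theorem pj_of_covers {P : Par} (hn : nOK P.n) (D : Dat) (h3 : D.p3 = [])
    (hg : ∀ (l : Fin P.n → ℝ) (y : Fin 4 → ℝ), NAdm P.A0 l y → 0 ≤ D.g.ev y)
    {ζ0 s1 : ℝ} (hs1 : 0 ≤ s1) (h01 : 1 ≤ ζ0 + s1 ^ 2) (hU : CoverU P D ζ0) (hS : CoverS P D s1)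
    (l : Fin P.n → ℝ) (y : Fin 4 → ℝ) (h : NAdm P.A0 l y) (k : Fin P.n) (s0 w : ℝ)
    (t : Fin P.n → ℝ) (ht : ∑ i, t i = 0) :
    0 ≤ TEl.Fb (D.nb P.n P.A0 P.Lam (l k) 0 (∑ i, l i ^ 4) y) (Real.sqrt (qn P.A0 y)) s0
      (∑ i, l i * t i) (∑ i, l i ^ 2 * t i) w (D.g.ev y * TEl.G3 k t) := by
  have hy : (![y 0, y 1, y 2, y 3] : Fin 4 → ℝ) = y := by
    ext i; fin_cases i <;> rfl
  have hp4 := p4_le hn l k h.tr
  rw [h.sq, h.cu] at hp4
  rcases le_or_gt (y 0) ζ0 with hz | hz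
  · obtain ⟨L, hL⟩ := hU (l k) (y 1) (y 0) (y 2) (y 3) (domU_of_nadm hn h k) hz
    rw [hy, nb_P4 _ _ _ D h3 _ _ 0 (∑ i, l i ^ 4)] at hL
    exact block_of_leaf h (hg l y h) k hp4 hL s0 w t ht
  · set s := Real.sqrt (1 - y 0) with hsdef
    have hpos : 0 < 1 - y 0 := by linarith [h.z1]
    have hs : 0 < s := Real.sqrt_pos.2 hpos
    have hs2 : s ^ 2 = 1 - y 0 := Real.sq_sqrt hpos.le
    have hss : s ≤ s1 := by
      have : s ^ 2 ≤ s1 ^ 2 := by linarith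
      exact le_of_sq_le_sq this hs1
    obtain ⟨B', L, hrel, hL⟩ := hS (l k / s) (y 1 / s ^ 3) s (y 2) (y 3)
      (domS_of_nadm hn h k hs hs2) hss
    have ex : s * (l k / s) = l k := by field_simp
    have ep : s ^ 3 * (y 1 / s ^ 3) = y 1 := by field_simp
    have e0 : 1 - s ^ 2 = y 0 := by linarith
    unfold nbS at hrel
    rw [ex, ep, e0, hy, hs2, nb_P4 _ _ _ D h3 _ _ 0 (∑ i, l i ^ 4)] at hrel
    rw [Fb_p4 _ _ _ _ _ 0 (p4up P.n (l k) (1 - y 0) (y 1)), Fb_srel hs hrel]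
    have eq1 : Real.sqrt (qn P.A0 y) ^ 2 = y 2 - y 3 ^ 2 * ((1 - s ^ 2) / P.A0) := by
      have hq : 0 ≤ qn P.A0 y := h.q0
      rw [Real.sq_sqrt hq, e0]
      rfl
    -- the scaled eigenvalues
    have ec : s ^ 3 ≠ 0 := by positivity
    have hsum2 : TEl.ps (fun i => l i / s) 2 = 1 := by
      unfold TEl.ps
      simp_rw [div_pow]
      rw [← Finset.sum_div, h.sq, ← hs2]
      field_simp
    have hsum3 : TEl.ps (fun i => l i / s) 3 = y 1 / s ^ 3 := by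
      unfold TEl.ps
      simp_rw [div_pow]
      rw [← Finset.sum_div, h.cu]
    have hsum4 : TEl.ps (fun i => l i / s) 4 ≤ p4up P.n (l k / s) 1 (y 1 / s ^ 3) := by
      unfold TEl.ps
      have := p4_le hn (fun i => l i / s) k (by rw [← Finset.sum_div, h.tr, zero_div])
      have e2 : ∑ i, (l i / s) ^ 2 = 1 := hsum2
      have e3 : ∑ i, (l i / s) ^ 3 = y 1 / s ^ 3 := hsum3
      rw [e2, e3] at this
      exact this
    have hg' : B'.g = D.g.ev y := hrel.g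
    have ek11 : B'.k11 = B'.g * TEl.K11 P.n (l k / s) (TEl.ps (fun i => l i / s) 2) := by
      have h1 := hrel.k11
      have h2 : s ^ 2 * B'.k11 = s ^ 2 * (B'.g * TEl.K11 P.n (l k / s) 1) := by
        rw [← h1, hg']
        show D.g.ev y * TEl.K11 P.n (l k) (1 - y 0) = _
        unfold TEl.K11
        rw [← hs2]
        field_simp
      rw [hsum2]
      exact mul_left_cancel₀ (by positivity) h2
    have ek12 : B'.k12 = B'.g * TEl.K12 P.n (l k / s) (TEl.ps (fun i => l i / s) 2)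
        (TEl.ps (fun i => l i / s) 3) := by
      have h1 := hrel.k12
      have h2 : s ^ 3 * B'.k12 = s ^ 3 * (B'.g * TEl.K12 P.n (l k / s) 1 (y 1 / s ^ 3)) := by
        rw [← h1, hg']
        show D.g.ev y * TEl.K12 P.n (l k) (1 - y 0) (y 1) = _
        unfold TEl.K12
        rw [← hs2]
        field_simp
      rw [hsum2, hsum3]
      exact mul_left_cancel₀ (by positivity) h2
    have ek22 : B'.k22 = B'.g * TEl.K22 P.n (l k / s) (TEl.ps (fun i => l i / s) 2)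
        (p4up P.n (l k / s) 1 (y 1 / s ^ 3)) := by
      have h1 := hrel.k22
      have hp : p4up P.n (l k) (1 - y 0) (y 1) = s ^ 4 * p4up P.n (l k / s) 1 (y 1 / s ^ 3) := by
        rw [← p4up_scale, ex, ep, mul_one, hs2]
      have h2 : s ^ 4 * B'.k22 = s ^ 4 * (B'.g * TEl.K22 P.n (l k / s) 1
          (p4up P.n (l k / s) 1 (y 1 / s ^ 3))) := by
        rw [← h1, hg']
        show D.g.ev y * TEl.K22 P.n (l k) (1 - y 0) (p4up P.n (l k) (1 - y 0) (y 1)) = _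
        rw [hp]
        unfold TEl.K22
        rw [← hs2]
        field_simp
      rw [hsum2]
      exact mul_left_cancel₀ (by positivity) h2
    have hL' : L.OK B' (Real.sqrt (qn P.A0 y) ^ 2) := by rw [eq1]; exact hL
    have fin := TEl.block_nonneg (n := P.n) k t (fun i => l i / s) ht
      (by rw [← Finset.sum_div, h.tr, zero_div]) hL' (by rw [hg']; exact hg l y h) hsum4
      ek11 ek12 ek22 (s * s0) (s * w)
    have eX : (∑ i, l i * t i) / s = ∑ i, l i / s * t i := by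
      rw [Finset.sum_div]; exact Finset.sum_congr rfl fun i _ => by ring
    have eY : (∑ i, l i ^ 2 * t i) / s ^ 2 = ∑ i, (l i / s) ^ 2 * t i := by
      rw [Finset.sum_div]; exact Finset.sum_congr rfl fun i _ => by ring
    rw [eX, eY, ← hg']
    exact fin

end Crest.Agent.R097.CQ
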