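import Crest.Agent.R097.IBP

/-!
# Row 97: Laplacian as divergence, vanishing gradients, derivatives of positive parts
-/

set_option autoImplicit false
open MeasureTheory Metric Set Filter Topology InnerProductSpace
open scoped RealInnerProductSpace NNReal ENNReal Gradient Laplacian

namespace Crest.Agent.R097

variable {d : ℕ}

lemma inner_gradient (f : E d → ℝ) (x v : E d) : ⟪∇ f x, v⟫_ℝ = fderiv ℝ f x v := by
  simp [gradient]

lemma gradient_coord (f : E d → ℝ) (x : E d) (i : Fin d) : (∇ f x) i = fderiv ℝ f x (bv i) := by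
  rw [← inner_gradient, inner_bv']

lemma norm_gradient (f : E d → ℝ) (x : E d) : ‖∇ f x‖ = ‖fderiv ℝ f x‖ := by
  simp [gradient]

lemma contDiff_gradient {f : E d → ℝ} {m n : WithTop ℕ∞} (hf : ContDiff ℝ n f) (h : m + 1 ≤ n) :
    ContDiff ℝ m (fun x => ∇ f x) := by
  rw [contDiff_euclidean]
  intro i
  simp_rw [gradient_coord]
  exact (hf.fderiv_right h).clm_apply contDiff_const

/-- the Laplacian is the sum of the second derivatives -/
lemma laplacian_eq_sum {f : E d → ℝ} {x : E d} (hf : ContDiffAt ℝ 2 f x) :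
    (Δ f) x = ∑ i, fderiv ℝ (fun y => fderiv ℝ f y (bv i)) x (bv i) := by
  rw [laplacian_eq_iteratedFDeriv_orthonormalBasis f (EuclideanSpace.basisFun (Fin d) ℝ)]
  refine Finset.sum_congr rfl fun i _ => ?_
  rw [iteratedFDeriv_two_apply]
  simp only [Matrix.cons_val_zero, Matrix.cons_val_one]
  have h3 : ContDiffAt ℝ 1 (fderiv ℝ f) x := hf.fderiv_right (by norm_num)
  have h4 : HasFDerivAt (fderiv ℝ f) (fderiv ℝ (fderiv ℝ f) x) x :=
    (h3.differentiableAt (by simp)).hasFDerivAt
  have h5 := (h4.clm_apply (hasFDerivAt_const (bv i) x)).fderiv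
  have e : (EuclideanSpace.basisFun (Fin d) ℝ) i = bv i := by simp [bv]
  rw [e, h5]
  simp

lemma dv_gradient {f : E d → ℝ} {x : E d} (hf : ContDiffAt ℝ 2 f x) :
    dv (fun y => ∇ f y) x = (Δ f) x := by
  rw [laplacian_eq_sum hf, dv]
  refine Finset.sum_congr rfl fun i _ => ?_
  have hd : DifferentiableAt ℝ (fun y => ∇ f y) x := by
    rw [differentiableAt_euclidean]
    intro j
    simp_rw [gradient_coord]
    have h3 : ContDiffAt ℝ 1 (fderiv ℝ f) x := hf.fderiv_right (by norm_num)
    exact (h3.differentiableAt (by simp)).clm_apply (differentiableAt_const _)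
  have h1 : HasFDerivAt (fun y => (∇ f y) i)
        ((EuclideanSpace.proj i : E d →L[ℝ] ℝ).comp (fderiv ℝ (fun y => ∇ f y) x)) x :=
      (EuclideanSpace.proj i : E d →L[ℝ] ℝ).hasFDerivAt.comp x hd.hasFDerivAt
  have h2 : (fun y => (∇ f y) i) = fun y => fderiv ℝ f y (bv i) := by
    ext y; exact gradient_coord f y i
  rw [← h2, h1.fderiv]; rfl

/-- Green's identity with a Lipschitz test function -/
theorem green1 {f g : E d → ℝ} {C : ℝ≥0} (hf : ContDiff ℝ 2 f) (hg : LipschitzWith C g)
    (hgc : HasCompactSupport g) :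
    ∫ x, fderiv ℝ g x (∇ f x) = - ∫ x, g x * (Δ f) x := by
  have hY : ContDiff ℝ 1 (fun x => ∇ f x) := contDiff_gradient hf (by norm_num)
  rw [ibpV hY hg hgc]
  simp_rw [fun x => dv_gradient (hf.contDiffAt (x := x))]

/-- a nonnegative Lipschitz function with compact support and a.e. zero derivative vanishes -/
lemma lip_eq_zero (hd : 0 < d) {g : E d → ℝ} {C : ℝ≥0} (hg : LipschitzWith C g)
    (hc : HasCompactSupport g) (h0 : ∀ x, 0 ≤ g x) (hD : ∀ᵐ x, fderiv ℝ g x = 0) (x : E d) :
    g x = 0 := by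
  have h1 := ibpV (Y := fun x => x) contDiff_id hg hc
  have h2 : ∀ x : E d, dv (fun x : E d => x) x = d := by
    intro x
    simp [dv, bv]
  simp_rw [h2] at h1
  rw [integral_congr_ae (g := fun _ => (0 : ℝ)) (by
    filter_upwards [hD] with x hx
    simp [hx])] at h1
  rw [integral_mul_const] at h1
  simp only [integral_zero] at h1
  have hdr : (0 : ℝ) < d := by exact_mod_cast hd
  have h3 : ∫ x, g x = 0 := by
    rcases mul_eq_zero.1 (by linarith : (∫ x, g x) * (d : ℝ) = 0) with h | h
    · exact h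
    · exact absurd h hdr.ne'
  have h4 : g =ᵐ[volume] 0 :=
    (integral_eq_zero_iff_of_nonneg (fun x => h0 x)
      (hg.continuous.integrable_of_hasCompactSupport hc)).1 h3
  have h5 := (Continuous.ae_eq_iff_eq volume hg.continuous continuous_zero).1 h4
  exact congrFun h5 x

/-- at a zero of a nonnegative function the derivative vanishes (or the function is not
differentiable there; in both cases `fderiv` is zero) -/
lemma fderiv_eq_zero_of_nonneg {g : E d → ℝ} (h0 : ∀ x, 0 ≤ g x) {x : E d} (hx : g x = 0) :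
    fderiv ℝ g x = 0 := by
  have : IsLocalMin g x := Eventually.of_forall fun y => by rw [hx]; exact h0 y
  exact this.fderiv_eq_zero

end Crest.Agent.R097
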