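import Crest.Agent.R097.RCert

/-!
# Row 97: the certificate for `n = 2` (`d = 3`): `Z = P₂`, `X = (1/2) M:T`, `Λ = 1`
-/

set_option autoImplicit false
open scoped BigOperators

namespace Crest.Agent.R097

namespace Cert2

/-- constant coefficient -/
noncomputable def cst (c : ℝ) : Coef where
  f := fun _ => c
  d := fun _ _ => 0

/-- the coefficient `P₂` -/
noncomputable def cP2 : Coef where
  f := fun z => z 0
  d := fun i _ => if i = 0 then 1 else 0

lemma cst_ok (c : ℝ) : (cst c).Ok where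
  has := fun z _ => by
    have h : HasFDerivAt (fun _ : Fin 4 → ℝ => c) (0 : (Fin 4 → ℝ) →L[ℝ] ℝ) z :=
      hasFDerivAt_const c z
    simpa [cst] using h
  cont := fun i => by simpa [cst] using continuousOn_const

lemma cP2_ok : cP2.Ok where
  has := fun z _ => by
    have h : HasFDerivAt (fun y : Fin 4 → ℝ => y 0)
        (ContinuousLinearMap.proj 0 : (Fin 4 → ℝ) →L[ℝ] ℝ) z :=
      (ContinuousLinearMap.proj (R := ℝ) (φ := fun _ : Fin 4 => ℝ) 0).hasFDerivAt
    simpa [cP2, Fin.sum_univ_four] using h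
  cont := fun i => by simpa [cP2] using continuousOn_const

/-- the data for `n = 2` -/
noncomputable def data : CertData where
  ga := cst (1 / 2)
  y0 := cst 0
  y1 := cst 0
  y2 := cst 0
  y3 := cst 0
  Z := cP2

lemma zv0 {n : ℕ} (lam g : Fin n → ℝ) (s : ℝ) : zv lam g s 0 = ∑ i, lam i ^ 2 := rfl

lemma growthA : GrowthA 2 data := fun R => ⟨1, fun lam g s h hR => by
    simp [data, cst, cP2, zv0]
    norm_num⟩

end Cert2

open Cert2 in
/-- **certificate for `d = 3`** -/
theorem cert2 : Cert 2 Cert2.data 1 where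
  okga := cst_ok _
  ok0 := cst_ok _
  ok1 := cst_ok _
  ok2 := cst_ok _
  ok3 := cst_ok _
  okZ := cP2_ok
  Zpos := fun lam g s h => by
    show 0 < zv lam g s 0
    rw [zv0]; exact h.pos
  lam_gt := by norm_num
  PJ := fun lam g s τ h ht => by
    have hl : lam 1 = -lam 0 := by
      have := h.tr; simp only [Fin.sum_univ_two] at this; linarith
    have hp := h.pos
    have h0 : ∀ k, τ 1 1 k = -τ 0 0 k := fun k => by
      have := ht.tr k; simp only [Fin.sum_univ_two] at this; linarith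
    have a1 : τ 0 1 0 = τ 0 0 1 := ht.s23 0 1 0
    have a2 : τ 1 0 0 = τ 0 0 1 := (ht.s12 1 0 0).trans a1
    have a3 : τ 1 0 1 = τ 1 1 0 := ht.s23 1 0 1
    have a4 : τ 0 1 1 = τ 1 1 0 := (ht.s12 0 1 1).trans a3
    have hpos : 0 < lam 0 ^ 2 := by
      simp only [Fin.sum_univ_two, hl] at hp; nlinarith
    have hne : lam 0 ≠ 0 := by
      rintro h0; rw [h0] at hpos; norm_num at hpos
    simp only [CertData.divE, Coef.D, data, cst, cP2, zv0, Fin.sum_univ_two, hl, h0, a1, a2, a3, a4]
    simp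
    have e : (lam 0 ^ 2 + lam 0 ^ 2) = 2 * lam 0 ^ 2 := by ring
    rw [e]
    have : (2 * (lam 0 * τ 0 0 0 + lam 0 * τ 0 0 0)) ^ 2 + (2 * (lam 0 * τ 0 0 1 + lam 0 * τ 0 0 1)) ^ 2 =
        (4 * (2 * lam 0 ^ 2)) * (2 * (τ 0 0 0 ^ 2 + τ 0 0 1 ^ 2)) := by ring
    rw [this, mul_div_cancel_left₀ _ (by positivity)]
    have h1 : τ 1 1 1 = - τ 0 0 1 := h0 1
    nlinarith [h0 0, h0 1]
  BJ := fun lam k0 H h1 h2 hH hk => by
    have hl : lam 1 = -lam 0 := by
      simp only [Fin.sum_univ_two] at h1; linarith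
    simp only [data, cst, cP2, Fin.sum_univ_two, hl]
    have hk' : lam 0 ^ 2 = H ^ 2 := by
      fin_cases k0
      · simp at hk; rw [hk]; ring
      · simp at hk
        have : lam 0 = H := by rw [hl] at hk; linarith
        rw [this]
    simp
    nlinarith [hk']
  growth := Or.inl growthA

end Crest.Agent.R097
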