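import Crest.Agent.R097.RedKato1
import Crest.Agent.R097.SStab

/-!
# Row 97, reduction: the weighted energy `∫ |D²u|^{2μ-2}|D³u|²` on annuli is finite
-/

set_option autoImplicit false
open MeasureTheory Metric Set Filter Topology InnerProductSpace
open scoped RealInnerProductSpace NNReal ENNReal Gradient Laplacian

namespace Crest.Agent.R097

variable {d : ℕ}

namespace KT

/-- the field `∇ (|D²u|² + ε)^μ` -/
noncomputable def GG (u : E d → ℝ) (mu ε : ℝ) (x : E d) : E d :=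
  (mu * (hs2 (D2 u x) + ε) ^ (mu - 1)) • ∇ (fun y => hs2 (D2 u y)) x

/-- the test field -/
noncomputable def FK (u η : E d → ℝ) (mu ε C0 : ℝ) (x : E d) : E d :=
  (η x ^ 2) • (GG u mu ε x + C0 • ∇ u x)

variable {u η : E d → ℝ} {O : Set (E d)} {mu ε C0 : ℝ}

lemma m_diff (hO : IsOpen O) (hsm : ContDiffOn ℝ (⊤ : ℕ∞) u O) {x : E d} (hx : x ∈ O) :
    DifferentiableAt ℝ (fun y => hs2 (D2 u y)) x :=
  ((smooth_m hO hsm).contDiffAt (hO.mem_nhds hx)).differentiableAt (by simp)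

lemma coef_smooth (hO : IsOpen O) (hsm : ContDiffOn ℝ (⊤ : ℕ∞) u O) (hε : 0 < ε) (p : ℝ) :
    ContDiffOn ℝ (⊤ : ℕ∞) (fun y => mu * (hs2 (D2 u y) + ε) ^ p) O := by
  refine contDiffOn_const.mul (((smooth_m hO hsm).add contDiffOn_const).rpow_const_of_ne ?_)
  intro x _
  have := hs2_nonneg (D2 u x)
  exact (by positivity : (0 : ℝ) < hs2 (D2 u x) + ε).ne'

lemma GG_smooth (hO : IsOpen O) (hsm : ContDiffOn ℝ (⊤ : ℕ∞) u O) (hε : 0 < ε) :
    ContDiffOn ℝ (⊤ : ℕ∞) (GG u mu ε) O := by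
  unfold GG
  exact (coef_smooth hO hsm hε _).smul (contDiffOn_gradient hO (smooth_m hO hsm))

lemma FK_smooth (hO : IsOpen O) (hsm : ContDiffOn ℝ (⊤ : ℕ∞) u O) (hε : 0 < ε)
    (hη : ContDiff ℝ (⊤ : ℕ∞) η) : ContDiffOn ℝ (⊤ : ℕ∞) (FK u η mu ε C0) O := by
  unfold FK
  exact (hη.contDiffOn.pow 2).smul
    ((GG_smooth hO hsm hε).add ((contDiffOn_gradient hO hsm).const_smul C0))

lemma dv_GG (hO : IsOpen O) (hsm : ContDiffOn ℝ (⊤ : ℕ∞) u O) (hha : ∀ x ∈ O, (Δ u) x = 0)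
    (hε : 0 < ε) {x : E d} (hx : x ∈ O) :
    dv (GG u mu ε) x = mu * (hs2 (D2 u x) + ε) ^ (mu - 1) * (2 * hs3 (D3 u x)) -
      mu * (1 - mu) * (hs2 (D2 u x) + ε) ^ (mu - 1 - 1) * ‖∇ (fun y => hs2 (D2 u y)) x‖ ^ 2 := by
  have hnb := hO.mem_nhds hx
  have hm0 := hs2_nonneg (D2 u x)
  have hpos : (0 : ℝ) < hs2 (D2 u x) + ε := by positivity
  have hm1 : HasFDerivAt (fun y => hs2 (D2 u y) + ε) (fderiv ℝ (fun y => hs2 (D2 u y)) x) x :=
    (m_diff hO hsm hx).hasFDerivAt.add_const ε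
  have hc : HasFDerivAt (fun y => mu * (hs2 (D2 u y) + ε) ^ (mu - 1))
      (mu • (((mu - 1) * (hs2 (D2 u x) + ε) ^ (mu - 1 - 1)) • fderiv ℝ (fun y => hs2 (D2 u y)) x)) x :=
    (hm1.rpow_const (Or.inl hpos.ne')).const_mul mu
  have hY : DifferentiableAt ℝ (fun y => ∇ (fun z => hs2 (D2 u z)) y) x :=
    ((contDiffOn_gradient hO (smooth_m hO hsm)).contDiffAt hnb).differentiableAt (by simp)
  have e1 : dv (GG u mu ε) x = _ := dv_smul hc.differentiableAt hY
  rw [e1, hc.fderiv]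
  have e2 : dv (fun y => ∇ (fun z => hs2 (D2 u z)) y) x = 2 * hs3 (D3 u x) := by
    rw [dv_gradient (((smooth_m hO hsm).contDiffAt hnb).of_le two_le_smooth), lap_m hO hsm hha hx]
  rw [e2]
  simp only [smul_apply, smul_eq_mul]
  have e3 : fderiv ℝ (fun y => hs2 (D2 u y)) x (∇ (fun y => hs2 (D2 u y)) x) =
      ‖∇ (fun y => hs2 (D2 u y)) x‖ ^ 2 := by
    rw [← inner_gradient, real_inner_self_eq_norm_sq]
  rw [e3]
  ring

/-- lower bound of the divergence -/
lemma dv_GG_ge (hd : 2 ≤ d) (hO : IsOpen O) (hsm : ContDiffOn ℝ (⊤ : ℕ∞) u O)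
    (hha : ∀ x ∈ O, (Δ u) x = 0) (hmu0 : 0 < mu) (hmu1 : mu ≤ 1) (hε : 0 < ε) {x : E d} (hx : x ∈ O) :
    2 * mu * (1 - 2 * (1 - mu) * ((d : ℝ) / (d + 2))) * ((hs2 (D2 u x) + ε) ^ (mu - 1) * hs3 (D3 u x)) ≤
      dv (GG u mu ε) x := by
  rw [dv_GG hO hsm hha hε hx]
  have hm0 := hs2_nonneg (D2 u x)
  have h30 := hs3_nonneg (D3 u x)
  have hpos : (0 : ℝ) < hs2 (D2 u x) + ε := by positivity
  have hk := norm_grad_m hd hO hsm hha hx
  set m := hs2 (D2 u x) with hm
  set t := hs3 (D3 u x) with ht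
  set k := (d : ℝ) / (d + 2) with hkdef
  have hk0 : 0 ≤ k := by positivity
  have hp : (m + ε) ^ (mu - 1 - 1) * (m + ε) = (m + ε) ^ (mu - 1) := by
    rw [← Real.rpow_add_one hpos.ne']; congr 1; ring
  have hp0 : 0 < (m + ε) ^ (mu - 1 - 1) := Real.rpow_pos_of_pos hpos _
  have h1 : (m + ε) ^ (mu - 1 - 1) * ‖∇ (fun y => hs2 (D2 u y)) x‖ ^ 2 ≤
      4 * k * ((m + ε) ^ (mu - 1) * t) := by
    rw [← hp]
    calc (m + ε) ^ (mu - 1 - 1) * ‖∇ (fun y => hs2 (D2 u y)) x‖ ^ 2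
        ≤ (m + ε) ^ (mu - 1 - 1) * (4 * k * (m + ε) * t) := by
          refine mul_le_mul_of_nonneg_left (hk.trans ?_) hp0.le
          gcongr
          linarith
      _ = _ := by ring
  have h2 : mu * (1 - mu) * ((m + ε) ^ (mu - 1 - 1) * ‖∇ (fun y => hs2 (D2 u y)) x‖ ^ 2) ≤
      mu * (1 - mu) * (4 * k * ((m + ε) ^ (mu - 1) * t)) :=
    mul_le_mul_of_nonneg_left h1 (mul_nonneg hmu0.le (by linarith))
  nlinarith

lemma dv_FK (hO : IsOpen O) (hsm : ContDiffOn ℝ (⊤ : ℕ∞) u O) (hha : ∀ x ∈ O, (Δ u) x = 0)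
    (hε : 0 < ε) (hη : ContDiff ℝ (⊤ : ℕ∞) η) {x : E d} (hx : x ∈ O) :
    dv (FK u η mu ε C0) x = η x ^ 2 * dv (GG u mu ε) x +
      2 * η x * (mu * (hs2 (D2 u x) + ε) ^ (mu - 1) * fderiv ℝ η x (∇ (fun y => hs2 (D2 u y)) x)) +
      2 * η x * (C0 * fderiv ℝ η x (∇ u x)) := by
  have hnb := hO.mem_nhds hx
  have hηd : HasFDerivAt η (fderiv ℝ η x) x := (hη.differentiable (by simp)).differentiableAt.hasFDerivAt
  have h1 : HasFDerivAt (fun y => η y ^ 2) ((2 * η x) • fderiv ℝ η x) x := by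
    have := hηd.pow 2
    refine this.congr_fderiv ?_
    ext v; simp
  have hG : DifferentiableAt ℝ (GG u mu ε) x :=
    ((GG_smooth hO hsm hε).contDiffAt hnb).differentiableAt (by simp)
  have hu : DifferentiableAt ℝ (fun y => ∇ u y) x :=
    ((contDiffOn_gradient hO hsm).contDiffAt hnb).differentiableAt (by simp)
  have hY : DifferentiableAt ℝ (fun y => GG u mu ε y + C0 • ∇ u y) x := hG.add (hu.const_smul C0)
  have e1 : dv (FK u η mu ε C0) x = _ := dv_smul h1.differentiableAt hY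
  have e2 : dv (fun y => GG u mu ε y + C0 • ∇ u y) x = dv (GG u mu ε) x := by
    have hcu' : DifferentiableAt ℝ (fun y => C0 • ∇ u y) x := hu.const_smul C0
    rw [dv_add hG hcu']
    have e3 : dv (fun y => C0 • ∇ u y) x = 0 := by
      have := dv_smul (f := fun _ => C0) (differentiableAt_const _) hu
      rw [this, dv_gradient ((hsm.contDiffAt hnb).of_le two_le_smooth), hha x hx]
      simp
    rw [e3, add_zero]
  rw [e1, h1.fderiv, e2]
  unfold GG
  simp only [smul_apply, smul_eq_mul, map_add, map_smul]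
  ring

lemma tend_app {F : Type*} [NormedAddCommGroup F] [NormedSpace ℝ F] {L : E d → (E d →L[ℝ] F)}
    {L0 : E d →L[ℝ] F} {v : E d → E d} {v0 : E d} {l : Filter (E d)} (h : Tendsto L l (𝓝 L0))
    (hv : Tendsto v l (𝓝 v0)) : Tendsto (fun x => L x (v x)) l (𝓝 (L0 v0)) :=
  (isBoundedBilinearMap_apply.continuous.tendsto (L0, v0)).comp (h.prodMk_nhds hv)

lemma tend_bil {L : E d → Bil d} {L0 : Bil d} {v w : E d → E d} {v0 w0 : E d} {l : Filter (E d)}
    (h : Tendsto L l (𝓝 L0)) (hv : Tendsto v l (𝓝 v0)) (hw : Tendsto w l (𝓝 w0)) :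
    Tendsto (fun x => L x (v x) (w x)) l (𝓝 (L0 v0 w0)) := tend_app (tend_app h hv) hw

lemma tend_tri {L : E d → Tri d} {L0 : Tri d} {z v w : E d → E d} {z0 v0 w0 : E d} {l : Filter (E d)}
    (h : Tendsto L l (𝓝 L0)) (hz : Tendsto z l (𝓝 z0)) (hv : Tendsto v l (𝓝 v0))
    (hw : Tendsto w l (𝓝 w0)) :
    Tendsto (fun x => L x (z x) (v x) (w x)) l (𝓝 (L0 z0 v0 w0)) := by
  have h1 : Tendsto (fun x => (L x (z x) : Bil d)) l (𝓝 (L0 z0)) := tend_app h hz
  exact tend_bil h1 hv hw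

lemma tend_mt {M : E d → Bil d} {T : E d → Tri d} {p : E d → E d} {A : Bil d} {B : Tri d} {e : E d}
    {l : Filter (E d)} (h2 : Tendsto M l (𝓝 A)) (h3 : Tendsto T l (𝓝 B)) (hp : Tendsto p l (𝓝 e)) :
    Tendsto (fun x => mt (M x) (T x) (p x)) l (𝓝 (mt A B e)) := by
  unfold mt
  refine tendsto_finsetSum _ fun i _ => tendsto_finsetSum _ fun j _ => ?_
  exact (tend_bil h2 tendsto_const_nhds tendsto_const_nhds).mul
    (tend_tri h3 hp tendsto_const_nhds tendsto_const_nhds)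

/-- elementary absorption -/
lemma absorb {c e t L N m : ℝ} (hc : 0 < c) (ht : 0 ≤ t) (hm : 0 ≤ m) (hN : N ^ 2 ≤ 4 * m * t)
    (hL : 0 ≤ L) : 2 * (e * L * N) ≤ c * e ^ 2 * t + 4 / c * L ^ 2 * m := by
  have h1 : (2 * (e * L * N)) ^ 2 ≤ (c * e ^ 2 * t + 4 / c * L ^ 2 * m) ^ 2 := by
    have h2 : (2 * (e * L * N)) ^ 2 = 4 * (e ^ 2 * L ^ 2) * N ^ 2 := by ring
    have h3 : (c * e ^ 2 * t + 4 / c * L ^ 2 * m) ^ 2 =
        (c * e ^ 2 * t - 4 / c * L ^ 2 * m) ^ 2 + 4 * (c * (4 / c)) * (e ^ 2 * L ^ 2) * (m * t) := by ring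
    have h4 : c * (4 / c) = 4 := by field_simp
    rw [h2, h3, h4]
    have h5 : 4 * (e ^ 2 * L ^ 2) * N ^ 2 ≤ 4 * (e ^ 2 * L ^ 2) * (4 * m * t) :=
      mul_le_mul_of_nonneg_left hN (by positivity)
    nlinarith [sq_nonneg (c * e ^ 2 * t - 4 / c * L ^ 2 * m)]
  exact (abs_le_of_sq_le_sq' h1 (by positivity)).2

end KT

open KT

/-- the uniform bound of the regularised energies -/
theorem energy_eps (hd : 2 ≤ d) {u : E d → ℝ} {K : ℝ≥0} (hu : LM u K)
    (hsm : ContDiffOn ℝ (⊤ : ℕ∞) u (Om u)) (hha : ∀ x ∈ Om u, (Δ u) x = 0)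
    (hreg : ∀ y ∈ frontier (Om u), y ≠ 0 → RegPt u y) {mu : ℝ} (hmu : 1 - 2 / (d : ℝ) < 2 * mu)
    (hmu1 : mu ≤ 1) {a b : ℝ} (ha : 0 < a) :
    ∃ (η : E d → ℝ) (C : ℝ), ContDiff ℝ (⊤ : ℕ∞) η ∧ (∀ x, 0 ≤ η x) ∧ (∀ x ∈ Ann d a b, η x = 1) ∧
      ∀ ε : ℝ, 0 < ε → ε ≤ 1 →
        IntegrableOn (fun x => η x ^ 2 * ((hs2 (D2 u x) + ε) ^ (mu - 1) * hs3 (D3 u x))) (Om u) ∧
        ∫ x in Om u, η x ^ 2 * ((hs2 (D2 u x) + ε) ^ (mu - 1) * hs3 (D3 u x)) ≤ C := by
  have hcu : Continuous u := hu.lip.continuous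
  have hO : IsOpen (Om u) := isOpen_Om hcu
  have hd2 : (2 : ℝ) ≤ d := by exact_mod_cast hd
  have hmu0 : 0 < mu := by
    have : (2 : ℝ) / d ≤ 1 := by rw [div_le_one (by linarith)]; exact hd2
    linarith
  -- annuli
  set S := Ann d (a / 2) (b + 1) with hSdef
  set S2 := Ann d (a / 4) (b + 2) with hS2def
  have hSc : IsCompact S := isCompact_Ann _ _
  have hS2c : IsCompact S2 := isCompact_Ann _ _
  have hSS2 : ∀ y ∈ S, S2 ∈ 𝓝 y := by
    intro y hy
    have hU : IsOpen {x : E d | a / 4 < ‖x‖ ∧ ‖x‖ < b + 2} :=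
      (isOpen_lt continuous_const continuous_norm).inter (isOpen_lt continuous_norm continuous_const)
    refine mem_of_superset (hU.mem_nhds ⟨?_, ?_⟩) fun x hx => ⟨hx.1.le, hx.2.le⟩
    · have := hy.1; linarith
    · have := hy.2; linarith
  have hne0 : ∀ c e : ℝ, 0 < c → ∀ y ∈ Ann d c e, y ≠ 0 := by
    rintro c e hc y hy rfl
    have := hy.1
    rw [norm_zero] at this
    linarith
  obtain ⟨M1, hM1⟩ := bdd_D2 hcu hsm hS2c (fun y hy hyf => hreg y hyf (hne0 _ _ (by positivity) y hy))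
  obtain ⟨M2, hM2⟩ := bdd_D3 hcu hsm hSc (fun y hy hyf => hreg y hyf (hne0 _ _ (by positivity) y hy))
  set M0 := (d : ℝ) ^ 2 * M1 ^ 2 with hM0def
  set T0 := (d : ℝ) ^ 3 * M2 ^ 2 with hT0def
  have hM00 : 0 ≤ M0 := by positivity
  have hT00 : 0 ≤ T0 := by positivity
  have hM : ∀ x ∈ Om u, x ∈ S2 → hs2 (D2 u x) ≤ M0 := by
    intro x hx hxS
    refine (hs2_le' _).trans ?_
    have := hM1 x hx hxS
    rw [hM0def]
    gcongr
  have hT : ∀ x ∈ Om u, x ∈ S → hs3 (D3 u x) ≤ T0 := by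
    intro x hx hxS
    refine (hs3_le _).trans ?_
    have := hM2 x hx hxS
    rw [hT0def]
    gcongr
  have hSsub : S ⊆ S2 := fun y hy => mem_of_mem_nhds (hSS2 y hy)
  -- cutoff
  have hU : IsOpen {x : E d | a / 2 < ‖x‖ ∧ ‖x‖ < b + 1} :=
    (isOpen_lt continuous_const continuous_norm).inter (isOpen_lt continuous_norm continuous_const)
  obtain ⟨η, hη, hηc, hηs, hη01, hη1⟩ := exists_cutoff (isCompact_Ann (d := d) a b) hU
    (fun x hx => ⟨by have := hx.1; linarith, by have := hx.2; linarith⟩)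
  have hηS : ∀ x, x ∉ S → η x = 0 := by
    intro x hx
    refine image_eq_zero_of_notMem_tsupport fun h => hx ?_
    have := hηs h
    exact ⟨this.1.le, this.2.le⟩
  have hηS' : ∀ x, x ∉ S → fderiv ℝ η x = 0 := by
    intro x hx
    refine fderiv_eq_zero_of_notMem_tsupport fun h => hx ?_
    have := hηs h
    exact ⟨this.1.le, this.2.le⟩
  obtain ⟨L0, hL0⟩ := lip_of_contDiff_compact (hη.of_le (by exact_mod_cast le_top)) hηc
  have hL : ∀ x, ‖fderiv ℝ η x‖ ≤ (L0 : ℝ) := norm_fderiv_le_of_lip hL0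
  set L : ℝ := (L0 : ℝ) with hLdef
  have hLn : 0 ≤ L := L0.2
  have hgu : ∀ x, ‖∇ u x‖ ≤ K := fun x => by rw [norm_gradient]; exact norm_fderiv_le_of_lip hu.lip x
  -- constants
  set k := (d : ℝ) / (d + 2) with hk
  have hk0 : 0 < k := by positivity
  have hk1 : k ≤ 1 := by rw [hk, div_le_one (by linarith)]; linarith
  set c := 1 - 2 * (1 - mu) * k with hc
  have hc0 : 0 < c := by
    have h1 : 2 * (1 - mu) < ((d : ℝ) + 2) / d := by
      have h2 : ((d : ℝ) + 2) / d = 1 + 2 / d := by field_simp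
      rw [h2]; linarith
    have h3 : 2 * (1 - mu) * k < ((d : ℝ) + 2) / d * k := mul_lt_mul_of_pos_right h1 hk0
    have h4 : ((d : ℝ) + 2) / d * k = 1 := by rw [hk]; field_simp
    rw [hc]; linarith
  set P := (M0 + 1) ^ mu with hP
  have hP0 : 0 < P := Real.rpow_pos_of_pos (by linarith) _
  set C0 := 6 * mu * (P * Real.sqrt M0) + 1 with hC0
  have hC00 : 0 < C0 := by
    have := Real.sqrt_nonneg M0
    positivity
  set Cb := mu * (4 / c * L ^ 2 * P) + 2 * (C0 * (L * K)) with hCb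
  have hCb0 : 0 ≤ Cb := by positivity
  have hp : ∀ ε m : ℝ, 0 < ε → 0 ≤ m → (m + ε) ^ (mu - 1) * (m + ε) = (m + ε) ^ mu := by
    intro ε m hε hm
    have hpos : (0 : ℝ) < m + ε := by positivity
    rw [← Real.rpow_add_one hpos.ne']; congr 1; ring
  have hPle : ∀ ε m : ℝ, 0 < ε → ε ≤ 1 → 0 ≤ m → m ≤ M0 → (m + ε) ^ mu ≤ P := by
    intro ε m hε hε1 hm hmM
    exact Real.rpow_le_rpow (by positivity) (by linarith) hmu0.le
  refine ⟨η, Cb * (volume S).toReal / (mu * c), hη, fun x => (hη01 x).1,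
    fun x hx => (hη1 x hx).self_of_nhds, fun ε hε hε1 => ?_⟩
  -- pointwise inequality
  have hpt : ∀ x ∈ Om u, mu * c * (η x ^ 2 * ((hs2 (D2 u x) + ε) ^ (mu - 1) * hs3 (D3 u x))) -
      S.indicator (fun _ => Cb) x ≤ dv (FK u η mu ε C0) x := by
    intro x hx
    rw [dv_FK hO hsm hha hε hη hx]
    by_cases hxS : x ∈ S
    · rw [indicator_of_mem hxS]
      have hG := dv_GG_ge hd hO hsm hha hmu0 hmu1 hε hx
      rw [← hk, ← hc] at hG
      have hm0 := hs2_nonneg (D2 u x)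
      have ht0 := hs3_nonneg (D3 u x)
      have hN := norm_grad_m hd hO hsm hha hx
      rw [← hk] at hN
      have hmM := hM x hx (hSsub hxS)
      set m := hs2 (D2 u x) with hmdef
      set t := hs3 (D3 u x) with htdef
      set N := ‖∇ (fun y => hs2 (D2 u y)) x‖ with hNdef
      have hN' : N ^ 2 ≤ 4 * m * t := by
        refine hN.trans ?_
        have : 0 ≤ m * t := by positivity
        nlinarith
      set q := (m + ε) ^ (mu - 1) with hq
      have hq0 : 0 < q := Real.rpow_pos_of_pos (by positivity) _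
      have he0 := (hη01 x).1
      have he1 := (hη01 x).2
      have hab := absorb (e := η x) hc0 ht0 hm0 hN' hLn
      have h1 : -(η x * L * N) ≤ η x * fderiv ℝ η x (∇ (fun y => hs2 (D2 u y)) x) := by
        have h2 : |fderiv ℝ η x (∇ (fun y => hs2 (D2 u y)) x)| ≤ L * N := by
          rw [← Real.norm_eq_abs]
          exact ((fderiv ℝ η x).le_opNorm _).trans (mul_le_mul_of_nonneg_right (hL x) (norm_nonneg _))
        have h3 := neg_le_of_abs_le h2
        have h4 := mul_le_mul_of_nonneg_left h3 he0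
        linarith
      have h5 : -(L * K) ≤ η x * fderiv ℝ η x (∇ u x) := by
        have h2 : |fderiv ℝ η x (∇ u x)| ≤ L * K := by
          rw [← Real.norm_eq_abs]
          exact ((fderiv ℝ η x).le_opNorm _).trans (mul_le_mul (hL x) (hgu x) (norm_nonneg _) hLn)
        have h3 := neg_le_of_abs_le h2
        have h4 : 0 ≤ L * (K : ℝ) := by positivity
        nlinarith
      have h6 : q * m ≤ P := by
        have h7 := hp ε m hε hm0
        have h8 := hPle ε m hε hε1 hm0 hmM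
        have h9 : q * m ≤ q * (m + ε) := mul_le_mul_of_nonneg_left (by linarith) hq0.le
        rw [← hq] at h7
        linarith
      have h10 : η x ^ 2 * (2 * mu * c * (q * t)) ≤ η x ^ 2 * dv (GG u mu ε) x :=
        mul_le_mul_of_nonneg_left hG (sq_nonneg _)
      have h11 : -(mu * (c * η x ^ 2 * (q * t)) + mu * (4 / c * L ^ 2 * P)) ≤
          2 * η x * (mu * q * fderiv ℝ η x (∇ (fun y => hs2 (D2 u y)) x)) := by
        have h12 : 2 * η x * (mu * q * fderiv ℝ η x (∇ (fun y => hs2 (D2 u y)) x)) =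
            (mu * q) * (2 * (η x * fderiv ℝ η x (∇ (fun y => hs2 (D2 u y)) x))) := by ring
        rw [h12]
        have h13 : (mu * q) * (-(c * η x ^ 2 * t + 4 / c * L ^ 2 * m)) ≤
            (mu * q) * (2 * (η x * fderiv ℝ η x (∇ (fun y => hs2 (D2 u y)) x))) := by
          refine mul_le_mul_of_nonneg_left ?_ (by positivity)
          linarith
        refine le_trans ?_ h13
        have h14 : mu * (4 / c * L ^ 2 * (q * m)) ≤ mu * (4 / c * L ^ 2 * P) := by gcongr
        have h15 : (mu * q) * (-(c * η x ^ 2 * t + 4 / c * L ^ 2 * m)) =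
          -(mu * (c * η x ^ 2 * (q * t)) + mu * (4 / c * L ^ 2 * (q * m))) := by ring
        rw [h15]
        linarith
      have h16 : -(2 * (C0 * (L * K))) ≤ 2 * η x * (C0 * fderiv ℝ η x (∇ u x)) := by
        have : 2 * η x * (C0 * fderiv ℝ η x (∇ u x)) = 2 * (C0 * (η x * fderiv ℝ η x (∇ u x))) := by ring
        rw [this]
        have := mul_le_mul_of_nonneg_left h5 hC00.le
        linarith
      rw [hCb]
      have h17 : mu * c * (η x ^ 2 * (q * t)) = η x ^ 2 * (2 * mu * c * (q * t)) -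
        mu * (c * η x ^ 2 * (q * t)) := by ring
      rw [h17]
      linarith
    · rw [indicator_of_notMem hxS, hηS x hxS, hηS' x hxS]
      simp
  -- boundedness
  have hεp : ∀ p m : ℝ, p ≤ 0 → 0 ≤ m → (m + ε) ^ p ≤ ε ^ p := by
    intro p m hp0 hm
    exact Real.rpow_le_rpow_of_nonpos hε (by linarith) hp0
  set N0 := Real.sqrt (4 * M0 * T0) with hN0
  have hN0' : ∀ x ∈ Om u, x ∈ S → ‖∇ (fun y => hs2 (D2 u y)) x‖ ≤ N0 := by
    intro x hx hxS
    have hN := norm_grad_m hd hO hsm hha hx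
    rw [← hk] at hN
    refine Real.le_sqrt_of_sq_le (hN.trans ?_)
    have h1 := hM x hx (hSsub hxS)
    have h2 := hT x hx hxS
    have hm0 := hs2_nonneg (D2 u x)
    have ht0 := hs3_nonneg (D3 u x)
    calc 4 * k * hs2 (D2 u x) * hs3 (D3 u x) ≤ 4 * 1 * M0 * T0 := by gcongr
      _ = 4 * M0 * T0 := by ring
  have hN00 : 0 ≤ N0 := Real.sqrt_nonneg _
  set q1 := ε ^ (mu - 1) with hq1
  set q2 := ε ^ (mu - 1 - 1) with hq2
  have hq10 : 0 < q1 := Real.rpow_pos_of_pos hε _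
  have hq20 : 0 < q2 := Real.rpow_pos_of_pos hε _
  set CF := (mu * q1 * N0 + C0 * K) + ((mu * q1 * (2 * T0) + mu * (1 - mu) * q2 * N0 ^ 2) +
    2 * (mu * q1 * (L * N0)) + 2 * (C0 * (L * K))) with hCF
  have hCFb : ∀ x ∈ Om u, ‖FK u η mu ε C0 x‖ ≤ CF ∧ |dv (FK u η mu ε C0) x| ≤ CF := by
    intro x hx
    have h1m : 0 ≤ 1 - mu := by linarith
    have hK0 : (0 : ℝ) ≤ K := K.2
    by_cases hxS : x ∈ S
    · have hm0 := hs2_nonneg (D2 u x)
      have ht0 := hs3_nonneg (D3 u x)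
      have g1 : (hs2 (D2 u x) + ε) ^ (mu - 1) ≤ q1 := hεp _ _ (by linarith) hm0
      have g2 : (hs2 (D2 u x) + ε) ^ (mu - 1 - 1) ≤ q2 := hεp _ _ (by linarith) hm0
      have g10 : 0 < (hs2 (D2 u x) + ε) ^ (mu - 1) := Real.rpow_pos_of_pos (by positivity) _
      have g20 : 0 < (hs2 (D2 u x) + ε) ^ (mu - 1 - 1) := Real.rpow_pos_of_pos (by positivity) _
      have gN := hN0' x hx hxS
      have gT := hT x hx hxS
      have he0 := (hη01 x).1
      have he1 := (hη01 x).2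
      have hsq : η x ^ 2 ≤ 1 := by nlinarith
      have b1 : ‖FK u η mu ε C0 x‖ ≤ mu * q1 * N0 + C0 * K := by
        unfold FK GG
        rw [norm_smul, Real.norm_of_nonneg (sq_nonneg _)]
        have b2 : ‖(mu * (hs2 (D2 u x) + ε) ^ (mu - 1)) • ∇ (fun y => hs2 (D2 u y)) x + C0 • ∇ u x‖ ≤
            mu * q1 * N0 + C0 * K := by
          refine (norm_add_le _ _).trans (add_le_add ?_ ?_)
          · rw [norm_smul, Real.norm_of_nonneg (by positivity)]
            gcongr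
          · rw [norm_smul, Real.norm_of_nonneg hC00.le]
            have := hgu x
            gcongr
        calc _ ≤ 1 * (mu * q1 * N0 + C0 * K) := mul_le_mul hsq b2 (norm_nonneg _) (by norm_num)
          _ = _ := one_mul _
      have b3 : |dv (FK u η mu ε C0) x| ≤ (mu * q1 * (2 * T0) + mu * (1 - mu) * q2 * N0 ^ 2) +
          2 * (mu * q1 * (L * N0)) + 2 * (C0 * (L * K)) := by
        rw [dv_FK hO hsm hha hε hη hx]
        refine (abs_add_le _ _).trans (add_le_add ((abs_add_le _ _).trans (add_le_add ?_ ?_)) ?_)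
        · rw [abs_mul, abs_of_nonneg (sq_nonneg (η x))]
          have b4 : |dv (GG u mu ε) x| ≤ mu * q1 * (2 * T0) + mu * (1 - mu) * q2 * N0 ^ 2 := by
            rw [dv_GG hO hsm hha hε hx]
            refine (abs_sub _ _).trans (add_le_add ?_ ?_)
            · rw [abs_of_nonneg (by positivity)]
              gcongr
            · rw [abs_of_nonneg (by positivity)]
              gcongr
          calc _ ≤ 1 * (mu * q1 * (2 * T0) + mu * (1 - mu) * q2 * N0 ^ 2) :=
                mul_le_mul hsq b4 (abs_nonneg _) (by norm_num)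
            _ = _ := one_mul _
        · have h2 : |fderiv ℝ η x (∇ (fun y => hs2 (D2 u y)) x)| ≤ L * N0 := by
            rw [← Real.norm_eq_abs]
            exact ((fderiv ℝ η x).le_opNorm _).trans (mul_le_mul (hL x) gN (norm_nonneg _) hLn)
          rw [abs_mul, abs_mul, abs_mul, abs_two, abs_of_nonneg he0,
            abs_of_nonneg (show 0 ≤ mu * (hs2 (D2 u x) + ε) ^ (mu - 1) by positivity)]
          calc 2 * η x * (mu * (hs2 (D2 u x) + ε) ^ (mu - 1) * |fderiv ℝ η x (∇ (fun y => hs2 (D2 u y)) x)|)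
              ≤ 2 * 1 * (mu * q1 * (L * N0)) := by gcongr
            _ = _ := by ring
        · have h2 : |fderiv ℝ η x (∇ u x)| ≤ L * K := by
            rw [← Real.norm_eq_abs]
            exact ((fderiv ℝ η x).le_opNorm _).trans (mul_le_mul (hL x) (hgu x) (norm_nonneg _) hLn)
          rw [abs_mul, abs_mul, abs_mul, abs_two, abs_of_nonneg he0, abs_of_nonneg hC00.le]
          calc 2 * η x * (C0 * |fderiv ℝ η x (∇ u x)|) ≤ 2 * 1 * (C0 * (L * K)) := by gcongr
            _ = _ := by ring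
      constructor
      · refine b1.trans ?_
        rw [hCF]
        have : 0 ≤ (mu * q1 * (2 * T0) + mu * (1 - mu) * q2 * N0 ^ 2) +
          2 * (mu * q1 * (L * N0)) + 2 * (C0 * (L * K)) := by positivity
        linarith
      · refine b3.trans ?_
        rw [hCF]
        have : 0 ≤ mu * q1 * N0 + C0 * K := by positivity
        linarith
    · have hCF0 : 0 ≤ CF := by rw [hCF]; positivity
      constructor
      · unfold FK; rw [hηS x hxS]; simpa using hCF0
      · rw [dv_FK hO hsm hha hε hη hx, hηS x hxS]; simpa using hCF0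
  -- boundary condition
  have hb : ∀ y ∈ S, y ∈ frontier (Om u) → ∀ ε' : ℝ, 0 < ε' →
      ∀ᶠ x in 𝓝[Om u] y, -ε' ≤ fderiv ℝ u x (FK u η mu ε C0 x) := by
    intro y hyS hyf ε' hε'
    obtain ⟨e, A, B, hJ⟩ := hreg y hyf (hne0 _ _ (by positivity) y hyS)
    have : (𝓝[Om u] y).NeBot := mem_closure_iff_nhdsWithin_neBot.1 (frontier_subset_closure hyf)
    have hmem : ∀ᶠ x in 𝓝[Om u] y, x ∈ Om u := eventually_mem_nhdsWithin
    have hmemS : ∀ᶠ x in 𝓝[Om u] y, x ∈ S2 := mem_nhdsWithin_of_mem_nhds (hSS2 y hyS)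
    -- limits
    have l1 : Tendsto (fun x => hs2 (D2 u x)) (𝓝[Om u] y) (𝓝 (hs2 A)) :=
      (contDiff_hs2.continuous.tendsto A).comp hJ.t2
    have lg : Tendsto (fun x => ∇ u x) (𝓝[Om u] y) (𝓝 e) := by
      have h1 := ((InnerProductSpace.toDual ℝ (E d)).symm.continuous.tendsto (innerSL ℝ e)).comp hJ.t1
      have h2 : (InnerProductSpace.toDual ℝ (E d)).symm (innerSL ℝ e) = e := by
        rw [LinearIsometryEquiv.symm_apply_eq]
        ext v; simp
      rw [h2] at h1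
      exact h1
    have l2 : Tendsto (fun x => mt (D2 u x) (D3 u x) (∇ u x)) (𝓝[Om u] y) (𝓝 (mt A B e)) :=
      tend_mt hJ.t2 hJ.t3 lg
    have hAM : hs2 A ≤ M0 := by
      refine le_of_tendsto l1 ?_
      filter_upwards [hmem, hmemS] with x hx hxS
      exact hM x hx hxS
    have hA0 := hs2_nonneg A
    have hpos : 0 < hs2 A + ε := by positivity
    have l3 : Tendsto (fun x => mu * (hs2 (D2 u x) + ε) ^ (mu - 1) *
        (2 * mt (D2 u x) (D3 u x) (∇ u x)) + C0 * ‖∇ u x‖ ^ 2) (𝓝[Om u] y)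
        (𝓝 (mu * (hs2 A + ε) ^ (mu - 1) * (2 * mt A B e) + C0 * ‖e‖ ^ 2)) := by
      refine Tendsto.add (Tendsto.mul (Tendsto.mul tendsto_const_nhds ?_) (l2.const_mul 2))
        ((lg.norm.pow 2).const_mul C0)
      exact (l1.add_const ε).rpow_const (Or.inl hpos.ne')
    have hlim : 0 < mu * (hs2 A + ε) ^ (mu - 1) * (2 * mt A B e) + C0 * ‖e‖ ^ 2 := by
      rw [hJ.kk.norm_e]
      have h1 := kk_bound hJ.kk
      have h2 := neg_le_of_abs_le h1
      have hq0 : 0 < (hs2 A + ε) ^ (mu - 1) := Real.rpow_pos_of_pos hpos _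
      have h3 := hp ε (hs2 A) hε hA0
      have h4 := hPle ε (hs2 A) hε hε1 hA0 hAM
      have h5 : Real.sqrt (hs2 A) ≤ Real.sqrt M0 := Real.sqrt_le_sqrt hAM
      have hs0 := Real.sqrt_nonneg (hs2 A)
      have hs1 := Real.sqrt_nonneg M0
      have h6 : (hs2 A + ε) ^ (mu - 1) * (Real.sqrt (hs2 A) * hs2 A) ≤ P * Real.sqrt M0 := by
        calc (hs2 A + ε) ^ (mu - 1) * (Real.sqrt (hs2 A) * hs2 A)
            ≤ (hs2 A + ε) ^ (mu - 1) * (Real.sqrt M0 * (hs2 A + ε)) := by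
              gcongr
              linarith
          _ = ((hs2 A + ε) ^ (mu - 1) * (hs2 A + ε)) * Real.sqrt M0 := by ring
          _ ≤ P * Real.sqrt M0 := by rw [h3]; gcongr
      have h7 : mu * (hs2 A + ε) ^ (mu - 1) * (2 * mt A B e) ≥ -(6 * mu * (P * Real.sqrt M0)) := by
        have h8 : mu * (hs2 A + ε) ^ (mu - 1) * (2 * mt A B e) ≥
            mu * (hs2 A + ε) ^ (mu - 1) * (2 * -(3 * (Real.sqrt (hs2 A) * hs2 A))) := by
          have h9 : 0 ≤ mu * (hs2 A + ε) ^ (mu - 1) := by positivity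
          exact mul_le_mul_of_nonneg_left (by linarith) h9
        have h10 : mu * (hs2 A + ε) ^ (mu - 1) * (2 * -(3 * (Real.sqrt (hs2 A) * hs2 A))) =
            -(6 * mu * ((hs2 A + ε) ^ (mu - 1) * (Real.sqrt (hs2 A) * hs2 A))) := by ring
        have h11 : 6 * mu * ((hs2 A + ε) ^ (mu - 1) * (Real.sqrt (hs2 A) * hs2 A)) ≤
            6 * mu * (P * Real.sqrt M0) := by gcongr
        linarith
      rw [hC0]
      linarith
    have hev := l3.eventually (lt_mem_nhds hlim)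
    filter_upwards [hev, hmem] with x hx1 hx2
    have hdiff : DifferentiableAt ℝ (D2 u) x :=
      ((smooth_D2 hO hsm).contDiffAt (hO.mem_nhds hx2)).differentiableAt (by simp)
    have e1 : fderiv ℝ u x (∇ (fun y => hs2 (D2 u y)) x) = 2 * mt (D2 u x) (D3 u x) (∇ u x) := by
      rw [← inner_gradient u, real_inner_comm, inner_gradient, fderiv_m' hdiff]
    have e2 : fderiv ℝ u x (∇ u x) = ‖∇ u x‖ ^ 2 := by
      rw [← inner_gradient, real_inner_self_eq_norm_sq]
    have e3 : fderiv ℝ u x (FK u η mu ε C0 x) = η x ^ 2 * (mu * (hs2 (D2 u x) + ε) ^ (mu - 1) *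
        (2 * mt (D2 u x) (D3 u x) (∇ u x)) + C0 * ‖∇ u x‖ ^ 2) := by
      unfold FK GG
      rw [map_smul, map_add, map_smul, map_smul, e1, e2]
      simp only [smul_eq_mul]
    rw [e3]
    have : 0 ≤ η x ^ 2 * (mu * (hs2 (D2 u x) + ε) ^ (mu - 1) *
        (2 * mt (D2 u x) (D3 u x) (∇ u x)) + C0 * ‖∇ u x‖ ^ 2) := mul_nonneg (sq_nonneg _) hx1.le
    linarith
  have hFs : ContDiffOn ℝ 1 (FK u η mu ε C0) (Om u) :=
    (FK_smooth hO hsm hε hη).of_le (by exact_mod_cast le_top)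
  have hflux := flux hu hsm hha hSc (fun y hy hyf => hreg y hyf (hne0 _ _ (by positivity) y hy)) hFs
    (fun x hx => by unfold FK; rw [hηS x hx]; simp) (fun x hx => (hCFb x hx).1)
    (fun x hx => (hCFb x hx).2) hb
  -- integrability
  have hmeasS : MeasurableSet S := hSc.measurableSet
  have i0 : IntegrableOn (dv (FK u η mu ε C0)) (Om u) := by
    have h1 : Integrable (S.indicator fun _ => CF) (volume.restrict (Om u)) := by
      refine Integrable.mono_measure ?_ Measure.restrict_le_self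
      rw [integrable_indicator_iff hmeasS]
      exact integrableOn_const hSc.measure_lt_top.ne
    refine h1.mono' ((continuousOn_dv hO hFs).aestronglyMeasurable hO.measurableSet) ?_
    rw [ae_restrict_iff' hO.measurableSet]
    refine Eventually.of_forall fun x hx => ?_
    by_cases hxS : x ∈ S
    · rw [indicator_of_mem hxS]; exact (hCFb x hx).2
    · rw [indicator_of_notMem hxS, dv_FK hO hsm hha hε hη hx, hηS x hxS]; simp
  have hcont : ContinuousOn (fun x => η x ^ 2 * ((hs2 (D2 u x) + ε) ^ (mu - 1) * hs3 (D3 u x))) (Om u) := by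
    have c1 : ContinuousOn (fun x => hs2 (D2 u x)) (Om u) := (smooth_m hO hsm).continuousOn
    have c2 : ContinuousOn (fun x => (hs2 (D2 u x) + ε) ^ (mu - 1)) (Om u) := by
      refine (c1.add continuousOn_const).rpow_const fun x _ => Or.inl ?_
      have := hs2_nonneg (D2 u x)
      exact (by positivity : (0 : ℝ) < hs2 (D2 u x) + ε).ne'
    have c3 : ContinuousOn (fun x => hs3 (D3 u x)) (Om u) := by
      unfold hs3
      refine continuousOn_finsetSum _ fun k _ => continuousOn_finsetSum _ fun i _ =>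
        continuousOn_finsetSum _ fun j _ => ContinuousOn.pow ?_ 2
      exact (((smooth_D3 hO hsm).continuousOn.clm_apply continuousOn_const).clm_apply
        continuousOn_const).clm_apply continuousOn_const
    exact (hη.continuous.continuousOn.pow 2).mul (c2.mul c3)
  have i1 : IntegrableOn (fun x => η x ^ 2 * ((hs2 (D2 u x) + ε) ^ (mu - 1) * hs3 (D3 u x))) (Om u) := by
    have h1 : Integrable (S.indicator fun _ => 1 * (q1 * T0)) (volume.restrict (Om u)) := by
      refine Integrable.mono_measure ?_ Measure.restrict_le_self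
      rw [integrable_indicator_iff hmeasS]
      exact integrableOn_const hSc.measure_lt_top.ne
    refine h1.mono' (hcont.aestronglyMeasurable hO.measurableSet) ?_
    rw [ae_restrict_iff' hO.measurableSet]
    refine Eventually.of_forall fun x hx => ?_
    have hm0 := hs2_nonneg (D2 u x)
    have ht0 := hs3_nonneg (D3 u x)
    have g10 : 0 < (hs2 (D2 u x) + ε) ^ (mu - 1) := Real.rpow_pos_of_pos (by positivity) _
    have he0 := (hη01 x).1
    have he1 := (hη01 x).2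
    by_cases hxS : x ∈ S
    · rw [indicator_of_mem hxS, Real.norm_of_nonneg (by positivity)]
      have g1 : (hs2 (D2 u x) + ε) ^ (mu - 1) ≤ q1 := hεp _ _ (by linarith) hm0
      have gT := hT x hx hxS
      have hsq : η x ^ 2 ≤ 1 := by nlinarith
      gcongr
    · rw [indicator_of_notMem hxS, hηS x hxS]; simp
  refine ⟨i1, ?_⟩
  have i2 : IntegrableOn (S.indicator fun _ => Cb) (Om u) := by
    have : Integrable (S.indicator fun _ => Cb) (volume : Measure (E d)) := by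
      rw [integrable_indicator_iff hmeasS]
      exact integrableOn_const hSc.measure_lt_top.ne
    exact this.integrableOn
  have hfin : ∫ x in Om u, (mu * c * (η x ^ 2 * ((hs2 (D2 u x) + ε) ^ (mu - 1) * hs3 (D3 u x))) -
      S.indicator (fun _ => Cb) x) ≤ 0 :=
    (setIntegral_mono_on ((i1.const_mul (mu * c)).sub i2) i0 hO.measurableSet hpt).trans hflux
  rw [integral_sub (i1.const_mul (mu * c)) i2, integral_const_mul] at hfin
  have h3 : ∫ x in Om u, S.indicator (fun _ => Cb) x ≤ Cb * (volume S).toReal := by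
    rw [integral_indicator hmeasS, Measure.restrict_restrict hmeasS, setIntegral_const, smul_eq_mul,
      mul_comm]
    refine mul_le_mul_of_nonneg_left ?_ hCb0
    exact ENNReal.toReal_mono hSc.measure_lt_top.ne (measure_mono inter_subset_left)
  rw [le_div_iff₀ (by positivity)]
  calc _ = mu * c * ∫ x in Om u, η x ^ 2 * ((hs2 (D2 u x) + ε) ^ (mu - 1) * hs3 (D3 u x)) := by ring
    _ ≤ _ := by linarith

/-- RK2: the weighted energy is finite on annuli -/
theorem energy_fin (hd : 2 ≤ d) {u : E d → ℝ} {K : ℝ≥0} (hu : LM u K)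
    (hsm : ContDiffOn ℝ (⊤ : ℕ∞) u (Om u)) (hha : ∀ x ∈ Om u, (Δ u) x = 0)
    (hreg : ∀ y ∈ frontier (Om u), y ≠ 0 → RegPt u y) {mu : ℝ} (hmu : 1 - 2 / (d : ℝ) < 2 * mu)
    (hmu1 : mu ≤ 1) {a b : ℝ} (ha : 0 < a) :
    IntegrableOn (fun x => (hs2 (D2 u x)) ^ (mu - 1) * ‖D3 u x‖ ^ 2) (Wn u ∩ Ann d a b) := by
  have hcu : Continuous u := hu.lip.continuous
  have hO : IsOpen (Om u) := isOpen_Om hcu
  obtain ⟨η, C, hη, hη0, hη1, hE⟩ := energy_eps hd hu hsm hha hreg hmu hmu1 (b := b) ha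
  have hWO : Wn u ⊆ Om u := fun _ h => h.1
  have hWm : MeasurableSet (Wn u ∩ Ann d a b) := by
    refine MeasurableSet.inter ?_ (measurableSet_Ann a b)
    have h := (smooth_m hO hsm).continuousOn.isOpen_inter_preimage hO (isOpen_Ioi (a := (0 : ℝ)))
    exact h.measurableSet
  have c1 : ContinuousOn (fun x => hs2 (D2 u x)) (Om u) := (smooth_m hO hsm).continuousOn
  have c2 : ContinuousOn (fun x => ‖D3 u x‖ ^ 2) (Om u) := (smooth_D3 hO hsm).continuousOn.norm.pow 2
  have hsub : Wn u ∩ Ann d a b ⊆ Om u := inter_subset_left.trans hWO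
  have hcont : ContinuousOn (fun x => (hs2 (D2 u x)) ^ (mu - 1) * ‖D3 u x‖ ^ 2) (Wn u ∩ Ann d a b) := by
    refine ContinuousOn.mul ?_ (c2.mono hsub)
    refine (c1.mono hsub).rpow_const fun x hx => Or.inl (ne_of_gt hx.1.2)
  refine ⟨hcont.aestronglyMeasurable hWm, ?_⟩
  rw [hasFiniteIntegral_iff_norm]
  set ε : ℕ → ℝ := fun n => 1 / ((n : ℝ) + 1) with hεdef
  have hεpos : ∀ n, 0 < ε n := fun n => by simp only [hεdef]; positivity
  have hεle : ∀ n, ε n ≤ 1 := fun n => by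
    simp only [hεdef]
    rw [div_le_one (by positivity)]
    have : (0 : ℝ) ≤ n := Nat.cast_nonneg n
    linarith
  have hεlim : Tendsto ε atTop (𝓝 0) := tendsto_one_div_add_atTop_nhds_zero_nat
  set F : ℕ → E d → ℝ≥0∞ := fun n x =>
    ENNReal.ofReal ((hs2 (D2 u x) + ε n) ^ (mu - 1) * ‖D3 u x‖ ^ 2) with hF
  have hFm : ∀ n, AEMeasurable (F n) (volume.restrict (Wn u ∩ Ann d a b)) := by
    intro n
    have c3 : ContinuousOn (fun x => (hs2 (D2 u x) + ε n) ^ (mu - 1) * ‖D3 u x‖ ^ 2)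
        (Wn u ∩ Ann d a b) := by
      refine ContinuousOn.mul ?_ (c2.mono hsub)
      refine ((c1.mono hsub).add continuousOn_const).rpow_const fun x _ => Or.inl ?_
      have := hs2_nonneg (D2 u x)
      have := hεpos n
      exact (by positivity : (0 : ℝ) < hs2 (D2 u x) + ε n).ne'
    exact (c3.aemeasurable hWm).ennreal_ofReal
  have hFint : ∀ n, ∫⁻ x in Wn u ∩ Ann d a b, F n x ≤ ENNReal.ofReal C := by
    intro n
    obtain ⟨i1, i2⟩ := hE (ε n) (hεpos n) (hεle n)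
    have h0 : ∀ x, 0 ≤ η x ^ 2 * ((hs2 (D2 u x) + ε n) ^ (mu - 1) * hs3 (D3 u x)) := by
      intro x
      have h1 := hs2_nonneg (D2 u x)
      have h2 := hs3_nonneg (D3 u x)
      have h3 := hεpos n
      positivity
    calc ∫⁻ x in Wn u ∩ Ann d a b, F n x
        ≤ ∫⁻ x in Wn u ∩ Ann d a b,
          ENNReal.ofReal (η x ^ 2 * ((hs2 (D2 u x) + ε n) ^ (mu - 1) * hs3 (D3 u x))) := by
          refine setLIntegral_mono' hWm fun x hx => ENNReal.ofReal_le_ofReal ?_
          rw [hη1 x hx.2, one_pow, one_mul]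
          have h1 := hs2_nonneg (D2 u x)
          have h3 := hεpos n
          have := norm_sq_le_hs3 (D3 u x)
          gcongr
      _ ≤ ∫⁻ x in Om u,
          ENNReal.ofReal (η x ^ 2 * ((hs2 (D2 u x) + ε n) ^ (mu - 1) * hs3 (D3 u x))) :=
          lintegral_mono_set hsub
      _ = ENNReal.ofReal (∫ x in Om u, η x ^ 2 * ((hs2 (D2 u x) + ε n) ^ (mu - 1) * hs3 (D3 u x))) :=
          (ofReal_integral_eq_lintegral_ofReal i1 (Eventually.of_forall h0)).symm
      _ ≤ ENNReal.ofReal C := ENNReal.ofReal_le_ofReal i2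
  have hlim : ∀ x ∈ Wn u ∩ Ann d a b,
      Tendsto (fun n => F n x) atTop (𝓝 (ENNReal.ofReal ((hs2 (D2 u x)) ^ (mu - 1) * ‖D3 u x‖ ^ 2))) := by
    intro x hx
    refine ENNReal.tendsto_ofReal (Tendsto.mul_const _ ?_)
    have h1 : Tendsto (fun n => hs2 (D2 u x) + ε n) atTop (𝓝 (hs2 (D2 u x))) := by
      simpa using hεlim.const_add (hs2 (D2 u x))
    exact h1.rpow_const (Or.inl (ne_of_gt hx.1.2))
  calc ∫⁻ x in Wn u ∩ Ann d a b, ENNReal.ofReal ‖(hs2 (D2 u x)) ^ (mu - 1) * ‖D3 u x‖ ^ 2‖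
      = ∫⁻ x in Wn u ∩ Ann d a b, liminf (fun n => F n x) atTop := by
        refine setLIntegral_congr_fun hWm fun x hx => ?_
        rw [(hlim x hx).liminf_eq, Real.norm_of_nonneg]
        have := hs2_nonneg (D2 u x)
        positivity
    _ ≤ liminf (fun n => ∫⁻ x in Wn u ∩ Ann d a b, F n x) atTop := lintegral_liminf_le' hFm
    _ ≤ ENNReal.ofReal C := by
        refine (liminf_le_liminf (Eventually.of_forall hFint)).trans ?_
        simp
    _ < ⊤ := ENNReal.ofReal_lt_top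

end Crest.Agent.R097
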