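import Crest.Agent.R097.REnergy
import Crest.Agent.R097.RedKato2

/-!
# Row 97: `wbd` and `energy` of `RedHyp` for certificates with growth `Z ~ |M|^{2 mu}`
-/

set_option autoImplicit false
set_option synthInstance.maxHeartbeats 400000
open MeasureTheory Metric Set Filter Topology InnerProductSpace
open scoped RealInnerProductSpace NNReal ENNReal Gradient Laplacian

namespace Crest.Agent.R097

namespace REn

variable {d : ℕ} {u : E d → ℝ}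

/-- `r^e` is bounded on `[a,b]` -/
lemma rpow_le_add {a b r : ℝ} (ha : 0 < a) (har : a ≤ r) (hrb : r ≤ b) (e : ℝ) :
    r ^ e ≤ a ^ e + b ^ e := by
  have hr : 0 < r := ha.trans_le har
  have hb : 0 < b := hr.trans_le hrb
  have h1 : 0 ≤ a ^ e := Real.rpow_nonneg ha.le _
  have h2 : 0 ≤ b ^ e := Real.rpow_nonneg hb.le _
  rcases le_total 0 e with h | h
  · have := Real.rpow_le_rpow hr.le hrb h
    linarith
  · have := Real.rpow_le_rpow_of_nonpos ha har h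
    linarith

/-- derivatives of the four arguments, with bounds which keep `‖D³u‖` -/
lemma has_z2 (H : HC u) {x : E d} (hx : x ∈ Om u) {a b B m : ℝ} (ha : 0 < a) (hax : a ≤ ‖x‖)
    (hxb : ‖x‖ ≤ b) (hB : 1 ≤ B) (hm : m = Real.sqrt (hs2 (D2 u x))) (hmB : m ≤ B)
    (hP : ‖fderiv ℝ u x‖ ≤ 1) (hs0 : 0 ≤ sN u x) (hs1 : sN u x ≤ 1) :
    ∃ L : Fin 4 → (E d →L[ℝ] ℝ), (∀ i, HasFDerivAt (fun y => zN u y i) (L i) x) ∧
      ‖L 0‖ ≤ 2 * b * m ^ 2 + 2 * d * b ^ 2 * m * ‖D3 u x‖ ∧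
      ‖L 1‖ ≤ 3 * b ^ 2 * d ^ 3 * m ^ 3 + 3 * b ^ 3 * d ^ 3 * m ^ 2 * ‖D3 u x‖ ∧
      ‖L 2‖ ≤ 2 * d * (d * d * B) + 4 / a ∧ ‖L 3‖ ≤ 2 / a := by
  have hx0 : x ≠ 0 := H.ne_zero hx
  have hn0 : 0 < ‖x‖ := norm_pos_iff.2 hx0
  have hb0 : 0 < b := hn0.trans_le hxb
  have hm0 : 0 ≤ m := by rw [hm]; exact Real.sqrt_nonneg _
  have hmm : hs2 (D2 u x) = m ^ 2 := by rw [hm, Real.sq_sqrt (hs2_nonneg _)]
  have hT : 0 ≤ ‖D3 u x‖ := norm_nonneg _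
  have hin : ‖(innerSL ℝ x : E d →L[ℝ] ℝ)‖ = ‖x‖ := by simp
  -- component 0
  have h0a : HasFDerivAt (fun y : E d => ‖y‖ ^ 2) (2 • (innerSL ℝ x)) x := by
    have := (hasStrictFDerivAt_norm_sq (F := E d) x).hasFDerivAt
    simpa using this
  have hd2 : DifferentiableAt ℝ (D2 u) x := (H.hasD3 hx).differentiableAt
  have h0b : HasFDerivAt (fun y => hs2 (D2 u y)) (fderiv ℝ (fun y => hs2 (D2 u y)) x) x :=
    (((contDiff_hs2 (d := d)).differentiable (by simp)).differentiableAt.comp x hd2).hasFDerivAt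
  have h0 : HasFDerivAt (fun y => zN u y 0)
      (‖x‖ ^ 2 • fderiv ℝ (fun y => hs2 (D2 u y)) x + hs2 (D2 u x) • (2 • (innerSL ℝ x))) x :=
    h0a.mul h0b
  have n0 : ‖‖x‖ ^ 2 • fderiv ℝ (fun y => hs2 (D2 u y)) x +
      hs2 (D2 u x) • (2 • (innerSL ℝ x))‖ ≤ 2 * b * m ^ 2 + 2 * d * b ^ 2 * m * ‖D3 u x‖ := by
    have e1 := norm_fderiv_m_le hd2
    rw [← hm] at e1
    have e2 : ‖‖x‖ ^ 2 • fderiv ℝ (fun y => hs2 (D2 u y)) x‖ ≤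
        b ^ 2 * (2 * d * m * ‖D3 u x‖) := by
      rw [norm_smul, norm_pow, norm_norm]
      gcongr
    have e3 : ‖hs2 (D2 u x) • ((2 : ℕ) • (innerSL ℝ x : E d →L[ℝ] ℝ))‖ ≤ m ^ 2 * (2 * b) := by
      rw [norm_smul, hmm, Real.norm_of_nonneg (by positivity)]
      have : ‖(2 : ℕ) • (innerSL ℝ x : E d →L[ℝ] ℝ)‖ ≤ 2 * b := by
        rw [← Nat.cast_smul_eq_nsmul ℝ, norm_smul, hin]
        simp only [Nat.cast_ofNat, Real.norm_ofNat]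
        linarith
      gcongr
    calc _ ≤ _ := norm_add_le _ _
      _ ≤ b ^ 2 * (2 * d * m * ‖D3 u x‖) + m ^ 2 * (2 * b) := add_le_add e2 e3
      _ = _ := by ring
  -- component 1
  obtain ⟨L1, h1a, h1b⟩ := has_tr3 H hx
  rw [← hm] at h1b
  have h1 : HasFDerivAt (fun y => zN u y 1)
      (‖x‖ ^ 3 • L1 + tr3 (D2 u x) • ((3 * ‖x‖) • innerSL ℝ x)) x := (has_norm3 hx0).mul h1a
  have n1 : ‖‖x‖ ^ 3 • L1 + tr3 (D2 u x) • ((3 * ‖x‖) • (innerSL ℝ x : E d →L[ℝ] ℝ))‖ ≤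
      3 * b ^ 2 * d ^ 3 * m ^ 3 + 3 * b ^ 3 * d ^ 3 * m ^ 2 * ‖D3 u x‖ := by
    have e2 : ‖‖x‖ ^ 3 • L1‖ ≤ b ^ 3 * (3 * d ^ 3 * m ^ 2 * ‖D3 u x‖) := by
      rw [norm_smul, norm_pow, norm_norm]
      gcongr
    have e3 : ‖tr3 (D2 u x) • ((3 * ‖x‖) • (innerSL ℝ x : E d →L[ℝ] ℝ))‖ ≤
        (d ^ 3 * m ^ 3) * (3 * b * b) := by
      rw [norm_smul, norm_smul, hin, Real.norm_eq_abs, Real.norm_of_nonneg (by positivity)]
      have e4 := abs_tr3_le (D2 u x)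
      rw [← hm] at e4
      gcongr
    calc _ ≤ _ := norm_add_le _ _
      _ ≤ b ^ 3 * (3 * d ^ 3 * m ^ 2 * ‖D3 u x‖) + (d ^ 3 * m ^ 3) * (3 * b * b) :=
        add_le_add e2 e3
      _ = _ := by ring
  -- component 3
  have h3 : HasFDerivAt (fun y => zN u y 3)
      (u x • ((-(‖x‖ ^ 3)⁻¹) • innerSL ℝ x) + ‖x‖⁻¹ • fderiv ℝ u x) x := by
    have : (fun y => zN u y 3) = fun y => u y * ‖y‖⁻¹ := by
      ext y
      simp [zN, sN, div_eq_mul_inv]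
    rw [this]
    exact (H.hasD1 hx).mul (has_norm_inv hx0)
  have hux : u x = sN u x * ‖x‖ := by
    unfold sN; field_simp
  have n3 : ‖u x • ((-(‖x‖ ^ 3)⁻¹) • (innerSL ℝ x : E d →L[ℝ] ℝ)) + ‖x‖⁻¹ • fderiv ℝ u x‖ ≤
      2 / a := by
    have e1 : ‖u x • ((-(‖x‖ ^ 3)⁻¹) • (innerSL ℝ x : E d →L[ℝ] ℝ))‖ ≤ 1 / a := by
      rw [norm_smul, norm_smul, hin, norm_neg, Real.norm_of_nonneg (by positivity : 0 ≤ (‖x‖ ^ 3)⁻¹),
        hux, norm_mul, norm_norm, Real.norm_of_nonneg hs0]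
      have : sN u x * ‖x‖ * ((‖x‖ ^ 3)⁻¹ * ‖x‖) = sN u x * ‖x‖⁻¹ := by
        field_simp
      rw [this, one_div]
      calc sN u x * ‖x‖⁻¹ ≤ 1 * a⁻¹ := by gcongr
        _ = a⁻¹ := one_mul _
    have e2 : ‖‖x‖⁻¹ • fderiv ℝ u x‖ ≤ 1 / a := by
      rw [norm_smul, Real.norm_of_nonneg (by positivity), one_div]
      calc ‖x‖⁻¹ * ‖fderiv ℝ u x‖ ≤ a⁻¹ * 1 := by gcongr
        _ = a⁻¹ := mul_one _
    calc _ ≤ _ := norm_add_le _ _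
      _ ≤ 1 / a + 1 / a := add_le_add e1 e2
      _ = _ := by ring
  -- component 2
  have hbl : ∀ i : Fin d, ‖(D2 u x).flip (bv i)‖ ≤ d * d * B := by
    intro i
    refine ContinuousLinearMap.opNorm_le_bound _ (by positivity) fun v => ?_
    have e1 := bil_le (D2 u x) v (bv i)
    rw [norm_bv, mul_one, ← hm] at e1
    rw [ContinuousLinearMap.flip_apply, Real.norm_eq_abs]
    refine e1.trans ?_
    gcongr
  have h2a : HasFDerivAt (fun y => ∑ i, (fderiv ℝ u y (bv i)) ^ 2)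
      (∑ i, (2 * fderiv ℝ u x (bv i)) • (D2 u x).flip (bv i)) x := by
    refine HasFDerivAt.fun_sum fun i _ => ?_
    have := (had_app1 (H.hasD2 hx) (bv i)).pow 2
    refine this.congr_fderiv ?_
    ext v
    simp
  set L3 : E d →L[ℝ] ℝ := u x • ((-(‖x‖ ^ 3)⁻¹) • innerSL ℝ x) + ‖x‖⁻¹ • fderiv ℝ u x with hL3
  have h2b : HasFDerivAt (fun y => zN u y 3 ^ 2) ((2 * zN u x 3) • L3) x := by
    refine (h3.pow 2).congr_fderiv ?_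
    ext v
    simp
  have e2 : (fun y => zN u y 2) = fun y => (∑ i, (fderiv ℝ u y (bv i)) ^ 2) - zN u y 3 ^ 2 := by
    ext y
    have : ‖∇ u y‖ ^ 2 = ∑ i, (fderiv ℝ u y (bv i)) ^ 2 := by
      rw [EuclideanSpace.norm_sq_eq]
      refine Finset.sum_congr rfl fun i _ => ?_
      rw [gradient_coord, Real.norm_eq_abs, sq_abs]
    simp [zN, qN, sN, this]
  have h2 := h2a.sub h2b
  have h2' : HasFDerivAt (fun y => zN u y 2) ((∑ i, (2 * fderiv ℝ u x (bv i)) •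
      (D2 u x).flip (bv i)) - (2 * zN u x 3) • L3) x := by
    rw [e2]; exact h2
  refine ⟨![‖x‖ ^ 2 • fderiv ℝ (fun y => hs2 (D2 u y)) x + hs2 (D2 u x) • (2 • (innerSL ℝ x)),
    ‖x‖ ^ 3 • L1 + tr3 (D2 u x) • ((3 * ‖x‖) • innerSL ℝ x),
    (∑ i, (2 * fderiv ℝ u x (bv i)) • (D2 u x).flip (bv i)) - (2 * zN u x 3) • L3, L3],
    ?_, n0, n1, ?_, n3⟩
  · intro i
    fin_cases i
    · exact h0
    · exact h1
    · exact h2'
    · exact h3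
  · show ‖(∑ i, (2 * fderiv ℝ u x (bv i)) • (D2 u x).flip (bv i)) - (2 * zN u x 3) • L3‖ ≤ _
    refine (norm_sub_le _ _).trans (add_le_add ?_ ?_)
    · calc ‖∑ i, (2 * fderiv ℝ u x (bv i)) • (D2 u x).flip (bv i)‖
          ≤ ∑ i, ‖(2 * fderiv ℝ u x (bv i)) • (D2 u x).flip (bv i)‖ := norm_sum_le _ _
        _ ≤ ∑ _i : Fin d, 2 * (d * d * B) := by
            refine Finset.sum_le_sum fun i _ => ?_
            rw [norm_smul, norm_mul, Real.norm_ofNat]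
            have e3 : ‖fderiv ℝ u x (bv i)‖ ≤ 1 := by
              have := (fderiv ℝ u x).le_opNorm (bv i)
              rw [norm_bv, mul_one] at this
              exact this.trans hP
            have e4 := hbl i
            calc 2 * ‖fderiv ℝ u x (bv i)‖ * ‖(D2 u x).flip (bv i)‖ ≤ 2 * 1 * (d * d * B) := by
                  gcongr
              _ = _ := by ring
        _ = 2 * d * (d * d * B) := by
            simp only [Finset.sum_const, Finset.card_univ, Fintype.card_fin, nsmul_eq_mul]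
            ring
    · rw [norm_smul, norm_mul, Real.norm_ofNat]
      have e5 : ‖zN u x 3‖ ≤ 1 := by
        show ‖sN u x‖ ≤ 1
        rw [Real.norm_of_nonneg hs0]; exact hs1
      calc 2 * ‖zN u x 3‖ * ‖L3‖ ≤ 2 * 1 * (2 / a) := by gcongr
        _ = 4 / a := by ring

end REn

open REn

variable {n : ℕ} {u : E (n + 1) → ℝ} {C : CertData}

/-- the growth condition at the points of an annulus, in the form `K * A * m ^ j` with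
`A = m ^ (2 mu - 2)`, `m = |D²u|` -/
lemma growth_xB {mu : ℝ}
    (hG : ∀ R : ℝ, ∃ K : ℝ,
    ∀ (lam g : Fin n → ℝ) (s : ℝ), Adm lam g s → ∑ i, lam i ^ 2 ≤ R →
      C.Z.f (zv lam g s) ≤ K * Real.sqrt (∑ i, lam i ^ 2) ^ (2 * mu) ∧
      |C.Z.d 0 (zv lam g s)| ≤ K * Real.sqrt (∑ i, lam i ^ 2) ^ (2 * mu - 2) ∧
      |C.Z.d 1 (zv lam g s)| ≤ K * Real.sqrt (∑ i, lam i ^ 2) ^ (2 * mu - 3) ∧
      |C.Z.d 2 (zv lam g s)| ≤ K * Real.sqrt (∑ i, lam i ^ 2) ^ (2 * mu) ∧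
      |C.Z.d 3 (zv lam g s)| ≤ K * Real.sqrt (∑ i, lam i ^ 2) ^ (2 * mu) ∧
      |C.y0.f (zv lam g s)| ≤ K * Real.sqrt (∑ i, lam i ^ 2) ^ (2 * mu) ∧
      |C.ga.f (zv lam g s)| ≤ K * Real.sqrt (∑ i, lam i ^ 2) ^ (2 * mu - 2) ∧
      |C.y1.f (zv lam g s)| ≤ K * Real.sqrt (∑ i, lam i ^ 2) ^ (2 * mu - 1) ∧
      |C.y2.f (zv lam g s)| ≤ K * Real.sqrt (∑ i, lam i ^ 2) ^ (2 * mu - 2) ∧
      |C.y3.f (zv lam g s)| ≤ K * Real.sqrt (∑ i, lam i ^ 2) ^ (2 * mu - 3))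
    (hst : ∀ x ∈ Wn u, ∃ lam g : Fin n → ℝ, Adm lam g (sN u x) ∧ zN u x = zv lam g (sN u x))
    {a b : ℝ} (ha : 0 < a) (R : ℝ) : ∃ K : ℝ, 0 ≤ K ∧ ∀ x ∈ Wn u, a ≤ ‖x‖ → ‖x‖ ≤ b →
      ‖x‖ ^ 2 * hs2 (D2 u x) ≤ R →
      C.Z.f (zN u x) ≤ K * hs2 (D2 u x) ^ (mu - 1) * Real.sqrt (hs2 (D2 u x)) ^ 2 ∧
      |C.Z.d 0 (zN u x)| ≤ K * hs2 (D2 u x) ^ (mu - 1) ∧
      |C.Z.d 1 (zN u x)| * Real.sqrt (hs2 (D2 u x)) ≤ K * hs2 (D2 u x) ^ (mu - 1) ∧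
      |C.Z.d 2 (zN u x)| ≤ K * hs2 (D2 u x) ^ (mu - 1) * Real.sqrt (hs2 (D2 u x)) ^ 2 ∧
      |C.Z.d 3 (zN u x)| ≤ K * hs2 (D2 u x) ^ (mu - 1) * Real.sqrt (hs2 (D2 u x)) ^ 2 ∧
      |C.y0.f (zN u x)| ≤ K * hs2 (D2 u x) ^ (mu - 1) * Real.sqrt (hs2 (D2 u x)) ^ 2 ∧
      |C.ga.f (zN u x)| ≤ K * hs2 (D2 u x) ^ (mu - 1) ∧
      |C.y1.f (zN u x)| ≤ K * hs2 (D2 u x) ^ (mu - 1) * Real.sqrt (hs2 (D2 u x)) ∧
      |C.y2.f (zN u x)| ≤ K * hs2 (D2 u x) ^ (mu - 1) ∧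
      |C.y3.f (zN u x)| * Real.sqrt (hs2 (D2 u x)) ≤ K * hs2 (D2 u x) ^ (mu - 1) := by
  obtain ⟨K, hK⟩ := hG R
  set G : ℝ := (a ^ (2 * mu) + b ^ (2 * mu)) + (a ^ (2 * mu - 1) + b ^ (2 * mu - 1)) +
    (a ^ (2 * mu - 2) + b ^ (2 * mu - 2)) + (a ^ (2 * mu - 3) + b ^ (2 * mu - 3)) with hGdef
  rcases lt_or_ge b a with hba | hab
  · exact ⟨0, le_rfl, fun x _ h1 h2 => absurd (h1.trans h2) (not_le.2 hba)⟩
  have hb : 0 < b := ha.trans_le hab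
  have hnn : ∀ e : ℝ, 0 ≤ a ^ e + b ^ e := fun e =>
    add_nonneg (Real.rpow_nonneg ha.le _) (Real.rpow_nonneg hb.le _)
  have hG0 : 0 ≤ G := by
    have := hnn (2 * mu); have := hnn (2 * mu - 1); have := hnn (2 * mu - 2)
    have := hnn (2 * mu - 3)
    rw [hGdef]; positivity
  refine ⟨max K 0 * G, by positivity, fun x hx h1 h2 hR => ?_⟩
  obtain ⟨lam, g, hA, hz⟩ := hst x hx
  have hP : 0 < hs2 (D2 u x) := hx.2
  have h0 : ∑ i, lam i ^ 2 = ‖x‖ ^ 2 * hs2 (D2 u x) := by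
    have := congrFun hz 0
    simpa [zN, zv] using this.symm
  have hk := hK lam g (sN u x) hA (by rw [h0]; exact hR)
  rw [← hz, h0] at hk
  have hr0 : 0 < ‖x‖ := ha.trans_le h1
  have hs : Real.sqrt (‖x‖ ^ 2 * hs2 (D2 u x)) = ‖x‖ * Real.sqrt (hs2 (D2 u x)) := by
    rw [Real.sqrt_mul (by positivity), Real.sqrt_sq (norm_nonneg _)]
  rw [hs] at hk
  set m := Real.sqrt (hs2 (D2 u x)) with hm
  have hm0 : 0 < m := Real.sqrt_pos.2 hP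
  have hmP : hs2 (D2 u x) = m ^ 2 := by rw [hm, Real.sq_sqrt hP.le]
  have hA1 : hs2 (D2 u x) ^ (mu - 1) = m ^ (2 * mu - 2) := by
    rw [hmP, ← Real.rpow_natCast, ← Real.rpow_mul hm0.le]
    congr 1; push_cast; ring
  have hKm : K ≤ max K 0 := le_max_left _ _
  have hK0 : 0 ≤ max K 0 := le_max_right _ _
  have key : ∀ e : ℝ, (a ^ e + b ^ e) ≤ G → (‖x‖ * m) ^ e ≤ G * m ^ e := by
    intro e he
    rw [Real.mul_rpow hr0.le hm0.le]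
    have := (rpow_le_add ha h1 h2 e).trans he
    have hme : 0 ≤ m ^ e := Real.rpow_nonneg hm0.le _
    gcongr
  have g0 : a ^ (2 * mu) + b ^ (2 * mu) ≤ G := by
    have := hnn (2 * mu - 1); have := hnn (2 * mu - 2); have := hnn (2 * mu - 3)
    rw [hGdef]; linarith
  have g1 : a ^ (2 * mu - 1) + b ^ (2 * mu - 1) ≤ G := by
    have := hnn (2 * mu); have := hnn (2 * mu - 2); have := hnn (2 * mu - 3)
    rw [hGdef]; linarith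
  have g2 : a ^ (2 * mu - 2) + b ^ (2 * mu - 2) ≤ G := by
    have := hnn (2 * mu); have := hnn (2 * mu - 1); have := hnn (2 * mu - 3)
    rw [hGdef]; linarith
  have g3 : a ^ (2 * mu - 3) + b ^ (2 * mu - 3) ≤ G := by
    have := hnn (2 * mu); have := hnn (2 * mu - 1); have := hnn (2 * mu - 2)
    rw [hGdef]; linarith
  have gen : ∀ (v e : ℝ), v ≤ K * (‖x‖ * m) ^ e → (a ^ e + b ^ e) ≤ G →
      v ≤ max K 0 * G * m ^ e := by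
    intro v e hv he
    have h3 := key e he
    have h4 : 0 ≤ (‖x‖ * m) ^ e := Real.rpow_nonneg (by positivity) _
    calc v ≤ K * (‖x‖ * m) ^ e := hv
      _ ≤ max K 0 * (‖x‖ * m) ^ e := by gcongr
      _ ≤ max K 0 * (G * m ^ e) := by gcongr
      _ = _ := by ring
  have p0 : m ^ (2 * mu) = m ^ (2 * mu - 2) * m ^ 2 := by
    rw [← Real.rpow_natCast m 2, ← Real.rpow_add hm0]
    congr 1; push_cast; ring
  have p1 : m ^ (2 * mu - 1) = m ^ (2 * mu - 2) * m := by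
    nth_rewrite 3 [← Real.rpow_one m]
    rw [← Real.rpow_add hm0]
    congr 1; ring
  have p3 : m ^ (2 * mu - 3) * m = m ^ (2 * mu - 2) := by
    nth_rewrite 2 [← Real.rpow_one m]
    rw [← Real.rpow_add hm0]
    congr 1; ring
  obtain ⟨a1, a2, a3, a4, a5, a6, a7, a8, a9, a10⟩ := hk
  rw [hA1]
  refine ⟨?_, gen _ _ a2 g2, ?_, ?_, ?_, ?_, gen _ _ a7 g2, ?_, gen _ _ a9 g2, ?_⟩
  · have := gen _ _ a1 g0
    rw [p0] at this; linarith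
  · have := gen _ _ a3 g3
    calc _ ≤ (max K 0 * G * m ^ (2 * mu - 3)) * m := by gcongr
      _ = max K 0 * G * (m ^ (2 * mu - 3) * m) := by ring
      _ = _ := by rw [p3]
  · have := gen _ _ a4 g0
    rw [p0] at this; linarith
  · have := gen _ _ a5 g0
    rw [p0] at this; linarith
  · have := gen _ _ a6 g0
    rw [p0] at this; linarith
  · have := gen _ _ a8 g1
    rw [p1] at this; linarith
  · have := gen _ _ a10 g3
    calc _ ≤ (max K 0 * G * m ^ (2 * mu - 3)) * m := by gcongr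
      _ = max K 0 * G * (m ^ (2 * mu - 3) * m) := by ring
      _ = _ := by rw [p3]

/-- pointwise bound of the gradient of the test function -/
lemma wgradB_le {d : ℕ} {u : E d → ℝ} (H : HC u) (okZ : C.Z.Ok) {x : E d} (hx : x ∈ Om u)
    (hx2 : 0 < hs2 (D2 u x)) {a b B m K A : ℝ} (ha : 0 < a) (hax : a ≤ ‖x‖)
    (hxb : ‖x‖ ≤ b) (hB : 1 ≤ B) (hm : m = Real.sqrt (hs2 (D2 u x))) (hmB : m ≤ B)
    (hP : ‖fderiv ℝ u x‖ ≤ 1) (hs0 : 0 ≤ sN u x) (hs1 : sN u x ≤ 1)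
    (hK : 0 ≤ K) (hA : 0 ≤ A) (z0 : 0 < C.Z.f (zN u x)) (z2 : |C.Z.d 0 (zN u x)| ≤ K * A)
    (z3 : |C.Z.d 1 (zN u x)| * m ≤ K * A) (z4 : |C.Z.d 2 (zN u x)| ≤ K * A * m ^ 2)
    (z5 : |C.Z.d 3 (zN u x)| ≤ K * A * m ^ 2) :
    wC C u x * ‖fderiv ℝ (wC C u) x‖ ≤
      K * (2 * b + 2 * d * b ^ 2 + (3 * b ^ 2 * d ^ 3 + 3 * b ^ 3 * d ^ 3) +
        (2 * d * (d * d * B) + 4 / a) + 2 / a) * (A * (m ^ 2 + m * ‖D3 u x‖)) := by
  have hn0 : 0 < ‖x‖ := norm_pos_iff.2 (H.ne_zero hx)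
  have hb0 : 0 < b := hn0.trans_le hxb
  have hm0 : 0 ≤ m := by rw [hm]; exact Real.sqrt_nonneg _
  have hT : 0 ≤ ‖D3 u x‖ := norm_nonneg _
  obtain ⟨L, hL, n0, n1, n2, n3⟩ := has_z2 H hx ha hax hxb hB hm hmB hP hs0 hs1
  have hzf : HasFDerivAt (zN u) (ContinuousLinearMap.pi L) x := hasFDerivAt_pi.2 hL
  have hz00 : 0 < zN u x 0 := by
    show 0 < ‖x‖ ^ 2 * hs2 (D2 u x)
    positivity
  have hZ : HasFDerivAt (fun y => C.Z.f (zN u y)) (∑ i, C.Z.d i (zN u x) • L i) x := by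
    have := (okZ.has (zN u x) hz00).comp x hzf
    refine this.congr_fderiv ?_
    ext v
    simp
  have hw : HasFDerivAt (wC C u) ((1 / (2 * Real.sqrt (C.Z.f (zN u x)))) •
      (∑ i, C.Z.d i (zN u x) • L i)) x := hZ.sqrt z0.ne'
  rw [hw.fderiv, norm_smul]
  have hsq : 0 < Real.sqrt (C.Z.f (zN u x)) := Real.sqrt_pos.2 z0
  have e1 : wC C u x * (‖1 / (2 * Real.sqrt (C.Z.f (zN u x)))‖ * ‖∑ i, C.Z.d i (zN u x) • L i‖) =
      ‖∑ i, C.Z.d i (zN u x) • L i‖ / 2 := by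
    rw [Real.norm_of_nonneg (by positivity)]
    unfold wC
    field_simp
  rw [e1]
  have e2 : ‖∑ i, C.Z.d i (zN u x) • L i‖ ≤ ∑ i, |C.Z.d i (zN u x)| * ‖L i‖ := by
    refine (norm_sum_le _ _).trans (Finset.sum_le_sum fun i _ => ?_)
    rw [norm_smul, Real.norm_eq_abs]
  rw [Fin.sum_univ_four (fun i => |C.Z.d i (zN u x)| * ‖L i‖)] at e2
  have e3 : |C.Z.d 0 (zN u x)| * ‖L 0‖ ≤
      (K * A) * (2 * b * m ^ 2 + 2 * d * b ^ 2 * m * ‖D3 u x‖) := by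
    have : 0 ≤ K * A := by positivity
    gcongr
  have e4 : |C.Z.d 1 (zN u x)| * ‖L 1‖ ≤
      (K * A) * (3 * b ^ 2 * d ^ 3 * m ^ 2 + 3 * b ^ 3 * d ^ 3 * m * ‖D3 u x‖) := by
    calc |C.Z.d 1 (zN u x)| * ‖L 1‖ ≤ |C.Z.d 1 (zN u x)| *
          (3 * b ^ 2 * d ^ 3 * m ^ 3 + 3 * b ^ 3 * d ^ 3 * m ^ 2 * ‖D3 u x‖) := by gcongr
      _ = (|C.Z.d 1 (zN u x)| * m) *
          (3 * b ^ 2 * d ^ 3 * m ^ 2 + 3 * b ^ 3 * d ^ 3 * m * ‖D3 u x‖) := by ring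
      _ ≤ _ := by gcongr
  have e5 : |C.Z.d 2 (zN u x)| * ‖L 2‖ ≤ (K * A * m ^ 2) * (2 * d * (d * d * B) + 4 / a) := by
    gcongr
  have e6 : |C.Z.d 3 (zN u x)| * ‖L 3‖ ≤ (K * A * m ^ 2) * (2 / a) := by
    gcongr
  have e7 : 0 ≤ ‖∑ i, C.Z.d i (zN u x) • L i‖ := norm_nonneg _
  have hKA : 0 ≤ K * A := by positivity
  have q1 : 0 ≤ K * A * (2 * b * (m * ‖D3 u x‖)) := by positivity
  have q2 : 0 ≤ K * A * (2 * d * b ^ 2 * m ^ 2) := by positivity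
  have q3 : 0 ≤ K * A * (3 * b ^ 2 * d ^ 3 * (m * ‖D3 u x‖)) := by positivity
  have q4 : 0 ≤ K * A * (3 * b ^ 3 * d ^ 3 * m ^ 2) := by positivity
  have q5 : 0 ≤ K * A * (m * ‖D3 u x‖) * (2 * d * (d * d * B) + 4 / a) := by positivity
  have q6 : 0 ≤ K * A * (m * ‖D3 u x‖) * (2 / a) := by positivity
  calc ‖∑ i, C.Z.d i (zN u x) • L i‖ / 2 ≤ ‖∑ i, C.Z.d i (zN u x) • L i‖ := by linarith
    _ ≤ _ := e2
    _ ≤ (K * A) * (2 * b * m ^ 2 + 2 * d * b ^ 2 * m * ‖D3 u x‖) +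
        (K * A) * (3 * b ^ 2 * d ^ 3 * m ^ 2 + 3 * b ^ 3 * d ^ 3 * m * ‖D3 u x‖) +
        (K * A * m ^ 2) * (2 * d * (d * d * B) + 4 / a) + (K * A * m ^ 2) * (2 / a) :=
        add_le_add (add_le_add (add_le_add e3 e4) e5) e6
    _ ≤ ((K * A) * (2 * b * m ^ 2 + 2 * d * b ^ 2 * m * ‖D3 u x‖) +
        (K * A) * (3 * b ^ 2 * d ^ 3 * m ^ 2 + 3 * b ^ 3 * d ^ 3 * m * ‖D3 u x‖) +
        (K * A * m ^ 2) * (2 * d * (d * d * B) + 4 / a) + (K * A * m ^ 2) * (2 / a)) +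
        (K * A * (2 * b * (m * ‖D3 u x‖)) + K * A * (2 * d * b ^ 2 * m ^ 2) +
        K * A * (3 * b ^ 2 * d ^ 3 * (m * ‖D3 u x‖)) + K * A * (3 * b ^ 3 * d ^ 3 * m ^ 2) +
        K * A * (m * ‖D3 u x‖) * (2 * d * (d * d * B) + 4 / a) +
        K * A * (m * ‖D3 u x‖) * (2 / a)) := by linarith
    _ = _ := by ring

/-- pointwise bound of the field -/
lemma fieldB_le {d : ℕ} {u : E d → ℝ} (H : HC u) {x : E d} (hx : x ∈ Om u)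
    {a b m K A : ℝ} (ha : 0 < a) (hax : a ≤ ‖x‖)
    (hxb : ‖x‖ ≤ b) (hm : m = Real.sqrt (hs2 (D2 u x)))
    (hP : ‖fderiv ℝ u x‖ ≤ 1) (hs1 : sN u x ≤ 1)
    (hK : 0 ≤ K) (hA : 0 ≤ A) (z6 : |C.y0.f (zN u x)| ≤ K * A * m ^ 2)
    (z7 : |C.ga.f (zN u x)| ≤ K * A) (z8 : |C.y1.f (zN u x)| ≤ K * A * m)
    (z9 : |C.y2.f (zN u x)| ≤ K * A) (z10 : |C.y3.f (zN u x)| * m ≤ K * A) :
    ‖XC C u x‖ ≤ K * (b ^ 2 * (d * (d * d)) + b + a⁻¹ * 2 + d * (d * d) +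
      b * (d * (d * d * (d * (d * d)))) + b ^ 2 * (d * (d * d * (d * (d * d * (d * (d * d))))))) *
      (A * (m ^ 2 + m * ‖D3 u x‖)) := by
  have hn0 : 0 < ‖x‖ := norm_pos_iff.2 (H.ne_zero hx)
  have hb0 : 0 < b := hn0.trans_le hxb
  have hm0 : 0 ≤ m := by rw [hm]; exact Real.sqrt_nonneg _
  have hT : 0 ≤ ‖D3 u x‖ := norm_nonneg _
  have hmm : hs2 (D2 u x) = m ^ 2 := by rw [hm, Real.sq_sqrt (hs2_nonneg _)]
  have hg : ‖∇ u x‖ ≤ 1 := by rw [norm_gradient]; exact hP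
  have hKA : 0 ≤ K * A := by positivity
  have hW : ‖W1f u x‖ ≤ b ^ 2 * (d * (d * d)) * (m * ‖D3 u x‖) + b * m ^ 2 := by
    have e1 := norm_TM_le (D2 u x) (D3 u x)
    rw [← hm] at e1
    have e2 : ‖‖x‖ ^ 2 • TM (D2 u x) (D3 u x)‖ ≤ b ^ 2 * (d * (d * d * (‖D3 u x‖ * m))) := by
      rw [norm_smul, norm_pow, norm_norm]
      gcongr
    have e3 : ‖hs2 (D2 u x) • x‖ ≤ m ^ 2 * b := by
      rw [norm_smul, hmm, Real.norm_of_nonneg (by positivity)]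
      gcongr
    unfold W1f
    calc _ ≤ _ := norm_add_le _ _
      _ ≤ b ^ 2 * (d * (d * d * (‖D3 u x‖ * m))) + m ^ 2 * b := add_le_add e2 e3
      _ = _ := by ring
  have hG : ‖gN u x‖ ≤ 2 := by
    unfold gN
    have e1 : ‖(u x / ‖x‖ ^ 2) • x‖ ≤ 1 := by
      rw [norm_smul]
      have hux : 0 < u x := hx
      rw [Real.norm_of_nonneg (by positivity)]
      have : u x / ‖x‖ ^ 2 * ‖x‖ = sN u x := by
        unfold sN; field_simp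
      rw [this]; exact hs1
    calc _ ≤ _ := norm_sub_le _ _
      _ ≤ 1 + 1 := add_le_add hg e1
      _ = 2 := by norm_num
  have hZf : ‖Zf u x‖ ≤ d * (d * d * m) := by
    unfold Zf
    have := norm_act_le (D2 u x) (∇ u x)
    rw [← hm] at this
    calc _ ≤ _ := this
      _ ≤ d * (d * d * m * 1) := by gcongr
      _ = _ := by ring
  have hZ2 : ‖act (D2 u x) (Zf u x)‖ ≤ d * (d * d * m * (d * (d * d * m))) := by
    have := norm_act_le (D2 u x) (Zf u x)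
    rw [← hm] at this
    exact this.trans (by gcongr)
  have hZ3 : ‖act (D2 u x) (act (D2 u x) (Zf u x))‖ ≤
      d * (d * d * m * (d * (d * d * m * (d * (d * d * m))))) := by
    have := norm_act_le (D2 u x) (act (D2 u x) (Zf u x))
    rw [← hm] at this
    exact this.trans (by gcongr)
  have t1 : ‖C.ga.f (zN u x) • W1f u x‖ ≤
      (K * A) * (b ^ 2 * (d * (d * d)) * (m * ‖D3 u x‖) + b * m ^ 2) := by
    rw [norm_smul, Real.norm_eq_abs]; gcongr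
  have t2 : ‖(C.y0.f (zN u x) * ‖x‖⁻¹) • gN u x‖ ≤ (K * A * m ^ 2) * a⁻¹ * 2 := by
    rw [norm_smul, norm_mul, norm_inv, norm_norm, Real.norm_eq_abs]
    gcongr
  have t3 : ‖C.y1.f (zN u x) • Zf u x‖ ≤ (K * A * m) * (d * (d * d * m)) := by
    rw [norm_smul, Real.norm_eq_abs]; gcongr
  have t4 : ‖(C.y2.f (zN u x) * ‖x‖) • act (D2 u x) (Zf u x)‖ ≤
      (K * A) * b * (d * (d * d * m * (d * (d * d * m)))) := by
    rw [norm_smul, norm_mul, norm_norm, Real.norm_eq_abs]; gcongr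
  have t5 : ‖(C.y3.f (zN u x) * ‖x‖ ^ 2) • act (D2 u x) (act (D2 u x) (Zf u x))‖ ≤
      (K * A) * b ^ 2 * (d * (d * d * (d * (d * d * m * (d * (d * d * m)))))) := by
    rw [norm_smul, norm_mul, norm_pow, norm_norm, Real.norm_eq_abs]
    calc |C.y3.f (zN u x)| * ‖x‖ ^ 2 * ‖act (D2 u x) (act (D2 u x) (Zf u x))‖
        ≤ |C.y3.f (zN u x)| * b ^ 2 * (d * (d * d * m * (d * (d * d * m * (d * (d * d * m)))))) := by
          gcongr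
      _ = (|C.y3.f (zN u x)| * m) * b ^ 2 *
          (d * (d * d * (d * (d * d * m * (d * (d * d * m)))))) := by ring
      _ ≤ _ := by gcongr
  unfold XC
  have q1 : 0 ≤ K * A * (b ^ 2 * (d * (d * d)) * m ^ 2) := by positivity
  have q2 : 0 ≤ K * A * (b * (m * ‖D3 u x‖)) := by positivity
  have q3 : 0 ≤ K * A * (m * ‖D3 u x‖) * a⁻¹ * 2 := by positivity
  have q4 : 0 ≤ K * A * (m * ‖D3 u x‖) * (d * (d * d)) := by positivity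
  have q5 : 0 ≤ K * A * (m * ‖D3 u x‖) * (b * (d * (d * d * (d * (d * d))))) := by positivity
  have q6 : 0 ≤ K * A * (m * ‖D3 u x‖) *
      (b ^ 2 * (d * (d * d * (d * (d * d * (d * (d * d))))))) := by positivity
  calc _ ≤ ‖C.ga.f (zN u x) • W1f u x‖ + ‖(C.y0.f (zN u x) * ‖x‖⁻¹) • gN u x‖ +
        ‖C.y1.f (zN u x) • Zf u x‖ + ‖(C.y2.f (zN u x) * ‖x‖) • act (D2 u x) (Zf u x)‖ +
        ‖(C.y3.f (zN u x) * ‖x‖ ^ 2) • act (D2 u x) (act (D2 u x) (Zf u x))‖ :=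
        (norm_add_le _ _).trans (add_le_add_left ((norm_add_le _ _).trans
          (add_le_add_left ((norm_add_le _ _).trans
          (add_le_add_left (norm_add_le _ _) _)) _)) _)
    _ ≤ (K * A) * (b ^ 2 * (d * (d * d)) * (m * ‖D3 u x‖) + b * m ^ 2) +
        (K * A * m ^ 2) * a⁻¹ * 2 + (K * A * m) * (d * (d * d * m)) +
        (K * A) * b * (d * (d * d * m * (d * (d * d * m)))) +
        (K * A) * b ^ 2 * (d * (d * d * (d * (d * d * m * (d * (d * d * m)))))) :=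
        add_le_add (add_le_add (add_le_add (add_le_add t1 t2) t3) t4) t5
    _ ≤ ((K * A) * (b ^ 2 * (d * (d * d)) * (m * ‖D3 u x‖) + b * m ^ 2) +
        (K * A * m ^ 2) * a⁻¹ * 2 + (K * A * m) * (d * (d * d * m)) +
        (K * A) * b * (d * (d * d * m * (d * (d * d * m)))) +
        (K * A) * b ^ 2 * (d * (d * d * (d * (d * d * m * (d * (d * d * m))))))) +
        (K * A * (b ^ 2 * (d * (d * d)) * m ^ 2) + K * A * (b * (m * ‖D3 u x‖)) +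
        K * A * (m * ‖D3 u x‖) * a⁻¹ * 2 + K * A * (m * ‖D3 u x‖) * (d * (d * d)) +
        K * A * (m * ‖D3 u x‖) * (b * (d * (d * d * (d * (d * d))))) +
        K * A * (m * ‖D3 u x‖) *
          (b ^ 2 * (d * (d * d * (d * (d * d * (d * (d * d)))))))) := by linarith
    _ = _ := by ring

/-- `wbd` under `GrowthB` -/
theorem red_wbdB (hn : 1 ≤ n) (hG : GrowthB n C)
    (hst : ∀ x ∈ Wn u, ∃ lam g : Fin n → ℝ, Adm lam g (sN u x) ∧ zN u x = zv lam g (sN u x))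
    (hbd : ∀ a b : ℝ, 0 < a → ∃ B : ℝ, ∀ x ∈ Om u, x ∈ Ann (n + 1) a b →
      hs2 (D2 u x) ≤ B ∧ ‖D3 u x‖ ≤ B) :
    ∀ a b : ℝ, 0 < a → ∃ C' : ℝ, ∀ x ∈ Wn u, x ∈ Ann (n + 1) a b → wC C u x ≤ C' := by
  intro a b ha
  obtain ⟨mu, hmu, hmu1, hG'⟩ := hG
  have hmu0 : 0 ≤ mu := by
    have h1 : (1 : ℝ) ≤ n := by exact_mod_cast hn
    have : 0 ≤ ((n : ℝ) - 1) / (2 * (n + 1)) := div_nonneg (by linarith) (by linarith)
    linarith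
  obtain ⟨B, hB⟩ := hbd a b ha
  obtain ⟨K, hK0, hK⟩ := growth_xB hG' hst (b := b) ha (b ^ 2 * B)
  refine ⟨Real.sqrt (K * (max 1 B)), fun x hx hxA => ?_⟩
  have h1 := (hB x hx.1 hxA).1
  have hP : 0 < hs2 (D2 u x) := hx.2
  have h2 : ‖x‖ ^ 2 * hs2 (D2 u x) ≤ b ^ 2 * B := by
    have := hxA.2
    gcongr
  have h3 := (hK x hx hxA.1 hxA.2 h2).1
  have h4 : hs2 (D2 u x) ^ (mu - 1) * Real.sqrt (hs2 (D2 u x)) ^ 2 = hs2 (D2 u x) ^ mu := by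
    rw [Real.sq_sqrt hP.le]
    nth_rewrite 2 [← Real.rpow_one (hs2 (D2 u x))]
    rw [← Real.rpow_add hP]
    congr 1; ring
  have h5 : hs2 (D2 u x) ^ mu ≤ max 1 B := by
    calc hs2 (D2 u x) ^ mu ≤ (max 1 B) ^ mu :=
          Real.rpow_le_rpow hP.le (h1.trans (le_max_right _ _)) hmu0
      _ ≤ (max 1 B) ^ (1 : ℝ) := Real.rpow_le_rpow_of_exponent_le (le_max_left _ _) hmu1
      _ = max 1 B := Real.rpow_one _
  unfold wC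
  refine Real.sqrt_le_sqrt (h3.trans ?_)
  rw [mul_assoc, h4]
  gcongr

set_option maxHeartbeats 600000 in
/-- `energy` under `GrowthB`; `hE` is the weighted energy bound (`energy_fin`) -/
theorem red_energyB' (hn : 1 ≤ n) (H : HC u) (okZ : C.Z.Ok)
    (hZp : ∀ x ∈ Wn u, 0 < C.Z.f (zN u x)) (hG : GrowthB n C)
    (hst : ∀ x ∈ Wn u, ∃ lam g : Fin n → ℝ, Adm lam g (sN u x) ∧ zN u x = zv lam g (sN u x))
    (hbd : ∀ a b : ℝ, 0 < a → ∃ B : ℝ, ∀ x ∈ Om u, x ∈ Ann (n + 1) a b →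
      hs2 (D2 u x) ≤ B ∧ ‖D3 u x‖ ≤ B)
    (hP : ∀ x ∈ Om u, ‖fderiv ℝ u x‖ ≤ 1)
    (hE : ∀ mu : ℝ, ((n : ℝ) - 1) / (2 * (n + 1)) < mu → mu ≤ 1 → ∀ a b : ℝ, 0 < a →
      IntegrableOn (fun x => (hs2 (D2 u x)) ^ (mu - 1) * ‖D3 u x‖ ^ 2) (Wn u ∩ Ann (n + 1) a b)) :
    ∀ a b : ℝ, 0 < a → ∃ e : E (n + 1) → ℝ, IntegrableOn e (Wn u ∩ Ann (n + 1) a b) ∧
      ∀ x ∈ Wn u, x ∈ Ann (n + 1) a b →
        wC C u x ^ 2 * ‖D3 u x‖ ^ 2 ≤ e x * hs2 (D2 u x) ∧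
        wC C u x * ‖fderiv ℝ (wC C u) x‖ * ‖D3 u x‖ ≤ e x * Real.sqrt (hs2 (D2 u x)) ∧
        ‖XC C u x‖ * ‖D3 u x‖ ≤ e x * Real.sqrt (hs2 (D2 u x)) ∧
        wC C u x ^ 2 * ‖D3 u x‖ ≤ e x * Real.sqrt (hs2 (D2 u x)) := by
  intro a b ha
  rcases lt_or_ge b 0 with hb | hb
  · refine ⟨fun _ => 0, integrableOn_const (WS_fin _ _ _) (by simp), fun x _ hxA => ?_⟩
    exact absurd ((norm_nonneg _).trans hxA.2) (not_le.2 hb)
  obtain ⟨mu, hmu, hmu1, hG'⟩ := hG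
  have hmu0 : 0 ≤ mu := by
    have h1 : (1 : ℝ) ≤ n := by exact_mod_cast hn
    have : 0 ≤ ((n : ℝ) - 1) / (2 * (n + 1)) := div_nonneg (by linarith) (by linarith)
    linarith
  obtain ⟨B₀, hB₀⟩ := hbd a b ha
  obtain ⟨B, hB1, hBB⟩ : ∃ B : ℝ, 1 ≤ B ∧ B₀ ≤ B := ⟨max 1 B₀, le_max_left _ _, le_max_right _ _⟩
  have hB0 : 0 ≤ B := by linarith
  have hBsq : B ≤ B ^ 2 := by nlinarith
  obtain ⟨K, hK0, hK⟩ := growth_xB hG' hst (b := b) ha (b ^ 2 * B ^ 2)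
  obtain ⟨D, hD⟩ : ∃ D : ℝ, D = ((n + 1 : ℕ) : ℝ) := ⟨_, rfl⟩
  have hD0 : 0 ≤ D := by rw [hD]; positivity
  obtain ⟨C0, hC0⟩ : ∃ C0 : ℝ, C0 = K * (2 * b + 2 * D * b ^ 2 +
      (3 * b ^ 2 * D ^ 3 + 3 * b ^ 3 * D ^ 3) +
        (2 * D * (D * D * B) + 4 / a) + 2 / a) := ⟨_, rfl⟩
  have hC00 : 0 ≤ C0 := by rw [hC0]; positivity
  obtain ⟨CX, hCX⟩ : ∃ CX : ℝ, CX = K * (b ^ 2 * (D * (D * D)) + b + a⁻¹ * 2 + D * (D * D) +
      b * (D * (D * D * (D * (D * D)))) +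
      b ^ 2 * (D * (D * D * (D * (D * D * (D * (D * D))))))) := ⟨_, rfl⟩
  have hCX0 : 0 ≤ CX := by rw [hCX]; positivity
  obtain ⟨Q, hQK, hQ0, hQX⟩ : ∃ Q : ℝ, K ≤ Q ∧ 2 * C0 ≤ Q ∧ 2 * CX ≤ Q :=
    ⟨K + 2 * C0 + 2 * CX, by linarith, by linarith, by linarith⟩
  have hQn : 0 ≤ Q := hK0.trans hQK
  refine ⟨fun x => Q * ((hs2 (D2 u x)) ^ (mu - 1) * ‖D3 u x‖ ^ 2 + B ^ 2), ?_, ?_⟩
  · refine Integrable.const_mul ((hE mu hmu hmu1 a b ha).add ?_) Q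
    exact integrableOn_const (WS_fin _ _ _) (by simp)
  intro x hx hxA
  have hPp : 0 < hs2 (D2 u x) := hx.2
  obtain ⟨m, hm⟩ : ∃ m : ℝ, m = Real.sqrt (hs2 (D2 u x)) := ⟨_, rfl⟩
  have hm0 : 0 < m := by rw [hm]; exact Real.sqrt_pos.2 hPp
  have hmm : hs2 (D2 u x) = m ^ 2 := by rw [hm, Real.sq_sqrt hPp.le]
  have hb1 := (hB₀ x hx.1 hxA).1
  have hmB : m ≤ B := by
    rw [hm]
    exact Real.sqrt_le_iff.2 ⟨hB0, hb1.trans (hBB.trans hBsq)⟩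
  have hxb : ‖x‖ ≤ b := hxA.2
  obtain ⟨lam, g, hAdm, hz⟩ := hst x hx
  have hs0 : 0 ≤ sN u x := hAdm.s0
  have hs1 : sN u x ≤ 1 := by
    have h1 := hAdm.q1
    have h2 : 0 ≤ ∑ i, g i ^ 2 := Finset.sum_nonneg fun _ _ => sq_nonneg _
    nlinarith
  have hR : ‖x‖ ^ 2 * hs2 (D2 u x) ≤ b ^ 2 * B ^ 2 := by
    rw [hmm]; gcongr
  obtain ⟨z1, z2, z3, z4, z5, z6, z7, z8, z9, z10⟩ := hK x hx hxA.1 hxA.2 hR
  have z0 := hZp x hx
  rw [← hm] at z1 z3 z4 z5 z6 z8 z10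
  obtain ⟨A, hA⟩ : ∃ A : ℝ, A = hs2 (D2 u x) ^ (mu - 1) := ⟨_, rfl⟩
  have hA0 : 0 ≤ A := by rw [hA]; exact Real.rpow_nonneg hPp.le _
  have hAm : A * m ^ 2 ≤ B ^ 2 := by
    have h4 : A * m ^ 2 = hs2 (D2 u x) ^ mu := by
      rw [hA, ← hmm]
      nth_rewrite 2 [← Real.rpow_one (hs2 (D2 u x))]
      rw [← Real.rpow_add hPp]
      congr 1; ring
    rw [h4]
    calc hs2 (D2 u x) ^ mu ≤ (B ^ 2) ^ mu :=
          Real.rpow_le_rpow hPp.le (hb1.trans (hBB.trans hBsq)) hmu0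
      _ ≤ (B ^ 2) ^ (1 : ℝ) := Real.rpow_le_rpow_of_exponent_le (hB1.trans hBsq) hmu1
      _ = B ^ 2 := Real.rpow_one _
  rw [← hA] at z1 z2 z3 z4 z5 z6 z7 z8 z9 z10
  rw [← hm]
  show _ ≤ Q * (hs2 (D2 u x) ^ (mu - 1) * ‖D3 u x‖ ^ 2 + B ^ 2) * hs2 (D2 u x) ∧
    _ ≤ Q * (hs2 (D2 u x) ^ (mu - 1) * ‖D3 u x‖ ^ 2 + B ^ 2) * m ∧
    _ ≤ Q * (hs2 (D2 u x) ^ (mu - 1) * ‖D3 u x‖ ^ 2 + B ^ 2) * m ∧
    _ ≤ Q * (hs2 (D2 u x) ^ (mu - 1) * ‖D3 u x‖ ^ 2 + B ^ 2) * m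
  rw [← hA, hmm]
  have hw2 : wC C u x ^ 2 = C.Z.f (zN u x) := by
    unfold wC; rw [Real.sq_sqrt z0.le]
  have hw2' : wC C u x ^ 2 ≤ K * A * m ^ 2 := by rw [hw2]; exact z1
  have g1 := wgradB_le H okZ hx.1 hx.2 ha hxA.1 hxb hB1 hm hmB (hP x hx.1) hs0 hs1 hK0 hA0
    z0 z2 z3 z4 z5
  have g2 := fieldB_le H hx.1 ha hxA.1 hxb hm (hP x hx.1) hs1 hK0 hA0 z6 z7 z8 z9 z10
  rw [← hD, ← hC0] at g1
  rw [← hD, ← hCX] at g2
  obtain ⟨T, hT⟩ : ∃ T : ℝ, T = ‖D3 u x‖ := ⟨_, rfl⟩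
  have hT0 : 0 ≤ T := by rw [hT]; exact norm_nonneg _
  rw [← hT] at g1 g2 ⊢
  have hmT : m * T ≤ (m ^ 2 + T ^ 2) / 2 := by nlinarith [sq_nonneg (m - T)]
  have key : A * (m * T) ≤ A * T ^ 2 + B ^ 2 := by
    have h1 : A * (m * T) ≤ A * ((m ^ 2 + T ^ 2) / 2) := by gcongr
    have h2 : 0 ≤ A * T ^ 2 := by positivity
    have h3 : 0 ≤ B ^ 2 := by positivity
    have h4 : A * ((m ^ 2 + T ^ 2) / 2) = (A * m ^ 2 + A * T ^ 2) / 2 := by ring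
    linarith
  have key2 : A * (m * T + T ^ 2) ≤ 2 * (A * T ^ 2 + B ^ 2) := by
    have h3 : 0 ≤ B ^ 2 := by positivity
    have h4 : A * (m * T + T ^ 2) = A * (m * T) + A * T ^ 2 := by ring
    linarith
  have hS0 : 0 ≤ A * T ^ 2 + B ^ 2 := by positivity
  refine ⟨?_, ?_, ?_, ?_⟩
  · calc wC C u x ^ 2 * T ^ 2 ≤ (K * A * m ^ 2) * T ^ 2 := by gcongr
      _ = K * (A * T ^ 2) * m ^ 2 := by ring
      _ ≤ Q * (A * T ^ 2 + B ^ 2) * m ^ 2 := by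
        have : A * T ^ 2 ≤ A * T ^ 2 + B ^ 2 := le_add_of_nonneg_right (by positivity)
        gcongr
  · calc wC C u x * ‖fderiv ℝ (wC C u) x‖ * T ≤ C0 * (A * (m ^ 2 + m * T)) * T := by gcongr
      _ = C0 * (A * (m * T + T ^ 2)) * m := by ring
      _ ≤ C0 * (2 * (A * T ^ 2 + B ^ 2)) * m := by gcongr
      _ = 2 * C0 * (A * T ^ 2 + B ^ 2) * m := by ring
      _ ≤ Q * (A * T ^ 2 + B ^ 2) * m := by gcongr
  · calc ‖XC C u x‖ * T ≤ CX * (A * (m ^ 2 + m * T)) * T := by gcongr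
      _ = CX * (A * (m * T + T ^ 2)) * m := by ring
      _ ≤ CX * (2 * (A * T ^ 2 + B ^ 2)) * m := by gcongr
      _ = 2 * CX * (A * T ^ 2 + B ^ 2) * m := by ring
      _ ≤ Q * (A * T ^ 2 + B ^ 2) * m := by gcongr
  · calc wC C u x ^ 2 * T ≤ (K * A * m ^ 2) * T := by gcongr
      _ = K * (A * (m * T)) * m := by ring
      _ ≤ Q * (A * T ^ 2 + B ^ 2) * m := by gcongr

/-- `energy` under `GrowthB` for cones with regular free boundary away from `0` -/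
theorem red_energyB (hn : 1 ≤ n) {K : ℝ≥0} (hu : LM u K)
    (hreg : ∀ y ∈ frontier (Om u), y ≠ 0 → RegPt u y) (H : HC u) (okZ : C.Z.Ok)
    (hZp : ∀ x ∈ Wn u, 0 < C.Z.f (zN u x)) (hG : GrowthB n C)
    (hst : ∀ x ∈ Wn u, ∃ lam g : Fin n → ℝ, Adm lam g (sN u x) ∧ zN u x = zv lam g (sN u x))
    (hbd : ∀ a b : ℝ, 0 < a → ∃ B : ℝ, ∀ x ∈ Om u, x ∈ Ann (n + 1) a b →
      hs2 (D2 u x) ≤ B ∧ ‖D3 u x‖ ≤ B)
    (hP : ∀ x ∈ Om u, ‖fderiv ℝ u x‖ ≤ 1) :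
    ∀ a b : ℝ, 0 < a → ∃ e : E (n + 1) → ℝ, IntegrableOn e (Wn u ∩ Ann (n + 1) a b) ∧
      ∀ x ∈ Wn u, x ∈ Ann (n + 1) a b →
        wC C u x ^ 2 * ‖D3 u x‖ ^ 2 ≤ e x * hs2 (D2 u x) ∧
        wC C u x * ‖fderiv ℝ (wC C u) x‖ * ‖D3 u x‖ ≤ e x * Real.sqrt (hs2 (D2 u x)) ∧
        ‖XC C u x‖ * ‖D3 u x‖ ≤ e x * Real.sqrt (hs2 (D2 u x)) ∧
        wC C u x ^ 2 * ‖D3 u x‖ ≤ e x * Real.sqrt (hs2 (D2 u x)) := by
  refine red_energyB' hn H okZ hZp hG hst hbd hP fun mu hmu hmu1 a b ha => ?_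
  refine energy_fin (by omega) hu H.sm H.ha hreg ?_ hmu1 ha
  have h1 : (1 : ℝ) ≤ n := by exact_mod_cast hn
  have h2 : (0 : ℝ) < n + 1 := by linarith
  have h3 : 1 - 2 / ((n + 1 : ℕ) : ℝ) = 2 * (((n : ℝ) - 1) / (2 * (n + 1))) := by
    push_cast
    field_simp
    ring
  rw [h3]
  linarith

end Crest.Agent.R097
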