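import Crest.Agent.R097.Cert3b
import Crest.Agent.R097.REnergyB

/-!
# Row 97: the certificate for `n = 3` (`d = 4`)
-/

set_option autoImplicit false
open scoped BigOperators

namespace Crest.Agent.R097

namespace Cert3

theorem growthB : GrowthB 3 data := by
  refine ⟨1/2, by norm_num, by norm_num, fun R => ⟨1 + Real.sqrt R, fun lam g s h hR => ?_⟩⟩
  have hpos := h.pos
  have hs0 := h.s0
  have hQ1 := h.q1
  have hq0 : 0 ≤ ∑ i, g i ^ 2 := Finset.sum_nonneg fun i _ => sq_nonneg _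
  set a : ℝ := ∑ i, lam i ^ 2 with ha
  set q : ℝ := ∑ i, g i ^ 2 with hqd
  set m : ℝ := Real.sqrt a with hm
  have hm0 : 0 < m := Real.sqrt_pos.2 hpos
  have hmR : m ≤ Real.sqrt R := Real.sqrt_le_sqrt hR
  have hm2 : m ^ 2 = a := Real.sq_sqrt hpos.le
  set r : ℝ := Real.sqrt R with hr
  have hr0 : 0 < r := lt_of_lt_of_le hm0 hmR
  have e1 : (2 * (1/2 : ℝ)) = 1 := by norm_num
  have e2 : (2 * (1/2 : ℝ)) - 2 = -1 := by norm_num
  have e3 : (2 * (1/2 : ℝ)) - 3 = -2 := by norm_num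
  have e4 : (2 * (1/2 : ℝ)) - 1 = 0 := by norm_num
  have e5 : m ^ (-2 : ℝ) = (m ^ 2)⁻¹ := by
    rw [Real.rpow_neg hm0.le]; norm_num
  rw [e2, e3, e4, e1, Real.rpow_one, Real.rpow_neg_one, Real.rpow_zero, e5]
  have hQ0 : 0 ≤ q + s ^ 2 := by positivity
  have hs1 : s ≤ 1 := by nlinarith
  simp only [data, cZ, cga, c0, c1, c2, c3, zv0, zv2, zv3, ← ha, ← hqd, ← hm,
    Matrix.cons_val_zero, Matrix.cons_val_one, Matrix.cons_val]
  have hmi : 0 < m⁻¹ := inv_pos.2 hm0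
  have hmm : m⁻¹ * m = 1 := inv_mul_cancel₀ hm0.ne'
  have hri : 1 ≤ r * m⁻¹ := by
    rw [← div_eq_mul_inv, le_div_iff₀ hm0]; linarith
  refine ⟨?_, ?_, ?_, ?_, ?_, ?_, ?_, ?_, ?_, ?_⟩
  · nlinarith
  · rw [abs_of_nonneg (by positivity)]; nlinarith
  · rw [abs_zero]; positivity
  · rw [abs_zero]; positivity
  · rw [abs_zero]; positivity
  · rw [abs_of_nonneg (by positivity), ← hm2]
    have h1 : (1/10 + 19/100 * (q + s ^ 2)) ≤ 1 := by linarith
    have h2 : m ^ 2 * (1/10 + 19/100 * (q + s ^ 2)) ≤ m ^ 2 * 1 :=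
      mul_le_mul_of_nonneg_left h1 (by positivity)
    nlinarith
  · rw [abs_of_nonneg (mul_nonneg (by linarith) hmi.le)]
    exact mul_le_mul_of_nonneg_right (by linarith) hmi.le
  · rw [abs_of_nonneg (by positivity)]
    have h1 : 6/25 * m * (q + s ^ 2) ≤ 6/25 * m * 1 :=
      mul_le_mul_of_nonneg_left hQ1 (by positivity)
    linarith
  · rw [abs_mul, abs_neg, abs_of_nonneg hQ0, abs_of_nonneg (by norm_num : (0:ℝ) ≤ 39/100)]
    have : (1 + r) * m⁻¹ = m⁻¹ + r * m⁻¹ := by ring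
    rw [this]; linarith
  · rw [abs_zero]; positivity

end Cert3

/-- **certificate for `d = 4`** -/
theorem cert3 : Cert 3 Cert3.data (11/10) where
  okga := Cert3.okga
  ok0 := Cert3.ok0
  ok1 := Cert3.ok1
  ok2 := Cert3.ok2
  ok3 := Cert3.ok3
  okZ := Cert3.okZ
  Zpos := fun lam g s h => by
    show 0 < Real.sqrt (zv lam g s 0)
    rw [Cert3.zv0]; exact Real.sqrt_pos.2 h.pos
  lam_gt := by norm_num
  PJ := fun lam g s τ h ht => Cert3.PJ lam g s τ h ht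
  BJ := fun lam k0 H h1 h2 hH hk => Cert3.BJ lam k0 H h1 h2 hH hk
  growth := Or.inr Cert3.growthB

end Crest.Agent.R097
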