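import Crest.Agent.R097.PJBlk

/-!
# Row 97: the certificate for `n = 3` (`d = 4`)

With `ρ = √P₂`, `Q = q + s²`: `Z = ρ`, `γ = (14/25 - (3/20) Q)/ρ`, `y₀ = ρ² (1/10 + (19/100) Q)`,
`y₁ = (6/25) ρ Q`, `y₂ = -(39/100) Q`, `y₃ = 0`, `Λ = 11/10`.  Since `y₁`, `y₂` are multiples of `Q`
the block of direction `k` is affine in `Q` (after splitting off a scalar inequality), so that only
`Q = 0` and `Q = 1` matter: univariate polynomials in `ξ = λ_k/ρ`, `3 ξ² ≤ 2`.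
-/

set_option autoImplicit false
open scoped BigOperators

namespace Crest.Agent.R097

namespace Cert3

/-! ## Univariate inequalities -/

theorem pA_nonneg {x : ℝ} (hx : 3 * x ^ 2 ≤ 2) :
    0 ≤ (6/25 + 193/200*x + 12/25*x^2 - 39/20*x^3) := by
  have h : 0 ≤ 2 / 3 - x ^ 2 := by linarith
  have key : (6/25 + 193/200*x + 12/25*x^2 - 39/20*x^3) =
      ((8/75) * ((1)*1+(339/128)*x+(-15/8)*x^2+(-15/4)*x^3)^2 + (6749/51200) * ((1)*x+(18640/20247)*x^2+(-27680/6749)*x^3)^2 + (251029/607410) * ((1)*x^2+(-31758/251029)*x^3)^2 + (442047/2510290) * ((1)*x^3)^2) +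
      (2 / 3 - x ^ 2) * ((1/5) * ((1)*1+(3/2)*x+(-2)*x^2)^2 + (13/20) * ((1)*x+(16/13)*x^2)^2 + (55/26) * ((1)*x^2)^2) := by ring
  have h0 : 0 ≤ ((8/75) * ((1)*1+(339/128)*x+(-15/8)*x^2+(-15/4)*x^3)^2 + (6749/51200) * ((1)*x+(18640/20247)*x^2+(-27680/6749)*x^3)^2 + (251029/607410) * ((1)*x^2+(-31758/251029)*x^3)^2 + (442047/2510290) * ((1)*x^3)^2) := by positivity
  have h1 : 0 ≤ ((1/5) * ((1)*1+(3/2)*x+(-2)*x^2)^2 + (13/20) * ((1)*x+(16/13)*x^2)^2 + (55/26) * ((1)*x^2)^2) := by positivity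
  have h2 := mul_nonneg h h1
  linarith

theorem p0_nonneg {x : ℝ} (hx : 3 * x ^ 2 ≤ 2) :
    0 ≤ (497/625 + 17391/5000*x + 7491/12500*x^2 - 32481/3125*x^3 - 12339/6250*x^4 + 9477/1250*x^5) := by
  have h : 0 ≤ 2 / 3 - x ^ 2 := by linarith
  have key : (497/625 + 17391/5000*x + 7491/12500*x^2 - 32481/3125*x^3 - 12339/6250*x^4 + 9477/1250*x^5) =
      ((766/1875) * ((1)*1+(34173/12256)*x+(-3975/3064)*x^2+(-3525/766)*x^3)^2 + (385754707/1838400000) * ((1)*x+(111814236/385754707)*x^2+(-805326000/385754707)*x^3)^2 + (772832521593/2410966918750) * ((1)*x^2+(-11355041895/171740560354)*x^3)^2 + (33716520412653/85870280177000) * ((1)*x^3)^2) +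
      (2 / 3 - x ^ 2) * ((29/50) * ((1)*1+(45/29)*x+(-92/29)*x^2)^2 + (817/1450) * ((1)*x+(1965/817)*x^2)^2 + (35269/40850) * ((1)*x^2)^2) := by ring
  have h0 : 0 ≤ ((766/1875) * ((1)*1+(34173/12256)*x+(-3975/3064)*x^2+(-3525/766)*x^3)^2 + (385754707/1838400000) * ((1)*x+(111814236/385754707)*x^2+(-805326000/385754707)*x^3)^2 + (772832521593/2410966918750) * ((1)*x^2+(-11355041895/171740560354)*x^3)^2 + (33716520412653/85870280177000) * ((1)*x^3)^2) := by positivity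
  have h1 : 0 ≤ ((29/50) * ((1)*1+(45/29)*x+(-92/29)*x^2)^2 + (817/1450) * ((1)*x+(1965/817)*x^2)^2 + (35269/40850) * ((1)*x^2)^2) := by positivity
  have h2 := mul_nonneg h h1
  linarith

theorem p1_nonneg {x : ℝ} (hx : 3 * x ^ 2 ≤ 2) :
    0 ≤ (5111/10000 + 2223/1000*x + 7179/25000*x^2 - 93447/12500*x^3 - 9531/6250*x^4 + 3861/625*x^5) := by
  have h : 0 ≤ 2 / 3 - x ^ 2 := by linarith
  have key : (5111/10000 + 2223/1000*x + 7179/25000*x^2 - 93447/12500*x^3 - 9531/6250*x^4 + 3861/625*x^5) =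
      ((2511/10000) * ((1)*1+(2305/837)*x+(-3700/2511)*x^2+(-10400/2511)*x^3)^2 + (2969257/13950000) * ((1)*x+(-374278/8907771)*x^2+(-12804500/8907771)*x^3)^2 + (290947619/11134713750) * ((1)*x^2+(-183865194/290947619)*x^3)^2 + (70507971179/2182107142500) * ((1)*x^3)^2) +
      (2 / 3 - x ^ 2) * ((39/100) * ((1)*1+(21/13)*x+(-119/39)*x^2)^2 + (203/650) * ((1)*x+(471/406)*x^2)^2 + (89969/121800) * ((1)*x^2)^2) := by ring
  have h0 : 0 ≤ ((2511/10000) * ((1)*1+(2305/837)*x+(-3700/2511)*x^2+(-10400/2511)*x^3)^2 + (2969257/13950000) * ((1)*x+(-374278/8907771)*x^2+(-12804500/8907771)*x^3)^2 + (290947619/11134713750) * ((1)*x^2+(-183865194/290947619)*x^3)^2 + (70507971179/2182107142500) * ((1)*x^3)^2) := by positivity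
  have h1 : 0 ≤ ((39/100) * ((1)*1+(21/13)*x+(-119/39)*x^2)^2 + (203/650) * ((1)*x+(471/406)*x^2)^2 + (89969/121800) * ((1)*x^2)^2) := by positivity
  have h2 := mul_nonneg h h1
  linarith

theorem quad_nonneg {A B C : ℝ} (hC : 0 < C) (h : B ^ 2 ≤ 4 * A * C) (P X : ℝ) :
    0 ≤ A * P ^ 2 + B * P * X + C * X ^ 2 := by
  have h1 : 4 * C * (A * P ^ 2 + B * P * X + C * X ^ 2) =
      (2 * C * X + B * P) ^ 2 + (4 * A * C - B ^ 2) * P ^ 2 := by ring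
  have h2 : 0 ≤ (4 * A * C - B ^ 2) * P ^ 2 := mul_nonneg (by linarith) (sq_nonneg _)
  have h3 : 0 ≤ 4 * C * (A * P ^ 2 + B * P * X + C * X ^ 2) := by
    rw [h1]; have := sq_nonneg (2 * C * X + B * P); linarith
  exact nonneg_of_mul_nonneg_right h3 (by linarith)

/-- the flat block, `0 ≤ Q ≤ 1` -/
theorem flat {x Q : ℝ} (hx : 3 * x ^ 2 ≤ 2) (hQ0 : 0 ≤ Q) (hQ1 : Q ≤ 1) (P X : ℝ) :
    0 ≤ (6/25 + 193/200*x + 12/25*x^2 - 39/20*x^3) * P ^ 2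
      + (-(3/10) * x + 2 * (1/10 + 19/100 * Q) + 6/25 * Q * x - 39/100 * Q) * P * X
      + ((14/25 - 3/20 * Q) * (3 / (1 + 6/5 * x^2) - 1) - 1/4) * X ^ 2 := by
  have hk : 0 < 1 + 6/5 * x^2 := by positivity
  have c0 : 0 < (14/25 : ℝ) * (3 / (1 + 6/5 * x^2) - 1) - 1/4 := by
    have : (14/25 : ℝ) * (3 / (1 + 6/5 * x^2) - 1) - 1/4 = (87/100 - 243/250 * x^2) / (1 + 6/5 * x^2) := by
      field_simp; ring
    rw [this]
    exact div_pos (by nlinarith) hk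
  have c1 : 0 < (41/100 : ℝ) * (3 / (1 + 6/5 * x^2) - 1) - 1/4 := by
    have : (41/100 : ℝ) * (3 / (1 + 6/5 * x^2) - 1) - 1/4 = (57/100 - 99/125 * x^2) / (1 + 6/5 * x^2) := by
      field_simp; ring
    rw [this]
    exact div_pos (by nlinarith) hk
  have f0 := quad_nonneg (A := 6/25 + 193/200*x + 12/25*x^2 - 39/20*x^3) (B := 1/5 - 3/10 * x) c0 (by
    have e : (1/5 - 3/10 * x) ^ 2 = ((1/5 - 3/10 * x) ^ 2 * (1 + 6/5 * x^2)) / (1 + 6/5 * x^2) := by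
      field_simp
    have e2 : 4 * (6/25 + 193/200*x + 12/25*x^2 - 39/20*x^3) *
        ((14/25 : ℝ) * (3 / (1 + 6/5 * x^2) - 1) - 1/4) =
        (4 * (6/25 + 193/200*x + 12/25*x^2 - 39/20*x^3) * (87/100 - 243/250 * x^2)) /
          (1 + 6/5 * x^2) := by
      field_simp; ring
    rw [e, e2]
    refine div_le_div_of_nonneg_right ?_ hk.le
    have := p0_nonneg hx
    nlinarith) P X
  have f1 := quad_nonneg (A := 6/25 + 193/200*x + 12/25*x^2 - 39/20*x^3) (B := 19/100 - 3/50 * x) c1 (by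
    have e : (19/100 - 3/50 * x) ^ 2 = ((19/100 - 3/50 * x) ^ 2 * (1 + 6/5 * x^2)) / (1 + 6/5 * x^2) := by
      field_simp
    have e2 : 4 * (6/25 + 193/200*x + 12/25*x^2 - 39/20*x^3) *
        ((41/100 : ℝ) * (3 / (1 + 6/5 * x^2) - 1) - 1/4) =
        (4 * (6/25 + 193/200*x + 12/25*x^2 - 39/20*x^3) * (57/100 - 99/125 * x^2)) /
          (1 + 6/5 * x^2) := by
      field_simp; ring
    rw [e, e2]
    refine div_le_div_of_nonneg_right ?_ hk.le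
    have := p1_nonneg hx
    nlinarith) P X
  have m0 := mul_nonneg (sub_nonneg.2 hQ1) f0
  have m1 := mul_nonneg hQ0 f1
  have : (6/25 + 193/200*x + 12/25*x^2 - 39/20*x^3) * P ^ 2
      + (-(3/10) * x + 2 * (1/10 + 19/100 * Q) + 6/25 * Q * x - 39/100 * Q) * P * X
      + ((14/25 - 3/20 * Q) * (3 / (1 + 6/5 * x^2) - 1) - 1/4) * X ^ 2 =
      (1 - Q) * ((6/25 + 193/200*x + 12/25*x^2 - 39/20*x^3) * P ^ 2 + (1/5 - 3/10 * x) * P * X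
        + (14/25 * (3 / (1 + 6/5 * x^2) - 1) - 1/4) * X ^ 2)
      + Q * ((6/25 + 193/200*x + 12/25*x^2 - 39/20*x^3) * P ^ 2 + (19/100 - 3/50 * x) * P * X
        + (41/100 * (3 / (1 + 6/5 * x^2) - 1) - 1/4) * X ^ 2) := by ring
  rw [this]; linarith

/-- the scalar inequality -/
theorem scal {x Q σ : ℝ} (hx : 3 * x ^ 2 ≤ 2) (hQ0 : 0 ≤ Q) (hQ1 : Q ≤ 1) (hσ : 0 ≤ σ)
    (hap : σ ^ 2 ≤ 3/10 * (1 - Q ^ 2)) :
    0 ≤ 3 * (14/25 - 3/20 * Q) - 11/10 - σ * (3 * (1/10 + 19/100 * Q) - 39/100 * Q)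
      + σ ^ 2 * (6/25 - 39/100 * (3 * x ^ 3 - 3/2 * x)) := by
  have hy : 0 ≤ 6/25 - 39/100 * (3 * x ^ 3 - 3/2 * x) := by
    have hx2 : 0 ≤ 2/3 - x^2 := by linarith
    nlinarith [mul_nonneg hx2 (sq_nonneg (x + 1)), mul_nonneg hx2 (sq_nonneg (x - 1)), sq_nonneg (x - 1), sq_nonneg (x+1), sq_nonneg (x + 2/5), sq_nonneg (x-2/5), mul_nonneg hx2 (sq_nonneg (x + 2/5)), mul_nonneg hx2 (sq_nonneg (x - 2/5))]
  have h2 := mul_nonneg (sq_nonneg σ) hy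
  nlinarith [sq_nonneg (σ - 1/2), mul_nonneg hσ hQ0, mul_nonneg hσ (sub_nonneg.2 hQ1)]

/-- boundary cubic -/
theorem bdry {h : ℝ} (h0 : 0 ≤ h) (h1 : h ≤ 1) :
    0 ≤ 29/100 - 27/40 * h - 39/100 * h^2 + 123/100 * h^3 := by
  nlinarith [mul_nonneg h0 (sq_nonneg (h - 546/1000)), sq_nonneg (h - 546/1000)]

set_option maxHeartbeats 1000000 in
/-- the block inequality of direction `k` -/
theorem block {ρ x s Q q s0 X1 w T : ℝ} (hρ : 0 < ρ) (hx : 3 * x ^ 2 ≤ 2) (hQ0 : 0 ≤ Q)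
    (hQ1 : Q ≤ 1) (hq : Q = q + s ^ 2) (hq0 : 0 ≤ q) (hs : 0 ≤ s)
    (hap : (s * ρ) ^ 2 ≤ 3/10 * (1 - Q ^ 2))
    (hT : 3 * X1 ^ 2 / (ρ ^ 2 * (1 + 6/5 * x ^ 2)) ≤ T) :
    0 ≤ (((14/25 - 3/20 * Q) / ρ) * (3 * ρ ^ 2) - 3 * s * (ρ ^ 2 * (1/10 + 19/100 * Q))
        + (6/25 * ρ * Q) * ρ ^ 2 + (-(39/100) * Q) * (ρ ^ 3 * (3 * x ^ 3 - 3/2 * x) - s * ρ ^ 2)
        - 11/10 * ρ) * s0 ^ 2
      + (Real.sqrt q) ^ 2 * (ρ ^ 3 * (19/50 * x + 12/25 * x ^ 2 - 39/50 * x ^ 3)) * s0 ^ 2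
      + Real.sqrt q * s0 * ((-(3/10) * x + 2 * (1/10 + 19/100 * Q) + 6/25 * Q * x - 39/100 * Q) * X1)
      + (14/25 - 3/20 * Q) / ρ * T - (14/25 - 3/20 * Q) / ρ ^ 3 * X1 ^ 2
      + w * (1 / ρ * X1) + ρ * w ^ 2 := by
  have hk : 0 < 1 + 6/5 * x^2 := by positivity
  set S : ℝ := Real.sqrt q * s0 with hS
  have hS2 : (Real.sqrt q) ^ 2 * s0 ^ 2 = S ^ 2 := by rw [hS]; ring
  have hqs : (Real.sqrt q) ^ 2 = q := Real.sq_sqrt hq0
  set X : ℝ := X1 / ρ ^ 2 with hX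
  have hX1 : X1 = ρ ^ 2 * X := by rw [hX]; field_simp
  have hf := flat hx hQ0 hQ1 (ρ * S) X
  have hsc := scal (σ := s * ρ) hx hQ0 hQ1 (by positivity) hap
  have hG : 0 ≤ (14/25 - 3/20 * Q) / ρ := by
    apply div_nonneg _ hρ.le; linarith
  have hT' := mul_le_mul_of_nonneg_left hT hG
  have hm := mul_nonneg hρ.le (mul_nonneg hsc (sq_nonneg s0))
  have hm2 := mul_nonneg hρ.le hf
  have hm3 := mul_nonneg hρ.le (sq_nonneg (w + X / 2))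
  have e1 : (14/25 - 3/20 * Q) / ρ * (3 * X1 ^ 2 / (ρ ^ 2 * (1 + 6/5 * x ^ 2))) =
      ρ * ((14/25 - 3/20 * Q) * (3 / (1 + 6/5 * x^2))) * X ^ 2 := by
    rw [hX1]; field_simp
  have e2 : (14/25 - 3/20 * Q) / ρ ^ 3 * X1 ^ 2 = ρ * (14/25 - 3/20 * Q) * X ^ 2 := by
    rw [hX1]; field_simp
  have e3 : w * (1 / ρ * X1) = ρ * (w * X) := by
    rw [hX1]; field_simp
  have e4 : ((14/25 - 3/20 * Q) / ρ) * (3 * ρ ^ 2) = 3 * ρ * (14/25 - 3/20 * Q) := by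
    field_simp
  rw [e1] at hT'
  rw [e2, e3, e4]
  have hqs0 : q * s0 ^ 2 = S ^ 2 := by rw [← hS2, hqs]
  have hQs : Q * s0 ^ 2 = S ^ 2 + s ^ 2 * s0 ^ 2 := by rw [hq, add_mul, hqs0]
  have e5 : (Real.sqrt q) ^ 2 * (ρ ^ 3 * (19/50 * x + 12/25 * x ^ 2 - 39/50 * x ^ 3)) * s0 ^ 2 =
      ρ ^ 3 * (19/50 * x + 12/25 * x ^ 2 - 39/50 * x ^ 3) * S ^ 2 := by rw [← hS2]; ring
  rw [e5, hX1]
  have e6 : (3 * ρ * (14/25 - 3/20 * Q) - 3 * s * (ρ ^ 2 * (1/10 + 19/100 * Q))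
        + (6/25 * ρ * Q) * ρ ^ 2 + (-(39/100) * Q) * (ρ ^ 3 * (3 * x ^ 3 - 3/2 * x) - s * ρ ^ 2)
        - 11/10 * ρ) * s0 ^ 2 =
      ρ * (3 * (14/25 - 3/20 * Q) - 11/10 - (s * ρ) * (3 * (1/10 + 19/100 * Q) - 39/100 * Q)) * s0 ^ 2
        + ρ ^ 3 * (6/25 - 39/100 * (3 * x ^ 3 - 3/2 * x)) * (Q * s0 ^ 2) := by ring
  rw [e6, hQs]
  nlinarith [hT', hm, hm2, hm3]

end Cert3

end Crest.Agent.R097
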