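import Crest.Agent.R097.Cert3a

/-!
# Row 97: the certificate for `n = 3`: coefficient functions
-/

set_option autoImplicit false
open scoped BigOperators

namespace Crest.Agent.R097

namespace Cert3

/-- `Z = √P₂` -/
noncomputable def cZ : Coef where
  f := fun z => Real.sqrt (z 0)
  d := ![fun z => 1/2 * (Real.sqrt (z 0))⁻¹, fun _ => 0, fun _ => 0, fun _ => 0]

/-- `γ` -/
noncomputable def cga : Coef where
  f := fun z => (14/25 - 3/20 * (z 2 + z 3 ^ 2)) * (Real.sqrt (z 0))⁻¹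
  d := ![fun z => -(1/2 * (14/25 - 3/20 * (z 2 + z 3 ^ 2)) * (Real.sqrt (z 0))⁻¹ ^ 3), fun _ => 0,
    fun z => -(3/20) * (Real.sqrt (z 0))⁻¹, fun z => -(3/10) * z 3 * (Real.sqrt (z 0))⁻¹]

/-- `y₀` -/
noncomputable def c0 : Coef where
  f := fun z => z 0 * (1/10 + 19/100 * (z 2 + z 3 ^ 2))
  d := ![fun z => 1/10 + 19/100 * (z 2 + z 3 ^ 2), fun _ => 0, fun z => 19/100 * z 0,
    fun z => 19/50 * z 3 * z 0]

/-- `y₁` -/
noncomputable def c1 : Coef where
  f := fun z => 6/25 * Real.sqrt (z 0) * (z 2 + z 3 ^ 2)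
  d := ![fun z => 3/25 * (z 2 + z 3 ^ 2) * (Real.sqrt (z 0))⁻¹, fun _ => 0,
    fun z => 6/25 * Real.sqrt (z 0), fun z => 12/25 * z 3 * Real.sqrt (z 0)]

/-- `y₂` -/
noncomputable def c2 : Coef where
  f := fun z => -(39/100) * (z 2 + z 3 ^ 2)
  d := ![fun _ => 0, fun _ => 0, fun _ => -(39/100), fun z => -(39/50) * z 3]

/-- `y₃` -/
noncomputable def c3 : Coef where
  f := fun _ => 0
  d := ![fun _ => 0, fun _ => 0, fun _ => 0, fun _ => 0]

/-- the data -/
noncomputable def data : CertData where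
  ga := cga
  y0 := c0
  y1 := c1
  y2 := c2
  y3 := c3
  Z := cZ

lemma hp (i : Fin 4) (z : Fin 4 → ℝ) : HasFDerivAt (fun z : Fin 4 → ℝ => z i)
    (ContinuousLinearMap.proj i : (Fin 4 → ℝ) →L[ℝ] ℝ) z :=
  (ContinuousLinearMap.proj (R := ℝ) (φ := fun _ : Fin 4 => ℝ) i).hasFDerivAt

lemma hs (z : Fin 4 → ℝ) (h : 0 < z 0) : HasFDerivAt (fun z : Fin 4 → ℝ => Real.sqrt (z 0))
    ((1 / (2 * Real.sqrt (z 0))) • (ContinuousLinearMap.proj 0 : (Fin 4 → ℝ) →L[ℝ] ℝ)) z :=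
  (hp 0 z).sqrt h.ne'

lemma hsi (z : Fin 4 → ℝ) (h : 0 < z 0) : HasFDerivAt (fun z : Fin 4 → ℝ => (Real.sqrt (z 0))⁻¹)
    ((-(1/2 * (Real.sqrt (z 0))⁻¹ ^ 3)) • (ContinuousLinearMap.proj 0 : (Fin 4 → ℝ) →L[ℝ] ℝ)) z := by
  have hne : Real.sqrt (z 0) ≠ 0 := (Real.sqrt_pos.2 h).ne'
  have h1 : HasFDerivAt (fun z : Fin 4 → ℝ => (Real.sqrt (z 0))⁻¹) _ z :=
    (hasDerivAt_inv hne).comp_hasFDerivAt z (hs z h)
  refine h1.congr_fderiv ?_
  rw [smul_smul]
  congr 1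
  field_simp

lemma hQ (z : Fin 4 → ℝ) : HasFDerivAt (fun z : Fin 4 → ℝ => z 2 + z 3 ^ 2)
    ((ContinuousLinearMap.proj 2 : (Fin 4 → ℝ) →L[ℝ] ℝ) + (2 * z 3) •
      (ContinuousLinearMap.proj 3 : (Fin 4 → ℝ) →L[ℝ] ℝ)) z := by
  have h1 := (hp 2 z).add ((hp 3 z).pow 2)
  refine h1.congr_fderiv ?_
  ext v
  simp

lemma cs : Continuous fun z : Fin 4 → ℝ => Real.sqrt (z 0) :=
  Real.continuous_sqrt.comp (continuous_apply 0)

lemma csi : ContinuousOn (fun z : Fin 4 → ℝ => (Real.sqrt (z 0))⁻¹) {z | 0 < z 0} :=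
  cs.continuousOn.inv₀ fun z hz => (Real.sqrt_pos.2 hz).ne'

lemma cQ : Continuous fun z : Fin 4 → ℝ => z 2 + z 3 ^ 2 :=
  (continuous_apply 2).add ((continuous_apply 3).pow 2)

lemma okZ : cZ.Ok where
  has := fun z hz => by
    refine (hs z hz).congr_fderiv ?_
    ext v
    simp [cZ, Fin.sum_univ_four, mul_comm]
  cont := fun i => by
    fin_cases i
    · exact continuousOn_const.mul csi
    · exact continuousOn_const
    · exact continuousOn_const
    · exact continuousOn_const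

lemma okga : cga.Ok where
  has := fun z hz => by
    have h := (((hQ z).const_mul (3/20 : ℝ)).const_sub (14/25 : ℝ)).mul (hsi z hz)
    refine h.congr_fderiv ?_
    ext v
    simp [cga, Fin.sum_univ_four]
    ring
  cont := fun i => by
    fin_cases i
    · exact (((continuousOn_const.mul (continuousOn_const.sub
        (continuousOn_const.mul cQ.continuousOn))).mul (csi.pow 3))).neg
    · exact continuousOn_const
    · exact continuousOn_const.mul csi
    · exact (continuousOn_const.mul (continuous_apply 3).continuousOn).mul csi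

lemma ok0 : c0.Ok where
  has := fun z hz => by
    have h := (hp 0 z).mul (((hQ z).const_mul (19/100 : ℝ)).const_add (1/10 : ℝ))
    refine h.congr_fderiv ?_
    ext v
    simp [c0, Fin.sum_univ_four]
    ring
  cont := fun i => by
    fin_cases i
    · exact (continuous_const.add (continuous_const.mul cQ)).continuousOn
    · exact continuousOn_const
    · exact (continuous_const.mul (continuous_apply 0)).continuousOn
    · exact ((continuous_const.mul (continuous_apply 3)).mul (continuous_apply 0)).continuousOn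

lemma ok1 : c1.Ok where
  has := fun z hz => by
    have h := (((hs z hz).const_mul (6/25 : ℝ))).mul (hQ z)
    refine h.congr_fderiv ?_
    ext v
    simp [c1, Fin.sum_univ_four]
    ring
  cont := fun i => by
    fin_cases i
    · exact (continuousOn_const.mul cQ.continuousOn).mul csi
    · exact continuousOn_const
    · exact (continuous_const.mul cs).continuousOn
    · exact ((continuous_const.mul (continuous_apply 3)).mul cs).continuousOn

lemma ok2 : c2.Ok where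
  has := fun z hz => by
    have h := (hQ z).const_mul (-(39/100) : ℝ)
    refine h.congr_fderiv ?_
    ext v
    simp [c2, Fin.sum_univ_four]
    ring
  cont := fun i => by
    fin_cases i
    · exact continuousOn_const
    · exact continuousOn_const
    · exact continuousOn_const
    · exact (continuous_const.mul (continuous_apply 3)).continuousOn

lemma ok3 : c3.Ok where
  has := fun z hz => by
    have h : HasFDerivAt (fun _ : Fin 4 → ℝ => (0 : ℝ)) (0 : (Fin 4 → ℝ) →L[ℝ] ℝ) z :=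
      hasFDerivAt_const 0 z
    refine h.congr_fderiv ?_
    ext v
    simp [c3, Fin.sum_univ_four]
  cont := fun i => by
    fin_cases i <;> exact continuousOn_const

lemma zv0 {n : ℕ} (lam g : Fin n → ℝ) (s : ℝ) : zv lam g s 0 = ∑ i, lam i ^ 2 := rfl
lemma zv1 {n : ℕ} (lam g : Fin n → ℝ) (s : ℝ) : zv lam g s 1 = ∑ i, lam i ^ 3 := rfl
lemma zv2 {n : ℕ} (lam g : Fin n → ℝ) (s : ℝ) : zv lam g s 2 = ∑ i, g i ^ 2 := rfl
lemma zv3 {n : ℕ} (lam g : Fin n → ℝ) (s : ℝ) : zv lam g s 3 = s := rfl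

/-- eigenvalue identities for `n = 3` -/
theorem lam3 (lam : Fin 3 → ℝ) (h : ∑ i, lam i = 0) (k : Fin 3) :
    3 * lam k ^ 2 ≤ 2 * ∑ i, lam i ^ 2 ∧
      ∑ i, lam i ^ 3 = 3 * lam k ^ 3 - 3/2 * (∑ i, lam i ^ 2) * lam k := by
  simp only [Fin.sum_univ_three] at h ⊢
  have h2 : lam 2 = -lam 0 - lam 1 := by linarith
  fin_cases k
  · simp only [Fin.zero_eta, h2]
    constructor
    · nlinarith [sq_nonneg (lam 0 + 2 * lam 1)]
    · ring
  · simp only [Fin.mk_one, h2]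
    constructor
    · nlinarith [sq_nonneg (2 * lam 0 + lam 1)]
    · ring
  · have e : (⟨2, by norm_num⟩ : Fin 3) = 2 := rfl
    simp only [e, h2]
    constructor
    · nlinarith [sq_nonneg (lam 0 - lam 1)]
    · ring

open TEl in
theorem PJ (lam g : Fin 3 → ℝ) (s : ℝ) (τ : Fin 3 → Fin 3 → Fin 3 → ℝ) (h : Adm lam g s)
    (ht : STF τ) :
    (∑ k, data.Z.D lam g s τ k ^ 2) / (4 * data.Z.f (zv lam g s)) +
      11/10 * data.Z.f (zv lam g s) ≤ data.divE lam g s τ := by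
  set a : ℝ := ∑ i, lam i ^ 2 with ha
  have hpos : 0 < a := h.pos
  set ρ : ℝ := Real.sqrt a with hρd
  have hρ : 0 < ρ := Real.sqrt_pos.2 hpos
  have hρ2 : ρ ^ 2 = a := Real.sq_sqrt hpos.le
  set q : ℝ := ∑ i, g i ^ 2 with hqd
  have hq0 : 0 ≤ q := Finset.sum_nonneg fun i _ => sq_nonneg _
  have hQ1 : q + s ^ 2 ≤ 1 := h.q1
  have hQ0 : 0 ≤ q + s ^ 2 := by positivity
  have hs0 := h.s0
  have hap : (s * ρ) ^ 2 ≤ 3/10 * (1 - (q + s ^ 2) ^ 2) := by
    have := h.ap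
    rw [← ha, ← hqd] at this
    rw [mul_pow, hρ2]
    norm_num at this ⊢
    linarith
  refine PJ_of_blocks data (11/10) lam g s τ ht ?_ ?_ (fun _ => 0) (by norm_num) ?_
  · show 0 < Real.sqrt (zv lam g s 0)
    rw [zv0, ← ha]; exact hρ
  · show 0 ≤ (14/25 - 3/20 * (zv lam g s 2 + zv lam g s 3 ^ 2)) * (Real.sqrt (zv lam g s 0))⁻¹
    rw [zv0, zv2, zv3, ← ha, ← hqd, ← hρd]
    have : 0 ≤ ρ⁻¹ := by positivity
    exact mul_nonneg (by linarith) this
  · intro k s0 w t htr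
    set x : ℝ := lam k / ρ with hx
    have hlam : lam k = ρ * x := by rw [hx]; field_simp
    obtain ⟨hk1, hk2⟩ := lam3 lam h.tr k
    have hx2 : 3 * x ^ 2 ≤ 2 := by
      rw [← ha, hlam, mul_pow, hρ2] at hk1
      have : a * (3 * x ^ 2) ≤ a * 2 := by linarith
      exact le_of_mul_le_mul_left this hpos
    -- the T-form
    have hG : 3 * (∑ i, lam i * t i) ^ 2 / (ρ ^ 2 * (1 + 6/5 * x ^ 2)) ≤ G3 k t := by
      have hK : 0 < ρ ^ 2 * (1 + 6/5 * x ^ 2) := by positivity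
      have h1 := G3_ge' k t lam htr h.tr (3 * (∑ i, lam i * t i) / (ρ ^ 2 * (1 + 6/5 * x ^ 2))) 0
      have e : K11 3 (lam k) (ps lam 2) = ρ ^ 2 * (1 + 6/5 * x ^ 2) / 3 := by
        rw [K11, ps, ← ha, hlam, ← hρ2]
        push_cast
        ring
      rw [e] at h1
      refine le_trans (le_of_eq ?_) h1
      field_simp
      ring
    have hb := block (T := G3 k t) (X1 := ∑ i, lam i * t i) (s0 := s0) (w := w) hρ hx2 hQ0 hQ1
      (rfl : q + s ^ 2 = q + s ^ 2) hq0 hs0 hap hG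
    refine le_trans hb (le_of_eq ?_)
    have hP3 : ps lam 3 = ρ ^ 3 * (3 * x ^ 3 - 3/2 * x) := by
      rw [ps, hk2, ← ha, hlam, ← hρ2]; ring
    have hP2 : ps lam 2 = ρ ^ 2 := by rw [ps, hρ2]
    simp only [Fb, base, data, cga, c0, c1, c2, c3, cZ, zv0, zv2, zv3, hP2, hP3, ← ha, ← hqd,
      ← hρd, hlam, Matrix.cons_val_zero, Matrix.cons_val_one, Matrix.cons_val]
    have hρi : ρ⁻¹ = 1 / ρ := (one_div ρ).symm
    rw [← hρ2]
    push_cast
    field_simp
    ring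

theorem BJ (lam : Fin 3 → ℝ) (k0 : Fin 3) (H : ℝ) (h1 : ∑ i, lam i = 0)
    (h2 : 0 < ∑ i, lam i ^ 2) (hH : 0 ≤ H) (hk : lam k0 = -H) :
    0 ≤ H * data.Z.f ![∑ i, lam i ^ 2, ∑ i, lam i ^ 3, 1, 0] +
      data.y0.f ![∑ i, lam i ^ 2, ∑ i, lam i ^ 3, 1, 0] -
      H * data.y1.f ![∑ i, lam i ^ 2, ∑ i, lam i ^ 3, 1, 0] +
      H ^ 2 * data.y2.f ![∑ i, lam i ^ 2, ∑ i, lam i ^ 3, 1, 0] -
      H ^ 3 * data.y3.f ![∑ i, lam i ^ 2, ∑ i, lam i ^ 3, 1, 0] -
      data.ga.f ![∑ i, lam i ^ 2, ∑ i, lam i ^ 3, 1, 0] *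
        (2 * H * (∑ i, lam i ^ 2) + ∑ i, lam i ^ 3) := by
  obtain ⟨hk1, hk2⟩ := lam3 lam h1 k0
  rw [hk2]
  set a : ℝ := ∑ i, lam i ^ 2 with ha
  set ρ : ℝ := Real.sqrt a with hρd
  have hρ : 0 < ρ := Real.sqrt_pos.2 h2
  have hρ2 : ρ ^ 2 = a := Real.sq_sqrt h2.le
  set x : ℝ := H / ρ with hx
  have hHx : H = ρ * x := by rw [hx]; field_simp
  have hx0 : 0 ≤ x := div_nonneg hH hρ.le
  have hx1 : x ≤ 1 := by
    rw [hk, neg_sq, hHx, mul_pow, hρ2] at hk1
    have : a * (3 * x ^ 2) ≤ a * 2 := by linarith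
    have := le_of_mul_le_mul_left this h2
    nlinarith
  have hb := mul_nonneg (sq_nonneg ρ) (bdry hx0 hx1)
  simp only [data, cZ, c0, c1, c2, c3, cga, Matrix.cons_val_zero, Matrix.cons_val_one,
    Matrix.cons_val, hk]
  rw [← hρd, hHx, ← hρ2]
  refine le_trans hb (le_of_eq ?_)
  field_simp
  ring

end Cert3

end Crest.Agent.R097
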