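import Crest.Agent.R097.CP2

/-!
# Row 97: certificate data for `n = 4` (class of helper462, vector rounded by helper870)
`A₀ = 3`, `Lam = 2.26`
-/

set_option autoImplicit false

namespace Crest.Agent.R097.CP

/-- data -/
def dat4_g : Pol :=
  [⟨1211, 0, 0, 0, 0⟩, ⟨-1086, 0, 0, 0, 1⟩, ⟨3000, 0, 0, 0, 2⟩, ⟨-116, 0, 0, 1, 0⟩,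
    ⟨2432, 0, 0, 1, 1⟩, ⟨-2752, 0, 0, 1, 2⟩, ⟨-210, 0, 0, 2, 0⟩, ⟨-1654, 0, 0, 2, 1⟩,
    ⟨346, 0, 1, 0, 0⟩, ⟨1574, 0, 1, 0, 1⟩, ⟨-501, 0, 1, 0, 2⟩, ⟨-1220, 0, 1, 1, 0⟩,
    ⟨-732, 0, 1, 1, 1⟩, ⟨423, 0, 1, 2, 0⟩, ⟨981, 1, 0, 0, 0⟩, ⟨123, 1, 0, 0, 1⟩,
    ⟨48, 1, 0, 0, 2⟩, ⟨-1096, 1, 0, 1, 0⟩, ⟨1560, 1, 0, 1, 1⟩, ⟨172, 1, 0, 2, 0⟩,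
    ⟨603, 1, 1, 0, 0⟩, ⟨-379, 1, 1, 0, 1⟩, ⟨-678, 1, 1, 1, 0⟩]

/-- data -/
def dat4_p0 : Pol :=
  [⟨-326, 0, 0, 0, 0⟩, ⟨3000, 0, 0, 0, 1⟩, ⟨60, 0, 0, 0, 2⟩, ⟨1227, 0, 0, 1, 0⟩,
    ⟨-2999, 0, 0, 1, 1⟩, ⟨-1442, 0, 0, 1, 2⟩, ⟨-364, 0, 0, 2, 0⟩, ⟨518, 0, 0, 2, 1⟩,
    ⟨-665, 0, 1, 0, 0⟩, ⟨2442, 0, 1, 0, 1⟩, ⟨401, 0, 1, 0, 2⟩, ⟨2999, 0, 1, 1, 0⟩,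
    ⟨-3000, 0, 1, 1, 1⟩, ⟨-2514, 0, 1, 2, 0⟩, ⟨1223, 1, 0, 0, 0⟩, ⟨-5957, 1, 0, 0, 1⟩,
    ⟨1117, 1, 0, 0, 2⟩, ⟨-1246, 1, 0, 1, 0⟩, ⟨5998, 1, 0, 1, 1⟩, ⟨1442, 1, 0, 1, 2⟩,
    ⟨-1028, 1, 0, 2, 0⟩, ⟨-518, 1, 0, 2, 1⟩, ⟨1102, 1, 1, 0, 0⟩, ⟨-201, 1, 1, 0, 1⟩,
    ⟨-82, 1, 1, 1, 0⟩, ⟨-897, 2, 0, 0, 0⟩, ⟨2957, 2, 0, 0, 1⟩, ⟨-1177, 2, 0, 0, 2⟩,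
    ⟨19, 2, 0, 1, 0⟩, ⟨-2999, 2, 0, 1, 1⟩, ⟨1392, 2, 0, 2, 0⟩]

/-- data -/
def dat4_p1 : Pol :=
  [⟨1270, 0, 0, 0, 0⟩, ⟨-1417, 0, 0, 0, 1⟩, ⟨2407, 0, 0, 0, 2⟩, ⟨-2615, 0, 0, 1, 0⟩,
    ⟨3000, 0, 0, 1, 1⟩, ⟨3000, 0, 0, 1, 2⟩, ⟨2151, 0, 0, 2, 0⟩, ⟨241, 0, 0, 2, 1⟩,
    ⟨-378, 0, 1, 0, 0⟩, ⟨-3000, 0, 1, 0, 1⟩, ⟨-2877, 0, 1, 0, 2⟩, ⟨-283, 0, 1, 1, 0⟩,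
    ⟨1068, 0, 1, 1, 1⟩, ⟨-437, 0, 1, 2, 0⟩, ⟨-1991, 1, 0, 0, 0⟩, ⟨-834, 1, 0, 0, 1⟩,
    ⟨-1506, 1, 0, 0, 2⟩, ⟨2643, 1, 0, 1, 0⟩, ⟨-3000, 1, 0, 1, 2⟩, ⟨-1460, 1, 0, 2, 0⟩,
    ⟨-241, 1, 0, 2, 1⟩, ⟨-1467, 1, 1, 0, 0⟩, ⟨1518, 1, 1, 0, 1⟩, ⟨1180, 1, 1, 1, 0⟩,
    ⟨2251, 2, 0, 0, 1⟩, ⟨-901, 2, 0, 0, 2⟩, ⟨-3000, 2, 0, 1, 1⟩]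

/-- data -/
def dat4_p2 : Pol :=
  [⟨-130, 0, 0, 0, 0⟩, ⟨2462, 0, 0, 0, 1⟩, ⟨880, 0, 0, 0, 2⟩, ⟨867, 0, 0, 1, 0⟩,
    ⟨-678, 0, 0, 1, 1⟩, ⟨1836, 0, 0, 1, 2⟩, ⟨-184, 0, 0, 2, 0⟩, ⟨-1140, 0, 0, 2, 1⟩,
    ⟨-2331, 0, 1, 0, 0⟩, ⟨2999, 0, 1, 0, 1⟩, ⟨-1496, 0, 1, 0, 2⟩, ⟨2764, 0, 1, 1, 0⟩,
    ⟨-2999, 0, 1, 1, 1⟩, ⟨-644, 0, 1, 2, 0⟩, ⟨-555, 1, 0, 0, 0⟩, ⟨666, 1, 0, 0, 1⟩,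
    ⟨-2057, 1, 0, 0, 2⟩, ⟨944, 1, 0, 1, 0⟩, ⟨-3000, 1, 0, 1, 1⟩, ⟨-63, 1, 0, 2, 0⟩,
    ⟨-205, 1, 1, 0, 0⟩, ⟨3000, 1, 1, 0, 1⟩, ⟨314, 1, 1, 1, 0⟩]

/-- data -/
def dat4_p3 : Pol :=
  []

/-- data -/
def dat4_Z : Pol :=
  [⟨1618, 0, 0, 0, 0⟩, ⟨-1158, 0, 0, 0, 1⟩, ⟨583, 0, 0, 0, 2⟩, ⟨47, 0, 0, 1, 0⟩,
    ⟨2964, 0, 0, 1, 1⟩, ⟨-772, 0, 0, 1, 2⟩, ⟨-217, 0, 0, 2, 0⟩, ⟨-1922, 0, 0, 2, 1⟩,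
    ⟨899, 0, 1, 0, 0⟩, ⟨-916, 0, 1, 0, 1⟩, ⟨329, 0, 1, 0, 2⟩, ⟨-3000, 0, 1, 1, 0⟩,
    ⟨1607, 0, 1, 1, 1⟩, ⟨1448, 0, 1, 2, 0⟩, ⟨-453, 1, 0, 0, 0⟩, ⟨312, 1, 0, 0, 1⟩,
    ⟨-111, 1, 0, 0, 2⟩, ⟨-3047, 1, 0, 1, 0⟩, ⟨33, 1, 0, 1, 1⟩, ⟨772, 1, 0, 1, 2⟩,
    ⟨1950, 1, 0, 2, 0⟩, ⟨1922, 1, 0, 2, 1⟩, ⟨-2040, 1, 1, 0, 0⟩, ⟨-364, 1, 1, 0, 1⟩,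
    ⟨2701, 1, 1, 1, 0⟩, ⟨-1165, 2, 0, 0, 0⟩, ⟨846, 2, 0, 0, 1⟩, ⟨-472, 2, 0, 0, 2⟩,
    ⟨3000, 2, 0, 1, 0⟩, ⟨-2997, 2, 0, 1, 1⟩, ⟨-1733, 2, 0, 2, 0⟩]

/-- the data for `n = 4` -/
def dat4 : Dat :=
  ⟨dat4_g, dat4_p0, dat4_p1, dat4_p2, dat4_p3, dat4_Z⟩

end Crest.Agent.R097.CP
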