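import Crest.Agent.R097.Calc

/-!
Row 97 (S0128): common definitions for part 1 (on top of `Base`, `IBP`, `Calc`).
`pos t` the indicator of `t > 0`, `dJ w u` the difference of the one-phase energies of `w` and `u`
(meaningful when `w - u` has compact support).
-/

set_option autoImplicit false
open MeasureTheory Metric Set Filter Topology
open scoped NNReal RealInnerProductSpace Gradient ContDiff Laplacian

namespace Crest.Agent.R097

variable {d : ℕ}

/-- indicator of positivity -/
noncomputable def pos (t : ℝ) : ℝ := if 0 < t then 1 else 0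

/-- density of the difference of the energies of `w` and `u` -/
noncomputable def eD (w u : E d → ℝ) (x : E d) : ℝ :=
  (‖∇ w x‖ ^ 2 - ‖∇ u x‖ ^ 2) + (pos (w x) - pos (u x))

/-- difference of the energies -/
noncomputable def dJ (w u : E d → ℝ) : ℝ := ∫ x, eD w u x

/-- one-homogeneous -/
def Hom1 (u : E d → ℝ) : Prop := ∀ r : ℝ, 0 < r → ∀ x, u (r • x) = r * u x

/-- the half-plane profile -/
noncomputable def hp (e : E d) (x : E d) : ℝ := max (inner ℝ x e) 0

/-- classification in dimension `d` -/
def Cls (d : ℕ) : Prop := ∀ (K : ℝ≥0) (u : E d → ℝ), LM u K → Hom1 u → (∃ x, u x ≠ 0) →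
  ∃ e : E d, ‖e‖ = 1 ∧ ∀ x, u x = hp e x

/-- blow-up at `x0` of radius `r` -/
noncomputable def blow (u : E d → ℝ) (x0 : E d) (r : ℝ) (x : E d) : ℝ := u (x0 + r • x) / r

/-- harmonic on an (open) set -/
def Harm (h : E d → ℝ) (Ω : Set (E d)) : Prop := ContDiffOn ℝ ∞ h Ω ∧ ∀ x ∈ Ω, (Δ h) x = 0

end Crest.Agent.R097
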