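import Crest.Agent.R097.Blow

/-! F2: dimension reduction. -/
set_option autoImplicit false
open MeasureTheory Metric Set Filter Topology
open scoped NNReal RealInnerProductSpace Gradient ContDiff Laplacian

namespace Crest.Agent.R097
variable {d : ℕ}

/-- the projection forgetting the last coordinate -/
noncomputable def prj (x : E (d + 1)) : E d := WithLp.toLp 2 (fun i => x i.castSucc)

namespace DR

@[simp] lemma prj_apply (x : E (d + 1)) (i : Fin d) : prj x i = x i.castSucc := rfl

/-- inclusion `y ↦ (y, s)` -/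
noncomputable def inc (y : E d) (s : ℝ) : E (d + 1) := WithLp.toLp 2 (Fin.snoc (α := fun _ => ℝ) (fun i => y i) s)

@[simp] lemma inc_last (y : E d) (s : ℝ) : inc y s (Fin.last d) = s := by simp [inc]

@[simp] lemma inc_cast (y : E d) (s : ℝ) (i : Fin d) : inc y s i.castSucc = y i := by simp [inc]

@[simp] lemma prj_inc (y : E d) (s : ℝ) : prj (inc y s) = y := by ext i; simp

lemma inc_prj (x : E (d + 1)) : inc (prj x) (x (Fin.last d)) = x := by
  ext i
  refine Fin.lastCases ?_ (fun j => ?_) i <;> simp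

/-- the projection as a continuous linear map -/
noncomputable def prjL : E (d + 1) →L[ℝ] E d :=
  LinearMap.toContinuousLinearMap
    { toFun := prj
      map_add' := fun x y => by ext i; simp
      map_smul' := fun c x => by ext i; simp }

@[simp] lemma prjL_apply (x : E (d + 1)) : prjL x = prj x := rfl

/-- the inclusion as a continuous linear map -/
noncomputable def incL : E d →L[ℝ] E (d + 1) :=
  LinearMap.toContinuousLinearMap
    { toFun := fun y => inc y 0
      map_add' := fun x y => by
        ext i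
        refine Fin.lastCases ?_ (fun j => ?_) i <;> simp
      map_smul' := fun c x => by
        ext i
        refine Fin.lastCases ?_ (fun j => ?_) i <;> simp }

@[simp] lemma incL_apply (y : E d) : incL y = inc y 0 := rfl

lemma norm_sq (x : E (d + 1)) : ‖x‖ ^ 2 = ‖prj x‖ ^ 2 + (x (Fin.last d)) ^ 2 := by
  rw [EuclideanSpace.norm_sq_eq, EuclideanSpace.norm_sq_eq, Fin.sum_univ_castSucc]
  simp

lemma norm_prj_le (x : E (d + 1)) : ‖prj x‖ ≤ ‖x‖ := by
  have := norm_sq x
  nlinarith [norm_nonneg x, norm_nonneg (prj x), sq_nonneg (x (Fin.last d)), sq_abs (x (Fin.last d)),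
    abs_nonneg (‖x‖ - ‖prj x‖)]

lemma abs_last_le (x : E (d + 1)) : |x (Fin.last d)| ≤ ‖x‖ := by
  have := norm_sq x
  apply abs_le_of_sq_le_sq _ (norm_nonneg _)
  nlinarith [sq_nonneg ‖prj x‖]

lemma norm_inc_zero (y : E d) : ‖inc y 0‖ = ‖y‖ := by
  have := norm_sq (inc y 0)
  simp only [prj_inc, inc_last, ne_eq, OfNat.ofNat_ne_zero, not_false_eq_true, zero_pow, add_zero] at this
  exact (sq_eq_sq₀ (norm_nonneg _) (norm_nonneg _)).1 this

lemma inner_inc (x : E (d + 1)) (y : E d) : inner ℝ x (inc y 0) = inner ℝ (prj x) y := by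
  simp only [PiLp.inner_apply, Fin.sum_univ_castSucc]
  simp

lemma lip_prj : LipschitzWith 1 (prj : E (d + 1) → E d) := by
  apply LipschitzWith.of_dist_le_mul
  intro x y
  have : prj x - prj y = prj (x - y) := by ext i; simp
  rw [dist_eq_norm, dist_eq_norm, this]
  simpa using norm_prj_le (x - y)

lemma lip_last : LipschitzWith 1 (fun x : E (d + 1) => x (Fin.last d)) := by
  apply LipschitzWith.of_dist_le_mul
  intro x y
  rw [Real.dist_eq, dist_eq_norm]
  simpa using abs_last_le (x - y)

lemma lip_inc : LipschitzWith 1 (fun y : E d => inc y 0) := by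
  apply LipschitzWith.of_dist_le_mul
  intro x y
  have : inc x 0 - inc y 0 = inc (x - y) 0 := by
    ext i
    refine Fin.lastCases ?_ (fun j => ?_) i <;> simp
  rw [dist_eq_norm, dist_eq_norm, this, norm_inc_zero]
  simp

lemma norm_grad_prj (f : E d → ℝ) (x : E (d + 1)) : ‖∇ (fun x => f (prj x)) x‖ = ‖∇ f (prj x)‖ := by
  rw [norm_gradient, norm_gradient]
  have hP : ‖(prjL : E (d + 1) →L[ℝ] E d)‖ ≤ 1 :=
    ContinuousLinearMap.opNorm_le_bound _ zero_le_one fun x => by simpa using norm_prj_le x
  have hI : ‖(incL : E d →L[ℝ] E (d + 1))‖ ≤ 1 :=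
    ContinuousLinearMap.opNorm_le_bound _ zero_le_one fun x => by simp [norm_inc_zero]
  by_cases hf : DifferentiableAt ℝ f (prj x)
  · have h1 : fderiv ℝ (fun x => f (prj x)) x = (fderiv ℝ f (prj x)).comp prjL := by
      have : HasFDerivAt (fun x => f (prj x)) ((fderiv ℝ f (prj x)).comp prjL) x :=
        (hf.hasFDerivAt).comp x (prjL : E (d + 1) →L[ℝ] E d).hasFDerivAt
      exact this.fderiv
    rw [h1]
    apply le_antisymm
    · refine (ContinuousLinearMap.opNorm_comp_le _ _).trans ?_
      exact mul_le_of_le_one_right (norm_nonneg _) hP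
    · have h2 : fderiv ℝ f (prj x) = ((fderiv ℝ f (prj x)).comp prjL).comp incL := by
        ext y; simp
      calc ‖fderiv ℝ f (prj x)‖ = ‖((fderiv ℝ f (prj x)).comp prjL).comp incL‖ := by rw [← h2]
        _ ≤ _ := ContinuousLinearMap.opNorm_comp_le _ _
        _ ≤ _ := mul_le_of_le_one_right (norm_nonneg _) hI
  · have h1 : ¬ DifferentiableAt ℝ (fun x => f (prj x)) x := by
      intro h
      apply hf
      have h3 : f = (fun x => f (prj x)) ∘ fun y => x + incL (y - prj x) := by
        funext y
        have : prj (x + incL (y - prj x)) = y := by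
          ext i; simp
        simp only [Function.comp, this]
      rw [h3]
      have h4 : DifferentiableAt ℝ (fun y => x + (incL : E d →L[ℝ] E (d + 1)) (y - prj x)) (prj x) := by
        fun_prop
      apply DifferentiableAt.comp _ _ h4
      have h5 : x + (incL : E d →L[ℝ] E (d + 1)) (prj x - prj x) = x := by
        rw [sub_self, map_zero, add_zero]
      rw [h5]; exact h
    rw [fderiv_zero_of_not_differentiableAt hf, fderiv_zero_of_not_differentiableAt h1]
    simp

/-- the splitting of the volume -/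
noncomputable def spl : E (d + 1) ≃ᵐ ℝ × E d :=
  (MeasurableEquiv.toLp 2 (Fin (d + 1) → ℝ)).symm.trans
    ((MeasurableEquiv.piFinSuccAbove (fun _ => ℝ) (Fin.last d)).trans
      (MeasurableEquiv.prodCongr (MeasurableEquiv.refl ℝ) (MeasurableEquiv.toLp 2 (Fin d → ℝ))))

lemma spl_apply (x : E (d + 1)) : spl x = (x (Fin.last d), prj x) := by
  simp only [spl, MeasurableEquiv.trans_apply]
  refine Prod.ext rfl ?_
  ext i
  simp [MeasurableEquiv.prodCongr, MeasurableEquiv.piFinSuccAbove, Fin.init]

lemma mp_spl : MeasurePreserving (spl : E (d + 1) → ℝ × E d) volume volume := by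
  have h1 := EuclideanSpace.volume_preserving_symm_measurableEquiv_toLp (Fin (d + 1))
  have h2 := volume_preserving_piFinSuccAbove (fun _ : Fin (d + 1) => ℝ) (Fin.last d)
  have h3 := (MeasurePreserving.id (volume : Measure ℝ)).prod
    (EuclideanSpace.volume_preserving_symm_measurableEquiv_toLp (Fin d)).symm
  exact h3.comp (h2.comp h1)

lemma spl_inc (y : E d) (s : ℝ) : (spl : E (d + 1) ≃ᵐ ℝ × E d) (inc y s) = (s, y) := by
  rw [spl_apply]; simp

/-- cut-off in the last variable -/
noncomputable def ct (M s : ℝ) : ℝ := max 0 (min 1 (M + 1 - |s|))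

lemma ct_nonneg (M s : ℝ) : 0 ≤ ct M s := le_max_left _ _
lemma ct_le (M s : ℝ) : ct M s ≤ 1 := max_le zero_le_one (min_le_left _ _)
lemma ct_one {M s : ℝ} (h : |s| ≤ M) : ct M s = 1 := by
  unfold ct; rw [min_eq_left (by linarith), max_eq_right zero_le_one]
lemma ct_zero {M s : ℝ} (h : M + 1 ≤ |s|) : ct M s = 0 := by
  unfold ct; rw [max_eq_left]; exact (min_le_right _ _).trans (by linarith)
lemma ct_lip (M s t : ℝ) : |ct M s - ct M t| ≤ |s - t| := by
  unfold ct
  calc |max 0 (min 1 (M + 1 - |s|)) - max 0 (min 1 (M + 1 - |t|))|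
      ≤ |min 1 (M + 1 - |s|) - min 1 (M + 1 - |t|)| := by
        rw [max_comm 0, max_comm 0]
        exact abs_max_sub_max_le_abs _ _ _
    _ ≤ |(M + 1 - |s|) - (M + 1 - |t|)| := by
        rw [min_comm 1, min_comm 1]
        refine (abs_min_sub_min_le_max _ _ _ _).trans ?_
        simp
    _ = |(|s| - |t|)| := by rw [← abs_neg]; congr 1; ring
    _ ≤ |s - t| := abs_abs_sub_abs_le_abs_sub s t

/-- the competitor -/
noncomputable def cmpW (w w' : E d → ℝ) (M : ℝ) (x : E (d + 1)) : ℝ :=
  w (prj x) + ct M (x (Fin.last d)) * (w' (prj x) - w (prj x))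

lemma cmp_lip {w w' : E d → ℝ} {K L B : ℝ≥0} (hw : LipschitzWith K w) (hw' : LipschitzWith L w')
    (hB : ∀ y, |w' y - w y| ≤ B) (M : ℝ) : LipschitzWith (K + (B + (L + K))) (cmpW w w' M) := by
  apply LipschitzWith.of_dist_le_mul
  intro x y
  have h1 : |w (prj x) - w (prj y)| ≤ K * dist x y := by
    have := hw.dist_le_mul (prj x) (prj y)
    rw [Real.dist_eq] at this
    refine this.trans (mul_le_mul_of_nonneg_left ?_ K.2)
    simpa using lip_prj.dist_le_mul x y
  have h2 : |w' (prj x) - w' (prj y)| ≤ L * dist x y := by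
    have := hw'.dist_le_mul (prj x) (prj y)
    rw [Real.dist_eq] at this
    refine this.trans (mul_le_mul_of_nonneg_left ?_ L.2)
    simpa using lip_prj.dist_le_mul x y
  have h3 : |ct M (x (Fin.last d)) - ct M (y (Fin.last d))| ≤ dist x y := by
    refine (ct_lip M _ _).trans ?_
    have := lip_last.dist_le_mul x y
    rw [Real.dist_eq] at this
    simpa using this
  rw [Real.dist_eq]
  unfold cmpW
  set a := ct M (x (Fin.last d))
  set b := ct M (y (Fin.last d))
  have hb0 : 0 ≤ b := ct_nonneg _ _
  have hb1 : b ≤ 1 := ct_le _ _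
  have e : w (prj x) + a * (w' (prj x) - w (prj x)) - (w (prj y) + b * (w' (prj y) - w (prj y)))
      = (w (prj x) - w (prj y)) + (a - b) * (w' (prj x) - w (prj x))
        + b * ((w' (prj x) - w' (prj y)) - (w (prj x) - w (prj y))) := by ring
  rw [e]
  calc _ ≤ |w (prj x) - w (prj y)| + |a - b| * |w' (prj x) - w (prj x)|
        + |b| * |(w' (prj x) - w' (prj y)) - (w (prj x) - w (prj y))| := by
        refine (abs_add_le _ _).trans ?_
        rw [abs_mul]
        gcongr
        refine (abs_add_le _ _).trans ?_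
        rw [abs_mul]
    _ ≤ K * dist x y + dist x y * B + 1 * (L * dist x y + K * dist x y) := by
        gcongr
        · exact hB _
        · rw [abs_of_nonneg hb0]; exact hb1
        · exact (abs_sub _ _).trans (by gcongr)
    _ = _ := by push_cast; ring

lemma cmp_sub (w w' : E d → ℝ) (M : ℝ) (x : E (d + 1)) :
    cmpW w w' M x - w (prj x) = ct M (x (Fin.last d)) * (w' (prj x) - w (prj x)) := by
  unfold cmpW; ring

lemma cmp_tsupport (w w' : E d → ℝ) (M : ℝ) :
    tsupport (fun x => cmpW w w' M x - w (prj x)) ⊆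
      {x : E (d + 1) | |x (Fin.last d)| ≤ M + 1 ∧ prj x ∈ tsupport (fun y => w' y - w y)} := by
  apply closure_minimal
  · intro x hx
    rw [Function.mem_support, cmp_sub] at hx
    constructor
    · by_contra h
      exact hx (by rw [ct_zero (le_of_lt (not_le.1 h)), zero_mul])
    · apply subset_tsupport
      rw [Function.mem_support]
      exact right_ne_zero_of_mul hx
  · apply IsClosed.inter
    · exact isClosed_le (lip_last.continuous.abs) continuous_const
    · exact (isClosed_tsupport _).preimage lip_prj.continuous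

lemma cmp_compact {w w' : E d → ℝ} (M : ℝ) (hM : 0 ≤ M) (hc : HasCompactSupport (fun y => w' y - w y)) :
    HasCompactSupport (fun x => cmpW w w' M x - w (prj x)) := by
  obtain ⟨R, hR⟩ := hc.isCompact.isBounded.subset_closedBall 0
  apply HasCompactSupport.of_support_subset_isCompact (isCompact_closedBall (0 : E (d + 1)) (|R| + (M + 1)))
  refine (subset_tsupport _).trans ((cmp_tsupport w w' M).trans ?_)
  rintro x ⟨h1, h2⟩
  have h3 := hR h2
  rw [mem_closedBall_zero_iff] at h3 ⊢
  have h4 := norm_sq x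
  have h5 : ‖prj x‖ ≤ |R| := h3.trans (le_abs_self R)
  apply le_of_sq_le_sq _ (by positivity)
  rw [h4, ← sq_abs (x (Fin.last d))]
  nlinarith [norm_nonneg (prj x), abs_nonneg (x (Fin.last d)), abs_nonneg R,
    mul_nonneg (abs_nonneg R) (by linarith : (0 : ℝ) ≤ M + 1)]

end DR

open DR in
/-- a minimiser on `E (d+1)` that does not depend on the last coordinate is a minimiser on `E d` -/
theorem LM_slice {K : ℝ≥0} {w : E d → ℝ} (hw : LipschitzWith K w) (h : LM (fun x : E (d + 1) => w (prj x)) K) :
    LM w K := by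
  apply LM.of_dJ (fun y => by simpa using h.nonneg (inc y 0)) hw
  intro w' L hw' h0' hc
  by_contra hneg
  push Not at hneg
  set c := - dJ w' w with hcdef
  have hc0 : 0 < c := by rw [hcdef]; linarith
  -- bound for `w' - w`
  obtain ⟨B, hB⟩ : ∃ B : ℝ≥0, ∀ y, |w' y - w y| ≤ B := by
    have hcont : Continuous (fun y => w' y - w y) := hw'.continuous.sub hw.continuous
    obtain ⟨C, hC⟩ := hcont.bounded_above_of_compact_support hc
    refine ⟨⟨max C 0, le_max_right _ _⟩, fun y => ?_⟩
    exact (hC y).trans (le_max_left _ _)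
  set LW : ℝ≥0 := K + (B + (L + K)) with hLW
  set T := tsupport (fun y => w' y - w y) with hT
  have hTc : IsCompact T := hc
  set V := (volume T).toReal with hV
  have hVfin : volume T < ⊤ := hTc.measure_lt_top
  set C1 : ℝ := (LW : ℝ) ^ 2 + (K : ℝ) ^ 2 + 1 with hC1
  have hC1p : 0 ≤ C1 := by positivity
  set C2 : ℝ := C1 * V with hC2
  have hC2p : 0 ≤ C2 := by positivity
  set M : ℝ := (C2 + 1) / c with hM
  have hMp : 0 < M := by positivity
  set W := cmpW w w' M with hW
  have hWl : LipschitzWith LW W := cmp_lip hw hw' hB M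
  have hW0 : ∀ x, 0 ≤ W x := by
    intro x
    have h1 := ct_nonneg M (x (Fin.last d))
    have h2 := ct_le M (x (Fin.last d))
    have h3 := h0' (prj x)
    have h4 : 0 ≤ w (prj x) := h.nonneg x
    have : W x = (1 - ct M (x (Fin.last d))) * w (prj x) + ct M (x (Fin.last d)) * w' (prj x) := by
      rw [hW]; unfold cmpW; ring
    rw [this]
    have := mul_nonneg (sub_nonneg.2 h2) h4
    have := mul_nonneg h1 h3
    linarith
  have hWc : HasCompactSupport (fun x => W x - w (prj x)) := cmp_compact M hMp.le hc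
  have hmain := h.dJ_nonneg hWl hW0 hWc
  -- integrability
  have hint : Integrable (eD W (fun x : E (d + 1) => w (prj x))) := eD_integrable hWl h.lip hWc
  set G := eD W (fun x : E (d + 1) => w (prj x)) with hG
  set g : ℝ × E d → ℝ := fun p => G (inc p.2 p.1) with hg
  have hgs : ∀ x : E (d + 1), g (spl x) = G x := by
    intro x
    rw [spl_apply, hg]
    simp only [inc_prj]
  have hgint : Integrable g (volume : Measure (ℝ × E d)) := by
    rw [← mp_spl.integrable_comp_emb (spl : E (d + 1) ≃ᵐ ℝ × E d).measurableEmbedding]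
    refine hint.congr (Filter.Eventually.of_forall fun x => ?_)
    simp only [Function.comp, hgs]
  have hdJ : dJ W (fun x : E (d + 1) => w (prj x)) = ∫ s : ℝ, ∫ y : E d, g (s, y) := by
    unfold dJ
    rw [← hG]
    calc ∫ x, G x = ∫ x, g (spl x) := by simp only [hgs]
      _ = ∫ p, g p := mp_spl.integral_comp' (f := spl) g
      _ = _ := by rw [Measure.volume_eq_prod] at hgint ⊢; exact integral_prod g hgint
  -- pointwise bounds
  have hb : ∀ x, |G x| ≤ C1 := by
    intro x
    rw [hG]; unfold eD
    have h1 := norm_grad_le hWl x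
    have h2 := norm_grad_le h.lip x
    have h3 := pos_nonneg (W x)
    have h4 := pos_le_one (W x)
    have h5 := pos_nonneg (w (prj x))
    have h6 := pos_le_one (w (prj x))
    have h7 : ‖∇ W x‖ ^ 2 ≤ (LW : ℝ) ^ 2 := pow_le_pow_left₀ (norm_nonneg _) h1 2
    have h8 : ‖∇ (fun x : E (d + 1) => w (prj x)) x‖ ^ 2 ≤ (K : ℝ) ^ 2 := pow_le_pow_left₀ (norm_nonneg _) h2 2
    have h9 := sq_nonneg ‖∇ W x‖
    have h10 := sq_nonneg ‖∇ (fun x : E (d + 1) => w (prj x)) x‖
    rw [abs_le]
    constructor <;> simp only [hC1] <;> linarith [sq_nonneg (K : ℝ), sq_nonneg (LW : ℝ)]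
  have hz : ∀ s y, (M + 1 < |s| ∨ y ∉ T) → g (s, y) = 0 := by
    intro s y hsy
    rw [hg]; simp only; rw [hG]
    apply eD_zero
    intro hx
    have := cmp_tsupport w w' M hx
    simp only [Set.mem_ofPred_eq, inc_last, prj_inc] at this
    rcases hsy with h1 | h1
    · linarith [this.1]
    · exact h1 this.2
  have hin : ∀ s y, |s| < M → g (s, y) = eD w' w y := by
    intro s y hs
    rw [hg]; simp only; rw [hG]
    have hop : IsOpen {x : E (d + 1) | |x (Fin.last d)| < M} :=
      isOpen_lt (lip_last.continuous.abs) continuous_const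
    have hmem : inc y s ∈ {x : E (d + 1) | |x (Fin.last d)| < M} := by
      simpa using hs
    have hev : W =ᶠ[𝓝 (inc y s)] fun x => w' (prj x) := by
      filter_upwards [hop.mem_nhds hmem] with x hx
      rw [hW]; unfold cmpW
      rw [ct_one (le_of_lt hx)]; ring
    have hgr : ∇ W (inc y s) = ∇ (fun x : E (d + 1) => w' (prj x)) (inc y s) := by
      unfold gradient; rw [hev.fderiv_eq]
    unfold eD
    rw [hgr, norm_grad_prj, norm_grad_prj, hev.eq_of_nhds]
    simp only [prj_inc]
  -- the slices
  set H : ℝ → ℝ := fun s => ∫ y : E d, g (s, y) with hH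
  have hHint : Integrable H := by
    rw [Measure.volume_eq_prod] at hgint
    exact hgint.integral_prod_left
  have hH1 : ∀ s, |s| < M → H s = -c := by
    intro s hs
    rw [hH]; simp only
    rw [hcdef, neg_neg]
    unfold dJ
    exact integral_congr_ae (Filter.Eventually.of_forall fun y => hin s y hs)
  have hH2 : ∀ s, M + 1 < |s| → H s = 0 := by
    intro s hs
    rw [hH]; simp only
    rw [← integral_zero (E d) ℝ]
    exact integral_congr_ae (Filter.Eventually.of_forall fun y => hz s y (Or.inl hs))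
  have hH3 : ∀ s, H s ≤ C2 := by
    intro s
    rw [hH]; simp only
    have h1 : ∫ y : E d, g (s, y) = ∫ y in T, g (s, y) := by
      rw [setIntegral_eq_integral_of_forall_compl_eq_zero]
      intro y hy; exact hz s y (Or.inr hy)
    rw [h1]
    refine (le_abs_self _).trans ?_
    rw [← Real.norm_eq_abs]
    have := norm_setIntegral_le_of_norm_le_const (μ := volume) (s := T) (f := fun y => g (s, y)) (C := C1) hVfin
      (fun y _ => by rw [Real.norm_eq_abs]; exact hb _)
    exact this
  set hf : ℝ → ℝ := fun s => (Icc (-(M + 1)) (M + 1)).indicator (fun _ => C2) s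
    + (Ioo (-M) M).indicator (fun _ => -c - C2) s with hhf
  have hle : ∀ s, H s ≤ hf s := by
    intro s
    rw [hhf]; simp only
    by_cases h1 : |s| < M
    · rw [hH1 s h1, indicator_of_mem, indicator_of_mem]
      · linarith
      · rw [mem_Ioo]; exact abs_lt.1 h1
      · rw [mem_Icc]; exact abs_le.1 (by linarith)
    · have h2 : s ∉ Ioo (-M) M := by rw [mem_Ioo]; intro h3; exact h1 (abs_lt.2 h3)
      rw [indicator_of_notMem h2, add_zero]
      by_cases h3 : |s| ≤ M + 1
      · rw [indicator_of_mem (by rw [mem_Icc]; exact abs_le.1 h3)]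
        exact hH3 s
      · rw [hH2 s (not_le.1 h3)]
        exact indicator_nonneg (fun _ _ => hC2p) s
  have hi1 : Integrable (fun s => (Icc (-(M + 1)) (M + 1)).indicator (fun _ => C2) s) := by
    apply IntegrableOn.integrable_indicator _ measurableSet_Icc
    exact integrableOn_const (by simp)
  have hi2 : Integrable (fun s => (Ioo (-M) M).indicator (fun _ => -c - C2) s) := by
    apply IntegrableOn.integrable_indicator _ measurableSet_Ioo
    exact integrableOn_const (by simp)
  have hhfi : ∫ s, hf s = C2 * (2 * (M + 1)) + (-c - C2) * (2 * M) := by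
    rw [hhf, integral_add hi1 hi2, integral_indicator measurableSet_Icc, integral_indicator measurableSet_Ioo,
      setIntegral_const, setIntegral_const]
    simp only [Measure.real, Real.volume_Icc, Real.volume_Ioo, smul_eq_mul]
    rw [ENNReal.toReal_ofReal (by linarith), ENNReal.toReal_ofReal (by linarith)]
    ring
  have hfin : dJ W (fun x : E (d + 1) => w (prj x)) ≤ C2 * (2 * (M + 1)) + (-c - C2) * (2 * M) := by
    rw [hdJ, ← hhfi]
    exact integral_mono hHint (hi1.add hi2) hle
  have hcM : c * M = C2 + 1 := by rw [hM]; field_simp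
  nlinarith

namespace DR

/-- a linear isometry taking the last basis vector to a given unit vector -/
lemma exists_isom {e : E (d + 1)} (he : ‖e‖ = 1) :
    ∃ L : E (d + 1) ≃ₗᵢ[ℝ] E (d + 1), L (inc 0 1) = e := by
  have h : ‖(inc (0 : E d) 1 : E (d + 1))‖ = ‖e‖ := by
    rw [he]
    have := norm_sq (inc (0 : E d) 1)
    simp only [prj_inc, norm_zero, inc_last] at this
    norm_num at this
    rcases this with h | h
    · exact h
    · linarith [norm_nonneg (inc (0 : E d) 1 : E (d + 1))]
  exact ⟨Submodule.reflection _, Submodule.reflection_sub h⟩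

end DR

open DR in
theorem Cls_cyl (hc : Cls d) {K : ℝ≥0} {u : E (d + 1) → ℝ} (hu : LM u K) (hh : Hom1 u) (hne : ∃ x, u x ≠ 0)
    {x0 : E (d + 1)} (hx : x0 ≠ 0) (hi : ∀ x (t : ℝ), u (x + t • x0) = u x) :
    ∃ e : E (d + 1), ‖e‖ = 1 ∧ ∀ x, u x = hp e x := by
  have hx' : ‖x0‖ ≠ 0 := norm_ne_zero_iff.2 hx
  obtain ⟨L, hL⟩ := exists_isom (d := d) (e := (‖x0‖)⁻¹ • x0) (by
    rw [norm_smul, norm_inv, norm_norm, inv_mul_cancel₀ hx'])
  have hv := hu.isom L
  set w : E d → ℝ := fun y => u (L (inc y 0)) with hw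
  have hvw : (fun x : E (d + 1) => u (L x)) = fun x => w (prj x) := by
    funext x
    rw [hw]; simp only
    have h1 : x = inc (prj x) 0 + (x (Fin.last d)) • inc 0 1 := by
      ext i
      refine Fin.lastCases ?_ (fun j => ?_) i <;> simp
    have h2 : L x = L (inc (prj x) 0) + (x (Fin.last d) * (‖x0‖)⁻¹) • x0 := by
      conv_lhs => rw [h1]
      rw [map_add, map_smul, hL, smul_smul]
    rw [h2, hi]
  rw [hvw] at hv
  have hwl : LipschitzWith K w := by
    have := (hu.lip.comp L.lipschitz).comp lip_inc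
    rw [mul_one, mul_one] at this
    exact this
  have hwLM : LM w K := LM_slice hwl hv
  have hwh : Hom1 w := by
    intro r hr x
    rw [hw]; simp only
    have : inc (r • x) 0 = r • inc x 0 := by
      ext i
      refine Fin.lastCases ?_ (fun j => ?_) i <;> simp
    rw [this, map_smul, hh r hr]
  have hwne : ∃ y, w y ≠ 0 := by
    obtain ⟨x, hx⟩ := hne
    refine ⟨prj (L.symm x), ?_⟩
    have := congrFun hvw (L.symm x)
    simp only [LinearIsometryEquiv.apply_symm_apply] at this
    rw [← this]; exact hx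
  obtain ⟨e, he, hwe⟩ := hc K w hwLM hwh hwne
  refine ⟨L (inc e 0), ?_, fun x => ?_⟩
  · rw [L.norm_map, norm_inc_zero, he]
  · have h1 := congrFun hvw (L.symm x)
    simp only [LinearIsometryEquiv.apply_symm_apply] at h1
    rw [h1, hwe]
    unfold hp
    rw [← inner_inc, ← L.inner_map_map, LinearIsometryEquiv.apply_symm_apply]

/-- flatness at the free boundary points of a cone, away from the vertex -/
theorem cone_flat (hd : 1 ≤ d) (hc : Cls d) {K : ℝ≥0} {u : E (d + 1) → ℝ} (hu : LM u K) (hh : Hom1 u)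
    {x0 : E (d + 1)} (hx : x0 ∈ frontier {x | 0 < u x}) (hx0 : x0 ≠ 0) {ε : ℝ} (hε : 0 < ε) :
    ∃ (r : ℝ) (e : E (d + 1)), 0 < r ∧ r < ε ∧ ‖e‖ = 1 ∧ ∀ x ∈ ball x0 r,
      max (inner ℝ (x - x0) e - ε * r) 0 ≤ u x ∧ u x ≤ max (inner ℝ (x - x0) e + ε * r) 0 := by
  have hu0 : u x0 = 0 := by
    have hop : IsOpen {x | 0 < u x} := isOpen_lt continuous_const hu.lip.continuous
    rw [hop.frontier_eq] at hx
    exact le_antisymm (not_lt.1 hx.2) (hu.nonneg x0)
  set r : ℕ → ℝ := fun k => ε / (k + 2) with hr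
  have hr0 : ∀ k, 0 < r k := fun k => by rw [hr]; positivity
  have hrε : ∀ k, r k < ε := fun k => by
    rw [hr]; simp only
    rw [div_lt_iff₀ (by positivity)]
    nlinarith [(Nat.cast_nonneg k : (0 : ℝ) ≤ k)]
  have hrlim : Tendsto r atTop (𝓝 0) := by
    rw [hr]
    exact tendsto_const_nhds.div_atTop (tendsto_atTop_add_const_right _ _ tendsto_natCast_atTop_atTop)
  obtain ⟨φ, v, hφ, hv, hvh, hvne, hlim⟩ := blowup (by omega) hu hx hr0 hrlim
  have hinv := blowup_inv hu.lip hh hu0 (fun k => hr0 (φ k)) (hrlim.comp hφ.tendsto_atTop) hlim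
  obtain ⟨e, he, hve⟩ := Cls_cyl hc hv hvh hvne hx0 hinv
  obtain ⟨ε0, hε0, hnd⟩ := nondeg (d + 1) (by omega)
  -- radius and tolerance
  set ρ : ℝ := min (ε / 2) 1 with hρ
  have hρ0 : 0 < ρ := lt_min (by linarith) one_pos
  have hρ1 : ρ ≤ 1 := min_le_right _ _
  have hρ2 : ρ ≤ ε / 2 := min_le_left _ _
  set δ : ℝ := min (ε / 2) (ε0 * ρ) with hδ
  have hδ0 : 0 < δ := lt_min (by linarith) (by positivity)
  have hδ1 : δ ≤ ε / 2 := min_le_left _ _
  have hδ2 : δ ≤ ε0 * ρ := min_le_right _ _
  have hbl : ∀ k, LM (Crest.Agent.R097.blow u x0 (r (φ k))) K := fun k => hu.blow x0 (hr0 _)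
  have hunif := unif_of_ptw (fun k => (hbl k).lip) hlim 2
  rw [Metric.tendstoUniformlyOn_iff] at hunif
  obtain ⟨k, hk⟩ := (hunif δ hδ0).exists
  refine ⟨r (φ k), e, hr0 _, hrε _, he, ?_⟩
  intro x hxb
  set R := r (φ k) with hR
  have hRp : 0 < R := hr0 _
  set y : E (d + 1) := R⁻¹ • (x - x0) with hy
  have hyx : x = x0 + R • y := by
    rw [hy, smul_smul, mul_inv_cancel₀ hRp.ne', one_smul]; abel
  have hyn : ‖y‖ < 1 := by
    rw [hy, norm_smul, norm_inv, Real.norm_of_nonneg hRp.le, inv_mul_lt_iff₀ hRp, mul_one]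
    simpa [dist_eq_norm] using hxb
  have hux : u x = R * Crest.Agent.R097.blow u x0 R y := by
    unfold Crest.Agent.R097.blow
    rw [← hyx]; field_simp
  have hin : inner ℝ (x - x0) e = R * inner ℝ y e := by
    rw [hyx, add_sub_cancel_left, real_inner_smul_left]
  -- bounds for the blow-up
  set b := Crest.Agent.R097.blow u x0 R with hb
  have hbv : ∀ z, ‖z‖ ≤ 2 → |b z - hp e z| < δ := by
    intro z hz
    have := hk z (by simpa using hz)
    rw [dist_comm, Real.dist_eq, hve z] at this
    exact this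
  have hb0 : 0 ≤ b y := (hbl k).nonneg y
  have h1 := hbv y (by linarith)
  rw [abs_lt] at h1
  unfold hp at h1
  rw [hux, hin]
  have hlow : max (inner ℝ y e - ε) 0 ≤ b y := by
    apply max_le _ hb0
    have := le_max_left (inner ℝ y e) 0
    linarith [h1.1]
  have hup : b y ≤ max (inner ℝ y e + ε) 0 := by
    by_cases h2 : inner ℝ y e < -ρ
    · -- nondegeneracy
      have h3 : b y = 0 := by
        apply hnd K b (hbl k) y ρ hρ0 _ y (mem_ball_self (by linarith))
        intro z hz
        rw [mem_ball, dist_eq_norm] at hz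
        have h4 : ‖z‖ ≤ 2 := by
          have := norm_add_le (z - y) y
          rw [sub_add_cancel] at this
          linarith
        have h5 : inner ℝ z e ≤ 0 := by
          have h6 : inner ℝ z e = inner ℝ y e + inner ℝ (z - y) e := by
            rw [inner_sub_left]; ring
          have h7 : inner ℝ (z - y) e ≤ ‖z - y‖ * ‖e‖ := real_inner_le_norm _ _
          rw [he, mul_one] at h7
          linarith
        have h6 := hbv z h4
        unfold hp at h6
        rw [max_eq_right h5, sub_zero, abs_lt] at h6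
        linarith [h6.2]
      rw [h3]; exact le_max_right _ _
    · push Not at h2
      refine le_trans ?_ (le_max_left _ _)
      rcases le_total 0 (inner ℝ y e) with h3 | h3
      · rw [max_eq_left h3] at h1; linarith [h1.2]
      · rw [max_eq_right h3] at h1; linarith [h1.2]
  constructor
  · calc max (R * inner ℝ y e - ε * R) 0 = R * max (inner ℝ y e - ε) 0 := by
          rw [mul_max_of_nonneg _ _ hRp.le]; congr 1 <;> ring
      _ ≤ _ := mul_le_mul_of_nonneg_left hlow hRp.le
  · calc R * b y ≤ R * max (inner ℝ y e + ε) 0 := mul_le_mul_of_nonneg_left hup hRp.le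
      _ = _ := by rw [mul_max_of_nonneg _ _ hRp.le]; congr 1 <;> ring

end Crest.Agent.R097
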