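import Crest.Agent.R097.HPoly

/-!
# Row 97 (H2): uniform approximation of even Lipschitz functions near the sphere `|x| = 1/2` by
even harmonic polynomials
-/

set_option autoImplicit false
open MeasureTheory Metric Set Filter Topology InnerProductSpace
open scoped RealInnerProductSpace NNReal ENNReal Gradient Laplacian ContDiff

namespace Crest.Agent.R097

namespace HP

variable {d : ℕ}

/-- Stone-Weierstrass on a closed ball -/
lemma exists_poly_near (g : E d → ℝ) (hg : Continuous g) (s : ℝ) {ε : ℝ} (hε : 0 < ε) :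
    ∃ p : MvPolynomial (Fin d) ℝ, ∀ x ∈ closedBall (0 : E d) s, |ev p x - g x| < ε := by
  let c : Fin d → C(E d, ℝ) := fun i => ⟨fun x => x i, (EuclideanSpace.proj i : E d →L[ℝ] ℝ).continuous⟩
  let φ : MvPolynomial (Fin d) ℝ →ₐ[ℝ] C(E d, ℝ) := MvPolynomial.aeval c
  have hφ : ∀ p (x : E d), φ p x = ev p x := by
    intro p x
    induction p using MvPolynomial.induction_on with
    | C a => simp [φ, ev]
    | add p q hp hq => rw [map_add, ContinuousMap.add_apply, hp, hq, ev_add]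
    | mul_X p i hp =>
      rw [map_mul, ContinuousMap.mul_apply, hp, ev_mul, ev_X]
      congr 1
      simp only [φ, MvPolynomial.aeval_X]
      rfl
  have hsep : φ.range.SeparatesPoints := by
    intro x y hxy
    have : ∃ i, x i ≠ y i := by
      by_contra hcon
      push Not at hcon
      exact hxy (by ext i; exact hcon i)
    obtain ⟨i, hi⟩ := this
    refine ⟨c i, ⟨c i, ⟨MvPolynomial.X i, by simp [φ]⟩, rfl⟩, hi⟩
  obtain ⟨q, ⟨p, rfl⟩, hq⟩ :=
    ContinuousMap.exists_mem_subalgebra_near_continuous_of_isCompact_of_separatesPoints hsep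
      ⟨g, hg⟩ (isCompact_closedBall (0 : E d) s) hε
  refine ⟨p, fun x hx => ?_⟩
  have := hq x hx
  rw [Real.norm_eq_abs] at this
  have h2 : (φ p : C(E d, ℝ)) x = ev p x := hφ p x
  simpa [h2] using this

/-- the Laplacian commutes with isometries -/
lemma laplacian_comp_isometry {f : E d → ℝ} (hf : ContDiff ℝ 2 f) (R : E d ≃ₗᵢ[ℝ] E d) (x : E d) :
    (Δ (fun y => f (R y))) x = (Δ f) (R x) := by
  have h1 := congrFun (laplacian_eq_iteratedFDeriv_orthonormalBasis (fun y => f (R y))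
    (EuclideanSpace.basisFun (Fin d) ℝ)) x
  have h2 := congrFun (laplacian_eq_iteratedFDeriv_orthonormalBasis f
    ((EuclideanSpace.basisFun (Fin d) ℝ).map R)) (R x)
  rw [h1, h2]
  refine Finset.sum_congr rfl fun i _ => ?_
  have h3 := ContinuousLinearMap.iteratedFDeriv_comp_right
    (R.toContinuousLinearEquiv : E d →L[ℝ] E d) hf x (i := 2) le_rfl
  have h4 : (fun y => f (R y)) = f ∘ (R.toContinuousLinearEquiv : E d →L[ℝ] E d) := rfl
  rw [h4, h3, ContinuousMultilinearMap.compContinuousLinearMap_apply]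
  congr 1
  funext j
  fin_cases j <;> simp

/-- the reflection as a linear isometry -/
lemma exists_refl (e : E d) (he : ‖e‖ = 1) :
    ∃ R : E d ≃ₗᵢ[ℝ] E d, (∀ x, R x = x - (2 * ⟪e, x⟫_ℝ) • e) ∧ ∀ x, R (R x) = x := by
  refine ⟨Submodule.reflection (ℝ ∙ e)ᗮ, fun x => ?_, fun x => Submodule.reflection_reflection _ x⟩
  rw [Submodule.reflection_orthogonal_apply, Submodule.reflection_singleton_apply]
  simp [he, two_smul, two_mul, add_smul]

lemma laplacian_inner (c : ℝ) (a : E d) (x : E d) : (Δ (fun z : E d => c * ⟪a, z⟫_ℝ)) x = 0 := by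
  have hc : ContDiff ℝ 2 (fun z : E d => c * ⟪a, z⟫_ℝ) :=
    contDiff_const.mul (contDiff_const.inner ℝ contDiff_id)
  rw [laplacian_eq_sum hc.contDiffAt]
  have h1 : ∀ y : E d, HasFDerivAt (fun z : E d => c * ⟪a, z⟫_ℝ) (c • innerSL ℝ a) y := by
    intro y
    simpa using ((innerSL ℝ a).hasFDerivAt (x := y)).const_mul c
  simp_rw [fun y => (h1 y).fderiv]
  simp

/-- the affine barrier: bound of a harmonic function near the sphere -/
lemma barrier (hd : 0 < d) {K : ℝ≥0} {g : E d → ℝ} (hg : LipschitzWith K g) {h : E d → ℝ}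
    (hh : ContDiff ℝ 2 h) (hΔ : ∀ x, (Δ h) x = 0) {δ : ℝ} (hδ : 0 < δ)
    (hs : ∀ x : E d, ‖x‖ = 1 / 2 → h x ≤ g x + δ) (x : E d) (hx : ‖x‖ ≤ 1 / 2) (hx0 : x ≠ 0) :
    h x ≤ g x + 2 * δ + (K ^ 2 / (4 * δ) + K) * (1 / 2 - ‖x‖) := by
  have hxn : 0 < ‖x‖ := norm_pos_iff.2 hx0
  set z0 : E d := (1 / (2 * ‖x‖)) • x with hz0
  have hz0n : ‖z0‖ = 1 / 2 := by
    rw [hz0, norm_smul, Real.norm_eq_abs, abs_of_pos (by positivity)]
    field_simp
  have hz0x : ⟪z0, x⟫_ℝ = ‖x‖ / 2 := by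
    rw [hz0, real_inner_smul_left, real_inner_self_eq_norm_sq]
    field_simp
  have hgd : ∀ a b : E d, g a ≤ g b + K * ‖a - b‖ := by
    intro a b
    have h1 := hg.dist_le_mul a b
    rw [Real.dist_eq, dist_eq_norm] at h1
    have h2 := le_abs_self (g a - g b)
    linarith
  set c : ℝ := K ^ 2 / (2 * δ) with hc
  have hc2 : ContDiff ℝ 2 (fun z : E d => c * ⟪z0, z⟫_ℝ) :=
    contDiff_const.mul (contDiff_const.inner ℝ contDiff_id)
  have hG : ContDiff ℝ 2 (h + fun z : E d => c * ⟪z0, z⟫_ℝ) := hh.add hc2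
  have hsph : ∀ z ∈ sphere (0 : E d) (1 / 2),
      (h + fun z : E d => c * ⟪z0, z⟫_ℝ) z ≤ g z0 + 2 * δ + K ^ 2 / (8 * δ) := by
    intro z hz
    have hzn : ‖z‖ = 1 / 2 := by simpa using hz
    have h1 := hs z hzn
    have h2 := hgd z z0
    have h3 : ‖z - z0‖ ^ 2 = 1 / 2 - 2 * ⟪z0, z⟫_ℝ := by
      rw [norm_sub_sq_real, hzn, hz0n, real_inner_comm]; ring
    have h4 : K * ‖z - z0‖ ≤ δ + K ^ 2 / (4 * δ) * ‖z - z0‖ ^ 2 := by
      have h5 : δ + K ^ 2 / (4 * δ) * ‖z - z0‖ ^ 2 - K * ‖z - z0‖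
          = (2 * δ - K * ‖z - z0‖) ^ 2 / (4 * δ) := by
        field_simp
        ring
      have h6 : 0 ≤ (2 * δ - K * ‖z - z0‖) ^ 2 / (4 * δ) := by positivity
      linarith
    rw [h3] at h4
    have h7 : K ^ 2 / (4 * δ) * (1 / 2 - 2 * ⟪z0, z⟫_ℝ) =
        K ^ 2 / (8 * δ) - c * ⟪z0, z⟫_ℝ := by
      rw [hc]; field_simp; ring
    simp only [Pi.add_apply]
    linarith
  have hlap : ∀ z ∈ ball (0 : E d) (1 / 2), 0 ≤ (Δ (h + fun z : E d => c * ⟪z0, z⟫_ℝ)) z := by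
    intro z _
    rw [hh.contDiffAt.laplacian_add hc2.contDiffAt, hΔ, laplacian_inner]
    simp
  have hm := max_ball hd hG hlap hsph x (by simpa using hx)
  simp only [Pi.add_apply] at hm
  rw [hz0x] at hm
  have h8 := hgd z0 x
  have h9 : ‖z0 - x‖ = 1 / 2 - ‖x‖ := by
    have : z0 - x = (1 / (2 * ‖x‖) - 1) • x := by rw [hz0, sub_smul, one_smul]
    rw [this, norm_smul, Real.norm_eq_abs, abs_of_nonneg]
    · field_simp
    · rw [sub_nonneg, le_div_iff₀ (by positivity)]; linarith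
  rw [h9] at h8
  have h10 : K ^ 2 / (8 * δ) - c * (‖x‖ / 2) = K ^ 2 / (4 * δ) * (1 / 2 - ‖x‖) := by
    rw [hc]; field_simp; ring
  linarith

end HP

open HP in
/-- **(H2)** an even (with respect to a reflection) Lipschitz function bounded by one is
approximated, near the sphere `|x| = 1/2`, by even harmonic functions bounded by two; the width of
the neighbourhood depends on the Lipschitz constant only. -/
theorem dirichlet_approx (d : ℕ) (hd : 0 < d) : ∀ K : ℝ≥0, ∀ ε : ℝ, 0 < ε →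
    ∃ τ : ℝ, 0 < τ ∧ τ < 1 / 8 ∧ ∀ e : E d, ‖e‖ = 1 → ∀ g : E d → ℝ, LipschitzWith K g →
      (∀ x, |g x| ≤ 1) → (∀ x, g (x - (2 * ⟪e, x⟫_ℝ) • e) = g x) →
      ∃ h : E d → ℝ, ContDiff ℝ (⊤ : ℕ∞) h ∧ (∀ x, (Δ h) x = 0) ∧
        (∀ x, h (x - (2 * ⟪e, x⟫_ℝ) • e) = h x) ∧ (∀ x ∈ ball (0 : E d) (1 / 2), |h x| ≤ 2) ∧
        ∀ x ∈ ball (0 : E d) (1 / 2), 1 / 2 - τ ≤ ‖x‖ → |h x - g x| ≤ ε := by
  intro K ε hε
  set δ : ℝ := min (ε / 4) 1 with hδ
  have hδ0 : 0 < δ := lt_min (by linarith) one_pos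
  have hδ1 : δ ≤ 1 := min_le_right _ _
  have hδ2 : δ ≤ ε / 4 := min_le_left _ _
  set A : ℝ := K ^ 2 / (4 * δ) + K with hA
  have hA0 : 0 ≤ A := by positivity
  set τ : ℝ := min (1 / 16) (ε / 2 / (A + 1)) with hτ
  have hτ0 : 0 < τ := lt_min (by norm_num) (by positivity)
  have hτ1 : τ ≤ 1 / 16 := min_le_left _ _
  have hτ2 : A * τ ≤ ε / 2 := by
    have h1 : τ ≤ ε / 2 / (A + 1) := min_le_right _ _
    calc A * τ ≤ (A + 1) * (ε / 2 / (A + 1)) := by
          refine mul_le_mul (by linarith) h1 hτ0.le (by linarith)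
      _ = ε / 2 := by field_simp
  refine ⟨τ, hτ0, by linarith, fun e he g hg hg1 hge => ?_⟩
  obtain ⟨p, hp⟩ := exists_poly_near g hg.continuous (1 / 2) hδ0
  obtain ⟨q, hq, hqs⟩ := dirichlet_poly hd (s := 1 / 2) (by norm_num) p
  obtain ⟨R, hR, hRR⟩ := exists_refl e he
  have hqc : ∀ n : WithTop ℕ∞, ContDiff ℝ n (ev q) := fun n => contDiff_ev q
  -- boundary values
  have hup : ∀ x : E d, ‖x‖ = 1 / 2 → ev q x ≤ g x + δ := by
    intro x hx
    rw [hqs x hx]
    have := (abs_lt.1 (hp x (by simp [hx]))).2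
    linarith
  have hlo : ∀ x : E d, ‖x‖ = 1 / 2 → (-ev q) x ≤ (-g) x + δ := by
    intro x hx
    simp only [Pi.neg_apply]
    rw [hqs x hx]
    have := (abs_lt.1 (hp x (by simp [hx]))).1
    linarith
  have hneg : ∀ x, (Δ (-ev q)) x = 0 := by
    intro x; rw [laplacian_neg]; simp [hq x]
  have hb1 := max_ball (s := 1 / 2) (M := 2) hd (hqc 2) (fun x _ => (hq x).ge) (fun x hx => by
    have hx' : ‖x‖ = 1 / 2 := by simpa using hx
    have h1 := hup x hx'
    have h2 := (abs_le.1 (hg1 x)).2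
    linarith)
  have hb2 := max_ball (s := 1 / 2) (M := 2) hd (hqc 2).neg (fun x _ => (hneg x).ge) (fun x hx => by
    have hx' : ‖x‖ = 1 / 2 := by simpa using hx
    have h1 := hlo x hx'
    have h2 := (abs_le.1 (hg1 x)).1
    simp only [Pi.neg_apply] at h1
    change -ev q x ≤ 2
    linarith)
  have hb : ∀ x ∈ ball (0 : E d) (1 / 2), |ev q x| ≤ 2 := by
    intro x hx
    rw [abs_le]
    have h1 := hb1 x (ball_subset_closedBall hx)
    have h2 : -ev q x ≤ 2 := hb2 x (ball_subset_closedBall hx)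
    exact ⟨by linarith, h1⟩
  have hnear : ∀ x ∈ ball (0 : E d) (1 / 2), 1 / 2 - τ ≤ ‖x‖ → |ev q x - g x| ≤ ε := by
    intro x hx hxt
    have hxn : ‖x‖ < 1 / 2 := by simpa using hx
    have hx0 : x ≠ 0 := by
      intro h; rw [h, norm_zero] at hxt; linarith
    have h1 := barrier hd hg (hqc 2) hq hδ0 hup x hxn.le hx0
    have h2 := barrier hd hg.neg (hqc 2).neg hneg hδ0 hlo x hxn.le hx0
    have h3 : A * (1 / 2 - ‖x‖) ≤ ε / 2 :=
      (mul_le_mul_of_nonneg_left (by linarith) hA0).trans hτ2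
    have h2' : -ev q x ≤ -g x + 2 * δ + A * (1 / 2 - ‖x‖) := h2
    rw [abs_le]
    constructor <;> linarith
  have hRn : ∀ x, ‖R x‖ = ‖x‖ := R.norm_map
  have hRb : ∀ x ∈ ball (0 : E d) (1 / 2), R x ∈ ball (0 : E d) (1 / 2) := by
    intro x hx
    simpa [hRn] using hx
  have hcR : ∀ n : WithTop ℕ∞, ContDiff ℝ n (fun x => ev q (R x)) := fun n =>
    (hqc n).comp R.contDiff
  set h : E d → ℝ := (1 / 2 : ℝ) • (ev q + fun x => ev q (R x)) with hh
  have hv : ∀ x, h x = (ev q x + ev q (R x)) / 2 := by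
    intro x; simp only [hh, Pi.smul_apply, Pi.add_apply, smul_eq_mul]; ring
  have hcc : ContDiff ℝ (⊤ : ℕ∞) h :=
    ContDiff.const_smul (1 / 2 : ℝ) ((hqc (⊤ : ℕ∞)).add (hcR (⊤ : ℕ∞)))
  refine ⟨h, hcc, fun x => ?_, fun x => ?_, fun x hx => ?_,
    fun x hx hxt => ?_⟩
  · have hsum : ContDiffAt ℝ 2 (ev q + fun x => ev q (R x)) x :=
      ((hqc 2).add (hcR 2)).contDiffAt
    rw [hh, laplacian_smul _ hsum,
      (hqc 2).contDiffAt.laplacian_add (hcR 2).contDiffAt, hq,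
      laplacian_comp_isometry (hqc 2), hq]
    simp
  · rw [← hR, hv, hv, hRR, add_comm]
  · rw [hv, abs_le]
    have h1 := abs_le.1 (hb x hx)
    have h2 := abs_le.1 (hb _ (hRb x hx))
    constructor <;> linarith [h1.1, h1.2, h2.1, h2.2]
  · have h1 := abs_le.1 (hnear x hx hxt)
    have h2 := abs_le.1 (hnear (R x) (hRb x hx) (by rw [hRn]; exact hxt))
    have h3 : g (R x) = g x := by rw [hR]; exact hge x
    rw [h3] at h2
    rw [hv, abs_le]
    constructor <;> linarith [h1.1, h1.2, h2.1, h2.2]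

end Crest.Agent.R097

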