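import Mathlib

set_option autoImplicit false

noncomputable section

namespace Crest.Agent.R097.EigRed

open Finset

/-- Four ordered reals: there is a quadruple `(y,y,a,b)` with the same first three power sums and a
larger fourth one. -/
lemma four_ordered {a1 a2 a3 a4 : ℝ} (h12 : a1 ≤ a2) (h23 : a2 ≤ a3) (h34 : a3 ≤ a4) :
    ∃ y a b : ℝ, 2 * y + a + b = a1 + a2 + a3 + a4 ∧
      2 * y ^ 2 + a ^ 2 + b ^ 2 = a1 ^ 2 + a2 ^ 2 + a3 ^ 2 + a4 ^ 2 ∧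
      2 * y ^ 3 + a ^ 3 + b ^ 3 = a1 ^ 3 + a2 ^ 3 + a3 ^ 3 + a4 ^ 3 ∧
      a1 ^ 4 + a2 ^ 4 + a3 ^ 4 + a4 ^ 4 ≤ 2 * y ^ 4 + a ^ 4 + b ^ 4 := by
  rcases eq_or_lt_of_le h23 with h | h
  · subst h
    exact ⟨a2, a1, a4, by ring, by ring, by ring, le_of_eq (by ring)⟩
  set f : ℝ → ℝ := fun t => (t - a1) * (t - a2) * (t - a3) * (t - a4) with hf
  have hfc : Continuous f := by fun_prop
  obtain ⟨y, hy, hmax⟩ := isCompact_Icc.exists_isMaxOn (Set.nonempty_Icc.2 h23) hfc.continuousOn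
  have hmid : 0 < f ((a2 + a3) / 2) := by
    have e1 : 0 < (a2 + a3) / 2 - a1 := by linarith
    have e2 : 0 < (a2 + a3) / 2 - a2 := by linarith
    have e3 : 0 < a3 - (a2 + a3) / 2 := by linarith
    have e4 : 0 < a4 - (a2 + a3) / 2 := by linarith
    have : f ((a2 + a3) / 2) = (((a2 + a3) / 2 - a1) * ((a2 + a3) / 2 - a2)) *
        ((a3 - (a2 + a3) / 2) * (a4 - (a2 + a3) / 2)) := by simp only [hf]; ring
    rw [this]; positivity
  have hfy : 0 < f y := lt_of_lt_of_le hmid (hmax ⟨by linarith, by linarith⟩)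
  have hy2 : a2 < y := by
    rcases eq_or_lt_of_le hy.1 with h' | h'
    · exfalso; rw [← h'] at hfy; simp [hf] at hfy
    · exact h'
  have hy3 : y < a3 := by
    rcases eq_or_lt_of_le hy.2 with h' | h'
    · exfalso; rw [h'] at hfy; simp [hf] at hfy
    · exact h'
  have hloc : IsLocalMax f y := by
    refine Filter.eventually_of_mem (Icc_mem_nhds hy2 hy3) ?_
    intro z hz; exact hmax hz
  -- derivative at y vanishes
  have hder : HasDerivAt f (4 * y ^ 3 - 3 * (a1 + a2 + a3 + a4) * y ^ 2 +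
      2 * (a1 * a2 + a1 * a3 + a1 * a4 + a2 * a3 + a2 * a4 + a3 * a4) * y -
      (a1 * a2 * a3 + a1 * a2 * a4 + a1 * a3 * a4 + a2 * a3 * a4)) y := by
    have h1 : HasDerivAt (fun t : ℝ => t - a1) 1 y := (hasDerivAt_id y).sub_const a1
    have h2 : HasDerivAt (fun t : ℝ => t - a2) 1 y := (hasDerivAt_id y).sub_const a2
    have h3 : HasDerivAt (fun t : ℝ => t - a3) 1 y := (hasDerivAt_id y).sub_const a3
    have h4 : HasDerivAt (fun t : ℝ => t - a4) 1 y := (hasDerivAt_id y).sub_const a4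
    have := ((h1.fun_mul h2).fun_mul h3).fun_mul h4
    refine this.congr_deriv ?_
    ring
  have hz := hloc.hasDerivAt_eq_zero hder
  set e1 := a1 + a2 + a3 + a4 with he1
  set e2 := a1 * a2 + a1 * a3 + a1 * a4 + a2 * a3 + a2 * a4 + a3 * a4 with he2
  set e3 := a1 * a2 * a3 + a1 * a2 * a4 + a1 * a3 * a4 + a2 * a3 * a4 with he3
  set e4 := a1 * a2 * a3 * a4 with he4
  set S := e1 - 2 * y with hS
  set P := e2 - 2 * y * S - y ^ 2 with hP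
  have hE3 : e3 = 2 * y * P + y ^ 2 * S := by rw [hP, hS]; linarith
  have hfy' : f y = e4 - y ^ 2 * P := by
    have h0 : f y = y ^ 4 - e1 * y ^ 3 + e2 * y ^ 2 - e3 * y + e4 := by
      simp only [hf, he1, he2, he3, he4]; ring
    rw [h0, hE3, hP, hS]; ring
  -- discriminant
  have hg : a1 ^ 2 - S * a1 + P ≤ 0 := by
    have h0 : (a1 - y) ^ 2 * (a1 ^ 2 - S * a1 + P) = - f y := by
      have h1 : (0:ℝ) = a1 ^ 4 - e1 * a1 ^ 3 + e2 * a1 ^ 2 - e3 * a1 + e4 := by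
        simp only [he1, he2, he3, he4]; ring
      rw [hfy']
      have h2 : (a1 - y) ^ 2 * (a1 ^ 2 - S * a1 + P) =
          a1 ^ 4 - (S + 2 * y) * a1 ^ 3 + (P + 2 * y * S + y ^ 2) * a1 ^ 2 -
            (2 * y * P + y ^ 2 * S) * a1 + y ^ 2 * P := by ring
      rw [h2, ← hE3]
      have h3 : S + 2 * y = e1 := by rw [hS]; ring
      have h4 : P + 2 * y * S + y ^ 2 = e2 := by rw [hP]; ring
      rw [h3, h4]; linarith
    have hpos : 0 < (a1 - y) ^ 2 := by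
      have : a1 - y < 0 := by linarith
      nlinarith
    by_contra hcon
    push Not at hcon
    have := mul_pos hpos hcon
    linarith
  have hdisc : 0 ≤ S ^ 2 - 4 * P := by nlinarith [sq_nonneg (2 * a1 - S)]
  set r := Real.sqrt (S ^ 2 - 4 * P) with hr
  have hr2 : r ^ 2 = S ^ 2 - 4 * P := Real.sq_sqrt hdisc
  have hp1 : 2 * y + (S - r) / 2 + (S + r) / 2 = e1 := by rw [hS]; ring
  have hab : ((S - r) / 2) * ((S + r) / 2) = P := by nlinarith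
  have hsum : (S - r) / 2 + (S + r) / 2 = S := by ring
  set a := (S - r) / 2 with ha
  set b := (S + r) / 2 with hb
  have hb' : b = S - a := by linarith
  refine ⟨y, a, b, hp1, ?_, ?_, ?_⟩
  · have h1 : a ^ 2 + b ^ 2 = S ^ 2 - 2 * P := by rw [← hab, ← hsum]; ring
    have h2 : a1 ^ 2 + a2 ^ 2 + a3 ^ 2 + a4 ^ 2 = e1 ^ 2 - 2 * e2 := by
      simp only [he1, he2]; ring
    rw [h2]
    have : 2 * y ^ 2 + a ^ 2 + b ^ 2 = 2 * y ^ 2 + (S ^ 2 - 2 * P) := by rw [← h1]; ring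
    rw [this, hP, hS]; ring
  · have h1 : a ^ 3 + b ^ 3 = S ^ 3 - 3 * P * S := by rw [← hab, ← hsum]; ring
    have h2 : a1 ^ 3 + a2 ^ 3 + a3 ^ 3 + a4 ^ 3 = e1 ^ 3 - 3 * e1 * e2 + 3 * e3 := by
      simp only [he1, he2, he3]; ring
    rw [h2, hE3]
    have : 2 * y ^ 3 + a ^ 3 + b ^ 3 = 2 * y ^ 3 + (S ^ 3 - 3 * P * S) := by rw [← h1]; ring
    rw [this, hP, hS]; ring
  · have h1 : a ^ 4 + b ^ 4 = S ^ 4 - 4 * P * S ^ 2 + 2 * P ^ 2 := by rw [← hab, ← hsum]; ring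
    have h2 : a1 ^ 4 + a2 ^ 4 + a3 ^ 4 + a4 ^ 4 =
        e1 ^ 4 - 4 * e1 ^ 2 * e2 + 2 * e2 ^ 2 + 4 * e1 * e3 - 4 * e4 := by
      simp only [he1, he2, he3, he4]; ring
    have h3 : 2 * y ^ 4 + a ^ 4 + b ^ 4 =
        e1 ^ 4 - 4 * e1 ^ 2 * e2 + 2 * e2 ^ 2 + 4 * e1 * e3 - 4 * (y ^ 2 * P) := by
      have : 2 * y ^ 4 + a ^ 4 + b ^ 4 = 2 * y ^ 4 + (S ^ 4 - 4 * P * S ^ 2 + 2 * P ^ 2) := by
        rw [← h1]; ring
      rw [this, hE3, hP, hS]; ring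
    rw [h2, h3]
    have : y ^ 2 * P ≤ e4 := by linarith
    linarith

/-- The same for an arbitrary quadruple. -/
lemma four (z : Fin 4 → ℝ) :
    ∃ y a b : ℝ, 2 * y + a + b = ∑ i, z i ∧
      2 * y ^ 2 + a ^ 2 + b ^ 2 = ∑ i, z i ^ 2 ∧
      2 * y ^ 3 + a ^ 3 + b ^ 3 = ∑ i, z i ^ 3 ∧
      ∑ i, z i ^ 4 ≤ 2 * y ^ 4 + a ^ 4 + b ^ 4 := by
  have hm := Tuple.monotone_sort z
  set σ := Tuple.sort z
  have h12 := hm (show (0 : Fin 4) ≤ 1 by decide)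
  have h23 := hm (show (1 : Fin 4) ≤ 2 by decide)
  have h34 := hm (show (2 : Fin 4) ≤ 3 by decide)
  obtain ⟨y, a, b, e1, e2, e3, e4⟩ := four_ordered h12 h23 h34
  refine ⟨y, a, b, ?_, ?_, ?_, ?_⟩
  · rw [← Equiv.sum_comp σ z, e1, Fin.sum_univ_four]; rfl
  · rw [← Equiv.sum_comp σ (fun i => z i ^ 2), e2, Fin.sum_univ_four]; rfl
  · rw [← Equiv.sum_comp σ (fun i => z i ^ 3), e3, Fin.sum_univ_four]; rfl
  · rw [← Equiv.sum_comp σ (fun i => z i ^ 4), Fin.sum_univ_four]; exact e4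

/-- `αβ` for `n = 5`: the four other eigenvalues are `y, y, α, β`. -/
def P5 (x y : ℝ) : ℝ := x ^ 2 + 2 * x * y + 3 * y ^ 2 - 1 / 2
/-- `∑ l^3` for `n = 5`. -/
def c5 (x y : ℝ) : ℝ := x ^ 3 + 2 * y ^ 3 - (x + 2 * y) ^ 3 + 3 * P5 x y * (x + 2 * y)
/-- `∑ l^4` for `n = 5`. -/
def q5 (x y : ℝ) : ℝ := x ^ 4 + 2 * y ^ 4 + (1 - x ^ 2 - 2 * y ^ 2) ^ 2 - 2 * P5 x y ^ 2

/-- KEY LEMMA, `n = 5`. -/
theorem eig5 (l : Fin 5 → ℝ) (k : Fin 5) (h1 : ∑ i, l i = 0) (h2 : ∑ i, l i ^ 2 = 1) :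
    ∃ y : ℝ, (l k + 2 * y) ^ 2 ≤ 2 * (1 - l k ^ 2 - 2 * y ^ 2) ∧
      ∑ i, l i ^ 3 = c5 (l k) y ∧ ∑ i, l i ^ 4 ≤ q5 (l k) y := by
  obtain ⟨y, a, b, e1, e2, e3, e4⟩ := four (fun i => l (k.succAbove i))
  rw [Fin.sum_univ_succAbove _ k] at h1 h2
  rw [Fin.sum_univ_succAbove _ k, Fin.sum_univ_succAbove _ k, ← e3]
  rw [← e1] at h1
  rw [← e2] at h2
  set x := l k
  have hs1 : a + b = -(x + 2 * y) := by linarith
  have hs2 : a ^ 2 + b ^ 2 = 1 - x ^ 2 - 2 * y ^ 2 := by linarith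
  have hP : a * b = P5 x y := by
    have : 2 * (a * b) = (a + b) ^ 2 - (a ^ 2 + b ^ 2) := by ring
    rw [hs1, hs2] at this
    unfold P5; linarith
  refine ⟨y, ?_, ?_, ?_⟩
  · have : (x + 2 * y) ^ 2 = (a + b) ^ 2 := by rw [hs1]; ring
    rw [this, ← hs2]; nlinarith [sq_nonneg (a - b)]
  · have : a ^ 3 + b ^ 3 = (a + b) ^ 3 - 3 * (a * b) * (a + b) := by ring
    rw [hs1, hP] at this
    unfold c5; linear_combination this
  · have : a ^ 4 + b ^ 4 = (a ^ 2 + b ^ 2) ^ 2 - 2 * (a * b) ^ 2 := by ring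
    rw [hs2, hP] at this
    unfold q5; linarith

/-- `αβ` for `n = 4`: the three other eigenvalues are `y, α, β`. -/
def P4 (x y : ℝ) : ℝ := x ^ 2 + x * y + y ^ 2 - 1 / 2
/-- `∑ l^3` for `n = 4`. -/
def c4 (x y : ℝ) : ℝ := x ^ 3 + y ^ 3 - (x + y) ^ 3 + 3 * P4 x y * (x + y)
/-- `∑ l^4` for `n = 4`. -/
def q4 (x y : ℝ) : ℝ := x ^ 4 + y ^ 4 + (1 - x ^ 2 - y ^ 2) ^ 2 - 2 * P4 x y ^ 2

/-- Parametrisation for `n = 4`. -/
theorem eig4 (l : Fin 4 → ℝ) (k : Fin 4) (h1 : ∑ i, l i = 0) (h2 : ∑ i, l i ^ 2 = 1) :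
    ∃ y : ℝ, (l k + y) ^ 2 ≤ 2 * (1 - l k ^ 2 - y ^ 2) ∧
      ∑ i, l i ^ 3 = c4 (l k) y ∧ ∑ i, l i ^ 4 = q4 (l k) y := by
  rw [Fin.sum_univ_succAbove _ k, Fin.sum_univ_three] at h1 h2
  rw [Fin.sum_univ_succAbove _ k, Fin.sum_univ_succAbove _ k, Fin.sum_univ_three,
    Fin.sum_univ_three]
  set x := l k
  set y := l (k.succAbove 0)
  set a := l (k.succAbove 1)
  set b := l (k.succAbove 2)
  have hs1 : a + b = -(x + y) := by linarith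
  have hs2 : a ^ 2 + b ^ 2 = 1 - x ^ 2 - y ^ 2 := by linarith
  have hP : a * b = P4 x y := by
    have : 2 * (a * b) = (a + b) ^ 2 - (a ^ 2 + b ^ 2) := by ring
    rw [hs1, hs2] at this
    unfold P4; linarith
  refine ⟨y, ?_, ?_, ?_⟩
  · have : (x + y) ^ 2 = (a + b) ^ 2 := by rw [hs1]; ring
    rw [this, ← hs2]; nlinarith [sq_nonneg (a - b)]
  · have : a ^ 3 + b ^ 3 = (a + b) ^ 3 - 3 * (a * b) * (a + b) := by ring
    rw [hs1, hP] at this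
    unfold c4; linear_combination this
  · have : a ^ 4 + b ^ 4 = (a ^ 2 + b ^ 2) ^ 2 - 2 * (a * b) ^ 2 := by ring
    rw [hs2, hP] at this
    unfold q4; linear_combination this

/-- Parametrisation for `n = 3`. -/
theorem eig3 (l : Fin 3 → ℝ) (k : Fin 3) (h1 : ∑ i, l i = 0) (h2 : ∑ i, l i ^ 2 = 1) :
    3 * l k ^ 2 ≤ 2 ∧ ∑ i, l i ^ 3 = 3 * l k ^ 3 - 3 / 2 * l k ∧ ∑ i, l i ^ 4 = 1 / 2 := by
  rw [Fin.sum_univ_succAbove _ k, Fin.sum_univ_two] at h1 h2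
  rw [Fin.sum_univ_succAbove _ k, Fin.sum_univ_succAbove _ k, Fin.sum_univ_two,
    Fin.sum_univ_two]
  set x := l k
  set a := l (k.succAbove 0)
  set b := l (k.succAbove 1)
  have hs1 : a + b = -x := by linarith
  have hs2 : a ^ 2 + b ^ 2 = 1 - x ^ 2 := by linarith
  have hP : a * b = x ^ 2 - 1 / 2 := by
    have : 2 * (a * b) = (a + b) ^ 2 - (a ^ 2 + b ^ 2) := by ring
    rw [hs1, hs2] at this
    linarith
  refine ⟨?_, ?_, ?_⟩
  · have : x ^ 2 = (a + b) ^ 2 := by rw [hs1]; ring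
    nlinarith [sq_nonneg (a - b)]
  · have : a ^ 3 + b ^ 3 = (a + b) ^ 3 - 3 * (a * b) * (a + b) := by ring
    rw [hs1, hP] at this
    linear_combination this
  · have : a ^ 4 + b ^ 4 = (a ^ 2 + b ^ 2) ^ 2 - 2 * (a * b) ^ 2 := by ring
    rw [hs2, hP] at this
    linear_combination this

end Crest.Agent.R097.EigRed
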