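import Crest.Agent.R097.F1Defs

/-!
# Row 97, F1: partial Harnack inequality for flat minimisers
-/

set_option autoImplicit false
open MeasureTheory Metric Set Filter Topology InnerProductSpace
open scoped RealInnerProductSpace NNReal ENNReal Gradient Laplacian

namespace Crest.Agent.R097

variable {d : ℕ}

lemma gradient_gau (μ : ℝ) (z x : E d) : ∇ (gau μ z) x = (-(2 * μ * gau μ z x)) • (x - z) := by
  refine ext_inner_right ℝ fun v => ?_
  rw [inner_gradient, fderiv_gau, real_inner_smul_left]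

/-- mean value inequality for functions with almost constant gradient -/
lemma lin_approx {P : E d → ℝ} (hP : ContDiff ℝ 2 P) {e x₀ : E d} {r θ : ℝ}
    (hg : ∀ x ∈ ball x₀ r, ‖∇ P x - e‖ ≤ θ) {x y : E d} (hx : x ∈ ball x₀ r) (hy : y ∈ ball x₀ r) :
    |P y - P x - ⟪e, y - x⟫_ℝ| ≤ θ * ‖y - x‖ := by
  have hd : ∀ z ∈ ball x₀ r, HasFDerivWithinAt (fun z => P z - ⟪e, z⟫_ℝ)
      (fderiv ℝ P z - innerSL ℝ e) (ball x₀ r) z := by
    intro z _
    have h1 : HasFDerivAt P (fderiv ℝ P z) z := (hP.differentiable (by norm_num) z).hasFDerivAt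
    have h2 : HasFDerivAt (fun z : E d => ⟪e, z⟫_ℝ) (innerSL ℝ e) z := (innerSL ℝ e).hasFDerivAt
    exact (h1.sub h2).hasFDerivWithinAt
  have hb : ∀ z ∈ ball x₀ r, ‖fderiv ℝ P z - innerSL ℝ e‖ ≤ θ := by
    intro z hz
    have h1 : fderiv ℝ P z - innerSL ℝ e = innerSL ℝ (∇ P z - e) := by
      ext v
      simp
    rw [h1, innerSL_apply_norm]
    exact hg z hz
  have h := (convex_ball x₀ r).norm_image_sub_le_of_norm_hasFDerivWithin_le hd hb hx hy
  rw [Real.norm_eq_abs] at h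
  have e1 : P y - ⟪e, y⟫_ℝ - (P x - ⟪e, x⟫_ℝ) = P y - P x - ⟪e, y - x⟫_ℝ := by
    rw [inner_sub_right]; ring
  rwa [e1] at h

/-- the barrier functions `P + c + s W` -/
noncomputable def bar (P : E d → ℝ) (c s μ : ℝ) (z x : E d) : ℝ := P x + c + s * gau μ z x

lemma contDiff_bar {P : E d → ℝ} (hP : ContDiff ℝ 2 P) (c s μ : ℝ) (z : E d) :
    ContDiff ℝ 2 (bar P c s μ z) :=
  (hP.add contDiff_const).add (contDiff_const.mul (contDiff_gau μ z))

lemma laplacian_bar {P : E d → ℝ} (hP : ContDiff ℝ 2 P) (c s μ : ℝ) (z x : E d) :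
    (Δ (bar P c s μ z)) x = (Δ P) x + s * (Δ (gau μ z)) x := by
  have h1 : (bar P c s μ z) = (P + fun _ => c) + s • gau μ z := by
    ext y; simp [bar]
  have hc : ContDiffAt ℝ 2 (fun _ : E d => c) x := contDiff_const.contDiffAt
  have hA : ContDiffAt ℝ 2 (P + fun _ => c) x := hP.contDiffAt.add hc
  have hG : ContDiffAt ℝ 2 (gau μ z) x := (contDiff_gau μ z).contDiffAt
  have hB : ContDiffAt ℝ 2 (s • gau μ z) x := (contDiffAt_const (c := s)).smul hG
  rw [h1, hA.laplacian_add hB, hP.contDiffAt.laplacian_add hc, laplacian_smul _ hG]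
  simp

lemma gradient_bar {P : E d → ℝ} (hP : ContDiff ℝ 2 P) (c s μ : ℝ) (z x : E d) :
    ∇ (bar P c s μ z) x = ∇ P x + (s * (2 * μ * gau μ z x)) • (z - x) := by
  refine ext_inner_right ℝ fun v => ?_
  have h1 : HasFDerivAt P (fderiv ℝ P x) x := (hP.differentiable (by norm_num) x).hasFDerivAt
  have h2 : HasFDerivAt (bar P c s μ z)
      (fderiv ℝ P x + s • ((-(2 * μ * gau μ z x)) • innerSL ℝ (x - z))) x :=
    (h1.add_const c).add ((hasFDerivAt_gau μ z x).const_mul s)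
  rw [inner_gradient, h2.fderiv, inner_add_left, inner_gradient, real_inner_smul_left]
  simp only [add_apply, smul_apply, smul_eq_mul, innerSL_apply_apply]
  rw [← neg_sub x z, inner_neg_left]
  ring

lemma normsq_gradient_bar {P : E d → ℝ} (hP : ContDiff ℝ 2 P) (c s μ : ℝ) (z x : E d) :
    ‖fderiv ℝ (bar P c s μ z) x‖ ^ 2 = ‖∇ P x‖ ^ 2 + 2 * (s * (2 * μ * gau μ z x)) * ⟪∇ P x, z - x⟫_ℝ
      + (s * (2 * μ * gau μ z x)) ^ 2 * ‖x - z‖ ^ 2 := by
  rw [← norm_gradient, gradient_bar hP, @norm_add_sq_real, real_inner_smul_right, norm_smul,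
    mul_pow, Real.norm_eq_abs, sq_abs, norm_sub_rev z x]
  ring

end Crest.Agent.R097
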