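import Crest.Agent.R097.Calc

/-!
# Row 97, F1: the Gaussian barrier
-/

set_option autoImplicit false
open MeasureTheory Metric Set Filter Topology InnerProductSpace
open scoped RealInnerProductSpace NNReal ENNReal Gradient Laplacian

namespace Crest.Agent.R097

variable {d : ℕ}

/-- the Gaussian barrier -/
noncomputable def gau (μ : ℝ) (z : E d) (x : E d) : ℝ := Real.exp (-(μ * ‖x - z‖ ^ 2))

lemma gau_pos (μ : ℝ) (z x : E d) : 0 < gau μ z x := Real.exp_pos _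

lemma gau_le_one {μ : ℝ} (hμ : 0 ≤ μ) (z x : E d) : gau μ z x ≤ 1 := by
  unfold gau
  rw [Real.exp_le_one_iff]
  have : 0 ≤ μ * ‖x - z‖ ^ 2 := by positivity
  linarith

lemma contDiff_gau (μ : ℝ) (z : E d) {n : WithTop ℕ∞} : ContDiff ℝ n (gau (d := d) μ z) := by
  unfold gau
  exact ((contDiff_const.mul ((contDiff_id.sub contDiff_const).norm_sq ℝ)).neg).exp

lemma hasFDerivAt_normsq_sub (z x : E d) :
    HasFDerivAt (fun x : E d => ‖x - z‖ ^ 2) (2 • innerSL ℝ (x - z)) x := by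
  have h := ((hasFDerivAt_id (𝕜 := ℝ) x).sub_const z).norm_sq
  simpa using h

lemma hasFDerivAt_gau (μ : ℝ) (z x : E d) :
    HasFDerivAt (gau μ z) ((-(2 * μ * gau μ z x)) • innerSL ℝ (x - z)) x := by
  have h := (((hasFDerivAt_normsq_sub z x).const_mul μ).neg).exp
  refine h.congr_fderiv ?_
  ext v
  simp only [smul_apply, neg_apply, smul_eq_mul,
    nsmul_eq_mul, gau, Nat.cast_ofNat]
  simp
  ring

lemma fderiv_gau (μ : ℝ) (z x v : E d) :
    fderiv ℝ (gau μ z) x v = -(2 * μ * gau μ z x) * ⟪x - z, v⟫_ℝ := by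
  rw [(hasFDerivAt_gau μ z x).fderiv]
  rfl

lemma laplacian_gau (μ : ℝ) (z x : E d) :
    (Δ (gau μ z)) x = gau μ z x * (4 * μ ^ 2 * ‖x - z‖ ^ 2 - 2 * μ * d) := by
  rw [laplacian_eq_sum (contDiff_gau μ z).contDiffAt]
  simp_rw [fderiv_gau]
  have key : ∀ i : Fin d, fderiv ℝ (fun y => -(2 * μ * gau μ z y) * ⟪y - z, bv i⟫_ℝ) x (bv i) =
      gau μ z x * (4 * μ ^ 2 * ((x - z) i) ^ 2 - 2 * μ) := by
    intro i
    have h1 : HasFDerivAt (fun y => -(2 * μ * gau μ z y))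
        (-((2 * μ) • ((-(2 * μ * gau μ z x)) • innerSL ℝ (x - z)))) x :=
      ((hasFDerivAt_gau μ z x).const_mul (2 * μ)).neg
    have h2 : HasFDerivAt (fun y : E d => ⟪y - z, bv i⟫_ℝ) (innerSL ℝ (bv i)) x := by
      have h3 : (fun y : E d => ⟪y - z, bv i⟫_ℝ) = fun y => innerSL ℝ (bv i) (y - z) := by
        ext y; simp [real_inner_comm]
      rw [h3]
      have := (innerSL ℝ (bv i)).hasFDerivAt.comp x ((hasFDerivAt_id (𝕜 := ℝ) x).sub_const z)
      exact this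
    have h4 := (h1.mul h2).fderiv
    change fderiv ℝ (fun y => -(2 * μ * gau μ z y) * ⟪y - z, bv i⟫_ℝ) x = _ at h4
    rw [h4]
    simp only [add_apply, smul_apply, neg_apply, smul_eq_mul, innerSL_apply_apply]
    rw [inner_bv', inner_bv']
    have : (bv i : E d) i = 1 := by simp [bv]
    rw [this]
    ring
  simp_rw [key]
  rw [← Finset.mul_sum, Finset.sum_sub_distrib, ← Finset.mul_sum, EuclideanSpace.norm_sq_eq]
  simp only [Real.norm_eq_abs, sq_abs, Finset.sum_const, Finset.card_univ, Fintype.card_fin,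
    nsmul_eq_mul]
  ring

lemma gau_eq {μ : ℝ} {z x : E d} {t : ℝ} (h : μ * ‖x - z‖ ^ 2 = t) : gau μ z x = Real.exp (-t) := by
  rw [gau, h]

lemma gau_anti {μ : ℝ} (hμ : 0 ≤ μ) {z x : E d} {ρ : ℝ} (h : ‖x - z‖ ≤ ρ) :
    Real.exp (-(μ * ρ ^ 2)) ≤ gau μ z x := by
  unfold gau
  rw [Real.exp_le_exp, neg_le_neg_iff]
  exact mul_le_mul_of_nonneg_left (pow_le_pow_left₀ (norm_nonneg _) h 2) hμ

lemma gau_anti' {μ : ℝ} (hμ : 0 ≤ μ) {z x : E d} {ρ : ℝ} (hρ : 0 ≤ ρ) (h : ρ ≤ ‖x - z‖) :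
    gau μ z x ≤ Real.exp (-(μ * ρ ^ 2)) := by
  unfold gau
  rw [Real.exp_le_exp, neg_le_neg_iff]
  exact mul_le_mul_of_nonneg_left (pow_le_pow_left₀ hρ h 2) hμ

lemma gau_anti_lt {μ : ℝ} (hμ : 0 < μ) {z x : E d} {ρ : ℝ} (hρ : 0 ≤ ρ) (h : ρ < ‖x - z‖) :
    gau μ z x < Real.exp (-(μ * ρ ^ 2)) := by
  unfold gau
  rw [Real.exp_lt_exp, neg_lt_neg_iff]
  exact mul_lt_mul_of_pos_left (pow_lt_pow_left₀ h hρ (by norm_num)) hμ

end Crest.Agent.R097
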