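import Crest.Agent.R097.Iface
import Crest.Agent.R097.F1Gauss

/-!
# Row 97, F1/F2: the statements used as input (comparison lemmas, Harnack with right-hand side)
-/

set_option autoImplicit false
open MeasureTheory Metric Set Filter Topology InnerProductSpace
open scoped RealInnerProductSpace NNReal ENNReal Gradient Laplacian

namespace Crest.Agent.R097

/-- V1, local version: comparison with a strict subsolution from below -/
def V1Loc (d : ℕ) : Prop := ∀ (u : E d → ℝ) (K : ℝ≥0), LM u K → ∀ (D S : Set (E d)), IsOpen D →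
  IsCompact S → S ⊆ D → ∀ Ψ : E d → ℝ, ContDiff ℝ 2 Ψ → (∀ x ∈ D, u x < Ψ x → x ∈ S) →
  (∀ x ∈ D, u x < Ψ x → 0 ≤ (Δ Ψ) x) →
  (∀ x ∈ D, u x = 0 → 0 < Ψ x → 1 < ‖fderiv ℝ Ψ x‖) → ∀ x ∈ D, Ψ x ≤ u x

/-- V2, local version: comparison with a strict supersolution from above -/
def V2Loc (d : ℕ) : Prop := ∀ (u : E d → ℝ) (K : ℝ≥0), LM u K → ∀ (D S : Set (E d)), IsOpen D →
  IsCompact S → S ⊆ D → ∀ Φ : E d → ℝ, ContDiff ℝ 2 Φ → (∀ x ∈ D, max (Φ x) 0 < u x → x ∈ S) →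
  (∀ x ∈ D, max (Φ x) 0 < u x → (Δ Φ) x ≤ 0) →
  (∀ x ∈ D, max (Φ x) 0 < u x → Φ x ≤ 0 → ‖fderiv ℝ Φ x‖ < 1) → ∀ x ∈ D, u x ≤ max (Φ x) 0

/-- Lipschitz minimisers are harmonic where they are positive -/
def HarmPos (d : ℕ) : Prop := ∀ (u : E d → ℝ) (K : ℝ≥0), LM u K → HarmonicOnNhd u {x | 0 < u x}

/-- Harnack inequality for nonnegative functions with bounded Laplacian -/
def HarnackRHS (d : ℕ) : Prop := ∃ C : ℝ, 1 ≤ C ∧ ∀ (h : E d → ℝ) (x : E d) (r κ : ℝ), 0 < r →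
  0 ≤ κ → (∀ y ∈ ball x r, ContDiffAt ℝ 2 h y) → (∀ y ∈ ball x r, |(Δ h) y| ≤ κ) →
  (∀ y ∈ ball x r, 0 ≤ h y) → ∀ y ∈ ball x (r / 2),
    h y ≤ C * (h x + κ * r ^ 2) ∧ h x ≤ C * (h y + κ * r ^ 2)

end Crest.Agent.R097
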