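import Crest.Agent.R097.F1Step

/-!
# Row 97, F1: partial Harnack inequality, final form
-/

set_option autoImplicit false
open MeasureTheory Metric Set Filter Topology InnerProductSpace
open scoped RealInnerProductSpace NNReal ENNReal Gradient Laplacian

namespace Crest.Agent.R097

variable {d : ℕ}

lemma Sand.mono {u P : E d → ℝ} {a b a' b' : ℝ} {D D' : Set (E d)} (h : Sand u P a b D)
    (ha : a' ≤ a) (hb : b ≤ b') (hD : D' ⊆ D) : Sand u P a' b' D' := fun x hx =>
  ⟨(max_le_max (by linarith) le_rfl).trans (h x (hD hx)).1,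
    (h x (hD hx)).2.trans (max_le_max (by linarith) le_rfl)⟩

lemma laplacian_add_cst {P : E d → ℝ} (hP : ContDiff ℝ 2 P) (a : ℝ) (x : E d) :
    (Δ (fun x => P x + a)) x = (Δ P) x := by
  have h : (fun x => P x + a) = P + fun _ => a := rfl
  have hc : ContDiffAt ℝ 2 (fun _ : E d => a) x := contDiff_const.contDiffAt
  rw [h, hP.contDiffAt.laplacian_add hc]
  simp

lemma aux_K1 {C C₀ s E k r D : ℝ} (hs : 0 < s) (hE : 0 < E) (hD : 1 ≤ D)
    (h1 : C₀ * (k * r ^ 2) ≤ 4 * C * s) (h2 : 40 * C ≤ C₀ * E) (hC₀ : 0 < C₀) (hC : 0 < C) :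
    k * r ^ 2 ≤ s * E * (1000 * D) * (D / 2) := by
  have h3 : 40 * C * s ≤ C₀ * E * s := mul_le_mul_of_nonneg_right h2 hs.le
  have h5 : C₀ * (s * E * (1000 * D) * (D / 2)) = (C₀ * E * s) * (500 * D ^ 2) := by ring
  have h6 : (1 : ℝ) ≤ 500 * D ^ 2 := by nlinarith
  have h7 : 0 ≤ C₀ * E * s := by positivity
  have h8 : 0 < C * s := by positivity
  have h9 : C₀ * E * s * 1 ≤ (C₀ * E * s) * (500 * D ^ 2) := mul_le_mul_of_nonneg_left h6 h7
  refine le_of_mul_le_mul_left (a := C₀) ?_ hC₀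
  rw [h5]; linarith

lemma aux_K2 {C C₀ s E k r D : ℝ} (hs : 0 < s) (hE : 0 < E) (hD : 1 ≤ D)
    (h1 : C₀ * (k * r) ≤ 4 * C * s) (h2 : 40 * C ≤ C₀ * E) (hC₀ : 0 < C₀) (hC : 0 < C) :
    k * r < 1 / 5 * (s * E * (1000 * D)) := by
  have h3 : 40 * C * s ≤ C₀ * E * s := mul_le_mul_of_nonneg_right h2 hs.le
  have h5 : C₀ * (1 / 5 * (s * E * (1000 * D))) = (C₀ * E * s) * (200 * D) := by ring
  have h6 : (1 : ℝ) ≤ 200 * D := by linarith
  have h7 : 0 ≤ C₀ * E * s := by positivity
  have h8 : 0 < C * s := by positivity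
  have h9 : C₀ * E * s * 1 ≤ (C₀ * E * s) * (200 * D) := mul_le_mul_of_nonneg_left h6 h7
  refine lt_of_mul_lt_mul_left (a := C₀) ?_ hC₀.le
  rw [h5]; linarith

lemma aux_H {C s k r D x : ℝ} (hC : 0 < C) (hs : 0 < s)
    (hk : C * (k * (r / 20) ^ 2) ≤ C * s / 100) (h5 : D / 2 ≤ C * (x + k * (r / 20) ^ 2))
    (h4Cs : D = 4 * C * s) : s ≤ x := by
  have h8 : 0 < C * s := by positivity
  have h6 : C * s ≤ C * x := by
    rw [mul_add] at h5
    linarith
  exact le_of_mul_le_mul_left h6 hC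

/-- **F1**: the partial Harnack inequality. -/
theorem F1 (hV1 : V1Loc d) (hV2 : V2Loc d) (hH : HarmPos d) (hHar : HarnackRHS d) (hd : 1 ≤ d) :
    ∃ C₀ c : ℝ, 100 ≤ C₀ ∧ 0 < c ∧ c < 1 ∧ ∀ (u : E d → ℝ) (K : ℝ≥0), LM u K →
      ∀ P : E d → ℝ, ContDiff ℝ 2 P → ∀ (e x₀ : E d) (r m k₁ k₂ a b : ℝ), 0 < r → ‖e‖ = 1 →
      (∀ x ∈ ball x₀ r, ‖∇ P x - e‖ ≤ 1 / C₀) → (∀ x ∈ ball x₀ r, |(Δ P) x| ≤ k₁) →
      (∀ x ∈ ball x₀ r, |P x| ≤ 3 * m → |‖∇ P x‖ ^ 2 - 1| ≤ k₂) →
      C₀ * m ≤ r → |a| ≤ m → |b| ≤ m → a ≤ b → C₀ * (k₁ * r ^ 2) ≤ b - a →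
      C₀ * (k₂ * r) ≤ b - a → Sand u P a b (ball x₀ r) →
      ∃ a' b' : ℝ, a ≤ a' ∧ b' ≤ b ∧ b' - a' = (1 - c) * (b - a) ∧
        Sand u P a' b' (ball x₀ (r / 240)) := by
  obtain ⟨C, hC1, hHar⟩ := hHar
  have hd1 : (1 : ℝ) ≤ d := by exact_mod_cast hd
  have hE2 := E₂_pos (d := d)
  have hE12 := E₂_lt_E₁ (d := d) hd
  have hE1 := E₁_le_one (d := d)
  have hC0 : 0 < C := by linarith
  set C₀ : ℝ := 100 + 12000 * d + C + 40 * C / E₂ d with hC₀
  have hq : 0 < 40 * C / E₂ d := by positivity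
  have hdd : (0 : ℝ) ≤ 12000 * d := by positivity
  have hC₀100 : 100 ≤ C₀ := by rw [hC₀]; linarith
  have hC₀d : 12000 * d ≤ C₀ := by rw [hC₀]; linarith
  have hC₀C : C ≤ C₀ := by rw [hC₀]; linarith
  have hC₀E : 40 * C / E₂ d ≤ C₀ := by rw [hC₀]; linarith
  have hC₀E' : 40 * C ≤ C₀ * E₂ d := by rwa [div_le_iff₀ hE2] at hC₀E
  have hC₀pos : 0 < C₀ := by linarith
  refine ⟨C₀, (E₁ d - E₂ d) / (4 * C), hC₀100, by
    apply div_pos (by linarith) (by linarith), by
    rw [div_lt_one (by linarith)]; linarith, ?_⟩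
  intro u K hu P hP e x₀ r m k₁ k₂ a b hr he hg hL hN hm ha hb hab hk₁ hk₂ hSand
  have ha' := abs_le.1 ha
  have hb' := abs_le.1 hb
  have hm0 : 0 ≤ m := (abs_nonneg _).trans ha
  have hsub : ball x₀ (r / 240) ⊆ ball x₀ r := ball_subset_ball (by linarith)
  rcases eq_or_lt_of_le hab with hab' | hab'
  · exact ⟨a, b, le_rfl, le_rfl, by rw [hab']; ring, hSand.mono le_rfl le_rfl hsub⟩
  have hba : 0 < b - a := by linarith
  have hg' : ∀ x ∈ ball x₀ r, ‖∇ P x - e‖ ≤ 1 / 100 := fun x hx =>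
    (hg x hx).trans (one_div_le_one_div_of_le (by norm_num) hC₀100)
  have hm' : 100 * m ≤ r := le_trans (mul_le_mul_of_nonneg_right hC₀100 hm0) hm
  have hc : (E₁ d - E₂ d) / (4 * C) ≤ 1 := by rw [div_le_one (by linarith)]; linarith
  have hc0 : 0 < (E₁ d - E₂ d) / (4 * C) := div_pos (by linarith) (by linarith)
  rcases lt_or_ge (P x₀) (-(r / 50)) with hx₀ | hx₀
  · -- far in the zero phase
    refine ⟨a, b - (E₁ d - E₂ d) / (4 * C) * (b - a), le_rfl, by
      have := mul_pos hc0 hba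
      linarith, by ring, ?_⟩
    intro x hx
    have h1 := lin_approx hP hg' (mem_ball_self hr) (hsub hx)
    have h2 : ‖x - x₀‖ < r / 240 := by rwa [mem_ball, dist_eq_norm] at hx
    have h3 : |⟪e, x - x₀⟫_ℝ| ≤ ‖x - x₀‖ := by
      simpa [he] using abs_real_inner_le_norm e (x - x₀)
    have h4 := (abs_le.1 h1).2
    have h5 := (abs_le.1 h3).2
    have h6 : P x + b ≤ 0 := by linarith
    have h7 := hSand x (hsub hx)
    rw [max_eq_right h6] at h7
    refine ⟨h7.1, h7.2.trans (le_max_right _ _)⟩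
  · -- the barrier argument
    set z := x₀ + (r / 5) • e with hz
    have hzc := geo_center hP hr he hg' hx₀
    rw [← hz] at hzc
    set s : ℝ := (b - a) / (4 * C) with hs
    have hs0 : 0 < s := by positivity
    have hsE : s * (E₁ d - E₂ d) = (E₁ d - E₂ d) / (4 * C) * (b - a) := by rw [hs]; ring
    have h4Cs : b - a = 4 * C * s := by rw [hs]; field_simp
    have hsm : s ≤ m / 2 := by
      rw [hs, div_le_iff₀ (by positivity)]
      have h1 : m / 2 * 4 ≤ m / 2 * (4 * C) := mul_le_mul_of_nonneg_left (by linarith) (by linarith)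
      linarith
    have hk₁0 : 0 ≤ k₁ := (abs_nonneg _).trans (hL x₀ (mem_ball_self hr))
    have hkr : 0 ≤ k₁ * r ^ 2 := by positivity
    have hhole1 : ∀ x ∈ ball z (r / 20), x ∈ ball x₀ r ∧ 0 < P x + a := by
      intro x hx
      have hxB : x ∈ ball x₀ r := geo_mem hr he (ball_subset_ball (by linarith) hx)
      have hzB : z ∈ ball x₀ r := geo_mem hr he (mem_ball_self (by positivity))
      have h1 := lin_approx hP hg' hzB hxB
      have h2 : ‖x - z‖ < r / 20 := by rwa [mem_ball, dist_eq_norm] at hx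
      have h3 : |⟪e, x - z⟫_ℝ| ≤ ‖x - z‖ := by
        simpa [he] using abs_real_inner_le_norm e (x - z)
      have h4 := (abs_le.1 h1).1
      have h5 := (abs_le.1 h3).1
      exact ⟨hxB, by linarith⟩
    have hupos : ∀ x ∈ ball z (r / 20), 0 < u x := fun x hx =>
      lt_of_lt_of_le (hhole1 x hx).2 ((le_max_left _ _).trans (hSand x (hhole1 x hx).1).1)
    have huC : ∀ x ∈ ball z (r / 20), ContDiffAt ℝ 2 u x ∧ (Δ u) x = 0 := fun x hx =>
      ⟨(hH u K hu x (hupos x hx)).1, (hH u K hu x (hupos x hx)).2.self_of_nhds⟩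
    have hulow : ∀ x ∈ ball z (r / 20), P x + a ≤ u x := fun x hx =>
      (le_max_left _ _).trans (hSand x (hhole1 x hx).1).1
    have huup : ∀ x ∈ ball z (r / 20), u x ≤ P x + b := by
      intro x hx
      have h1 := (hSand x (hhole1 x hx).1).2
      have h2 := (hhole1 x hx).2
      rwa [max_eq_left (by linarith)] at h1
    have hzmem : z ∈ ball z (r / 20) := mem_ball_self (by positivity)
    have h402 : ball z (r / 40) ⊆ ball z (r / 20) := ball_subset_ball (by linarith)
    -- constants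
    have hkk : C * (k₁ * (r / 20) ^ 2) ≤ C * s / 100 := by
      have h1 : C₀ * (k₁ * r ^ 2) ≤ 4 * C * s := by rw [← h4Cs]; exact hk₁
      have h2 : C * (k₁ * r ^ 2) ≤ C₀ * (k₁ * r ^ 2) := mul_le_mul_of_nonneg_right hC₀C hkr
      have h3 : C * (k₁ * (r / 20) ^ 2) = C * (k₁ * r ^ 2) / 400 := by ring
      rw [h3]; linarith
    have hK1 : k₁ * r ^ 2 ≤ s * E₂ d * (1000 * d) * (d / 2) :=
      aux_K1 hs0 hE2 hd1 (by rw [← h4Cs]; exact hk₁) hC₀E' hC₀pos hC0
    have hK2 : k₂ * r < 1 / 5 * (s * E₂ d * (1000 * d)) :=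
      aux_K2 hs0 hE2 hd1 (by rw [← h4Cs]; exact hk₂) hC₀E' hC₀pos hC0
    have hsr : s * (12 * (1000 * d)) ≤ r := by
      have h1 : s * (12 * (1000 * d)) = s * (12000 * d) := by ring
      rw [h1]
      have h2 : s * (12000 * d) ≤ m * C₀ := mul_le_mul (by linarith) hC₀d (by positivity) hm0
      linarith
    rcases le_total ((b - a) / 2) (u z - P z - a) with hcase | hcase
    · -- improvement from below
      have hh : ∀ y ∈ ball z (r / 40), P y + a + s ≤ u y := by
        intro y hy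
        have h := (hHar (fun x => u x - (P x + a)) z (r / 20) k₁ (by positivity) hk₁0
          (fun x hx => (huC x hx).1.sub (hP.contDiffAt.add contDiffAt_const)) (fun x hx => by
            have h1 : ContDiffAt ℝ 2 (fun x => P x + a) x := hP.contDiffAt.add contDiffAt_const
            have h2 : (Δ (fun x => u x - (P x + a))) x = (Δ u) x - (Δ (fun x => P x + a)) x :=
              (huC x hx).1.laplacian_sub h1
            have h3 : (Δ (fun x => P x + a)) x = (Δ P) x := laplacian_add_cst hP _ x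
            rw [h2, h3, (huC x hx).2, zero_sub, abs_neg]
            exact hL x (hhole1 x hx).1)
          (fun x hx => by have := hulow x hx; linarith) y (by
            rw [show r / 20 / 2 = r / 40 by ring]; exact hy)).2
        have h7 := aux_H hC0 hs0 hkk (D := b - a) (x := u y - (P y + a)) (by linarith) h4Cs
        linarith
      have hfin := lower_step hV1 hd hu hP hr he hg' hL hN hm' ha hs0 (by linarith) hK1
        (by have : 0 < s * E₂ d * (1000 * d) := by positivity
            linarith) hx₀ (fun x hx => (hSand x hx).1) hh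
      refine ⟨a + (E₁ d - E₂ d) / (4 * C) * (b - a), b, by
        have := mul_pos hc0 hba
        linarith, le_rfl, by ring, ?_⟩
      intro x hx
      refine ⟨max_le ?_ (hu.nonneg x), (hSand x (hsub hx)).2⟩
      have := hfin x hx
      rw [hsE] at this
      linarith
    · -- improvement from above
      have hh : ∀ y ∈ ball z (r / 40), u y ≤ P y + b - s := by
        intro y hy
        have h := (hHar (fun x => (P x + b) - u x) z (r / 20) k₁ (by positivity) hk₁0
          (fun x hx => (hP.contDiffAt.add contDiffAt_const).sub (huC x hx).1) (fun x hx => by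
            have h1 : ContDiffAt ℝ 2 (fun x => P x + b) x := hP.contDiffAt.add contDiffAt_const
            have h2 : (Δ (fun x => (P x + b) - u x)) x = (Δ (fun x => P x + b)) x - (Δ u) x :=
              h1.laplacian_sub (huC x hx).1
            have h3 : (Δ (fun x => P x + b)) x = (Δ P) x := laplacian_add_cst hP _ x
            rw [h2, h3, (huC x hx).2, sub_zero]
            exact hL x (hhole1 x hx).1)
          (fun x hx => by have := huup x hx; linarith) y (by
            rw [show r / 20 / 2 = r / 40 by ring]; exact hy)).2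
        have h7 := aux_H hC0 hs0 hkk (D := b - a) (x := (P y + b) - u y) (by linarith) h4Cs
        linarith
      have hfin := upper_step hV2 hd hu hP hr he hg' hL hN hm' hb hs0 (by linarith) hsr hK1
        hK2 hx₀ (fun x hx => (hSand x hx).2) hh
      refine ⟨a, b - (E₁ d - E₂ d) / (4 * C) * (b - a), le_rfl, by
        have := mul_pos hc0 hba
        linarith, by ring, ?_⟩
      intro x hx
      refine ⟨(hSand x (hsub hx)).1, ?_⟩
      have := hfin x hx
      rw [hsE] at this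
      refine this.trans (max_le_max (by linarith) le_rfl)

end Crest.Agent.R097
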