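import Crest.Agent.R097.F1

/-!
# Row 97, F1: the two barrier arguments
-/

set_option autoImplicit false
open MeasureTheory Metric Set Filter Topology InnerProductSpace
open scoped RealInnerProductSpace NNReal ENNReal Gradient Laplacian

namespace Crest.Agent.R097

variable {d : ℕ}

/-- the value of the barrier at radius `r/4` -/
noncomputable def E₁ (d : ℕ) : ℝ := Real.exp (-(1000 * d * (1 / 16)))
/-- the value of the barrier at radius `3r/4` -/
noncomputable def E₂ (d : ℕ) : ℝ := Real.exp (-(1000 * d * (9 / 16)))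

lemma E₁_pos : 0 < E₁ d := Real.exp_pos _
lemma E₂_pos : 0 < E₂ d := Real.exp_pos _
lemma E₂_lt_E₁ (hd : 1 ≤ d) : E₂ d < E₁ d := by
  have : (1 : ℝ) ≤ d := by exact_mod_cast hd
  unfold E₁ E₂
  rw [Real.exp_lt_exp]
  linarith
lemma E₁_le_one : E₁ d ≤ 1 := by
  unfold E₁
  rw [Real.exp_le_one_iff]
  have : (0 : ℝ) ≤ d := by positivity
  linarith

/-- geometric facts about the ball around `z = x₀ + (r/5) e` -/
lemma geo_mem {e x₀ : E d} {r : ℝ} (hr : 0 < r) (he : ‖e‖ = 1) {x : E d}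
    (hx : x ∈ ball (x₀ + (r / 5) • e) (79 * r / 100)) : x ∈ ball x₀ r := by
  rw [mem_ball, dist_eq_norm] at hx ⊢
  have h1 : x - x₀ = (x - (x₀ + (r / 5) • e)) + (r / 5) • e := by abel
  have h2 : ‖(r / 5) • e‖ = r / 5 := by
    rw [norm_smul, he, Real.norm_eq_abs, abs_of_pos (by positivity), mul_one]
  rw [h1]
  refine (norm_add_le _ _).trans_lt ?_
  rw [h2]
  linarith

lemma geo_center {P : E d → ℝ} (hP : ContDiff ℝ 2 P) {e x₀ : E d} {r : ℝ} (hr : 0 < r)
    (he : ‖e‖ = 1) (hg : ∀ x ∈ ball x₀ r, ‖∇ P x - e‖ ≤ 1 / 100) (hx₀ : -(r / 50) ≤ P x₀) :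
    178 / 1000 * r ≤ P (x₀ + (r / 5) • e) := by
  have h2 : ‖(r / 5) • e‖ = r / 5 := by
    rw [norm_smul, he, Real.norm_eq_abs, abs_of_pos (by positivity), mul_one]
  have hz : x₀ + (r / 5) • e ∈ ball x₀ r := by
    rw [mem_ball, dist_eq_norm, add_sub_cancel_left, h2]; linarith
  have h := lin_approx hP hg (mem_ball_self hr) hz
  rw [add_sub_cancel_left, h2, real_inner_smul_right, real_inner_self_eq_norm_sq, he] at h
  have := (abs_le.1 h).1
  linarith

lemma geo_inner {P : E d → ℝ} (hP : ContDiff ℝ 2 P) {e x₀ : E d} {r m : ℝ} (hr : 0 < r)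
    (he : ‖e‖ = 1) (hg : ∀ x ∈ ball x₀ r, ‖∇ P x - e‖ ≤ 1 / 100) (hx₀ : -(r / 50) ≤ P x₀)
    (hm : 100 * m ≤ r) {x : E d} (hx : x ∈ closedBall (x₀ + (r / 5) • e) (3 * r / 4))
    (hPx : |P x| ≤ 3 * m) : r / 10 ≤ ⟪∇ P x, x₀ + (r / 5) • e - x⟫_ℝ := by
  set z := x₀ + (r / 5) • e with hz
  have hxD : x ∈ ball z (79 * r / 100) := closedBall_subset_ball (by linarith) hx
  have hxB : x ∈ ball x₀ r := geo_mem hr he hxD
  have hzB : z ∈ ball x₀ r := geo_mem hr he (mem_ball_self (by positivity))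
  have hc := geo_center hP hr he hg hx₀
  rw [← hz] at hc
  have h1 := lin_approx hP hg hxB hzB
  have h2 : ‖z - x‖ ≤ 3 * r / 4 := by
    rw [mem_closedBall, dist_eq_norm] at hx
    rwa [norm_sub_rev]
  have h3 : |⟪∇ P x - e, z - x⟫_ℝ| ≤ 1 / 100 * ‖z - x‖ :=
    (abs_real_inner_le_norm _ _).trans (mul_le_mul_of_nonneg_right (hg x hxB) (norm_nonneg _))
  rw [inner_sub_left] at h3
  have h4 := (abs_le.1 h1).2
  have h5 := (abs_le.1 h3).1
  have h6 := (abs_le.1 hPx).2
  linarith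

lemma mu_facts (hd : 1 ≤ d) {r : ℝ} (hr : 0 < r) :
    Real.exp (-((1000 * d / r ^ 2) * (3 * r / 4) ^ 2)) = E₂ d ∧
    Real.exp (-((1000 * d / r ^ 2) * (r / 4) ^ 2)) = E₁ d := by
  constructor
  · unfold E₂
    congr 1
    field_simp
    norm_num
  · unfold E₁
    congr 1
    field_simp
    norm_num

/-- improvement from below -/
theorem lower_step (hV1 : V1Loc d) (hd : 1 ≤ d) {u : E d → ℝ} {K : ℝ≥0} (hu : LM u K)
    {P : E d → ℝ} (hP : ContDiff ℝ 2 P) {e x₀ : E d} {r m k₁ k₂ a s : ℝ} (hr : 0 < r)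
    (he : ‖e‖ = 1) (hg : ∀ x ∈ ball x₀ r, ‖∇ P x - e‖ ≤ 1 / 100)
    (hL : ∀ x ∈ ball x₀ r, |(Δ P) x| ≤ k₁)
    (hN : ∀ x ∈ ball x₀ r, |P x| ≤ 3 * m → |‖∇ P x‖ ^ 2 - 1| ≤ k₂)
    (hm : 100 * m ≤ r) (ha : |a| ≤ m) (hs0 : 0 < s) (hsm : s ≤ m)
    (hk₁ : k₁ * r ^ 2 ≤ s * E₂ d * (1000 * d) * (d / 2))
    (hk₂ : k₂ * r < 2 / 5 * (s * E₂ d * (1000 * d)))
    (hx₀ : -(r / 50) ≤ P x₀) (hlow : ∀ x ∈ ball x₀ r, max (P x + a) 0 ≤ u x)
    (hhole : ∀ x ∈ ball (x₀ + (r / 5) • e) (r / 40), P x + a + s ≤ u x) :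
    ∀ x ∈ ball x₀ (r / 240), P x + a + s * (E₁ d - E₂ d) ≤ u x := by
  set z := x₀ + (r / 5) • e with hz
  set μ : ℝ := 1000 * d / r ^ 2 with hμ
  have hd1 : (1 : ℝ) ≤ d := by exact_mod_cast hd
  have hμ0 : 0 < μ := by positivity
  obtain ⟨hE2, hE1⟩ := mu_facts hd hr
  rw [← hμ] at hE2 hE1
  have hE2pos := E₂_pos (d := d)
  set Ψ := bar P (a - s * E₂ d) s μ z with hΨ
  have hΨx : ∀ x, Ψ x = P x + (a - s * E₂ d) + s * gau μ z x := fun x => rfl
  have hS : ∀ x ∈ ball z (79 * r / 100), u x < Ψ x → x ∈ closedBall z (3 * r / 4) := by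
    intro x hx hlt
    by_contra hcon
    rw [mem_closedBall, dist_eq_norm, not_le] at hcon
    have h1 := gau_anti_lt hμ0 (by positivity : (0 : ℝ) ≤ 3 * r / 4) hcon
    rw [hE2] at h1
    have h2 := hlow x (geo_mem hr he hx)
    have h3 := le_trans (le_max_left _ _) h2
    rw [hΨx] at hlt
    nlinarith
  have hmain : ∀ x ∈ ball z (79 * r / 100), Ψ x ≤ u x := by
    refine hV1 u K hu (ball z (79 * r / 100)) (closedBall z (3 * r / 4)) isOpen_ball
      (isCompact_closedBall _ _) (closedBall_subset_ball (by linarith)) Ψ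
      (contDiff_bar hP _ _ _ _) hS ?_ ?_
    · intro x hx hlt
      have hxS := hS x hx hlt
      have hxB := geo_mem hr he hx
      have hge : r / 40 ≤ ‖x - z‖ := by
        by_contra hcon
        rw [not_le] at hcon
        have h1 := hhole x (by rw [mem_ball, dist_eq_norm]; exact hcon)
        have h2 := gau_le_one hμ0.le z x
        rw [hΨx] at hlt
        nlinarith [mul_pos hs0 hE2pos]
      rw [hΨ, laplacian_bar hP, laplacian_gau]
      have h3 : E₂ d ≤ gau μ z x := by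
        rw [← hE2]
        rw [mem_closedBall, dist_eq_norm] at hxS
        exact gau_anti hμ0.le hxS
      have h4 : μ * (r / 40) ^ 2 ≤ μ * ‖x - z‖ ^ 2 :=
        mul_le_mul_of_nonneg_left (pow_le_pow_left₀ (by positivity) hge 2) hμ0.le
      have h5 : μ * (r / 40) ^ 2 = 5 / 8 * d := by
        rw [hμ]; field_simp; norm_num
      have h6 : μ * d / 2 ≤ 4 * μ ^ 2 * ‖x - z‖ ^ 2 - 2 * μ * d := by
        have h7 : 4 * μ ^ 2 * ‖x - z‖ ^ 2 = 4 * μ * (μ * ‖x - z‖ ^ 2) := by ring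
        rw [h7]
        have h8 : 4 * μ * (5 / 8 * d) ≤ 4 * μ * (μ * ‖x - z‖ ^ 2) :=
          mul_le_mul_of_nonneg_left (by rw [← h5]; exact h4) (by positivity)
        linarith
      have h9 : s * (E₂ d * (μ * d / 2)) ≤ s * (gau μ z x * (4 * μ ^ 2 * ‖x - z‖ ^ 2 - 2 * μ * d)) :=
        mul_le_mul_of_nonneg_left (mul_le_mul h3 h6 (by positivity) (gau_pos _ _ _).le) hs0.le
      have h10 : k₁ ≤ s * (E₂ d * (μ * d / 2)) := by
        have : s * (E₂ d * (μ * d / 2)) = s * E₂ d * (1000 * d) * (d / 2) / r ^ 2 := by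
          rw [hμ]; field_simp
        rw [this, le_div_iff₀ (by positivity)]
        exact hk₁
      have h11 := (abs_le.1 (hL x hxB)).1
      linarith
    · intro x hx hux hΨ0
      have hxS := hS x hx (by rw [hux]; exact hΨ0)
      have hxB := geo_mem hr he hx
      have h3 : E₂ d ≤ gau μ z x := by
        rw [← hE2]
        rw [mem_closedBall, dist_eq_norm] at hxS
        exact gau_anti hμ0.le hxS
      have ha' := abs_le.1 ha
      have hPx : |P x| ≤ 3 * m := by
        rw [abs_le]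
        have h4 := gau_le_one hμ0.le z x
        have h5 := le_trans (le_max_left _ _) (hlow x hxB)
        rw [hux] at h5
        rw [hΨx] at hΨ0
        constructor
        · nlinarith [mul_pos hs0 hE2pos]
        · linarith
      have h6 := geo_inner hP hr he hg hx₀ hm hxS hPx
      rw [← hz] at h6
      have h7 := (abs_le.1 (hN x hxB hPx)).1
      have h8 : k₂ < 4 * s * μ * E₂ d * (r / 10) := by
        have : 4 * s * μ * E₂ d * (r / 10) = 2 / 5 * (s * E₂ d * (1000 * d)) / r := by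
          rw [hμ]; field_simp; ring
        rw [this, lt_div_iff₀ hr]
        exact hk₂
      have h9 : 4 * s * μ * E₂ d * (r / 10) ≤
          2 * (s * (2 * μ * gau μ z x)) * ⟪∇ P x, z - x⟫_ℝ := by
        have : 2 * (s * (2 * μ * gau μ z x)) * ⟪∇ P x, z - x⟫_ℝ =
          4 * s * μ * gau μ z x * ⟪∇ P x, z - x⟫_ℝ := by ring
        rw [this]
        refine mul_le_mul ?_ h6 (by positivity) (by have := gau_pos μ z x; positivity)
        exact mul_le_mul_of_nonneg_left h3 (by positivity)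
      have h10 := normsq_gradient_bar hP (a - s * E₂ d) s μ z x
      have h11 : 0 ≤ (s * (2 * μ * gau μ z x)) ^ 2 * ‖x - z‖ ^ 2 := by positivity
      have h12 : 1 < ‖fderiv ℝ Ψ x‖ ^ 2 := by rw [hΨ, h10]; linarith
      by_contra hcon
      rw [not_lt] at hcon
      have := pow_le_one₀ (n := 2) (norm_nonneg _) hcon
      linarith
  intro x hx
  have hxz : ‖x - z‖ ≤ r / 4 := by
    have h1 : x - z = (x - x₀) - (r / 5) • e := by rw [hz]; abel
    have h2 : ‖(r / 5) • e‖ = r / 5 := by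
      rw [norm_smul, he, Real.norm_eq_abs, abs_of_pos (by positivity), mul_one]
    rw [mem_ball, dist_eq_norm] at hx
    rw [h1]
    refine (norm_sub_le _ _).trans ?_
    rw [h2]
    linarith
  have hxD : x ∈ ball z (79 * r / 100) := by
    rw [mem_ball, dist_eq_norm]; linarith
  have h1 := hmain x hxD
  have h2 := gau_anti hμ0.le hxz
  rw [hE1] at h2
  rw [hΨx] at h1
  nlinarith

/-- improvement from above -/
theorem upper_step (hV2 : V2Loc d) (hd : 1 ≤ d) {u : E d → ℝ} {K : ℝ≥0} (hu : LM u K)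
    {P : E d → ℝ} (hP : ContDiff ℝ 2 P) {e x₀ : E d} {r m k₁ k₂ b s : ℝ} (hr : 0 < r)
    (he : ‖e‖ = 1) (hg : ∀ x ∈ ball x₀ r, ‖∇ P x - e‖ ≤ 1 / 100)
    (hL : ∀ x ∈ ball x₀ r, |(Δ P) x| ≤ k₁)
    (hN : ∀ x ∈ ball x₀ r, |P x| ≤ 3 * m → |‖∇ P x‖ ^ 2 - 1| ≤ k₂)
    (hm : 100 * m ≤ r) (hb : |b| ≤ m) (hs0 : 0 < s) (hsm : s ≤ m)
    (hsr : s * (12 * (1000 * d)) ≤ r)
    (hk₁ : k₁ * r ^ 2 ≤ s * E₂ d * (1000 * d) * (d / 2))
    (hk₂ : k₂ * r < 1 / 5 * (s * E₂ d * (1000 * d)))
    (hx₀ : -(r / 50) ≤ P x₀) (hup : ∀ x ∈ ball x₀ r, u x ≤ max (P x + b) 0)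
    (hhole : ∀ x ∈ ball (x₀ + (r / 5) • e) (r / 40), u x ≤ P x + b - s) :
    ∀ x ∈ ball x₀ (r / 240), u x ≤ max (P x + b - s * (E₁ d - E₂ d)) 0 := by
  set z := x₀ + (r / 5) • e with hz
  set μ : ℝ := 1000 * d / r ^ 2 with hμ
  have hd1 : (1 : ℝ) ≤ d := by exact_mod_cast hd
  have hμ0 : 0 < μ := by positivity
  obtain ⟨hE2, hE1⟩ := mu_facts hd hr
  rw [← hμ] at hE2 hE1
  have hE2pos := E₂_pos (d := d)
  set Φ := bar P (b + s * E₂ d) (-s) μ z with hΦ
  have hΦx : ∀ x, Φ x = P x + (b + s * E₂ d) + (-s) * gau μ z x := fun x => rfl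
  have hS : ∀ x ∈ ball z (79 * r / 100), max (Φ x) 0 < u x → x ∈ closedBall z (3 * r / 4) := by
    intro x hx hlt
    by_contra hcon
    rw [mem_closedBall, dist_eq_norm, not_le] at hcon
    have h1 := gau_anti_lt hμ0 (by positivity : (0 : ℝ) ≤ 3 * r / 4) hcon
    rw [hE2] at h1
    have h2 := hup x (geo_mem hr he hx)
    have h3 : max (P x + b) 0 ≤ max (Φ x) 0 := by
      refine max_le_max ?_ le_rfl
      rw [hΦx]
      nlinarith
    linarith
  have hmain : ∀ x ∈ ball z (79 * r / 100), u x ≤ max (Φ x) 0 := by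
    refine hV2 u K hu (ball z (79 * r / 100)) (closedBall z (3 * r / 4)) isOpen_ball
      (isCompact_closedBall _ _) (closedBall_subset_ball (by linarith)) Φ
      (contDiff_bar hP _ _ _ _) hS ?_ ?_
    · intro x hx hlt
      have hxS := hS x hx hlt
      have hxB := geo_mem hr he hx
      have hge : r / 40 ≤ ‖x - z‖ := by
        by_contra hcon
        rw [not_le] at hcon
        have h1 := hhole x (by rw [mem_ball, dist_eq_norm]; exact hcon)
        have h2 := gau_le_one hμ0.le z x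
        have h3 := lt_of_le_of_lt (le_max_left _ _) hlt
        rw [hΦx] at h3
        nlinarith [mul_pos hs0 hE2pos]
      rw [hΦ, laplacian_bar hP, laplacian_gau]
      have h3 : E₂ d ≤ gau μ z x := by
        rw [← hE2]
        rw [mem_closedBall, dist_eq_norm] at hxS
        exact gau_anti hμ0.le hxS
      have h4 : μ * (r / 40) ^ 2 ≤ μ * ‖x - z‖ ^ 2 :=
        mul_le_mul_of_nonneg_left (pow_le_pow_left₀ (by positivity) hge 2) hμ0.le
      have h5 : μ * (r / 40) ^ 2 = 5 / 8 * d := by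
        rw [hμ]; field_simp; norm_num
      have h6 : μ * d / 2 ≤ 4 * μ ^ 2 * ‖x - z‖ ^ 2 - 2 * μ * d := by
        have h7 : 4 * μ ^ 2 * ‖x - z‖ ^ 2 = 4 * μ * (μ * ‖x - z‖ ^ 2) := by ring
        rw [h7]
        have h8 : 4 * μ * (5 / 8 * d) ≤ 4 * μ * (μ * ‖x - z‖ ^ 2) :=
          mul_le_mul_of_nonneg_left (by rw [← h5]; exact h4) (by positivity)
        linarith
      have h9 : s * (E₂ d * (μ * d / 2)) ≤ s * (gau μ z x * (4 * μ ^ 2 * ‖x - z‖ ^ 2 - 2 * μ * d)) :=
        mul_le_mul_of_nonneg_left (mul_le_mul h3 h6 (by positivity) (gau_pos _ _ _).le) hs0.le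
      have h10 : k₁ ≤ s * (E₂ d * (μ * d / 2)) := by
        have : s * (E₂ d * (μ * d / 2)) = s * E₂ d * (1000 * d) * (d / 2) / r ^ 2 := by
          rw [hμ]; field_simp
        rw [this, le_div_iff₀ (by positivity)]
        exact hk₁
      have h11 := (abs_le.1 (hL x hxB)).2
      linarith
    · intro x hx hlt hΦ0
      have hxS := hS x hx hlt
      have hxB := geo_mem hr he hx
      have hxz : ‖x - z‖ ≤ 3 * r / 4 := by
        rw [mem_closedBall, dist_eq_norm] at hxS
        exact hxS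
      have h3 : E₂ d ≤ gau μ z x := by
        rw [← hE2]
        exact gau_anti hμ0.le hxz
      have hgle := gau_le_one hμ0.le z x
      have hgpos := gau_pos μ z x
      have hb' := abs_le.1 hb
      have hPx : |P x| ≤ 3 * m := by
        rw [abs_le]
        have h4 : 0 < u x := lt_of_le_of_lt (le_max_right _ _) hlt
        have h5 := hup x hxB
        have h6 : 0 < P x + b := by
          rcases lt_max_iff.1 (lt_of_lt_of_le h4 h5) with h | h
          · exact h
          · exact absurd h (lt_irrefl _)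
        rw [hΦx] at hΦ0
        constructor
        · linarith
        · nlinarith [mul_pos hs0 hE2pos]
      have h6 := geo_inner hP hr he hg hx₀ hm hxS hPx
      rw [← hz] at h6
      have h7 := (abs_le.1 (hN x hxB hPx)).2
      have hgs : E₂ d * (s * μ) ≤ gau μ z x * (s * μ) :=
        mul_le_mul_of_nonneg_right h3 (by positivity)
      have h8 : k₂ < 2 * (s * μ) * gau μ z x * (r / 10) := by
        have h81 : 2 * s * μ * E₂ d * (r / 10) = 1 / 5 * (s * E₂ d * (1000 * d)) / r := by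
          rw [hμ]; field_simp; ring
        have h82 : k₂ < 2 * s * μ * E₂ d * (r / 10) := by
          rw [h81, lt_div_iff₀ hr]
          exact hk₂
        have : 2 * s * μ * E₂ d * (r / 10) ≤ 2 * (s * μ) * gau μ z x * (r / 10) := by
          nlinarith
        linarith
      have h9 : 4 * (s * μ) * gau μ z x * (r / 10) ≤
          4 * (s * μ) * gau μ z x * ⟪∇ P x, z - x⟫_ℝ :=
        mul_le_mul_of_nonneg_left h6 (by positivity)
      -- the quadratic term
      have h13 : (s * (2 * μ * gau μ z x)) ^ 2 * ‖x - z‖ ^ 2 ≤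
          2 * (s * μ) * gau μ z x * (r / 10) := by
        have q1 : ‖x - z‖ ^ 2 ≤ (3 * r / 4) ^ 2 := pow_le_pow_left₀ (norm_nonneg _) hxz 2
        have q2 : (s * (2 * μ * gau μ z x)) ^ 2 * ‖x - z‖ ^ 2 ≤
            (s * (2 * μ * gau μ z x)) ^ 2 * (3 * r / 4) ^ 2 :=
          mul_le_mul_of_nonneg_left q1 (by positivity)
        have q3 : (s * (2 * μ * gau μ z x)) ^ 2 * (3 * r / 4) ^ 2 =
            (2 * (s * μ) * gau μ z x * (r / 10)) * ((45 / 4) * (s * μ * r) * gau μ z x) := by ring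
        have q4 : s * μ * r ≤ 1 / 12 := by
          have : s * μ * r = s * (12 * (1000 * d)) / (12 * r) := by
            rw [hμ]; field_simp
          rw [this, div_le_div_iff₀ (by positivity) (by norm_num)]
          linarith
        have q5 : (45 / 4) * (s * μ * r) * gau μ z x ≤ 1 := by
          have : (45 / 4) * (s * μ * r) * gau μ z x ≤ (45 / 4) * (1 / 12) * 1 :=
            mul_le_mul (mul_le_mul_of_nonneg_left q4 (by norm_num)) hgle hgpos.le (by norm_num)
          linarith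
        rw [q3] at q2
        refine q2.trans ?_
        have q6 : 0 ≤ 2 * (s * μ) * gau μ z x * (r / 10) := by positivity
        exact mul_le_of_le_one_right q6 q5
      have h10 := normsq_gradient_bar hP (b + s * E₂ d) (-s) μ z x
      have e1 : (-s * (2 * μ * gau μ z x)) ^ 2 = (s * (2 * μ * gau μ z x)) ^ 2 := by ring
      have e2 : 2 * (-s * (2 * μ * gau μ z x)) * ⟪∇ P x, z - x⟫_ℝ =
        -(4 * (s * μ) * gau μ z x * ⟪∇ P x, z - x⟫_ℝ) := by ring
      rw [e1, e2] at h10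
      have h12 : ‖fderiv ℝ Φ x‖ ^ 2 < 1 := by
        rw [hΦ, h10]
        have : 4 * (s * μ) * gau μ z x * (r / 10) = 2 * (2 * (s * μ) * gau μ z x * (r / 10)) := by
          ring
        linarith
      by_contra hcon
      rw [not_lt] at hcon
      have := one_le_pow₀ (n := 2) hcon
      linarith
  intro x hx
  have hxz : ‖x - z‖ ≤ r / 4 := by
    have h1 : x - z = (x - x₀) - (r / 5) • e := by rw [hz]; abel
    have h2 : ‖(r / 5) • e‖ = r / 5 := by
      rw [norm_smul, he, Real.norm_eq_abs, abs_of_pos (by positivity), mul_one]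
    rw [mem_ball, dist_eq_norm] at hx
    rw [h1]
    refine (norm_sub_le _ _).trans ?_
    rw [h2]
    linarith
  have hxD : x ∈ ball z (79 * r / 100) := by
    rw [mem_ball, dist_eq_norm]; linarith
  have h1 := hmain x hxD
  have h2 := gau_anti hμ0.le hxz
  rw [hE1] at h2
  refine h1.trans (max_le_max ?_ le_rfl)
  rw [hΦx]
  nlinarith

end Crest.Agent.R097
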