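import Crest.Agent.R097.Iface

/-!
# Row 97: statements F2, F3 (improvement of flatness), definitions only (helper392)
-/

set_option autoImplicit false
open MeasureTheory Metric Set Filter Topology InnerProductSpace
open scoped RealInnerProductSpace NNReal ENNReal Gradient Laplacian

namespace Crest.Agent.R097

variable {d : ℕ}

/-- the set-up of F1-F3 at scale one: `P` is almost the linear function `x ↦ ⟪e,x⟫`, almost harmonic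
and with `|DP| = 1` up to `k δ` near `{P = 0}` -/
structure Nice (P : E d → ℝ) (e : E d) (k δ : ℝ) : Prop where
  c2 : ContDiff ℝ 2 P
  close : ∀ x ∈ ball (0 : E d) 1, |P x - ⟪e, x⟫_ℝ| ≤ k
  dclose : ∀ x ∈ ball (0 : E d) 1, ‖fderiv ℝ P x - innerSL ℝ e‖ ≤ k
  lap : ∀ x ∈ ball (0 : E d) 1, |(Δ P) x| ≤ k * δ
  grad : ∀ x ∈ ball (0 : E d) 1, |P x| ≤ 3 * δ → |‖fderiv ℝ P x‖ ^ 2 - 1| ≤ k * δ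

/-- F2: local sandwiches of small relative width at a fixed scale -/
def F2Stmt (d : ℕ) : Prop :=
  ∀ ε : ℝ, 0 < ε → ∃ r₁ : ℝ, 0 < r₁ ∧ ∃ k₀ : ℝ, 0 < k₀ ∧ ∃ δ₀ : ℝ, 0 < δ₀ ∧
    ∀ (u : E d → ℝ) (K : ℝ≥0) (P : E d → ℝ) (e : E d) (δ : ℝ), LM u K → ‖e‖ = 1 → 0 < δ → δ ≤ δ₀ →
      Nice P e k₀ δ → Sand u P (-δ) δ (ball (0 : E d) 1) →
      ∀ x₀ ∈ ball (0 : E d) (3 / 4), ∃ a b : ℝ, -1 ≤ a ∧ a ≤ b ∧ b ≤ 1 ∧ b - a ≤ ε ∧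
        Sand u P (a * δ) (b * δ) (ball x₀ r₁)

/-- F3: the improved sandwich by an even harmonic function -/
def F3Stmt (d : ℕ) : Prop :=
  ∀ ε : ℝ, 0 < ε → ∃ k₀ : ℝ, 0 < k₀ ∧ ∃ δ₀ : ℝ, 0 < δ₀ ∧
    ∀ (u : E d → ℝ) (K : ℝ≥0) (P : E d → ℝ) (e : E d) (δ : ℝ), LM u K → ‖e‖ = 1 → 0 < δ → δ ≤ δ₀ →
      Nice P e k₀ δ → Sand u P (-δ) δ (ball (0 : E d) 1) →
      ∃ h : E d → ℝ, ContDiff ℝ (⊤ : ℕ∞) h ∧ (∀ x, (Δ h) x = 0) ∧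
        (∀ x, h (x - (2 * ⟪e, x⟫_ℝ) • e) = h x) ∧ (∀ x ∈ ball (0 : E d) (1 / 2), |h x| ≤ 2) ∧
        ∀ x ∈ ball (0 : E d) (1 / 2),
          max (P x + δ * (h x - ε)) 0 ≤ u x ∧ u x ≤ max (P x + δ * (h x + ε)) 0

/-- V1, local version -/
def V1Stmt (d : ℕ) : Prop :=
  ∀ (u : E d → ℝ) (K : ℝ≥0), LM u K → ∀ (D S : Set (E d)) (Ψ : E d → ℝ), IsOpen D → IsCompact S →
    S ⊆ D → ContDiff ℝ 2 Ψ → (∀ x ∈ D, u x < Ψ x → x ∈ S) →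
    (∀ x ∈ D, u x < Ψ x → 0 ≤ (Δ Ψ) x) →
    (∀ x ∈ D, u x = 0 → 0 < Ψ x → 1 < ‖fderiv ℝ Ψ x‖) → ∀ x ∈ D, Ψ x ≤ u x

/-- V2, local version -/
def V2Stmt (d : ℕ) : Prop :=
  ∀ (u : E d → ℝ) (K : ℝ≥0), LM u K → ∀ (D S : Set (E d)) (Φ : E d → ℝ), IsOpen D → IsCompact S →
    S ⊆ D → ContDiff ℝ 2 Φ → (∀ x ∈ D, max (Φ x) 0 < u x → x ∈ S) →
    (∀ x ∈ D, max (Φ x) 0 < u x → (Δ Φ) x ≤ 0) →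
    (∀ x ∈ D, 0 < u x → Φ x ≤ 0 → ‖fderiv ℝ Φ x‖ < 1) → ∀ x ∈ D, u x ≤ max (Φ x) 0

/-- H2 = dirichlet_approx (note 10074) -/
def DirStmt (d : ℕ) : Prop :=
  ∀ K : ℝ≥0, ∀ ε : ℝ, 0 < ε → ∃ τ : ℝ, 0 < τ ∧ τ < 1 / 8 ∧ ∀ e : E d, ‖e‖ = 1 → ∀ g : E d → ℝ,
    LipschitzWith K g → (∀ x, |g x| ≤ 1) → (∀ x, g (x - (2 * ⟪e, x⟫_ℝ) • e) = g x) →
    ∃ h : E d → ℝ, ContDiff ℝ (⊤ : ℕ∞) h ∧ (∀ x, (Δ h) x = 0) ∧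
      (∀ x, h (x - (2 * ⟪e, x⟫_ℝ) • e) = h x) ∧ (∀ x ∈ ball (0 : E d) (1 / 2), |h x| ≤ 2) ∧
      ∀ x ∈ ball (0 : E d) (1 / 2), 1 / 2 - τ ≤ ‖x‖ → |h x - g x| ≤ ε

/-- interior derivative estimates for harmonic functions -/
def JetStmt (d : ℕ) : Prop :=
  ∃ C : ℝ, 1 ≤ C ∧ ∀ (x : E d) (r : ℝ), 0 < r → ∀ (h : E d → ℝ) (M : ℝ),
    ContDiffOn ℝ 2 h (ball x r) → (∀ y ∈ ball x r, (Δ h) y = 0) → (∀ y ∈ ball x r, |h y| ≤ M) →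
    ‖fderiv ℝ h x‖ ≤ C * M / r ∧ ‖D2 h x‖ ≤ C * M / r ^ 2

end Crest.Agent.R097
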