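import Crest.Agent.R097.V1

/-!
# Row 97: comparison with strict supersolutions from above (V2), local versions of V1, V2
-/

set_option autoImplicit false
open MeasureTheory Metric Set Filter Topology InnerProductSpace
open scoped RealInnerProductSpace NNReal ENNReal Gradient Laplacian

namespace Crest.Agent.R097

variable {d : ℕ}

/-- **V1, local version.** -/
theorem v1_local (hd : 0 < d) {u : E d → ℝ} {K : ℝ≥0} (hu : LM u K) {Ψ : E d → ℝ}
    (hΨ : ContDiff ℝ 2 Ψ) {D K0 : Set (E d)} (hD : IsOpen D) (hK : IsCompact K0) (hKD : K0 ⊆ D)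
    (hsub : ∀ x ∈ D, u x < Ψ x → x ∈ K0)
    (hΔ : ∀ x ∈ D, u x < Ψ x → 0 ≤ (Δ Ψ) x)
    (hg : ∀ x ∈ D, u x = 0 → 0 < Ψ x → 1 < ‖fderiv ℝ Ψ x‖) :
    ∀ x ∈ D, Ψ x ≤ u x := by
  obtain ⟨χ, hχ, -, hχD, hχ01, hχ1⟩ := exists_cutoff hK hD hKD
  set Ψ' : E d → ℝ := fun x => χ x * Ψ x - (1 - χ x) with hΨ'
  have hC : ContDiff ℝ 2 Ψ' := by
    have h1 : ContDiff ℝ 2 χ := by exact_mod_cast contDiff_infty.1 hχ 2
    exact (h1.mul hΨ).sub (contDiff_const.sub h1)
  have hin : ∀ x, u x < Ψ' x → x ∈ D ∧ u x < Ψ x := by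
    intro x hx
    have hu0 := hu.nonneg x
    have hxs : x ∈ tsupport χ := by
      by_contra h
      have h0 := image_eq_zero_of_notMem_tsupport h
      simp only [hΨ', h0] at hx
      linarith
    refine ⟨hχD hxs, ?_⟩
    by_contra h
    have h1 : Ψ x ≤ u x := not_lt.1 h
    have h2 := hχ01 x
    have h3 : χ x * Ψ x ≤ χ x * u x := mul_le_mul_of_nonneg_left h1 h2.1
    have h4 : χ x * u x ≤ 1 * u x := mul_le_mul_of_nonneg_right h2.2 hu0
    simp only [hΨ'] at hx
    linarith [h2.2]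
  have hK0 : ∀ x, u x < Ψ' x → x ∈ K0 := fun x hx => hsub x (hin x hx).1 (hin x hx).2
  have heq : ∀ x ∈ K0, Ψ' =ᶠ[𝓝 x] Ψ := by
    intro x hx
    filter_upwards [hχ1 x hx] with y hy
    simp [hΨ', hy]
  have hglob := v1_global hd hu hC (hK.isBounded.subset hK0)
    (fun x hx => by
      rw [(laplacian_congr_nhds (heq x (hK0 x hx))).self_of_nhds]
      exact hΔ x (hin x hx).1 (hin x hx).2)
    (fun x hx0 hx1 => by
      have hx : u x < Ψ' x := by rw [hx0]; exact hx1
      have h2 := (heq x (hK0 x hx))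
      rw [h2.fderiv_eq]
      refine hg x (hin x hx).1 hx0 ?_
      rw [← h2.self_of_nhds]; exact hx1)
  intro x hx
  by_contra h
  have h1 : u x < Ψ x := not_le.1 h
  have h2 := hsub x hx h1
  have h3 := hglob x
  rw [(heq x h2).self_of_nhds] at h3
  exact h h3

/-- **V2, global version** (with a Lipschitz `Φ`). -/
theorem v2_global (hd : 0 < d) {u : E d → ℝ} {K : ℝ≥0} (hu : LM u K) {Φ : E d → ℝ}
    (hΦ : ContDiff ℝ 2 Φ) {C1 : ℝ≥0} (hΦl : LipschitzWith C1 Φ)
    (hb : Bornology.IsBounded {x | max (Φ x) 0 < u x})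
    (hΔ : ∀ x, max (Φ x) 0 < u x → (Δ Φ) x ≤ 0)
    (hg : ∀ x, max (Φ x) 0 < u x → Φ x ≤ 0 → ‖fderiv ℝ Φ x‖ < 1) :
    ∀ x, u x ≤ max (Φ x) 0 := by
  set P : E d → ℝ := fun x => max (Φ x) 0 with hP
  have hPl : LipschitzWith C1 P := hΦl.max_const 0
  have hP0 : ∀ x, 0 ≤ P x := fun x => le_max_right _ _
  set A : Set (E d) := {x | P x < u x} with hA
  have hAo : IsOpen A := isOpen_lt hPl.continuous hu.continuous
  have hAm : MeasurableSet A := hAo.measurableSet
  set g : E d → ℝ := fun x => max (u x - P x) 0 with hgdef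
  have hg0 : ∀ x, 0 ≤ g x := fun x => le_max_right _ _
  have hgA : ∀ x ∈ A, g x = u x - P x := fun x hx => max_eq_left (sub_nonneg.2 (le_of_lt hx))
  have hgA' : ∀ x ∉ A, g x = 0 := fun x hx => max_eq_right (by
    have : ¬ (P x < u x) := hx
    linarith [not_lt.1 this])
  have hclA : IsCompact (closure A) := hb.isCompact_closure
  have hgc : HasCompactSupport g := by
    refine HasCompactSupport.of_support_subset_isCompact hclA ?_
    intro x hx
    by_contra h
    exact hx (hgA' x fun h' => h (subset_closure h'))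
  have hgl : LipschitzWith (K + C1) g := (hu.lip.sub hPl).max_const 0
  have hgd0 : ∀ x ∉ A, fderiv ℝ g x = 0 := fun x hx => fderiv_eq_zero_of_nonneg hg0 (hgA' x hx)
  have hΦd : ∀ x, DifferentiableAt ℝ Φ x := fun x => hΦ.differentiable (by norm_num) x
  have hud : ∀ᵐ x, DifferentiableAt ℝ u x := hu.lip.ae_differentiableAt
  have hPd : ∀ᵐ x, DifferentiableAt ℝ P x := hPl.ae_differentiableAt
  have hPdpos : ∀ x, 0 < Φ x → fderiv ℝ P x = fderiv ℝ Φ x := by
    intro x hx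
    have : P =ᶠ[𝓝 x] Φ := by
      filter_upwards [(isOpen_lt continuous_const hΦ.continuous).mem_nhds hx] with y hy
      exact max_eq_left (le_of_lt hy)
    exact this.fderiv_eq
  have hPdneg : ∀ x, Φ x ≤ 0 → fderiv ℝ P x = 0 := fun x hx =>
    fderiv_eq_zero_of_nonneg hP0 (max_eq_right hx)
  have hgdA : ∀ x ∈ A, DifferentiableAt ℝ u x → DifferentiableAt ℝ P x →
      fderiv ℝ g x = fderiv ℝ u x - fderiv ℝ P x := by
    intro x hx hux hPx
    have : g =ᶠ[𝓝 x] fun y => u y - P y := by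
      filter_upwards [hAo.mem_nhds hx] with y hy using hgA y hy
    rw [this.fderiv_eq, fderiv_fun_sub hux hPx]
  -- the competitor
  set v : E d → ℝ := fun x => u x - g x with hv
  have hvA : ∀ x ∈ A, v x = P x := fun x hx => by simp only [hv]; rw [hgA x hx]; ring
  have hvA' : ∀ x ∉ A, v x = u x := fun x hx => by simp only [hv]; rw [hgA' x hx]; ring
  have hv0 : ∀ x, 0 ≤ v x := by
    intro x
    by_cases hx : x ∈ A
    · rw [hvA x hx]; exact hP0 x
    · rw [hvA' x hx]; exact hu.nonneg x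
  have hvl : LipschitzWith (K + (K + C1)) v := hu.lip.sub hgl
  obtain ⟨R, hR0, hR⟩ : ∃ R : ℝ, 0 < R ∧ A ⊆ closedBall (0 : E d) R := by
    obtain ⟨R, hR⟩ := hb.subset_closedBall 0
    exact ⟨|R| + 1, by positivity, hR.trans (closedBall_subset_closedBall (by
      linarith [le_abs_self R]))⟩
  have hvout : ∀ x, x ∉ closedBall (0 : E d) R → v x = u x := fun x hx =>
    hvA' x fun h => hx (hR h)
  set B : Set (E d) := ball (0 : E d) (R + 1) with hB
  have hAB : A ⊆ B := hR.trans (closedBall_subset_ball (by linarith))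
  have hBm : MeasurableSet B := measurableSet_ball
  have hBfin : volume B < ⊤ := measure_ball_lt_top
  have hAfin : volume A < ⊤ := (measure_mono hAB).trans_lt hBfin
  have hmin := hu.min 0 R hR0 v hv0 ⟨_, hvl⟩ hvout
  have hvdA : ∀ x ∈ A, fderiv ℝ v x = fderiv ℝ P x := by
    intro x hx
    have : v =ᶠ[𝓝 x] P := by
      filter_upwards [hAo.mem_nhds hx] with y hy using hvA y hy
    rw [this.fderiv_eq]
  have hgdiff : ∀ᵐ x, DifferentiableAt ℝ g x := hgl.ae_differentiableAt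
  have hvdA' : ∀ᵐ x, x ∉ A → fderiv ℝ v x = fderiv ℝ u x := by
    filter_upwards [hud, hgdiff] with x hx1 hx2 hx3
    simp only [hv]
    rw [fderiv_fun_sub hx1 hx2, hgd0 x hx3, sub_zero]
  have hdir : (∫ x in B, ‖fderiv ℝ v x‖ ^ 2) - ∫ x in B, ‖fderiv ℝ u x‖ ^ 2 =
      ∫ x in A, (‖fderiv ℝ P x‖ ^ 2 - ‖fderiv ℝ u x‖ ^ 2) := by
    rw [← integral_sub (integrableOn_normsq hvl hBfin) (integrableOn_normsq hu.lip hBfin)]
    rw [← integral_indicator hBm, ← integral_indicator hAm]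
    refine integral_congr_ae ?_
    filter_upwards [hvdA'] with x hx
    by_cases hxA : x ∈ A
    · rw [indicator_of_mem (hAB hxA), indicator_of_mem hxA, hvdA x hxA]
    · rw [indicator_of_notMem hxA]
      by_cases hxB : x ∈ B
      · rw [indicator_of_mem hxB, hx hxA, sub_self]
      · rw [indicator_of_notMem hxB]
  -- measure part
  set Z : Set (E d) := A ∩ {x | Φ x ≤ 0} with hZ
  have hZm : MeasurableSet Z := hAm.inter (isClosed_le hΦ.continuous continuous_const).measurableSet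
  have hZfin : volume Z < ⊤ := (measure_mono inter_subset_left).trans_lt hAfin
  have hZA : Z ⊆ A := inter_subset_left
  have hmeas : (volume ({x | 0 < u x} ∩ B)).toReal - (volume ({x | 0 < v x} ∩ B)).toReal =
      (volume Z).toReal := by
    have e1 : {x | 0 < u x} ∩ B = ({x | 0 < v x} ∩ B) ∪ Z := by
      ext x
      constructor
      · rintro ⟨h1, h2⟩
        by_cases hxA : x ∈ A
        · by_cases hx : Φ x ≤ 0
          · exact Or.inr ⟨hxA, hx⟩
          · refine Or.inl ⟨?_, h2⟩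
            show 0 < v x
            rw [hvA x hxA]
            exact lt_max_of_lt_left (not_le.1 hx)
        · refine Or.inl ⟨?_, h2⟩
          show 0 < v x
          rw [hvA' x hxA]; exact h1
      · rintro (⟨h1, h2⟩ | ⟨h1, h2⟩)
        · refine ⟨?_, h2⟩
          have h3 : 0 < u x - g x := h1
          have := hg0 x
          show 0 < u x
          linarith
        · refine ⟨?_, hAB h1⟩
          have h3 : P x < u x := h1
          exact lt_of_le_of_lt (hP0 x) h3
    have hdisj : Disjoint ({x | 0 < v x} ∩ B) Z := by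
      rw [Set.disjoint_left]
      rintro x ⟨h1, -⟩ ⟨h3, h2⟩
      have h4 : 0 < v x := h1
      rw [hvA x h3] at h4
      have h5 : P x = 0 := max_eq_right h2
      linarith
    rw [e1, measure_union hdisj hZm, ENNReal.toReal_add
      ((measure_mono inter_subset_right).trans_lt hBfin).ne hZfin.ne]
    ring
  have hI : (volume Z).toReal ≤ ∫ x in A, (‖fderiv ℝ P x‖ ^ 2 - ‖fderiv ℝ u x‖ ^ 2) := by
    have : Jr u B ≤ Jr v B := hmin
    unfold Jr at this
    linarith
  -- Green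
  have hgreen := green1 hΦ hgl hgc
  have hgreen' : 0 ≤ ∫ x, fderiv ℝ g x (∇ Φ x) := by
    rw [hgreen, ← integral_neg]
    refine integral_nonneg fun x => ?_
    by_cases hx : x ∈ A
    · have := mul_nonneg (hg0 x) (neg_nonneg.2 (hΔ x hx))
      simp only [Pi.zero_apply]
      linarith
    · rw [hgA' x hx]; simp
  have hgreenA : ∫ x in A, fderiv ℝ g x (∇ Φ x) = ∫ x, fderiv ℝ g x (∇ Φ x) := by
    rw [← integral_indicator hAm]
    congr 1
    ext x
    by_cases hx : x ∈ A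
    · rw [indicator_of_mem hx]
    · rw [indicator_of_notMem hx, hgd0 x hx]; simp
  have hcontΦ : Continuous (fun x => ∇ Φ x) := (contDiff_gradient (m := 0) hΦ (by norm_num)).continuous
  have hint2 : IntegrableOn (fun x => fderiv ℝ g x (∇ Φ x)) A := by
    have hm : Measurable fun x => fderiv ℝ g x (∇ Φ x) := by
      have : ∀ x, fderiv ℝ g x (∇ Φ x) = ∑ i, (∇ Φ x) i * fderiv ℝ g x (bv i) := by
        intro x
        conv_lhs => rw [← sum_bv (∇ Φ x), map_sum]
        simp [smul_eq_mul]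
      simp_rw [this]
      refine Finset.measurable_sum _ fun i _ => ?_
      refine Measurable.mul ?_ (measurable_fd g _)
      exact ((EuclideanSpace.proj i : E d →L[ℝ] ℝ).continuous.comp hcontΦ).measurable
    obtain ⟨M, hM⟩ := hclA.exists_bound_of_continuousOn hcontΦ.continuousOn
    refine Measure.integrableOn_of_bounded (M := (K + C1) * M) hAfin.ne
      hm.aestronglyMeasurable ?_
    rw [ae_restrict_iff' hAm]
    refine Eventually.of_forall fun x hx => ?_
    refine (ContinuousLinearMap.le_opNorm _ _).trans ?_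
    exact mul_le_mul (by simpa using norm_fderiv_le_of_lip hgl x) (hM x (subset_closure hx))
      (norm_nonneg _) (by positivity)
  -- the function u - Φ
  set q : E d → ℝ := fun x => u x - Φ x with hq
  have hql : LipschitzWith (K + C1) q := hu.lip.sub hΦl
  have hint1 : IntegrableOn (fun x => ‖fderiv ℝ q x‖ ^ 2) A := integrableOn_normsq hql hAfin
  have hqd : ∀ x, DifferentiableAt ℝ u x → fderiv ℝ q x = fderiv ℝ u x - fderiv ℝ Φ x :=
    fun x hx => by simp only [hq]; rw [fderiv_fun_sub hx (hΦd x)]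
  have hintΦ : IntegrableOn (fun x => ‖fderiv ℝ Φ x‖ ^ 2) A := integrableOn_normsq hΦl hAfin
  have hexp : ∫ x in A, (‖fderiv ℝ P x‖ ^ 2 - ‖fderiv ℝ u x‖ ^ 2) =
      - 2 * (∫ x in A, fderiv ℝ g x (∇ Φ x)) - (∫ x in A, ‖fderiv ℝ q x‖ ^ 2)
        + ∫ x in Z, ‖fderiv ℝ Φ x‖ ^ 2 := by
    have hZind : ∫ x in Z, ‖fderiv ℝ Φ x‖ ^ 2 =
        ∫ x in A, indicator {x | Φ x ≤ 0} (fun x => ‖fderiv ℝ Φ x‖ ^ 2) x := by
      rw [setIntegral_indicator (isClosed_le hΦ.continuous continuous_const).measurableSet]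
    have hintI : IntegrableOn (indicator {x | Φ x ≤ 0} (fun x => ‖fderiv ℝ Φ x‖ ^ 2)) A :=
      hintΦ.indicator (isClosed_le hΦ.continuous continuous_const).measurableSet
    have hsub : IntegrableOn (fun x => -2 * fderiv ℝ g x (∇ Φ x) - ‖fderiv ℝ q x‖ ^ 2) A :=
      (hint2.const_mul (-2)).sub hint1
    rw [hZind, ← integral_const_mul, ← integral_sub (hint2.const_mul (-2)) hint1,
      ← integral_add hsub hintI]
    refine integral_congr_ae ?_
    rw [EventuallyEq, ae_restrict_iff' hAm]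
    filter_upwards [hud, hPd] with x hx hPx hxA
    rw [hgdA x hxA hx hPx, hqd x hx]
    by_cases hx0 : Φ x ≤ 0
    · rw [hPdneg x hx0, indicator_of_mem (by exact hx0), sub_zero]
      have h1 := normsq_sub (fderiv ℝ Φ x) (fderiv ℝ u x) (∇ Φ x) (inner_gradient Φ x)
      rw [norm_sub_rev (fderiv ℝ Φ x) (fderiv ℝ u x)] at h1
      have h2 : (fderiv ℝ Φ x - fderiv ℝ u x) (∇ Φ x) =
          ‖fderiv ℝ Φ x‖ ^ 2 - fderiv ℝ u x (∇ Φ x) := by
        have : fderiv ℝ Φ x (∇ Φ x) = ‖fderiv ℝ Φ x‖ ^ 2 := by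
          rw [← inner_gradient, real_inner_self_eq_norm_sq, norm_gradient]
        rw [sub_apply, this]
      rw [h2] at h1
      simp only [norm_zero]
      linarith
    · have hx1 : 0 < Φ x := not_le.1 hx0
      rw [hPdpos x hx1, indicator_of_notMem (by simpa using hx1)]
      have h1 := normsq_sub (fderiv ℝ Φ x) (fderiv ℝ u x) (∇ Φ x) (inner_gradient Φ x)
      rw [norm_sub_rev (fderiv ℝ Φ x) (fderiv ℝ u x)] at h1
      have h2 : (fderiv ℝ Φ x - fderiv ℝ u x) (∇ Φ x) =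
          - ((fderiv ℝ u x - fderiv ℝ Φ x) (∇ Φ x)) := by
        simp
      rw [h2] at h1
      linarith
  have hQ0 : 0 ≤ ∫ x in A, ‖fderiv ℝ q x‖ ^ 2 := integral_nonneg fun x => by positivity
  have hIII : 0 ≤ ∫ x in Z, (‖fderiv ℝ Φ x‖ ^ 2 - 1) := by
    rw [integral_sub (hintΦ.mono_set hZA) (integrableOn_const hZfin.ne)]
    simp only [integral_const, MeasurableSet.univ, measureReal_restrict_apply, univ_inter,
      smul_eq_mul, mul_one]
    rw [Measure.real]
    rw [hexp, hgreenA] at hI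
    linarith
  have hZlt : ∀ x ∈ Z, ‖fderiv ℝ Φ x‖ ^ 2 < 1 := by
    intro x hx
    have := hg x hx.1 hx.2
    nlinarith [norm_nonneg (fderiv ℝ Φ x)]
  have hZ0 : volume Z = 0 := by
    by_contra hne
    have hpos : 0 < volume Z := pos_iff_ne_zero.2 hne
    have h1 : 0 < ∫ x in Z, (1 - ‖fderiv ℝ Φ x‖ ^ 2) := by
      rw [setIntegral_pos_iff_support_of_nonneg_ae]
      · refine lt_of_lt_of_le hpos (measure_mono ?_)
        intro x hx
        refine ⟨?_, hx⟩
        have := hZlt x hx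
        simp only [Function.mem_support]
        linarith
      · rw [EventuallyLE, ae_restrict_iff' hZm]
        refine Eventually.of_forall fun x hx => ?_
        have := hZlt x hx
        simp only [Pi.zero_apply]
        linarith
      · exact (integrableOn_const hZfin.ne).sub (hintΦ.mono_set hZA)
    have h2 : ∫ x in Z, (1 - ‖fderiv ℝ Φ x‖ ^ 2) = - ∫ x in Z, (‖fderiv ℝ Φ x‖ ^ 2 - 1) := by
      rw [← integral_neg]
      congr 1; ext x; ring
    linarith
  have hIV : ∫ x in A, ‖fderiv ℝ q x‖ ^ 2 = 0 := by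
    refine le_antisymm ?_ hQ0
    have h1 : ∫ x in Z, ‖fderiv ℝ Φ x‖ ^ 2 = 0 := setIntegral_measure_zero _ hZ0
    rw [hexp, hgreenA, h1, hZ0] at hI
    simp only [ENNReal.toReal_zero] at hI
    linarith
  have hZae : ∀ᵐ x, x ∉ Z := measure_eq_zero_iff_ae_notMem.1 hZ0
  have hV : ∀ᵐ x, fderiv ℝ g x = 0 := by
    have h1 := (integral_eq_zero_iff_of_nonneg (fun x => by positivity) hint1).1 hIV
    rw [EventuallyEq, ae_restrict_iff' hAm] at h1
    filter_upwards [h1, hZae, hud, hPd] with x hx hxZ hux hPx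
    by_cases hxA : x ∈ A
    · have h2 := hx hxA
      have h3 : fderiv ℝ q x = 0 := by simpa using h2
      have h4 : 0 < Φ x := by
        by_contra h
        exact hxZ ⟨hxA, not_lt.1 h⟩
      rw [hgdA x hxA hux hPx, hPdpos x h4, ← hqd x hux, h3]
    · exact hgd0 x hxA
  have hfin := lip_eq_zero hd hgl hgc hg0 hV
  intro x
  by_contra h
  have hxA : x ∈ A := not_le.1 h
  have h1 := hfin x
  rw [hgA x hxA] at h1
  have h2 : P x < u x := hxA
  linarith

/-- a smooth Lipschitz function above `u` -/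
lemma exists_upper {u : E d → ℝ} {K : ℝ≥0} (hu : LipschitzWith K u) :
    ∃ L : E d → ℝ, ContDiff ℝ 2 L ∧ (∃ C : ℝ≥0, LipschitzWith C L) ∧ ∀ x, u x ≤ L x := by
  refine ⟨fun x => u 0 + K * Real.sqrt (1 + ‖x‖ ^ 2), ?_, ⟨K, ?_⟩, ?_⟩
  · refine contDiff_const.add (contDiff_const.mul ?_)
    refine ContDiff.sqrt (contDiff_const.add (contDiff_norm_sq ℝ)) fun x => by positivity
  · refine LipschitzWith.of_dist_le_mul fun x y => ?_
    have h1 : |Real.sqrt (1 + ‖x‖ ^ 2) - Real.sqrt (1 + ‖y‖ ^ 2)| ≤ dist x y := by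
      have hx := Real.sqrt_nonneg (1 + ‖x‖ ^ 2)
      have hy := Real.sqrt_nonneg (1 + ‖y‖ ^ 2)
      have hx2 := Real.sq_sqrt (show 0 ≤ 1 + ‖x‖ ^ 2 by positivity)
      have hy2 := Real.sq_sqrt (show 0 ≤ 1 + ‖y‖ ^ 2 by positivity)
      have h2 : |‖x‖ - ‖y‖| ≤ dist x y := by
        rw [dist_eq_norm]; exact abs_norm_sub_norm_le x y
      refine le_trans ?_ h2
      have hx3 : ‖x‖ ≤ Real.sqrt (1 + ‖x‖ ^ 2) := Real.le_sqrt_of_sq_le (by linarith)
      have hy3 : ‖y‖ ≤ Real.sqrt (1 + ‖y‖ ^ 2) := Real.le_sqrt_of_sq_le (by linarith)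
      have hpos : 0 < Real.sqrt (1 + ‖x‖ ^ 2) + Real.sqrt (1 + ‖y‖ ^ 2) := by
        have : 0 < Real.sqrt (1 + ‖x‖ ^ 2) := Real.sqrt_pos.2 (by positivity)
        linarith
      have h4 : |Real.sqrt (1 + ‖x‖ ^ 2) - Real.sqrt (1 + ‖y‖ ^ 2)| *
          (Real.sqrt (1 + ‖x‖ ^ 2) + Real.sqrt (1 + ‖y‖ ^ 2)) = |‖x‖ - ‖y‖| * (‖x‖ + ‖y‖) := by
        have e1 := abs_of_pos hpos
        have e2 := abs_of_nonneg (add_nonneg (norm_nonneg x) (norm_nonneg y))
        rw [← e1, ← e2, ← abs_mul, ← abs_mul]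
        congr 1
        ring_nf
        rw [hx2, hy2]; ring
      have h5 : |‖x‖ - ‖y‖| * (‖x‖ + ‖y‖) ≤ |‖x‖ - ‖y‖| *
          (Real.sqrt (1 + ‖x‖ ^ 2) + Real.sqrt (1 + ‖y‖ ^ 2)) :=
        mul_le_mul_of_nonneg_left (add_le_add hx3 hy3) (abs_nonneg _)
      rw [← h4] at h5
      exact le_of_mul_le_mul_right h5 hpos
    rw [Real.dist_eq]
    have h6 : u 0 + K * Real.sqrt (1 + ‖x‖ ^ 2) - (u 0 + K * Real.sqrt (1 + ‖y‖ ^ 2)) =
        K * (Real.sqrt (1 + ‖x‖ ^ 2) - Real.sqrt (1 + ‖y‖ ^ 2)) := by ring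
    rw [h6, abs_mul, NNReal.abs_eq]
    exact mul_le_mul_of_nonneg_left h1 K.2
  · intro x
    have h1 := hu.dist_le_mul x 0
    rw [Real.dist_eq, dist_zero_right] at h1
    have h2 : ‖x‖ ≤ Real.sqrt (1 + ‖x‖ ^ 2) := Real.le_sqrt_of_sq_le (by linarith)
    have h3 := le_abs_self (u x - u 0)
    have h4 : (K : ℝ) * ‖x‖ ≤ K * Real.sqrt (1 + ‖x‖ ^ 2) := mul_le_mul_of_nonneg_left h2 K.2
    show u x ≤ u 0 + K * Real.sqrt (1 + ‖x‖ ^ 2)
    linarith

/-- **V2, local version.** -/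
theorem v2_local (hd : 0 < d) {u : E d → ℝ} {K : ℝ≥0} (hu : LM u K) {Φ : E d → ℝ}
    (hΦ : ContDiff ℝ 2 Φ) {D K0 : Set (E d)} (hD : IsOpen D) (hK : IsCompact K0) (hKD : K0 ⊆ D)
    (hsub : ∀ x ∈ D, max (Φ x) 0 < u x → x ∈ K0)
    (hΔ : ∀ x ∈ D, max (Φ x) 0 < u x → (Δ Φ) x ≤ 0)
    (hg : ∀ x ∈ D, max (Φ x) 0 < u x → Φ x ≤ 0 → ‖fderiv ℝ Φ x‖ < 1) :
    ∀ x ∈ D, u x ≤ max (Φ x) 0 := by
  obtain ⟨χ, hχ, hχc, hχD, hχ01, hχ1⟩ := exists_cutoff hK hD hKD
  obtain ⟨L, hL, ⟨CL, hCL⟩, huL⟩ := exists_upper hu.lip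
  have hχ2 : ContDiff ℝ 2 χ := by exact_mod_cast contDiff_infty.1 hχ 2
  set Φ' : E d → ℝ := fun x => χ x * (Φ x - L x) + L x with hΦ'
  have hC : ContDiff ℝ 2 Φ' := (hχ2.mul (hΦ.sub hL)).add hL
  obtain ⟨C1, hC1⟩ := lip_of_contDiff_compact (f := fun x => χ x * (Φ x - L x))
    ((hχ2.mul (hΦ.sub hL)).of_le (by norm_num)) hχc.mul_right
  have hlip : LipschitzWith (C1 + CL) Φ' := hC1.add hCL
  have hin : ∀ x, max (Φ' x) 0 < u x → x ∈ D ∧ max (Φ x) 0 < u x := by
    intro x hx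
    have hu0 := hu.nonneg x
    have hx1 : Φ' x < u x := lt_of_le_of_lt (le_max_left _ _) hx
    have hx2 : 0 < u x := lt_of_le_of_lt (le_max_right _ _) hx
    have hxs : x ∈ tsupport χ := by
      by_contra h
      have h0 := image_eq_zero_of_notMem_tsupport h
      simp only [hΦ', h0] at hx1
      linarith [huL x]
    refine ⟨hχD hxs, ?_⟩
    by_contra h
    have h1 : u x ≤ max (Φ x) 0 := not_lt.1 h
    have h2 := hχ01 x
    have h3 : u x ≤ Φ x := by
      rcases le_total (Φ x) 0 with h4 | h4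
      · rw [max_eq_right h4] at h1; linarith
      · rwa [max_eq_left h4] at h1
    have h4 : χ x * u x ≤ χ x * Φ x := mul_le_mul_of_nonneg_left h3 h2.1
    have h5 : (1 - χ x) * u x ≤ (1 - χ x) * L x :=
      mul_le_mul_of_nonneg_left (huL x) (by linarith [h2.2])
    simp only [hΦ'] at hx1
    nlinarith
  have hK0 : ∀ x, max (Φ' x) 0 < u x → x ∈ K0 := fun x hx => hsub x (hin x hx).1 (hin x hx).2
  have heq : ∀ x ∈ K0, Φ' =ᶠ[𝓝 x] Φ := by
    intro x hx
    filter_upwards [hχ1 x hx] with y hy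
    simp [hΦ', hy]
  have hglob := v2_global hd hu hC hlip (hK.isBounded.subset hK0)
    (fun x hx => by
      rw [(laplacian_congr_nhds (heq x (hK0 x hx))).self_of_nhds]
      exact hΔ x (hin x hx).1 (hin x hx).2)
    (fun x hx hx1 => by
      have h2 := (heq x (hK0 x hx))
      rw [h2.fderiv_eq]
      refine hg x (hin x hx).1 (hin x hx).2 ?_
      rw [← h2.self_of_nhds]; exact hx1)
  intro x hx
  by_contra h
  have h1 : max (Φ x) 0 < u x := not_le.1 h
  have h2 := hsub x hx h1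
  have h3 := hglob x
  rw [(heq x h2).self_of_nhds] at h3
  exact h h3

end Crest.Agent.R097
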