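import Crest.Agent.R097.F2Core
import Crest.Agent.R097.V2
import Crest.Agent.R097.F3Def

/-!
# Row 97, F2: `F2Stmt` from harmonicity in the positivity set and the Harnack inequality
-/

set_option autoImplicit false
open MeasureTheory Metric Set Filter Topology InnerProductSpace
open scoped RealInnerProductSpace NNReal ENNReal Gradient Laplacian

namespace Crest.Agent.R097

variable {d : ℕ}

theorem v1Loc (hd : 1 ≤ d) : V1Loc d := fun _ _ hu _ _ hD hS hSD _ hΨ h1 h2 h3 =>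
  v1_local hd hu hΨ hD hS hSD h1 h2 h3

theorem v2Loc (hd : 1 ≤ d) : V2Loc d := fun _ _ hu _ _ hD hS hSD _ hΨ h1 h2 h3 =>
  v2_local hd hu hΨ hD hS hSD h1 h2 h3

/-- Harnack with right-hand side in the form of note 10074 -/
def HarnackStmt (d : ℕ) : Prop := ∃ C : ℝ, 1 ≤ C ∧ ∀ (x : E d) (r : ℝ), 0 < r →
  ∀ (h : E d → ℝ) (κ : ℝ), ContDiffOn ℝ 2 h (ball x r) → (∀ y ∈ ball x r, 0 ≤ h y) →
  (∀ y ∈ ball x r, |(Δ h) y| ≤ κ) → ∀ y ∈ ball x (r / 2), ∀ z ∈ ball x (r / 2),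
    h y ≤ C * h z + C * κ * r ^ 2

theorem harnackRHS_of (h : HarnackStmt d) : HarnackRHS d := by
  obtain ⟨C, hC, h⟩ := h
  refine ⟨C, hC, fun f x r κ hr _ h1 h2 h3 y hy => ?_⟩
  have hx : x ∈ ball x (r / 2) := mem_ball_self (by positivity)
  have hc : ContDiffOn ℝ 2 f (ball x r) := fun z hz => (h1 z hz).contDiffWithinAt
  have e1 := h x r hr f κ hc h3 h2 y hy x hx
  have e2 := h x r hr f κ hc h3 h2 x hx y hy
  constructor
  · linarith
  · linarith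

/-- **F2** in the form `F2Stmt` -/
theorem F2 (hH : HarmPos d) (hHar : HarnackStmt d) (hd : 1 ≤ d) : F2Stmt d := by
  intro ε hε
  obtain ⟨r₁, hr₁, k₀, hk₀, δ₀, hδ₀, h⟩ :=
    F2core (v1Loc hd) (v2Loc hd) hH (harnackRHS_of hHar) hd ε hε
  exact ⟨r₁, hr₁, k₀, hk₀, δ₀, hδ₀, fun u K P e δ hu he hδ hδ' hN hS =>
    h u K P e δ hu he hδ hδ' hN.c2 hN.dclose hN.lap hN.grad hS⟩

end Crest.Agent.R097
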