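import Crest.Agent.R097.F1Main

/-!
# Row 97, F2: iteration of the partial Harnack inequality
-/

set_option autoImplicit false
open MeasureTheory Metric Set Filter Topology InnerProductSpace
open scoped RealInnerProductSpace NNReal ENNReal Gradient Laplacian

namespace Crest.Agent.R097

variable {d : ℕ}

lemma norm_fderiv_sub_inner (P : E d → ℝ) (e x : E d) :
    ‖fderiv ℝ P x - innerSL ℝ e‖ = ‖∇ P x - e‖ := by
  have h1 : fderiv ℝ P x - innerSL ℝ e = innerSL ℝ (∇ P x - e) := by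
    ext v
    simp
  rw [h1, innerSL_apply_norm]

/-- **F2**: the oscillation of `(u - P)/δ` becomes small in small balls. -/
theorem F2core (hV1 : V1Loc d) (hV2 : V2Loc d) (hH : HarmPos d) (hHar : HarnackRHS d)
    (hd : 1 ≤ d) : ∀ ε : ℝ, 0 < ε → ∃ r₁ : ℝ, 0 < r₁ ∧ ∃ k₀ : ℝ, 0 < k₀ ∧ ∃ δ₀ : ℝ, 0 < δ₀ ∧
      ∀ (u : E d → ℝ) (K : ℝ≥0) (P : E d → ℝ) (e : E d) (δ : ℝ), LM u K → ‖e‖ = 1 → 0 < δ →
      δ ≤ δ₀ → ContDiff ℝ 2 P → (∀ x ∈ ball (0 : E d) 1, ‖fderiv ℝ P x - innerSL ℝ e‖ ≤ k₀) →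
      (∀ x ∈ ball (0 : E d) 1, |(Δ P) x| ≤ k₀ * δ) →
      (∀ x ∈ ball (0 : E d) 1, |P x| ≤ 3 * δ → |‖fderiv ℝ P x‖ ^ 2 - 1| ≤ k₀ * δ) →
      Sand u P (-δ) δ (ball 0 1) →
      ∀ x₀ ∈ ball (0 : E d) (3 / 4), ∃ a b : ℝ, -1 ≤ a ∧ a ≤ b ∧ b ≤ 1 ∧ b - a ≤ ε ∧
        Sand u P (a * δ) (b * δ) (ball x₀ r₁) := by
  obtain ⟨C₀, c, hC₀, hc0, hc1, hF1⟩ := F1 hV1 hV2 hH hHar hd
  intro ε hε
  have hq0 : 0 < 1 - c := by linarith
  have hq1 : 1 - c < 1 := by linarith
  obtain ⟨N, hN⟩ := exists_pow_lt_of_lt_one (show 0 < ε / 2 by positivity) hq1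
  have hC₀p : 0 < C₀ := by linarith
  set rN : ℝ := 1 / 4 / 240 ^ N with hrN
  have hrN0 : 0 < rN := by positivity
  have hqN : 0 < (1 - c) ^ N := pow_pos hq0 N
  have hqN1 : (1 - c) ^ N ≤ 1 := pow_le_one₀ hq0.le hq1.le
  refine ⟨rN, hrN0, (1 - c) ^ N / C₀, div_pos hqN hC₀p, rN / C₀, div_pos hrN0 hC₀p, ?_⟩
  intro u K P e δ hu he hδ hδ₀ hP hg hL hgr hSand x₀ hx₀
  have key : ∀ n : ℕ, n ≤ N → ∃ a b : ℝ, -δ ≤ a ∧ b ≤ δ ∧ b - a = 2 * δ * (1 - c) ^ n ∧
      Sand u P a b (ball x₀ (1 / 4 / 240 ^ n)) := by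
    intro n
    induction n with
    | zero =>
      intro _
      refine ⟨-δ, δ, le_rfl, le_rfl, by ring, hSand.mono le_rfl le_rfl ?_⟩
      simp only [pow_zero, div_one]
      intro x hx
      rw [mem_ball, dist_eq_norm] at hx
      rw [mem_ball, dist_zero_right] at hx₀ ⊢
      have : x = (x - x₀) + x₀ := by abel
      rw [this]
      refine (norm_add_le _ _).trans_lt ?_
      linarith
    | succ n ih =>
      intro hn
      obtain ⟨a, b, ha, hb, hab, hS⟩ := ih (by omega)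
      set r : ℝ := 1 / 4 / 240 ^ n with hr
      have hr0 : 0 < r := by positivity
      have h240 : (1 : ℝ) ≤ 240 ^ n := one_le_pow₀ (by norm_num)
      have hr1 : r ≤ 1 / 4 := by
        rw [hr, div_le_iff₀ (by positivity)]
        linarith
      have hrNr : rN ≤ r := by
        rw [hrN, hr]
        refine div_le_div_of_nonneg_left (by norm_num) (by positivity) ?_
        exact pow_le_pow_right₀ (by norm_num) (by omega)
      have hsub : ball x₀ r ⊆ ball (0 : E d) 1 := by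
        intro x hx
        rw [mem_ball, dist_eq_norm] at hx
        rw [mem_ball, dist_zero_right] at hx₀ ⊢
        have : x = (x - x₀) + x₀ := by abel
        rw [this]
        refine (norm_add_le _ _).trans_lt ?_
        linarith
      have hqn : 0 < (1 - c) ^ n := pow_pos hq0 n
      have hqNn : (1 - c) ^ N ≤ (1 - c) ^ n := pow_le_pow_of_le_one hq0.le hq1.le (by omega)
      have hpos : 0 < 2 * δ * (1 - c) ^ n := by positivity
      have hk : (1 - c) ^ N / C₀ * δ = (1 - c) ^ N * δ / C₀ := by ring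
      have hCk : C₀ * ((1 - c) ^ N / C₀ * δ) = (1 - c) ^ N * δ := by field_simp
      have hw : (1 - c) ^ N * δ ≤ 2 * δ * (1 - c) ^ n := by
        have := mul_le_mul_of_nonneg_right hqNn hδ.le
        have := mul_pos hqn hδ
        linarith
      have hw0 : 0 ≤ (1 - c) ^ N * δ := by positivity
      obtain ⟨a', b', h1, h2, h3, h4⟩ := hF1 u K hu P hP e x₀ r δ ((1 - c) ^ N / C₀ * δ)
        ((1 - c) ^ N / C₀ * δ) a b hr0 he
        (fun x hx => by
          rw [← norm_fderiv_sub_inner]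
          refine (hg x (hsub hx)).trans ?_
          exact div_le_div_of_nonneg_right hqN1 hC₀p.le)
        (fun x hx => hL x (hsub hx))
        (fun x hx h => by rw [norm_gradient]; exact hgr x (hsub hx) h)
        (by
          rw [le_div_iff₀ hC₀p] at hδ₀
          linarith)
        (by rw [abs_le]; constructor <;> linarith)
        (by rw [abs_le]; constructor <;> linarith)
        (by linarith)
        (by
          rw [hab, ← mul_assoc, hCk]
          have hr2 : r ^ 2 ≤ 1 := pow_le_one₀ hr0.le (by linarith)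
          have := mul_le_mul_of_nonneg_left hr2 hw0
          linarith)
        (by
          rw [hab, ← mul_assoc, hCk]
          have := mul_le_mul_of_nonneg_left (show r ≤ 1 by linarith) hw0
          linarith) hS
      refine ⟨a', b', by linarith, by linarith, by rw [h3, hab]; ring, ?_⟩
      have : (1 : ℝ) / 4 / 240 ^ (n + 1) = r / 240 := by
        rw [hr, pow_succ]; field_simp
      rw [this]; exact h4
  obtain ⟨a, b, ha, hb, hab, hS⟩ := key N le_rfl
  refine ⟨a / δ, b / δ, ?_, ?_, ?_, ?_, ?_⟩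
  · rw [le_div_iff₀ hδ]; linarith
  · have : 0 < 2 * δ * (1 - c) ^ N := by positivity
    exact div_le_div_of_nonneg_right (by linarith) hδ.le
  · rw [div_le_iff₀ hδ]; linarith
  · rw [← sub_div, hab, div_le_iff₀ hδ]
    have := mul_lt_mul_of_pos_right hN hδ
    linarith
  · rw [div_mul_cancel₀ _ hδ.ne', div_mul_cancel₀ _ hδ.ne']
    exact hS

end Crest.Agent.R097
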