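import Crest.Agent.R097.F3b

/-!
# Row 97, F3: the improved sandwich by an even harmonic function (helper392)
-/

set_option autoImplicit false
open MeasureTheory Metric Set Filter Topology InnerProductSpace
open scoped RealInnerProductSpace NNReal ENNReal Gradient Laplacian

namespace Crest.Agent.R097

variable {d : ℕ}

namespace F3P

lemma Nice.mono {P : E d → ℝ} {e : E d} {k k' δ : ℝ} (h : Nice P e k δ) (hk : k ≤ k')
    (hδ : 0 ≤ δ) : Nice P e k' δ where
  c2 := h.c2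
  close := fun x hx => (h.close x hx).trans hk
  dclose := fun x hx => (h.dclose x hx).trans hk
  lap := fun x hx => (h.lap x hx).trans (mul_le_mul_of_nonneg_right hk hδ)
  grad := fun x hx h3 => (h.grad x hx h3).trans (mul_le_mul_of_nonneg_right hk hδ)

lemma abs_inner_e_le {e : E d} (he : ‖e‖ = 1) (x : E d) : |⟪e, x⟫_ℝ| ≤ ‖x‖ := by
  have := abs_real_inner_le_norm e x
  rwa [he, one_mul] at this

lemma q_bd {t : ℝ} (h : |t| ≤ 1 / 2) : -(1 / 4) ≤ t + t ^ 2 ∧ t + t ^ 2 ≤ 3 / 4 := by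
  have h1 := abs_le.1 h
  constructor
  · nlinarith [sq_nonneg (t + 1 / 2)]
  · have h2 : t ^ 2 ≤ (1 / 2) ^ 2 := by
      rw [← sq_abs t]
      exact pow_le_pow_left₀ (abs_nonneg t) h 2
    linarith [h1.2]

/-- the even Lipschitz function seen by the local sandwiches -/
lemma exists_g {u P : E d → ℝ} {e : E d} (he : ‖e‖ = 1) {δ η r₁ κ : ℝ} (hδ : 0 < δ)
    (hr₁ : 0 < r₁) (hκ : 0 ≤ κ) (hKκ : 2 / r₁ * (2 * κ) ≤ η)
    (hS : Sand u P (-δ) δ (ball (0 : E d) 1))
    (hloc : ∀ x₀ ∈ ball (0 : E d) (3 / 4), ∃ a b : ℝ, -1 ≤ a ∧ a ≤ b ∧ b ≤ 1 ∧ b - a ≤ η ∧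
        Sand u P (a * δ) (b * δ) (ball x₀ r₁)) :
    ∃ g : E d → ℝ, LipschitzWith (⟨2 / r₁, by positivity⟩ * 3 : ℝ≥0) g ∧ (∀ z, |g z| ≤ 1) ∧
      (∀ x, g (x - (2 * ⟪e, x⟫_ℝ) • e) = g x) ∧
      ∀ x ∈ ball (0 : E d) (1 / 2), -κ ≤ ⟪e, x⟫_ℝ →
        (0 < u x → u x - P x ≤ δ * (g x + 2 * η) ∧ δ * (g x - 2 * η) ≤ u x - P x) ∧
        (u x = 0 → P x + δ * (g x - 2 * η) ≤ 0) := by
  set K : ℝ≥0 := ⟨2 / r₁, by positivity⟩ with hK
  have hKr : (K : ℝ) = 2 / r₁ := rfl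
  set w : E d → ℝ := fun x => (u x - P x) / δ with hw
  have hwδ : ∀ x, δ * w x = u x - P x := fun x => by simp only [hw]; field_simp
  set A : Set (E d) := {x | 0 < u x} ∩ ball (0 : E d) (3 / 4) with hA
  have hw1 : ∀ x ∈ A, w x ≤ 1 := by
    intro x hx
    have h1 := (hS x (ball_subset_ball (by norm_num) hx.2)).2
    have h2 : 0 < u x := hx.1
    have h3 : u x ≤ P x + δ := by
      rcases le_max_iff.1 h1 with h | h
      · exact h
      · linarith
    simp only [hw]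
    rw [div_le_one hδ]; linarith
  obtain ⟨G, hGl, hG1, hGw, hGle⟩ := exists_supconv K w A hw1
  obtain ⟨g, hgl, hg1, hge, hgG⟩ := exists_even hGl hG1 he
  refine ⟨g, hgl, hg1, hge, ?_⟩
  intro x hx hxe
  have hx34 : x ∈ ball (0 : E d) (3 / 4) := ball_subset_ball (by norm_num) hx
  obtain ⟨a, b, ha, hab, hb, hba, hab'⟩ := hloc x hx34
  have hgx : |g x - G x| ≤ η := (hgG κ hκ x hxe).trans hKκ
  rw [abs_le] at hgx
  have hGb : G x ≤ b := by
    refine hGle x b (by linarith) ?_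
    intro y hy
    by_cases hyr : ‖y - x‖ < r₁
    · have h1 := (hab' y (by rw [mem_ball, dist_eq_norm]; exact hyr)).2
      have h2 : 0 < u y := hy.1
      have h3 : u y ≤ P y + b * δ := by
        rcases le_max_iff.1 h1 with h | h
        · exact h
        · linarith
      have h4 : w y ≤ b := by
        simp only [hw]
        rw [div_le_iff₀ hδ]; linarith
      have h5 : 0 ≤ (K : ℝ) * ‖y - x‖ := by positivity
      linarith
    · have h1 := hw1 y hy
      have h2 : 2 ≤ (K : ℝ) * ‖y - x‖ := by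
        rw [hKr]
        calc (2:ℝ) = 2 / r₁ * r₁ := by field_simp
          _ ≤ 2 / r₁ * ‖y - x‖ := mul_le_mul_of_nonneg_left (not_lt.1 hyr) (by positivity)
      linarith
  have hlow : P x + a * δ ≤ u x :=
    (le_max_left _ _).trans (hab' x (mem_ball_self hr₁)).1
  constructor
  · intro hux
    have h1 := hGw x ⟨hux, hx34⟩
    have h3 : a ≤ w x := by
      simp only [hw]
      rw [le_div_iff₀ hδ]; linarith
    rw [← hwδ x]
    constructor
    · exact mul_le_mul_of_nonneg_left (by linarith) hδ.le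
    · exact mul_le_mul_of_nonneg_left (by linarith) hδ.le
  · intro hux
    have h1 : δ * (g x - 2 * η) ≤ δ * a := mul_le_mul_of_nonneg_left (by linarith) hδ.le
    rw [hux] at hlow
    linarith

/-- the gradient of the lower barrier -/
lemma grad_low {p p' : E d →L[ℝ] ℝ} {e : E d} (he : ‖e‖ = 1) {η δ k κ A B s : ℝ}
    (hη : 0 < η) (hη1 : η ≤ 1) (hδ : 0 < δ) (hk : k ≤ η / 4) (hkB : k * B ≤ η / 4)
    (hAκ : (2 * η + A) * κ ≤ η / 4) (hA : 0 ≤ A) (hs : |s| ≤ κ)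
    (hpe : ‖p - innerSL ℝ e‖ ≤ k) (hp : 1 - k * δ ≤ ‖p‖ ^ 2) (hp'B : ‖p'‖ + 2 ≤ B)
    (hp'e : |p' e| ≤ A * |s|) (hs1 : |s| ≤ 1 / 2) :
    1 < ‖p + δ • p' + (η * δ * (1 + 2 * s)) • innerSL ℝ e‖ := by
  set v : E d →L[ℝ] ℝ := p' + (η * (1 + 2 * s)) • innerSL ℝ e with hv
  have e1 : p + δ • p' + (η * δ * (1 + 2 * s)) • innerSL ℝ e = p + δ • v := by
    rw [hv, smul_add, smul_smul, add_assoc]
    congr 3
    ring
  have hs1' := abs_le.1 hs1
  have hvB : ‖v‖ ≤ B := by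
    refine (norm_add_le _ _).trans ?_
    rw [norm_smul, innerSL_apply_norm, he, mul_one, Real.norm_eq_abs,
      abs_of_nonneg (mul_nonneg hη.le (by linarith))]
    nlinarith
  have hB0 : 0 ≤ B := (norm_nonneg v).trans hvB
  have hve : η - (2 * η + A) * κ ≤ v e := by
    have h1 : v e = p' e + η * (1 + 2 * s) := by
      simp only [hv, add_apply, smul_apply, smul_eq_mul]
      rw [dt_inner_self e he, mul_one]
    rw [h1]
    have h2 := (abs_le.1 hp'e).1
    have h3 := (abs_le.1 (le_refl |s|)).1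
    have h4 : (2 * η + A) * |s| ≤ (2 * η + A) * κ := mul_le_mul_of_nonneg_left hs (by linarith)
    have h5 : η * (2 * (-|s|)) ≤ η * (2 * s) := mul_le_mul_of_nonneg_left (by linarith) hη.le
    linarith
  have hdt : η - (2 * η + A) * κ - k * B ≤ dt p v := by
    have h1 : dt p v = dt (p - innerSL ℝ e) v + v e := by
      rw [dt_sub_left, dt_inner]; ring
    have h2 := (abs_le.1 (abs_dt_le (p - innerSL ℝ e) v)).1
    have h3 : ‖p - innerSL ℝ e‖ * ‖v‖ ≤ k * B :=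
      mul_le_mul hpe hvB (norm_nonneg _) ((norm_nonneg _).trans hpe)
    rw [h1]; linarith
  have hsq : 1 < ‖p + δ • v‖ ^ 2 := by
    rw [norm_add_sq', dt_smul_right]
    have h1 : 0 ≤ ‖δ • v‖ ^ 2 := by positivity
    have h2 : δ * (η / 2) ≤ δ * dt p v := mul_le_mul_of_nonneg_left (by linarith) hδ.le
    have h3 : k * δ ≤ η / 4 * δ := mul_le_mul_of_nonneg_right hk hδ.le
    have h4 : 0 < η * δ := mul_pos hη hδ
    nlinarith
  rw [e1]
  have h0 := norm_nonneg (p + δ • v)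
  nlinarith

/-- the gradient of the upper barrier -/
lemma grad_up {p p' : E d →L[ℝ] ℝ} {e : E d} (he : ‖e‖ = 1) {η δ k κ A B s : ℝ}
    (hη : 0 < η) (hη1 : η ≤ 1) (hδ : 0 < δ) (hk : k ≤ η / 4) (hkB : k * B ≤ η / 4)
    (hδB : δ * B ^ 2 ≤ η / 4)
    (hAκ : (2 * η + A) * κ ≤ η / 4) (hA : 0 ≤ A) (hs : |s| ≤ κ)
    (hpe : ‖p - innerSL ℝ e‖ ≤ k) (hp : ‖p‖ ^ 2 ≤ 1 + k * δ) (hp'B : ‖p'‖ + 2 ≤ B)
    (hp'e : |p' e| ≤ A * |s|) (hs1 : |s| ≤ 1 / 2) :
    ‖p + δ • p' + (-(η * δ) * (1 + 2 * s)) • innerSL ℝ e‖ < 1 := by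
  set v : E d →L[ℝ] ℝ := p' + (-η * (1 + 2 * s)) • innerSL ℝ e with hv
  have e1 : p + δ • p' + (-(η * δ) * (1 + 2 * s)) • innerSL ℝ e = p + δ • v := by
    rw [hv, smul_add, smul_smul, add_assoc]
    congr 3
    ring
  have hs1' := abs_le.1 hs1
  have hvB : ‖v‖ ≤ B := by
    refine (norm_add_le _ _).trans ?_
    rw [norm_smul, innerSL_apply_norm, he, mul_one, Real.norm_eq_abs, neg_mul, abs_neg,
      abs_of_nonneg (mul_nonneg hη.le (by linarith))]
    nlinarith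
  have hB0 : 0 ≤ B := (norm_nonneg v).trans hvB
  have hve : v e ≤ -η + (2 * η + A) * κ := by
    have h1 : v e = p' e + -η * (1 + 2 * s) := by
      simp only [hv, add_apply, smul_apply, smul_eq_mul]
      rw [dt_inner_self e he, mul_one]
    rw [h1]
    have h2 := (abs_le.1 hp'e).2
    have h3 := (abs_le.1 (le_refl |s|)).1
    have h4 : (2 * η + A) * |s| ≤ (2 * η + A) * κ := mul_le_mul_of_nonneg_left hs (by linarith)
    have h5 : η * (2 * (-|s|)) ≤ η * (2 * s) := mul_le_mul_of_nonneg_left (by linarith) hη.le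
    linarith
  have hdt : dt p v ≤ -η + (2 * η + A) * κ + k * B := by
    have h1 : dt p v = dt (p - innerSL ℝ e) v + v e := by
      rw [dt_sub_left, dt_inner]; ring
    have h2 := (abs_le.1 (abs_dt_le (p - innerSL ℝ e) v)).2
    have h3 : ‖p - innerSL ℝ e‖ * ‖v‖ ≤ k * B :=
      mul_le_mul hpe hvB (norm_nonneg _) ((norm_nonneg _).trans hpe)
    rw [h1]; linarith
  have hsq : ‖p + δ • v‖ ^ 2 < 1 := by
    rw [norm_add_sq', dt_smul_right]
    have h1 : ‖δ • v‖ ^ 2 ≤ δ * (η / 4) := by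
      rw [norm_smul, Real.norm_eq_abs, abs_of_pos hδ, mul_pow]
      have h6 : ‖v‖ ^ 2 ≤ B ^ 2 := by
        have := norm_nonneg v
        nlinarith
      calc δ ^ 2 * ‖v‖ ^ 2 ≤ δ ^ 2 * B ^ 2 := mul_le_mul_of_nonneg_left h6 (by positivity)
        _ = δ * (δ * B ^ 2) := by ring
        _ ≤ δ * (η / 4) := mul_le_mul_of_nonneg_left hδB hδ.le
    have h2 : δ * dt p v ≤ δ * (-(η / 2)) := mul_le_mul_of_nonneg_left (by linarith) hδ.le
    have h3 : k * δ ≤ η / 4 * δ := mul_le_mul_of_nonneg_right hk hδ.le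
    have h4 : 0 < η * δ := mul_pos hη hδ
    nlinarith
  rw [e1]
  have h0 := norm_nonneg (p + δ • v)
  by_contra hc
  have hc' := not_lt.1 hc
  nlinarith

end F3P

set_option maxHeartbeats 1000000 in
open F3P in
/-- **F3**: the improved sandwich -/
theorem F3 (hV1 : V1Stmt d) (hV2 : V2Stmt d) (hF2 : F2Stmt d) (hDir : DirStmt d)
    (hJet : JetStmt d) : F3Stmt d := by
  intro ε hε
  set η : ℝ := min ε 1 / 8 with hηd
  have hη0 : 0 < η := by
    have : 0 < min ε 1 := lt_min hε one_pos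
    positivity
  have hη8 : η ≤ 1 / 8 := by
    have : min ε 1 ≤ 1 := min_le_right _ _
    linarith
  have hηε : 8 * η ≤ ε := by
    have : min ε 1 ≤ ε := min_le_left _ _
    linarith
  obtain ⟨r₁, hr₁, k₁, hk₁, δ₁, hδ₁, hF2⟩ := hF2 η hη0
  obtain ⟨C, hC, hJ⟩ := hJet
  obtain ⟨τ, hτ, hτ8, hD⟩ := hDir (⟨2 / r₁, by positivity⟩ * 3) η hη0
  set A : ℝ := C * 2 / τ ^ 2 with hA
  have hA0 : 0 ≤ A := by positivity
  set B : ℝ := C * 2 / τ + 2 with hB
  have hB0 : 0 < B := by positivity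
  set κ : ℝ := min (η * r₁ / 4) (η / (4 * (2 * η + A))) with hκ
  have hκ0 : 0 < κ := lt_min (by positivity) (by positivity)
  have hκ1 : 2 / r₁ * (2 * κ) ≤ η := by
    have h1 : κ ≤ η * r₁ / 4 := min_le_left _ _
    calc 2 / r₁ * (2 * κ) ≤ 2 / r₁ * (2 * (η * r₁ / 4)) :=
          mul_le_mul_of_nonneg_left (by linarith) (by positivity)
      _ = η := by field_simp; ring
  have hκ2 : (2 * η + A) * κ ≤ η / 4 := by
    have h1 : κ ≤ η / (4 * (2 * η + A)) := min_le_right _ _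
    calc (2 * η + A) * κ ≤ (2 * η + A) * (η / (4 * (2 * η + A))) :=
          mul_le_mul_of_nonneg_left h1 (by positivity)
      _ = η / 4 := by field_simp
  set k₀ : ℝ := min k₁ (min (η / 4) (min (η / (4 * B)) (κ / 2))) with hk₀
  have hk0 : 0 < k₀ := lt_min hk₁ (lt_min (by positivity) (lt_min (by positivity) (by positivity)))
  have hkk1 : k₀ ≤ k₁ := min_le_left _ _
  have hkη : k₀ ≤ η / 4 := (min_le_right _ _).trans (min_le_left _ _)
  have hkB : k₀ * B ≤ η / 4 := by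
    have h1 : k₀ ≤ η / (4 * B) :=
      (min_le_right _ _).trans ((min_le_right _ _).trans (min_le_left _ _))
    calc k₀ * B ≤ η / (4 * B) * B := mul_le_mul_of_nonneg_right h1 hB0.le
      _ = η / 4 := by field_simp
  have hkκ : k₀ ≤ κ / 2 :=
    (min_le_right _ _).trans ((min_le_right _ _).trans (min_le_right _ _))
  set δ₀ : ℝ := min δ₁ (min (κ / 6) (η / (4 * B ^ 2))) with hδ₀
  refine ⟨k₀, hk0, δ₀, lt_min hδ₁ (lt_min (by positivity) (by positivity)), ?_⟩
  intro u K' P e δ hu he hδ hδδ hN hS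
  have hδ1 : δ ≤ δ₁ := hδδ.trans (min_le_left _ _)
  have hδκ : δ ≤ κ / 6 := hδδ.trans ((min_le_right _ _).trans (min_le_left _ _))
  have hδB : δ * B ^ 2 ≤ η / 4 := by
    have h1 : δ ≤ η / (4 * B ^ 2) := hδδ.trans ((min_le_right _ _).trans (min_le_right _ _))
    calc δ * B ^ 2 ≤ η / (4 * B ^ 2) * B ^ 2 := mul_le_mul_of_nonneg_right h1 (by positivity)
      _ = η / 4 := by field_simp
  have hηδ : 0 < η * δ := mul_pos hη0 hδ
  obtain ⟨g, hgl, hg1, hge, hgk⟩ := exists_g (κ := κ) (η := η) he hδ hr₁ hκ0.le hκ1 hS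
    (hF2 u K' P e δ hu he hδ hδ1 (Nice.mono hN hkk1 hδ.le) hS)
  obtain ⟨h, hh, hΔh, hhe, hh2, hhg⟩ := hD e he g hgl hg1 hge
  have hhC2 : ContDiff ℝ 2 h := by exact_mod_cast contDiff_infty.1 hh 2
  refine ⟨h, hh, hΔh, hhe, hh2, ?_⟩
  set D : Set (E d) := ball (0 : E d) (1 / 2) with hDd
  set S : Set (E d) := closedBall (0 : E d) (1 / 2 - τ) with hSd
  have hSD : S ⊆ D := closedBall_subset_ball (by linarith)
  have hD1 : ∀ x ∈ D, x ∈ ball (0 : E d) 1 := fun x hx => ball_subset_ball (by norm_num) hx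
  -- elementary bounds on `D`
  have hxe : ∀ x ∈ D, |⟪e, x⟫_ℝ| ≤ 1 / 2 := by
    intro x hx
    have h1 : ‖x‖ < 1 / 2 := by simpa [hDd] using hx
    exact (abs_inner_e_le he x).trans h1.le
  have hq : ∀ x ∈ D, -(1 / 4) ≤ ⟪e, x⟫_ℝ + ⟪e, x⟫_ℝ ^ 2 ∧ ⟪e, x⟫_ℝ + ⟪e, x⟫_ℝ ^ 2 ≤ 3 / 4 := by
    intro x hx
    exact q_bd (hxe x hx)
  have hPx : ∀ x ∈ D, |P x - ⟪e, x⟫_ℝ| ≤ k₀ := fun x hx => hN.close x (hD1 x hx)
  have hh2' : ∀ x ∈ D, -(2 * δ) ≤ δ * h x ∧ δ * h x ≤ 2 * δ := by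
    intro x hx
    have h1 := abs_le.1 (hh2 x hx)
    have h2 := mul_le_mul_of_nonneg_left h1.1 hδ.le
    have h3 := mul_le_mul_of_nonneg_left h1.2 hδ.le
    constructor <;> linarith
  -- the annulus
  have hann : ∀ x ∈ D, x ∉ S → |h x - g x| ≤ η := by
    intro x hx hxS
    refine hhg x hx ?_
    have h1 : ¬ ‖x‖ ≤ 1 / 2 - τ := by simpa [hSd] using hxS
    exact (not_le.1 h1).le
  have hann2 : ∀ x ∈ D, x ∉ S → δ * (g x) - η * δ ≤ δ * h x ∧ δ * h x ≤ δ * (g x) + η * δ := by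
    intro x hx hxS
    have h1 := abs_le.1 (hann x hx hxS)
    have h2 := mul_le_mul_of_nonneg_left h1.1 hδ.le
    have h3 := mul_le_mul_of_nonneg_left h1.2 hδ.le
    constructor <;> linarith
  -- the barriers
  set Ψ : E d → ℝ := bar P h e δ (η * δ) (-(6 * (η * δ))) with hΨ
  set Φ : E d → ℝ := bar P h e δ (-(η * δ)) (6 * (η * δ)) with hΦ
  have hΨv : ∀ x, Ψ x = P x + δ * h x + η * δ * (⟪e, x⟫_ℝ + ⟪e, x⟫_ℝ ^ 2) - 6 * (η * δ) := by
    intro x; simp only [hΨ, bar]; ring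
  have hΦv : ∀ x, Φ x = P x + δ * h x - η * δ * (⟪e, x⟫_ℝ + ⟪e, x⟫_ℝ ^ 2) + 6 * (η * δ) := by
    intro x; simp only [hΦ, bar]; ring
  have hqδ : ∀ x ∈ D, -(1 / 4 * (η * δ)) ≤ η * δ * (⟪e, x⟫_ℝ + ⟪e, x⟫_ℝ ^ 2) ∧
      η * δ * (⟪e, x⟫_ℝ + ⟪e, x⟫_ℝ ^ 2) ≤ 3 / 4 * (η * δ) := by
    intro x hx
    have h1 := hq x hx
    have h2 := mul_le_mul_of_nonneg_left h1.1 hηδ.le
    have h3 := mul_le_mul_of_nonneg_left h1.2 hηδ.le
    constructor <;> linarith
  have hpos_e : ∀ x ∈ D, 0 < u x → -κ ≤ ⟪e, x⟫_ℝ ∧ -δ < P x := by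
    intro x hx hux
    have h1 := (hS x (hD1 x hx)).2
    have h2 : u x ≤ P x + δ := by
      rcases le_max_iff.1 h1 with h | h
      · exact h
      · linarith
    have h3 := abs_le.1 (hPx x hx)
    constructor <;> linarith
  have hlowS : ∀ x ∈ D, x ∉ S → Ψ x ≤ u x := by
    intro x hx hxS
    have h1 := hqδ x hx
    have h2 := hann2 x hx hxS
    rw [hΨv]
    rcases (hu.nonneg x).lt_or_eq with hux | hux
    · have h3 := ((hgk x hx (hpos_e x hx hux).1).1 hux).2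
      linarith
    · rw [← hux]
      by_cases hxk : -κ ≤ ⟪e, x⟫_ℝ
      · have h3 := (hgk x hx hxk).2 hux.symm
        linarith
      · have h3 := (abs_le.1 (hPx x hx)).2
        have h4 := (hh2' x hx).2
        have h5 := not_le.1 hxk
        linarith
  have hupS : ∀ x ∈ D, x ∉ S → u x ≤ max (Φ x) 0 := by
    intro x hx hxS
    have h1 := hqδ x hx
    have h2 := hann2 x hx hxS
    rcases (hu.nonneg x).lt_or_eq with hux | hux
    · refine le_max_of_le_left ?_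
      rw [hΦv]
      have h3 := ((hgk x hx (hpos_e x hx hux).1).1 hux).1
      linarith
    · rw [← hux]; exact le_max_right _ _
  -- derivatives of `h` on `S`
  have hjet : ∀ y ∈ S, ‖fderiv ℝ h y‖ ≤ C * 2 / τ ∧ ‖D2 h y‖ ≤ A := by
    intro y hy
    have hsub : ball y τ ⊆ D := by
      intro z hz
      have h1 : ‖z - y‖ < τ := by rwa [mem_ball, dist_eq_norm] at hz
      have h2 : ‖y‖ ≤ 1 / 2 - τ := by simpa [hSd] using hy
      have h3 : ‖z‖ ≤ ‖z - y‖ + ‖y‖ := by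
        have := norm_add_le (z - y) y
        rwa [sub_add_cancel] at this
      show z ∈ ball (0 : E d) (1 / 2)
      rw [mem_ball_zero_iff]
      linarith
    exact hJ y τ hτ h 2 hhC2.contDiffOn (fun z _ => hΔh z) (fun z hz => hh2 z (hsub hz))
  have hjete : ∀ y ∈ S, |fderiv ℝ h y e| ≤ A * |⟪e, y⟫_ℝ| := fun y hy =>
    grad_e_le hhC2 he hhe (fun z hz => (hjet z hz).2) hy
  -- smallness of `x_e`
  have hsmall : ∀ x ∈ D, |P x| ≤ 3 * δ → |⟪e, x⟫_ℝ| ≤ κ := by
    intro x hx hP3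
    have h1 := abs_le.1 (hPx x hx)
    have h2 := abs_le.1 hP3
    rw [abs_le]
    constructor <;> linarith
  -- lower comparison
  have hlow : ∀ x ∈ D, Ψ x ≤ u x := by
    refine hV1 u K' hu D S Ψ isOpen_ball (isCompact_closedBall _ _) hSD
      (contDiff_bar hN.c2 hhC2 e _ _ _) ?_ ?_ ?_
    · intro x hx hlt
      by_contra hxS
      exact absurd (hlowS x hx hxS) (not_le.2 hlt)
    · intro x hx _
      rw [hΨ, laplacian_bar hN.c2 hhC2 he, hΔh]
      have h1 := (abs_le.1 (hN.lap x (hD1 x hx))).1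
      have h2 := mul_le_mul_of_nonneg_right hkη hδ.le
      linarith
    · intro x hx hux hΨx
      have hxS : x ∈ S := by
        by_contra hxS
        have := hlowS x hx hxS
        linarith
      have hP1 : P x ≤ δ := by
        have h1 := (hS x (hD1 x hx)).1
        rw [hux] at h1
        have := (le_max_left _ _).trans h1
        linarith
      have hP2 : -(3 * δ) ≤ P x := by
        rw [hΨv] at hΨx
        have h1 := (hh2' x hx).2
        have h2 := (hqδ x hx).2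
        linarith
      have hP3 : |P x| ≤ 3 * δ := by rw [abs_le]; constructor <;> linarith
      have hg1 := (abs_le.1 (hN.grad x (hD1 x hx) hP3)).1
      rw [hΨ, fderiv_bar hN.c2 hhC2]
      exact grad_low he hη0 (by linarith) hδ hkη hkB hκ2 hA0 (hsmall x hx hP3)
        (hN.dclose x (hD1 x hx)) (by linarith) (by have := (hjet x hxS).1; linarith)
        (hjete x hxS) (hxe x hx)
  have hup : ∀ x ∈ D, u x ≤ max (Φ x) 0 := by
    refine hV2 u K' hu D S Φ isOpen_ball (isCompact_closedBall _ _) hSD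
      (contDiff_bar hN.c2 hhC2 e _ _ _) ?_ ?_ ?_
    · intro x hx hlt
      by_contra hxS
      exact absurd (hupS x hx hxS) (not_le.2 hlt)
    · intro x hx _
      rw [hΦ, laplacian_bar hN.c2 hhC2 he, hΔh]
      have h1 := (abs_le.1 (hN.lap x (hD1 x hx))).2
      have h2 := mul_le_mul_of_nonneg_right hkη hδ.le
      linarith
    · intro x hx hux hΦx
      have hxS : x ∈ S := by
        by_contra hxS
        have h1 := hupS x hx hxS
        rw [max_eq_right hΦx] at h1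
        linarith
      have hP1 := (hpos_e x hx hux).2
      have hP2 : P x ≤ 3 * δ := by
        rw [hΦv] at hΦx
        have h1 := (hh2' x hx).1
        have h2 := (hqδ x hx).2
        linarith
      have hP3 : |P x| ≤ 3 * δ := by rw [abs_le]; constructor <;> linarith
      have hg1 := (abs_le.1 (hN.grad x (hD1 x hx) hP3)).2
      rw [hΦ, fderiv_bar hN.c2 hhC2]
      exact grad_up he hη0 (by linarith) hδ hkη hkB hδB hκ2 hA0 (hsmall x hx hP3)
        (hN.dclose x (hD1 x hx)) (by linarith) (by have := (hjet x hxS).1; linarith)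
        (hjete x hxS) (hxe x hx)
  intro x hx
  have h8 : 7 * (η * δ) ≤ δ * ε := by
    have := mul_le_mul_of_nonneg_left hηε hδ.le
    linarith
  have h1 := hqδ x hx
  constructor
  · refine max_le ?_ (hu.nonneg x)
    have h2 := hlow x hx
    rw [hΨv] at h2
    linarith
  · refine (hup x hx).trans (max_le_max ?_ le_rfl)
    rw [hΦv]
    linarith

end Crest.Agent.R097
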