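import Crest.Agent.R097.HarmWeyl

/-!
# Row 97: Harnack inequality
-/

set_option autoImplicit false
open MeasureTheory Metric Set Laplacian InnerProductSpace Topology Filter
open scoped RealInnerProductSpace NNReal ENNReal ContDiff Gradient

namespace Crest.Agent.R097.Hm
noncomputable section
variable {d : ℕ}

/-- local Harnack inequality with right-hand side -/
theorem harnack_local (d : ℕ) : ∃ C : ℝ, 1 ≤ C ∧ ∀ (y z : E d) (t R κ : ℝ), 0 < t → 4 * t < R →
    ∀ h : E d → ℝ, ContDiffOn ℝ 2 h (ball z R) → (∀ w ∈ ball z R, 0 ≤ h w) →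
    0 ≤ κ → (∀ w ∈ ball z R, |(Δ h) w| ≤ κ) → ‖y - z‖ ≤ t → h y ≤ C * (h z + κ * t ^ 2) := by
  have hκ : 0 < kap d 1 := kap_pos 1
  have hω : 0 < omg d := omg_pos
  refine ⟨4 ^ d + (kap d 1)⁻¹ * omg d * (1 / 4 + 4 ^ d * 4), ?_, ?_⟩
  · have h1 : (1:ℝ) ≤ 4 ^ d := one_le_pow₀ (by norm_num)
    have h2 : 0 ≤ (kap d 1)⁻¹ * omg d * (1 / 4 + 4 ^ d * 4) := by positivity
    linarith
  intro y z t R κ ht htR h hh h0 hκ0 hΔ hyz
  have hsub : ball y (R - t) ⊆ ball z R := by
    intro w hw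
    rw [mem_ball] at hw ⊢
    have h1 := dist_triangle w y z
    rw [dist_eq_norm y z] at h1
    linarith
  have hcl : closedBall z (4 * t) ⊆ ball z R := closedBall_subset_ball htR
  have hI : IntegrableOn h (closedBall z (4 * t)) :=
    (hh.continuousOn.mono hcl).integrableOn_compact (isCompact_closedBall _ _)
  have hyt : closedBall y t ⊆ closedBall z (4 * t) := by
    intro w hw
    rw [mem_closedBall] at hw ⊢
    have h1 := dist_triangle w y z
    rw [dist_eq_norm y z] at h1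
    linarith
  have h1 := sub_mean_ker 1 (h := h) (x := y) ht (show t < R - t by linarith) (hh.mono hsub) hκ0
    (fun w hw => by
      have := (abs_le.mp (hΔ w (hsub (ball_subset_ball (by linarith) hw)))).1
      exact this)
  have h2 := super_mean_ker 1 (h := h) (x := z) (show 0 < 4 * t by linarith) htR hh hκ0
    (fun w hw => (abs_le.mp (hΔ w (ball_subset_ball htR.le hw))).2)
  have h3 : MM 1 t h y ≤ 4 ^ d * MM 1 (4 * t) h z := by
    unfold MM
    rw [← integral_const_mul]
    apply integral_mono (integrable_mul_ker 1 ht (hI.mono_set hyt))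
      ((integrable_mul_ker 1 (by linarith) hI).const_mul _)
    intro w
    simp only
    by_cases hw : w ∈ ball y t
    · have hwz : w ∈ closedBall z (4 * t) := hyt (ball_subset_closedBall hw)
      have hw0 : 0 ≤ h w := h0 w (hcl hwz)
      have h4 : ker 1 (4 * t) z w = ((4 * t) ^ d)⁻¹ := by
        unfold ker
        rw [eta_one_one, mul_one]
        rw [div_le_iff₀ (by positivity)]
        have h5 : ‖w - z‖ ≤ 2 * t := by
          rw [mem_ball, dist_eq_norm] at hw
          have : w - z = (w - y) + (y - z) := by abel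
          rw [this]
          refine (norm_add_le _ _).trans ?_
          linarith
        nlinarith [norm_nonneg (w - z)]
      rw [h4]
      have h5 := ker_le 1 ht.le y w
      calc h w * ker 1 t y w ≤ h w * (t ^ d)⁻¹ := mul_le_mul_of_nonneg_left h5 hw0
        _ = 4 ^ d * (h w * ((4 * t) ^ d)⁻¹) := by
          rw [mul_pow]
          field_simp
    · rw [mem_ball, dist_eq_norm, not_lt] at hw
      rw [ker_zero 1 ht hw, mul_zero]
      by_cases hwz : ‖w - z‖ < 4 * t
      · have hw0 : 0 ≤ h w := h0 w (by rw [mem_ball, dist_eq_norm]; linarith)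
        have := ker_nonneg 1 (show 0 ≤ 4 * t by linarith) z w
        positivity
      · rw [ker_zero 1 (by linarith) (not_lt.mp hwz)]
        simp
  have hz0 : 0 ≤ h z := h0 z (mem_ball_self (by linarith))
  have h4 : (0:ℝ) < 4 ^ d := by positivity
  have h5 : kap d 1 * h y ≤ 4 ^ d * (kap d 1 * h z + κ * omg d * (4 * t) ^ 2 / 4)
      + κ * omg d * t ^ 2 / 4 := by
    have : 4 ^ d * MM 1 (4 * t) h z ≤ 4 ^ d * (kap d 1 * h z + κ * omg d * (4 * t) ^ 2 / 4) := by
      apply mul_le_mul_of_nonneg_left _ h4.le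
      linarith
    linarith
  have h6 : h y = (kap d 1)⁻¹ * (kap d 1 * h y) := by
    rw [← mul_assoc, inv_mul_cancel₀ hκ.ne', one_mul]
  have h7 : (kap d 1)⁻¹ * (4 ^ d * (kap d 1 * h z + κ * omg d * (4 * t) ^ 2 / 4)
      + κ * omg d * t ^ 2 / 4) = 4 ^ d * h z + (kap d 1)⁻¹ * omg d * (1 / 4 + 4 ^ d * 4) * (κ * t ^ 2) := by
    field_simp
    ring
  have h8 : h y ≤ 4 ^ d * h z + (kap d 1)⁻¹ * omg d * (1 / 4 + 4 ^ d * 4) * (κ * t ^ 2) := by
    rw [← h7, h6]
    have h9 := mul_le_mul_of_nonneg_left h5 (inv_pos.mpr hκ).le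
    refine le_trans (le_of_eq ?_) h9
    rw [← mul_assoc (kap d 1)⁻¹ (kap d 1) (h y), inv_mul_cancel₀ hκ.ne', one_mul]
  have h9 : 0 ≤ (kap d 1)⁻¹ * omg d * (1 / 4 + 4 ^ d * 4) := by positivity
  have h10 : 0 ≤ κ * t ^ 2 := by positivity
  nlinarith [mul_nonneg h9 hz0, mul_nonneg h4.le h10]

/-- Harnack inequality with right-hand side -/
theorem harnack' (d : ℕ) : ∃ C : ℝ, 1 ≤ C ∧ ∀ (x : E d) (r : ℝ), 0 < r → ∀ (h : E d → ℝ) (κ : ℝ),
    ContDiffOn ℝ 2 h (ball x r) → (∀ y ∈ ball x r, 0 ≤ h y) → (∀ y ∈ ball x r, |(Δ h) y| ≤ κ) →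
    ∀ y ∈ ball x (r / 2), ∀ z ∈ ball x (r / 2), h y ≤ C * h z + C * κ * r ^ 2 := by
  obtain ⟨C, hC1, hC⟩ := harnack_local d
  refine ⟨10 * C ^ 10, ?_, ?_⟩
  · have : (1:ℝ) ≤ C ^ 10 := one_le_pow₀ hC1
    linarith
  intro x r hr h κ hh h0 hΔ y hy z hz
  have hκ0 : 0 ≤ κ := (abs_nonneg _).trans (hΔ x (mem_ball_self hr))
  have hC0 : 0 ≤ C := by linarith
  -- points of the chain
  set p : ℕ → E d := fun j => y + ((j : ℝ) / 10) • (z - y) with hp
  have hpin : ∀ j : ℕ, j ≤ 10 → p j ∈ ball x (r / 2) := by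
    intro j hj
    have hj1 : (j : ℝ) / 10 ≤ 1 := by
      rw [div_le_one (by norm_num)]
      exact_mod_cast hj
    have := (convex_ball x (r / 2)).add_smul_sub_mem hy hz ⟨by positivity, hj1⟩
    exact this
  have hyz : ‖z - y‖ ≤ r := by
    rw [← dist_eq_norm]
    rw [mem_ball] at hy hz
    have := dist_triangle_right z y x
    linarith
  have hstep : ∀ j : ℕ, j < 10 → h (p j) ≤ C * (h (p (j + 1)) + κ * (r / 10) ^ 2) := by
    intro j hj
    have hz' := hpin (j + 1) hj
    have hsub : ball (p (j + 1)) (r / 2) ⊆ ball x r := by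
      intro w hw
      rw [mem_ball] at hw hz' ⊢
      have := dist_triangle w (p (j + 1)) x
      linarith
    refine hC (p j) (p (j + 1)) (r / 10) (r / 2) κ (by linarith) (by linarith) h (hh.mono hsub)
      (fun w hw => h0 w (hsub hw)) hκ0 (fun w hw => hΔ w (hsub hw)) ?_
    have h1 : p j - p (j + 1) = -((1 / 10 : ℝ) • (z - y)) := by
      simp only [hp]
      push_cast
      rw [add_sub_add_left_eq_sub, ← sub_smul, ← neg_smul]
      congr 1
      ring
    rw [h1, norm_neg, norm_smul]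
    rw [Real.norm_eq_abs, abs_of_pos (by norm_num : (0:ℝ) < 1 / 10)]
    linarith
  set a : ℝ := κ * (r / 10) ^ 2 with ha
  have ha0 : 0 ≤ a := by positivity
  have hind : ∀ j : ℕ, j ≤ 10 → h (p 0) ≤ C ^ j * h (p j) + j * C ^ j * a := by
    intro j
    induction j with
    | zero => intro _; simp
    | succ j ih =>
      intro hj
      have h1 := ih (by omega)
      have h2 := hstep j (by omega)
      have h3 : C ^ j * h (p j) ≤ C ^ j * (C * (h (p (j + 1)) + a)) :=
        mul_le_mul_of_nonneg_left h2 (by positivity)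
      have h4 : (j : ℝ) * C ^ j * a ≤ (j : ℝ) * C ^ (j + 1) * a := by
        apply mul_le_mul_of_nonneg_right _ ha0
        apply mul_le_mul_of_nonneg_left _ (by positivity)
        rw [pow_succ]
        have : 0 ≤ C ^ j := by positivity
        nlinarith
      push_cast
      calc h (p 0) ≤ C ^ j * h (p j) + j * C ^ j * a := h1
        _ ≤ C ^ j * (C * (h (p (j + 1)) + a)) + (j : ℝ) * C ^ (j + 1) * a := add_le_add h3 h4
        _ = C ^ (j + 1) * h (p (j + 1)) + ((j : ℝ) + 1) * C ^ (j + 1) * a := by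
          rw [pow_succ]; ring
  have h1 := hind 10 le_rfl
  have hp0 : p 0 = y := by simp [hp]
  have hp10 : p 10 = z := by
    simp only [hp]
    norm_num
  rw [hp0, hp10] at h1
  have hz0 : 0 ≤ h z := h0 z (ball_subset_ball (by linarith) hz)
  have hC10 : 0 ≤ C ^ 10 := by positivity
  have h2 : a ≤ κ * r ^ 2 := by
    rw [ha]
    apply mul_le_mul_of_nonneg_left _ hκ0
    nlinarith [sq_nonneg r]
  have h3 : 10 * C ^ 10 * a ≤ 10 * C ^ 10 * (κ * r ^ 2) :=
    mul_le_mul_of_nonneg_left h2 (by positivity)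
  push_cast at h1
  nlinarith [mul_nonneg hC10 hz0]

theorem harm_zero' {f : E d → ℝ} {x : E d} {r : ℝ} (hf : ContDiffOn ℝ 2 f (ball x r))
    (hΔ : ∀ y ∈ ball x r, (Δ f) y = 0)
    (h0 : ∀ y ∈ ball x r, 0 ≤ f y) (hx : f x = 0) : ∀ y ∈ ball x (r / 2), f y = 0 := by
  intro y hy
  have hr2 : 0 < r / 2 := pos_of_mem_ball hy
  have hr : 0 < r := by linarith
  obtain ⟨C, -, hC⟩ := harnack' d
  have h1 := hC x r hr f 0 hf h0 (fun w hw => by rw [hΔ w hw]; simp) y hy x (mem_ball_self hr2)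
  rw [hx] at h1
  have h2 := h0 y (ball_subset_ball (by linarith) hy)
  simp at h1
  linarith

/-- strong maximum principle -/
theorem harm_max' {f : E d → ℝ} {U : Set (E d)} (hU : IsOpen U) (hc : IsPreconnected U)
    (hf : ContDiffOn ℝ 2 f U) (hΔ : ∀ y ∈ U, (Δ f) y = 0)
    {x : E d} (hx : x ∈ U) (hm : ∀ y ∈ U, f y ≤ f x) : ∀ y ∈ U, f y = f x := by
  set u : Set (E d) := {y | y ∈ U ∧ f y = f x} with hu
  set v : Set (E d) := {y | y ∈ U ∧ f y < f x} with hv
  have huo : IsOpen u := by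
    rw [Metric.isOpen_iff]
    rintro y ⟨hy, hyx⟩
    obtain ⟨R, hR, hRU⟩ := Metric.isOpen_iff.mp hU y hy
    refine ⟨R / 2, by linarith, fun z hz => ?_⟩
    have hzU : z ∈ U := hRU (ball_subset_ball (by linarith) hz)
    refine ⟨hzU, ?_⟩
    have h1 := harm_zero' (f := fun w => f x + -f w) (x := y) (r := R)
      (contDiffOn_const.add (hf.mono hRU).neg)
      (fun w hw => by
        have hwa : ContDiffAt ℝ 2 f w := hf.contDiffAt (hU.mem_nhds (hRU hw))
        rw [lap_add_at contDiffAt_const hwa.neg, lap_neg, hΔ w (hRU hw)]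
        simp)
      (fun w hw => by have := hm w (hRU hw); linarith) (by linarith) z hz
    linarith
  have hvo : IsOpen v := by
    have : v = U ∩ f ⁻¹' (Iio (f x)) := by
      ext y; simp [hv]
    rw [this]
    exact hf.continuousOn.isOpen_inter_preimage hU isOpen_Iio
  have hdis : Disjoint u v := by
    rw [Set.disjoint_left]
    rintro y ⟨-, h1⟩ ⟨-, h2⟩
    linarith
  have hcov : U ⊆ u ∪ v := by
    intro y hy
    rcases (hm y hy).lt_or_eq with h | h
    · exact Or.inr ⟨hy, h⟩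
    · exact Or.inl ⟨hy, h⟩
  have := hc.subset_left_of_subset_union huo hvo hdis hcov ⟨x, hx, hx, rfl⟩
  intro y hy
  exact (this hy).2

end
end Crest.Agent.R097.Hm
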