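import Crest.Agent.R097.F3
import Crest.Agent.R097.F2
import Crest.Agent.R097.DirApprox
import Crest.Agent.R097.HarmHar
import Crest.Agent.R097.HarmJets

/-!
# Row 97, F3: all inputs except harmonicity in the positivity set discharged (helper392)
-/

set_option autoImplicit false
open MeasureTheory Metric Set Filter Topology InnerProductSpace
open scoped RealInnerProductSpace NNReal ENNReal Gradient Laplacian

namespace Crest.Agent.R097

variable {d : ℕ}

theorem v1Stmt (hd : 1 ≤ d) : V1Stmt d := fun _ _ hu _ _ _ hD hS hSD hΨ h1 h2 h3 =>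
  v1_local hd hu hΨ hD hS hSD h1 h2 h3

theorem v2Stmt (hd : 1 ≤ d) : V2Stmt d := fun _ _ hu _ _ _ hD hS hSD hΨ h1 h2 h3 =>
  v2_local hd hu hΨ hD hS hSD h1 h2
    (fun x hx h4 h5 => h3 x hx (lt_of_le_of_lt (le_max_right _ _) h4) h5)

theorem jetStmt (d : ℕ) : JetStmt d := by
  obtain ⟨C, hC, h⟩ := Hm.harm_jets' d
  refine ⟨C, hC, fun x r hr f M h1 h2 h3 => ?_⟩
  obtain ⟨-, -, h4, h5, -⟩ := h x r hr f M h1 h2 h3
  exact ⟨h4, h5⟩

theorem dirStmt (hd : 1 ≤ d) : DirStmt d := dirichlet_approx d hd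

/-- **F3**, with harmonicity of minimisers in `{u > 0}` as the only input -/
theorem f3_main (hH : HarmPos d) (hd : 1 ≤ d) : F3Stmt d :=
  F3 (v1Stmt hd) (v2Stmt hd) (F2 hH (Hm.harnack' d) hd) (dirStmt hd) (jetStmt d)

end Crest.Agent.R097
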