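import Crest.Agent.R097.Iface

/-!
# Row 97, F4 (a): the constraint set `KK` and its cubic polynomials
-/

set_option autoImplicit false
open MeasureTheory Metric Set Filter Topology InnerProductSpace
open scoped RealInnerProductSpace NNReal ENNReal Gradient Laplacian

namespace Crest.Agent.R097

variable {d : ℕ}

/-- the inner product of two functionals -/
noncomputable def dt (φ ψ : E d →L[ℝ] ℝ) : ℝ := ∑ i, φ (bv i) * ψ (bv i)

lemma dt_comm (φ ψ : E d →L[ℝ] ℝ) : dt φ ψ = dt ψ φ := by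
  simp only [dt, mul_comm]

lemma dt_add_left (φ φ' ψ : E d →L[ℝ] ℝ) : dt (φ + φ') ψ = dt φ ψ + dt φ' ψ := by
  simp only [dt, ContinuousLinearMap.add_apply, add_mul, Finset.sum_add_distrib]

lemma dt_sub_left (φ φ' ψ : E d →L[ℝ] ℝ) : dt (φ - φ') ψ = dt φ ψ - dt φ' ψ := by
  simp only [dt, ContinuousLinearMap.sub_apply, sub_mul, Finset.sum_sub_distrib]

lemma dt_smul_left (c : ℝ) (φ ψ : E d →L[ℝ] ℝ) : dt (c • φ) ψ = c * dt φ ψ := by
  simp only [dt, ContinuousLinearMap.smul_apply, smul_eq_mul, Finset.mul_sum, mul_assoc]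

lemma dt_add_right (φ ψ ψ' : E d →L[ℝ] ℝ) : dt φ (ψ + ψ') = dt φ ψ + dt φ ψ' := by
  rw [dt_comm, dt_add_left, dt_comm, dt_comm ψ']

lemma dt_sub_right (φ ψ ψ' : E d →L[ℝ] ℝ) : dt φ (ψ - ψ') = dt φ ψ - dt φ ψ' := by
  rw [dt_comm, dt_sub_left, dt_comm, dt_comm ψ']

lemma dt_smul_right (c : ℝ) (φ ψ : E d →L[ℝ] ℝ) : dt φ (c • ψ) = c * dt φ ψ := by
  rw [dt_comm, dt_smul_left, dt_comm]

lemma dt_inner (φ : E d →L[ℝ] ℝ) (e : E d) : dt (innerSL ℝ e) φ = φ e := by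
  conv_rhs => rw [← sum_bv e, map_sum]
  refine Finset.sum_congr rfl fun i _ => ?_
  rw [map_smul, smul_eq_mul, innerSL_apply_apply, inner_bv']

lemma dt_self (φ : E d →L[ℝ] ℝ) : dt φ φ = ‖φ‖ ^ 2 := by
  set w := (toDual ℝ (E d)).symm φ with hw
  have h1 : ‖φ‖ = ‖w‖ := by simp [hw]
  have h2 : ∀ i, φ (bv i) = w i := by
    intro i
    rw [← inner_bv', hw, toDual_symm_apply]
  rw [h1, EuclideanSpace.norm_sq_eq, dt]
  refine Finset.sum_congr rfl fun i _ => ?_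
  rw [h2, Real.norm_eq_abs, sq_abs, sq]

lemma abs_dt_le (φ ψ : E d →L[ℝ] ℝ) : |dt φ ψ| ≤ ‖φ‖ * ‖ψ‖ := by
  have h := Finset.sum_mul_sq_le_sq_mul_sq Finset.univ (fun i => φ (bv i)) (fun i => ψ (bv i))
  have h1 : ∑ i, φ (bv i) ^ 2 = ‖φ‖ ^ 2 := by
    rw [← dt_self]; simp only [dt, sq]
  have h2 : ∑ i, ψ (bv i) ^ 2 = ‖ψ‖ ^ 2 := by
    rw [← dt_self]; simp only [dt, sq]
  rw [h1, h2, ← mul_pow] at h
  exact abs_le_of_sq_le_sq h (by positivity)

lemma KK.inner_ee {e : E d} {A : Bil d} {B : Tri d} (h : KK e A B) : ⟪e, e⟫_ℝ = 1 := by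
  rw [real_inner_self_eq_norm_sq, h.norm_e]; norm_num

lemma KK.eig' {e : E d} {A : Bil d} {B : Tri d} (h : KK e A B) (y : E d) :
    A e y = A e e * ⟪e, y⟫_ℝ := by
  have h1 := h.eig (y - ⟪e, y⟫_ℝ • e) (by
    rw [inner_sub_right, inner_smul_right, h.inner_ee]; ring)
  rw [map_sub, map_smul, smul_eq_mul, sub_eq_zero] at h1
  rw [h1]; ring

/-- polarised boundary relation -/
lemma KK.bdry' {e : E d} {A : Bil d} {B : Tri d} (h : KK e A B) {t t' : E d}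
    (ht : ⟪e, t⟫_ℝ = 0) (ht' : ⟪e, t'⟫_ℝ = 0) :
    B t t' e = A e e * A t t' - dt (A t) (A t') := by
  have hs : ∀ t, ∑ i, (A t (bv i)) ^ 2 = dt (A t) (A t) := by
    intro t
    simp only [dt, sq]
  have h1 := h.bdry (t + t') (by rw [inner_add_right, ht, ht']; ring)
  have h2 := h.bdry t ht
  have h3 := h.bdry t' ht'
  rw [hs] at h1 h2 h3
  simp only [map_add, ContinuousLinearMap.add_apply] at h1
  rw [dt_add_left, dt_add_right, dt_add_right, dt_comm (A t') (A t), h.stfB.symm12 t' t e,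
    h.stfA.symm t' t] at h1
  linarith

lemma cub_zero (e : E d) (A : Bil d) (B : Tri d) : cub e A B 0 = 0 := by simp [cub]

lemma contDiff_cub (e : E d) (A : Bil d) (B : Tri d) {n : WithTop ℕ∞} :
    ContDiff ℝ n (cub e A B) := by
  have h1 : ContDiff ℝ n (fun x : E d => A x x) := (A.contDiff).clm_apply contDiff_id
  have h2 : ContDiff ℝ n (fun x : E d => B x x x) :=
    ((B.contDiff).clm_apply contDiff_id).clm_apply contDiff_id
  exact ((contDiff_const.inner ℝ contDiff_id).add (h1.div_const 2)).add (h2.div_const 6)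

lemma hasFDerivAt_cub {e : E d} {A : Bil d} {B : Tri d} (hA : ∀ x y, A x y = A y x)
    (hB : ∀ x y z, B x y z = B y x z) (hB' : ∀ x y z, B x y z = B x z y) (x : E d) :
    HasFDerivAt (cub e A B) (innerSL ℝ e + A x + (1 / 2 : ℝ) • B x x) x := by
  have h0 : HasFDerivAt (fun x : E d => ⟪e, x⟫_ℝ) (innerSL ℝ e) x := (innerSL ℝ e).hasFDerivAt
  have h1 : HasFDerivAt (fun x : E d => A x x) _ x :=
    (A.hasFDerivAt (x := x)).clm_apply (hasFDerivAt_id x)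
  have h2 : HasFDerivAt (fun x : E d => B x x x) _ x :=
    ((B.hasFDerivAt (x := x)).clm_apply (hasFDerivAt_id x)).clm_apply (hasFDerivAt_id x)
  have h3 := (h0.add (h1.const_mul (1 / 2 : ℝ))).add (h2.const_mul (1 / 6 : ℝ))
  have h4 : cub e A B = (((fun x : E d => ⟪e, x⟫_ℝ) + fun x => 1 / 2 * A x x) +
      fun x => 1 / 6 * B x x x) := by
    funext x
    simp only [cub, Pi.add_apply]
    ring
  rw [h4]
  refine h3.congr_fderiv ?_
  ext v
  simp only [ContinuousLinearMap.add_apply, ContinuousLinearMap.smul_apply,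
    ContinuousLinearMap.comp_apply, ContinuousLinearMap.flip_apply, ContinuousLinearMap.id_apply,
    ContinuousLinearMap.coe_id', id, smul_eq_mul]
  rw [hA v x, hB v x x, hB' x v x]
  ring

lemma fderiv_cub {e : E d} {A : Bil d} {B : Tri d} (h : KK e A B) (x : E d) :
    fderiv ℝ (cub e A B) x = innerSL ℝ e + A x + (1 / 2 : ℝ) • B x x :=
  (hasFDerivAt_cub h.stfA.symm h.stfB.symm12 h.stfB.symm23 x).fderiv

lemma laplacian_cub {e : E d} {A : Bil d} {B : Tri d} (h : KK e A B) (x : E d) :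
    (Δ (cub e A B)) x = 0 := by
  rw [laplacian_eq_sum (contDiff_cub e A B).contDiffAt]
  have h1 : ∀ i, fderiv ℝ (fun y => fderiv ℝ (cub e A B) y (bv i)) x (bv i) =
      A (bv i) (bv i) + B x (bv i) (bv i) := by
    intro i
    have h2 : (fun y => fderiv ℝ (cub e A B) y (bv i)) =
        fun y => ⟪e, bv i⟫_ℝ + A y (bv i) + 1 / 2 * B y y (bv i) := by
      funext y
      rw [fderiv_cub h]
      simp
    rw [h2]
    have h3 : HasFDerivAt (fun y : E d => A y (bv i)) _ x :=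
      (A.hasFDerivAt (x := x)).clm_apply (hasFDerivAt_const (bv i) x)
    have h4 : HasFDerivAt (fun y : E d => B y y (bv i)) _ x :=
      ((B.hasFDerivAt (x := x)).clm_apply (hasFDerivAt_id x)).clm_apply
        (hasFDerivAt_const (bv i) x)
    have h5 : HasFDerivAt (fun y : E d => ⟪e, bv i⟫_ℝ + A y (bv i) + 1 / 2 * B y y (bv i)) _ x :=
      ((hasFDerivAt_const ⟪e, bv i⟫_ℝ x).add h3).add (h4.const_mul (1 / 2 : ℝ))
    rw [h5.fderiv]
    simp only [ContinuousLinearMap.add_apply, ContinuousLinearMap.smul_apply,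
      ContinuousLinearMap.comp_apply, ContinuousLinearMap.flip_apply,
      ContinuousLinearMap.id_apply, ContinuousLinearMap.coe_id', id, smul_eq_mul,
      ContinuousLinearMap.zero_apply, map_zero, zero_add]
    rw [h.stfB.symm12 x (bv i) (bv i), h.stfB.symm23 (bv i) x (bv i)]
    ring
  rw [Finset.sum_congr rfl fun i _ => h1 i, Finset.sum_add_distrib, h.stfA.tr, h.stfB.tr, add_zero]

lemma bil_abs_le (A : Bil d) (x y : E d) : |A x y| ≤ ‖A‖ * ‖x‖ * ‖y‖ := A.le_opNorm₂ x y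

lemma abs_tri_le (B : Tri d) (x y z : E d) : |B x y z| ≤ ‖B‖ * ‖x‖ * ‖y‖ * ‖z‖ := by
  calc |B x y z| ≤ ‖B x‖ * ‖y‖ * ‖z‖ := (B x).le_opNorm₂ y z
    _ ≤ ‖B‖ * ‖x‖ * ‖y‖ * ‖z‖ := by
      gcongr
      exact B.le_opNorm x

lemma norm_tri_le (B : Tri d) (x y : E d) : ‖B x y‖ ≤ ‖B‖ * ‖x‖ * ‖y‖ := B.le_opNorm₂ x y

/-- the polynomial is close to its linear part -/
lemma abs_cub_sub_le (e : E d) (A : Bil d) (B : Tri d) {x : E d} (hx : ‖x‖ ≤ 1) :
    |cub e A B x - ⟪e, x⟫_ℝ| ≤ ‖A‖ + ‖B‖ := by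
  have h1 : |A x x| ≤ ‖A‖ := (bil_abs_le A x x).trans (by
    have := norm_nonneg A
    calc ‖A‖ * ‖x‖ * ‖x‖ ≤ ‖A‖ * 1 * 1 := by gcongr
      _ = ‖A‖ := by ring)
  have h2 : |B x x x| ≤ ‖B‖ := (abs_tri_le B x x x).trans (by
    have := norm_nonneg B
    calc ‖B‖ * ‖x‖ * ‖x‖ * ‖x‖ ≤ ‖B‖ * 1 * 1 * 1 := by gcongr
      _ = ‖B‖ := by ring)
  rw [abs_le] at h1 h2 ⊢
  unfold cub
  constructor <;> linarith [norm_nonneg A, norm_nonneg B]

lemma norm_fderiv_cub_sub_le {e : E d} {A : Bil d} {B : Tri d} (h : KK e A B) {x : E d}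
    (hx : ‖x‖ ≤ 1) : ‖fderiv ℝ (cub e A B) x - innerSL ℝ e‖ ≤ ‖A‖ + ‖B‖ := by
  rw [fderiv_cub h]
  have h1 : ‖A x‖ ≤ ‖A‖ := (A.le_opNorm x).trans (by
    have := norm_nonneg A
    nlinarith)
  have h2 : ‖B x x‖ ≤ ‖B‖ := (norm_tri_le B x x).trans (by
    calc ‖B‖ * ‖x‖ * ‖x‖ ≤ ‖B‖ * 1 * 1 := by gcongr
      _ = ‖B‖ := by ring)
  have h3 : innerSL ℝ e + A x + (1 / 2 : ℝ) • B x x - innerSL ℝ e = A x + (1 / 2 : ℝ) • B x x := by
    abel
  rw [h3]
  calc ‖A x + (1 / 2 : ℝ) • B x x‖ ≤ ‖A x‖ + ‖(1 / 2 : ℝ) • B x x‖ := norm_add_le _ _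
    _ = ‖A x‖ + 1 / 2 * ‖B x x‖ := by rw [norm_smul]; norm_num
    _ ≤ ‖A‖ + ‖B‖ := by linarith [norm_nonneg B, norm_nonneg (B x x)]

/-- the square of the gradient of the polynomial -/
lemma grad_key {e : E d} {A : Bil d} {B : Tri d} (h : KK e A B) {x t : E d} {s : ℝ}
    (het : ⟪e, t⟫_ℝ = 0) (hxt : x = t + s • e) :
    ‖fderiv ℝ (cub e A B) x‖ ^ 2 - 1 = 2 * A e e * cub e A B x - A e e / 3 * B x x x +
      s * (2 * B t e e + s * B e e e) + dt (A x) (B x x) + 1 / 4 * dt (B x x) (B x x) := by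
  have hee : ⟪e, e⟫_ℝ = 1 := by rw [real_inner_self_eq_norm_sq, h.norm_e]; norm_num
  have hs : ⟪e, x⟫_ℝ = s := by
    rw [hxt, inner_add_right, inner_smul_right, hee, het]; ring
  set lam : ℝ := A e e with hlam
  have hAxe : A x e = lam * s := by rw [h.stfA.symm, h.eig', hs]
  have hAte : A t e = 0 := by rw [h.stfA.symm, h.eig', het, mul_zero]
  have hAe : A e = lam • innerSL ℝ e := by
    ext y
    rw [h.eig']
    simp [hlam]
  have hAx : A x = A t + (s * lam) • innerSL ℝ e := by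
    conv_lhs => rw [hxt]
    rw [map_add, map_smul, hAe, smul_smul]
  have hAA : dt (A x) (A x) = dt (A t) (A t) + (s * lam) ^ 2 := by
    rw [hAx, dt_add_left, dt_add_right, dt_add_right, dt_smul_left, dt_smul_left, dt_smul_right,
      dt_smul_right, dt_comm (A t) (innerSL ℝ e), dt_inner, dt_inner, hAte]
    rw [innerSL_apply_apply, hee]
    ring
  have hAxx : A x x = A t t + lam * s ^ 2 := by
    have h1 : A x x = A x t + s * A x e := by
      have := congrArg (A x) hxt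
      rw [map_add, map_smul, smul_eq_mul] at this
      exact this
    have h2 : A x t = A t t := by
      rw [hAx]
      simp [het]
    rw [h1, h2, hAxe]; ring
  have hBxxe : B x x e = B t t e + s * (2 * B t e e + s * B e e e) := by
    have h1 : B x x e = B x t e + s * B x e e := by
      have := congrArg (fun w => B x w e) hxt
      simpa using this
    have h2 : B x t e = B t t e + s * B e t e := by
      have := congrArg (fun w => B w t e) hxt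
      simpa using this
    have h3 : B x e e = B t e e + s * B e e e := by
      have := congrArg (fun w => B w e e) hxt
      simpa using this
    rw [h1, h2, h3, h.stfB.symm12 e t e]; ring
  have hbc := h.bdry' het het
  rw [← hlam] at hbc
  rw [← dt_self, fderiv_cub h]
  rw [dt_add_left, dt_add_left, dt_add_right, dt_add_right, dt_add_right, dt_add_right,
    dt_add_right, dt_add_right, dt_smul_left, dt_smul_left, dt_smul_left, dt_smul_right,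
    dt_smul_right, dt_smul_right, dt_inner, dt_inner, dt_inner, dt_comm (A x) (innerSL ℝ e),
    dt_inner, dt_comm (B x x) (innerSL ℝ e), dt_inner, dt_comm (B x x) (A x), hAA, hAxe, hBxxe,
    hbc]
  have h6 : cub e A B x = s + 1 / 2 * (A t t + lam * s ^ 2) + 1 / 6 * B x x x := by
    rw [cub, hs, hAxx]; ring
  rw [h6, innerSL_apply_apply, hee]
  ring

private lemma real_est {lam p s axx bxxx bt be d1 d2 a b : ℝ} (ha0 : 0 ≤ a) (hb0 : 0 ≤ b)
    (hlam1 : |lam| ≤ a) (hs1 : |s| ≤ 1) (hA2 : |axx| ≤ a) (hB3 : |bxxx| ≤ b) (hBt : |bt| ≤ b)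
    (hBe : |be| ≤ b) (hd1 : |d1| ≤ a * b) (hd2 : |d2| ≤ b ^ 2)
    (hsp : s = p - 1 / 2 * axx - 1 / 6 * bxxx) :
    |2 * lam * p - lam / 3 * bxxx + s * (2 * bt + s * be) + d1 + 1 / 4 * d2| ≤
      3 * (a + b) * |p| + 3 * a * b + b ^ 2 := by
  have hsb : |s| ≤ |p| + 1 / 2 * a + 1 / 6 * b := by
    rw [hsp]
    rw [abs_le] at hA2 hB3 ⊢
    have := le_abs_self p
    have := neg_abs_le p
    constructor <;> linarith
  have e1 : |2 * lam * p| ≤ 2 * a * |p| := by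
    rw [abs_mul, abs_mul, abs_two]; gcongr
  have e2 : |lam / 3 * bxxx| ≤ a / 3 * b := by
    rw [abs_mul, abs_div]
    have : |(3 : ℝ)| = 3 := by norm_num
    rw [this]; gcongr
  have e3 : |2 * bt + s * be| ≤ 3 * b := by
    calc |2 * bt + s * be| ≤ |2 * bt| + |s * be| := abs_add_le _ _
      _ = 2 * |bt| + |s| * |be| := by rw [abs_mul, abs_mul, abs_two]
      _ ≤ 2 * b + 1 * b := by gcongr
      _ = 3 * b := by ring
  have e4 : |s * (2 * bt + s * be)| ≤ (|p| + 1 / 2 * a + 1 / 6 * b) * (3 * b) := by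
    rw [abs_mul]; gcongr
  have hp0 := abs_nonneg p
  have hab := mul_nonneg ha0 hb0
  have hbb := mul_nonneg hb0 hb0
  have hap := mul_nonneg ha0 hp0
  have e5 : 2 * a * |p| + a / 3 * b + (|p| + 1 / 2 * a + 1 / 6 * b) * (3 * b) + a * b +
      1 / 4 * b ^ 2 ≤ 3 * (a + b) * |p| + 3 * a * b + b ^ 2 := by nlinarith
  generalize (|p| + 1 / 2 * a + 1 / 6 * b) * (3 * b) = X at *
  generalize s * (2 * bt + s * be) = Y at *
  generalize lam / 3 * bxxx = Z at *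
  generalize 2 * lam * p = W at *
  rw [abs_le] at e1 e2 e4 hd1 hd2 ⊢
  constructor <;> linarith [e1.1, e1.2, e2.1, e2.2, e4.1, e4.2, hd1.1, hd1.2, hd2.1, hd2.2]

lemma tri_le_norm {B : Tri d} {x y z : E d} (hx : ‖x‖ ≤ 1) (hy : ‖y‖ ≤ 1) (hz : ‖z‖ ≤ 1) :
    |B x y z| ≤ ‖B‖ := (abs_tri_le B x y z).trans (by
    calc ‖B‖ * ‖x‖ * ‖y‖ * ‖z‖ ≤ ‖B‖ * 1 * 1 * 1 := by gcongr
      _ = ‖B‖ := by ring)

lemma bil_le_norm {A : Bil d} {x y : E d} (hx : ‖x‖ ≤ 1) (hy : ‖y‖ ≤ 1) :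
    |A x y| ≤ ‖A‖ := (bil_abs_le A x y).trans (by
    calc ‖A‖ * ‖x‖ * ‖y‖ ≤ ‖A‖ * 1 * 1 := by gcongr
      _ = ‖A‖ := by ring)

/-- **the gradient estimate**: `|∇P|² - 1` is small where `P` is small -/
lemma grad_est {e : E d} {A : Bil d} {B : Tri d} (h : KK e A B) {x : E d} (hx : ‖x‖ ≤ 1) :
    |‖fderiv ℝ (cub e A B) x‖ ^ 2 - 1| ≤
      3 * (‖A‖ + ‖B‖) * |cub e A B x| + 3 * ‖A‖ * ‖B‖ + ‖B‖ ^ 2 := by
  obtain ⟨s, hs⟩ : ∃ s : ℝ, s = ⟪e, x⟫_ℝ := ⟨_, rfl⟩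
  obtain ⟨t, ht⟩ : ∃ t : E d, t = x - s • e := ⟨_, rfl⟩
  have hee := h.inner_ee
  have het : ⟪e, t⟫_ℝ = 0 := by
    rw [ht, inner_sub_right, inner_smul_right, hee, ← hs]; ring
  have hxt : x = t + s • e := by rw [ht]; abel
  have hs1 : |s| ≤ 1 := by
    rw [hs]
    calc |⟪e, x⟫_ℝ| ≤ ‖e‖ * ‖x‖ := abs_real_inner_le_norm _ _
      _ ≤ 1 * 1 := by rw [h.norm_e]; gcongr
      _ = 1 := by ring
  have htn : ‖t‖ ≤ 1 := by
    have h1 : ‖x‖ ^ 2 = ‖t‖ ^ 2 + s ^ 2 := by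
      conv_lhs => rw [hxt]
      rw [@norm_add_sq_real, inner_smul_right, real_inner_comm, het, norm_smul, h.norm_e]
      rw [mul_zero, mul_zero, add_zero, mul_one, Real.norm_eq_abs, sq_abs]
    have h2 : ‖t‖ ^ 2 ≤ 1 := by
      have : ‖x‖ ^ 2 ≤ 1 := pow_le_one₀ (norm_nonneg _) hx
      nlinarith [sq_nonneg s]
    exact (sq_le_one_iff₀ (norm_nonneg _)).1 h2
  have hen : ‖e‖ ≤ 1 := h.norm_e.le
  have hBxx : ‖B x x‖ ≤ ‖B‖ := (norm_tri_le B x x).trans (by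
    calc ‖B‖ * ‖x‖ * ‖x‖ ≤ ‖B‖ * 1 * 1 := by gcongr
      _ = ‖B‖ := by ring)
  have hAxn : ‖A x‖ ≤ ‖A‖ := (A.le_opNorm x).trans (by
    calc ‖A‖ * ‖x‖ ≤ ‖A‖ * 1 := by gcongr
      _ = ‖A‖ := by ring)
  have hd1 : |dt (A x) (B x x)| ≤ ‖A‖ * ‖B‖ := (abs_dt_le _ _).trans (by gcongr)
  have hd2 : |dt (B x x) (B x x)| ≤ ‖B‖ ^ 2 := (abs_dt_le _ _).trans (by
    calc ‖B x x‖ * ‖B x x‖ ≤ ‖B‖ * ‖B‖ := by gcongr
      _ = ‖B‖ ^ 2 := by ring)
  have hsp : s = cub e A B x - 1 / 2 * A x x - 1 / 6 * B x x x := by rw [cub, ← hs]; ring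
  rw [grad_key h het hxt]
  exact real_est (norm_nonneg _) (norm_nonneg _) (bil_le_norm hen hen) hs1 (bil_le_norm hx hx)
    (tri_le_norm hx hx hx) (tri_le_norm htn hen hen) (tri_le_norm hen hen hen) hd1 hd2 hsp

/-- the gradient estimate in the form used for the iteration -/
theorem cub_est : ∃ C : ℝ, 1 ≤ C ∧ ∀ (e : E d) (A : Bil d) (B : Tri d) (δ : ℝ) (x : E d),
    KK e A B → ‖A‖ ≤ 1 → ‖B‖ ≤ 1 → 0 ≤ δ → ‖x‖ ≤ 1 → |cub e A B x| ≤ 3 * δ →
    |‖fderiv ℝ (cub e A B) x‖ ^ 2 - 1| ≤ C * (‖A‖ * δ + ‖B‖ * δ + ‖A‖ * ‖B‖ + ‖B‖ ^ 2) := by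
  refine ⟨9, by norm_num, ?_⟩
  intro e A B δ x h _ _ hδ hx hP
  refine (grad_est h hx).trans ?_
  have ha := norm_nonneg A
  have hb := norm_nonneg B
  have h1 : 3 * (‖A‖ + ‖B‖) * |cub e A B x| ≤ 3 * (‖A‖ + ‖B‖) * (3 * δ) := by gcongr
  nlinarith [mul_nonneg ha hb, sq_nonneg ‖B‖]

end Crest.Agent.R097
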