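import Crest.Agent.R097.F3Def
import Crest.Agent.R097.F4

/-!
# Row 97, F3 (a): the barriers and the sup-convolution (helper392)
-/

set_option autoImplicit false
open MeasureTheory Metric Set Filter Topology InnerProductSpace
open scoped RealInnerProductSpace NNReal ENNReal Gradient Laplacian

namespace Crest.Agent.R097

variable {d : ℕ}

namespace F3P

/-! ### the barriers -/

/-- barrier `P + δ h + σ (⟪e,x⟫ + ⟪e,x⟫²) + c` -/
noncomputable def bar (P h : E d → ℝ) (e : E d) (δ σ c : ℝ) (x : E d) : ℝ :=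
  P x + δ * h x + σ * (⟪e, x⟫_ℝ + ⟪e, x⟫_ℝ ^ 2) + c

lemma contDiff_bar {P h : E d → ℝ} (hP : ContDiff ℝ 2 P) (hh : ContDiff ℝ 2 h) (e : E d)
    (δ σ c : ℝ) : ContDiff ℝ 2 (bar P h e δ σ c) := by
  have h0 : ContDiff ℝ 2 (fun x : E d => ⟪e, x⟫_ℝ) := contDiff_const.inner ℝ contDiff_id
  exact ((hP.add (contDiff_const.mul hh)).add (contDiff_const.mul (h0.add (h0.pow 2)))).add
    contDiff_const

lemma hasFDerivAt_bar {P h : E d → ℝ} (hP : ContDiff ℝ 2 P) (hh : ContDiff ℝ 2 h) (e : E d)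
    (δ σ c : ℝ) (x : E d) : HasFDerivAt (bar P h e δ σ c)
      (fderiv ℝ P x + δ • fderiv ℝ h x + (σ * (1 + 2 * ⟪e, x⟫_ℝ)) • innerSL ℝ e) x := by
  have h0 : HasFDerivAt (fun x : E d => ⟪e, x⟫_ℝ) (innerSL ℝ e) x := (innerSL ℝ e).hasFDerivAt
  have h1 : HasFDerivAt P (fderiv ℝ P x) x := (hP.differentiable (by norm_num) x).hasFDerivAt
  have h2 : HasFDerivAt h (fderiv ℝ h x) x := (hh.differentiable (by norm_num) x).hasFDerivAt
  have h3 := ((h1.add (h2.const_mul δ)).add ((h0.add (h0.pow 2)).const_mul σ)).add_const c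
  refine (h3.congr_of_eventuallyEq (Eventually.of_forall fun y => ?_)).congr_fderiv ?_
  · simp only [bar, Pi.add_apply]
  · ext v
    simp only [ContinuousLinearMap.add_apply, ContinuousLinearMap.smul_apply, smul_eq_mul]
    ring

lemma fderiv_bar {P h : E d → ℝ} (hP : ContDiff ℝ 2 P) (hh : ContDiff ℝ 2 h) (e : E d)
    (δ σ c : ℝ) (x : E d) : fderiv ℝ (bar P h e δ σ c) x =
      fderiv ℝ P x + δ • fderiv ℝ h x + (σ * (1 + 2 * ⟪e, x⟫_ℝ)) • innerSL ℝ e :=
  (hasFDerivAt_bar hP hh e δ σ c x).fderiv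

lemma laplacian_bar {P h : E d → ℝ} (hP : ContDiff ℝ 2 P) (hh : ContDiff ℝ 2 h) {e : E d}
    (he : ‖e‖ = 1) (δ σ c : ℝ) (x : E d) :
    (Δ (bar P h e δ σ c)) x = (Δ P) x + δ * (Δ h) x + 2 * σ := by
  rw [laplacian_eq_sum (contDiff_bar hP hh e δ σ c).contDiffAt, laplacian_eq_sum hP.contDiffAt,
    laplacian_eq_sum hh.contDiffAt]
  have hdP : ∀ i : Fin d, DifferentiableAt ℝ (fun y => fderiv ℝ P y (bv i)) x := fun i =>
    (((hP.fderiv_right (m := 1) (by norm_num)).differentiable (by norm_num)) x).clm_apply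
      (differentiableAt_const _)
  have hdh : ∀ i : Fin d, DifferentiableAt ℝ (fun y => fderiv ℝ h y (bv i)) x := fun i =>
    (((hh.fderiv_right (m := 1) (by norm_num)).differentiable (by norm_num)) x).clm_apply
      (differentiableAt_const _)
  have h1 : ∀ i : Fin d, fderiv ℝ (fun y => fderiv ℝ (bar P h e δ σ c) y (bv i)) x (bv i) =
      fderiv ℝ (fun y => fderiv ℝ P y (bv i)) x (bv i)
        + δ * fderiv ℝ (fun y => fderiv ℝ h y (bv i)) x (bv i) + 2 * σ * (e i * e i) := by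
    intro i
    have h2 : (fun y => fderiv ℝ (bar P h e δ σ c) y (bv i)) =
        fun y => (fderiv ℝ P y (bv i) + δ * fderiv ℝ h y (bv i))
          + σ * e i * (1 + 2 * ⟪e, y⟫_ℝ) := by
      funext y
      rw [fderiv_bar hP hh]
      simp only [ContinuousLinearMap.add_apply, ContinuousLinearMap.smul_apply, smul_eq_mul,
        innerSL_apply_apply, inner_bv']
      ring
    rw [h2]
    have h0 : HasFDerivAt (fun x : E d => ⟪e, x⟫_ℝ) (innerSL ℝ e) x :=
      (innerSL ℝ e).hasFDerivAt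
    have h3 : HasFDerivAt (fun y : E d => (fderiv ℝ P y (bv i) + δ * fderiv ℝ h y (bv i))
          + σ * e i * (1 + 2 * ⟪e, y⟫_ℝ)) _ x :=
      ((hdP i).hasFDerivAt.add ((hdh i).hasFDerivAt.const_mul δ)).add
        (((h0.const_mul 2).const_add 1).const_mul (σ * e i))
    rw [h3.fderiv]
    simp only [ContinuousLinearMap.add_apply, ContinuousLinearMap.smul_apply, smul_eq_mul,
      innerSL_apply_apply, inner_bv']
    ring
  have h4 : ∑ i, e i * e i = 1 := by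
    have := EuclideanSpace.norm_sq_eq e
    rw [he] at this
    simp only [Real.norm_eq_abs, sq_abs] at this
    rw [show (∑ i, e i * e i) = ∑ i, e i ^ 2 from Finset.sum_congr rfl fun i _ => by ring]
    linarith
  simp only [h1, Finset.sum_add_distrib, ← Finset.mul_sum, h4]
  ring

lemma norm_add_sq' (p v : E d →L[ℝ] ℝ) : ‖p + v‖ ^ 2 = ‖p‖ ^ 2 + 2 * dt p v + ‖v‖ ^ 2 := by
  rw [← dt_self, ← dt_self, ← dt_self, dt_add_left, dt_add_right, dt_add_right, dt_comm v p]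
  ring

lemma dt_inner_self (e : E d) (he : ‖e‖ = 1) : (innerSL ℝ e) e = 1 := by
  rw [innerSL_apply_apply, real_inner_self_eq_norm_sq, he]; norm_num

/-! ### evenness -/

lemma even_deriv {h : E d → ℝ} (hh : ContDiff ℝ 2 h) {e : E d} (he : ‖e‖ = 1)
    (hev : ∀ x, h (x - (2 * ⟪e, x⟫_ℝ) • e) = h x) {x0 : E d} (hx0 : ⟪e, x0⟫_ℝ = 0) :
    fderiv ℝ h x0 e = 0 := by
  set R : E d →L[ℝ] E d := ContinuousLinearMap.id ℝ (E d) -
    ((2 : ℝ) • innerSL ℝ e).smulRight e with hR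
  have hRx : ∀ x, R x = x - (2 * ⟪e, x⟫_ℝ) • e := by
    intro x
    simp [hR]
  have hR0 : R x0 = x0 := by rw [hRx, hx0]; simp
  have hRe : R e = -e := by
    rw [hRx, real_inner_self_eq_norm_sq, he]
    have : (2 * (1:ℝ) ^ 2) = 2 := by norm_num
    rw [this, two_smul]
    abel
  have h1 : HasFDerivAt h (fderiv ℝ h x0) (R x0) := by
    rw [hR0]; exact (hh.differentiable (by norm_num) x0).hasFDerivAt
  have h2 : HasFDerivAt (fun x => h (R x)) ((fderiv ℝ h x0).comp R) x0 :=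
    h1.comp x0 R.hasFDerivAt
  have h3 : (fun x => h (R x)) = h := by
    funext x
    rw [hRx]; exact hev x
  rw [h3] at h2
  have h4 := congrArg (fun T : E d →L[ℝ] ℝ => T e) h2.fderiv
  simp only [ContinuousLinearMap.comp_apply] at h4
  rw [hRe, map_neg] at h4
  linarith

lemma proj_norm_le {e : E d} (he : ‖e‖ = 1) (x : E d) : ‖x - ⟪e, x⟫_ℝ • e‖ ≤ ‖x‖ := by
  have h1 : ‖x - ⟪e, x⟫_ℝ • e‖ ^ 2 = ‖x‖ ^ 2 - ⟪e, x⟫_ℝ ^ 2 := by
    rw [norm_sub_sq_real, inner_smul_right, norm_smul, he, real_inner_comm x e,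
      Real.norm_eq_abs, mul_one, sq_abs]
    ring
  have h2 : ‖x - ⟪e, x⟫_ℝ • e‖ ^ 2 ≤ ‖x‖ ^ 2 := by
    rw [h1]; nlinarith [sq_nonneg ⟪e, x⟫_ℝ]
  exact (sq_le_sq₀ (norm_nonneg _) (norm_nonneg _)).1 h2

/-- the `e`-derivative of an even function is controlled by the distance to the hyperplane -/
lemma grad_e_le {h : E d → ℝ} (hh : ContDiff ℝ 2 h) {e : E d} (he : ‖e‖ = 1)
    (hev : ∀ x, h (x - (2 * ⟪e, x⟫_ℝ) • e) = h x) {s A : ℝ}
    (hA : ∀ y ∈ closedBall (0 : E d) s, ‖D2 h y‖ ≤ A) {x : E d}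
    (hx : x ∈ closedBall (0 : E d) s) : |fderiv ℝ h x e| ≤ A * |⟪e, x⟫_ℝ| := by
  set x0 := x - ⟪e, x⟫_ℝ • e with hx0d
  have hx0 : ⟪e, x0⟫_ℝ = 0 := by
    rw [hx0d, inner_sub_right, inner_smul_right, real_inner_self_eq_norm_sq, he]
    ring
  have hxn : ‖x‖ ≤ s := by simpa using hx
  have hx0m : x0 ∈ closedBall (0 : E d) s := by
    simpa using (proj_norm_le he x).trans hxn
  have hd2 : ∀ y ∈ closedBall (0 : E d) s, DifferentiableAt ℝ (fderiv ℝ h) y := fun y _ =>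
    (hh.fderiv_right (m := 1) (by norm_num)).differentiable (by norm_num) y
  have h1 := (convex_closedBall (0 : E d) s).norm_image_sub_le_of_norm_fderiv_le hd2
    (fun y hy => hA y hy) hx0m hx
  have h2 : x - x0 = ⟪e, x⟫_ℝ • e := by rw [hx0d]; abel
  rw [h2, norm_smul, he, mul_one, Real.norm_eq_abs] at h1
  have h3 : fderiv ℝ h x e = (fderiv ℝ h x - fderiv ℝ h x0) e := by
    rw [ContinuousLinearMap.sub_apply, even_deriv hh he hev hx0, sub_zero]
  rw [h3, ← Real.norm_eq_abs]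
  refine (ContinuousLinearMap.le_opNorm _ _).trans ?_
  rw [he, mul_one]
  exact h1

end F3P

end Crest.Agent.R097
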