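import Crest.Agent.R097.F3a

/-!
# Row 97, F3 (b): the sup-convolution and its even version (helper392)
-/

set_option autoImplicit false
open MeasureTheory Metric Set Filter Topology InnerProductSpace
open scoped RealInnerProductSpace NNReal ENNReal Gradient Laplacian

namespace Crest.Agent.R097

variable {d : ℕ}

namespace F3P

/-- Lipschitz regularisation from above of a function bounded by one on a set -/
lemma exists_supconv (K : ℝ≥0) (w : E d → ℝ) (A : Set (E d)) (hw1 : ∀ x ∈ A, w x ≤ 1) :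
    ∃ G : E d → ℝ, LipschitzWith K G ∧ (∀ z, |G z| ≤ 1) ∧ (∀ z ∈ A, w z ≤ G z) ∧
      ∀ z b, -1 ≤ b → (∀ x ∈ A, w x - K * ‖x - z‖ ≤ b) → G z ≤ b := by
  set T : E d → Set ℝ := fun z => insert (-1) ((fun x => w x - K * ‖x - z‖) '' A) with hT
  have hne : ∀ z, (T z).Nonempty := fun z => ⟨-1, mem_insert _ _⟩
  have hub : ∀ z, ∀ t ∈ T z, t ≤ 1 := by
    intro z t ht
    rcases ht with rfl | ⟨x, hx, rfl⟩
    · norm_num
    · have h1 := hw1 x hx
      have h2 : 0 ≤ (K : ℝ) * ‖x - z‖ := by positivity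
      show w x - K * ‖x - z‖ ≤ 1
      linarith
  have hbd : ∀ z, BddAbove (T z) := fun z => ⟨1, hub z⟩
  set G : E d → ℝ := fun z => sSup (T z) with hG
  have hle : ∀ z, ∀ t ∈ T z, t ≤ G z := fun z t ht => le_csSup (hbd z) ht
  have hGle : ∀ z b, -1 ≤ b → (∀ x ∈ A, w x - K * ‖x - z‖ ≤ b) → G z ≤ b := by
    intro z b hb hx
    refine csSup_le (hne z) ?_
    intro t ht
    rcases ht with rfl | ⟨x, hxA, rfl⟩
    · exact hb
    · exact hx x hxA
  have hG1 : ∀ z, -1 ≤ G z := fun z => hle z _ (mem_insert _ _)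
  refine ⟨G, ?_, ?_, ?_, hGle⟩
  · refine LipschitzWith.of_le_add_mul K fun z z' => ?_
    refine hGle z _ ?_ ?_
    · have h1 := hG1 z'
      have h2 : 0 ≤ (K : ℝ) * dist z z' := by positivity
      linarith
    · intro x hx
      have h1 := hle z' _ (mem_insert_of_mem _ ⟨x, hx, rfl⟩)
      have h2 : ‖x - z'‖ ≤ ‖x - z‖ + dist z z' := by
        rw [dist_eq_norm]
        have : x - z' = (x - z) + (z - z') := by abel
        rw [this]; exact norm_add_le _ _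
      have h3 : (K : ℝ) * ‖x - z'‖ ≤ K * (‖x - z‖ + dist z z') :=
        mul_le_mul_of_nonneg_left h2 K.2
      simp only at h1
      linarith
  · intro z
    rw [abs_le]
    exact ⟨hG1 z, csSup_le (hne z) (hub z)⟩
  · intro z hz
    have h1 := hle z _ (mem_insert_of_mem _ ⟨z, hz, rfl⟩)
    simpa using h1

/-- even version -/
lemma exists_even {K : ℝ≥0} {G : E d → ℝ} (hG : LipschitzWith K G) (hG1 : ∀ z, |G z| ≤ 1)
    {e : E d} (he : ‖e‖ = 1) : ∃ g : E d → ℝ, LipschitzWith (K * 3) g ∧ (∀ z, |g z| ≤ 1) ∧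
      (∀ x, g (x - (2 * ⟪e, x⟫_ℝ) • e) = g x) ∧
      ∀ κ : ℝ, 0 ≤ κ → ∀ z, -κ ≤ ⟪e, z⟫_ℝ → |g z - G z| ≤ K * (2 * κ) := by
  have hee : ⟪e, e⟫_ℝ = 1 := by rw [real_inner_self_eq_norm_sq, he]; norm_num
  refine ⟨fun z => G (z + (|⟪e, z⟫_ℝ| - ⟪e, z⟫_ℝ) • e), ?_, fun z => hG1 _, ?_, ?_⟩
  · have hin : ∀ x y : E d, |⟪e, x⟫_ℝ - ⟪e, y⟫_ℝ| ≤ dist x y := by
      intro x y
      rw [← inner_sub_right, dist_eq_norm]
      have := abs_real_inner_le_norm e (x - y)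
      rwa [he, one_mul] at this
    have h1 : LipschitzWith 3 fun z : E d => z + (|⟪e, z⟫_ℝ| - ⟪e, z⟫_ℝ) • e := by
      refine LipschitzWith.of_dist_le_mul fun x y => ?_
      rw [dist_eq_norm]
      have e1 : x + (|⟪e, x⟫_ℝ| - ⟪e, x⟫_ℝ) • e - (y + (|⟪e, y⟫_ℝ| - ⟪e, y⟫_ℝ) • e)
          = (x - y) + ((|⟪e, x⟫_ℝ| - |⟪e, y⟫_ℝ|) - (⟪e, x⟫_ℝ - ⟪e, y⟫_ℝ)) • e := by
        module
      rw [e1]
      refine (norm_add_le _ _).trans ?_
      rw [norm_smul, he, mul_one, Real.norm_eq_abs]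
      have h2 := hin x y
      have h3 := abs_abs_sub_abs_le_abs_sub ⟪e, x⟫_ℝ ⟪e, y⟫_ℝ
      have h4 := abs_sub (|⟪e, x⟫_ℝ| - |⟪e, y⟫_ℝ|) (⟪e, x⟫_ℝ - ⟪e, y⟫_ℝ)
      rw [← dist_eq_norm x y]
      have h5 : ((3 : ℝ≥0) : ℝ) = 3 := by norm_num
      rw [h5]
      linarith
    exact hG.comp h1
  · intro x
    simp only
    have h1 : ⟪e, x - (2 * ⟪e, x⟫_ℝ) • e⟫_ℝ = -⟪e, x⟫_ℝ := by
      rw [inner_sub_right, inner_smul_right, hee]; ring
    rw [h1, abs_neg]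
    congr 1
    module
  · intro κ hκ z hz
    have h1 := hG.dist_le_mul (z + (|⟪e, z⟫_ℝ| - ⟪e, z⟫_ℝ) • e) z
    rw [Real.dist_eq, dist_eq_norm, add_sub_cancel_left, norm_smul, he, mul_one,
      Real.norm_eq_abs] at h1
    refine h1.trans (mul_le_mul_of_nonneg_left ?_ K.2)
    rcases le_total 0 ⟪e, z⟫_ℝ with h | h
    · rw [abs_of_nonneg h, sub_self, abs_zero]; linarith
    · rw [abs_of_nonpos h, abs_le]
      constructor <;> linarith

end F3P

end Crest.Agent.R097
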