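import Crest.Agent.R097.F4

/-!
# Row 97, F4 (b): the correction lemma for the constraint set `KK`
-/

set_option autoImplicit false
open MeasureTheory Metric Set Filter Topology InnerProductSpace
open scoped RealInnerProductSpace NNReal ENNReal Gradient Laplacian

namespace Crest.Agent.R097

variable {d : ℕ}

lemma bil_norm_le {A : Bil d} {c : ℝ} (hc : 0 ≤ c)
    (h : ∀ x y, ‖x‖ ≤ 1 → ‖y‖ ≤ 1 → |A x y| ≤ c) : ‖A‖ ≤ c :=
  ContinuousLinearMap.opNorm_le_of_unit_norm hc fun x hx =>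
    ContinuousLinearMap.opNorm_le_of_unit_norm hc fun y hy => h x y hx.le hy.le

lemma tri_norm_le {B : Tri d} {c : ℝ} (hc : 0 ≤ c)
    (h : ∀ x y z, ‖x‖ ≤ 1 → ‖y‖ ≤ 1 → ‖z‖ ≤ 1 → |B x y z| ≤ c) : ‖B‖ ≤ c :=
  ContinuousLinearMap.opNorm_le_of_unit_norm hc fun x hx =>
    bil_norm_le hc fun y z hy hz => h x y z hx.le hy hz

/-- projection onto the orthogonal complement of a unit vector -/
lemma norm_sub_inner_smul_le {e : E d} (he : ‖e‖ = 1) (x : E d) :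
    ‖x - ⟪e, x⟫_ℝ • e‖ ≤ ‖x‖ := by
  have hee : ⟪e, e⟫_ℝ = 1 := by rw [real_inner_self_eq_norm_sq, he]; norm_num
  have h1 : ‖x - ⟪e, x⟫_ℝ • e‖ ^ 2 = ‖x‖ ^ 2 - ⟪e, x⟫_ℝ ^ 2 := by
    rw [@norm_sub_sq_real, inner_smul_right, real_inner_comm e x, norm_smul, he, mul_one,
      Real.norm_eq_abs, sq_abs]
    ring
  have h2 : ‖x - ⟪e, x⟫_ℝ • e‖ ^ 2 ≤ ‖x‖ ^ 2 := by rw [h1]; linarith [sq_nonneg ⟪e, x⟫_ℝ]
  exact (pow_le_pow_iff_left₀ (norm_nonneg _) (norm_nonneg _) two_ne_zero).1 h2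

lemma inner_sub_inner_smul {e : E d} (he : ‖e‖ = 1) (x : E d) :
    ⟪e, x - ⟪e, x⟫_ℝ • e⟫_ℝ = 0 := by
  have hee : ⟪e, e⟫_ℝ = 1 := by rw [real_inner_self_eq_norm_sq, he]; norm_num
  rw [inner_sub_right, inner_smul_right, hee]; ring

lemma abs_inner_le_one {x y : E d} (hx : ‖x‖ ≤ 1) (hy : ‖y‖ ≤ 1) : |⟪x, y⟫_ℝ| ≤ 1 :=
  (abs_real_inner_le_norm x y).trans (by nlinarith [norm_nonneg x, norm_nonneg y])

/-- step 1: the new direction -/
lemma correct_e {e v : E d} (he : ‖e‖ = 1) (hv : ⟪e, v⟫_ℝ = 0) {c δ : ℝ} (hc : 1 ≤ c)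
    (hvc : ‖v‖ ≤ c) (hδ : 0 ≤ δ) (hδc : δ * c ≤ 1) :
    ∃ e' : E d, ‖e'‖ = 1 ∧ ‖e' - (e + δ • v)‖ ≤ c ^ 2 * δ ^ 2 ∧ ‖e' - e‖ ≤ 2 * c * δ := by
  set n : ℝ := ‖e + δ • v‖ with hn
  have h1 : n ^ 2 = 1 + δ ^ 2 * ‖v‖ ^ 2 := by
    rw [hn, @norm_add_sq_real, inner_smul_right, hv, he, norm_smul, Real.norm_eq_abs, mul_pow,
      sq_abs]
    ring
  have hn1 : 1 ≤ n := by
    have : (1 : ℝ) ^ 2 ≤ n ^ 2 := by rw [h1]; nlinarith [sq_nonneg (δ * ‖v‖)]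
    exact (pow_le_pow_iff_left₀ zero_le_one (norm_nonneg _) two_ne_zero).1 this
  have hn0 : 0 < n := by linarith
  have h2 : n - 1 ≤ c ^ 2 * δ ^ 2 := by
    have h3 : ‖v‖ ^ 2 ≤ c ^ 2 := pow_le_pow_left₀ (norm_nonneg _) hvc 2
    have h4 : δ ^ 2 * ‖v‖ ^ 2 ≤ δ ^ 2 * c ^ 2 := by gcongr
    nlinarith
  have h5 : ‖n⁻¹ • (e + δ • v) - (e + δ • v)‖ ≤ c ^ 2 * δ ^ 2 := by
    have : n⁻¹ • (e + δ • v) - (e + δ • v) = (n⁻¹ - 1) • (e + δ • v) := by
      rw [sub_smul, one_smul]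
    rw [this, norm_smul, ← hn, Real.norm_eq_abs]
    have h6 : n⁻¹ ≤ 1 := inv_le_one_of_one_le₀ hn1
    rw [abs_of_nonpos (by linarith)]
    have h7 : n⁻¹ * n = 1 := inv_mul_cancel₀ hn0.ne'
    nlinarith
  refine ⟨n⁻¹ • (e + δ • v), ?_, h5, ?_⟩
  · rw [norm_smul, norm_inv, Real.norm_eq_abs, abs_of_pos hn0, ← hn, inv_mul_cancel₀ hn0.ne']
  · have h8 : n⁻¹ • (e + δ • v) - e = (n⁻¹ • (e + δ • v) - (e + δ • v)) + δ • v := by abel
    rw [h8]
    refine (norm_add_le _ _).trans ?_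
    rw [norm_smul, Real.norm_eq_abs, abs_of_nonneg hδ]
    have h9 : c ^ 2 * δ ^ 2 ≤ c * δ := by
      have : c * δ * (c * δ) ≤ c * δ * 1 := by
        gcongr
        linarith [mul_comm c δ]
      nlinarith
    have h10 : δ * ‖v‖ ≤ δ * c := by gcongr
    linarith

/-- step 2: making the bilinear form have `e'` as an eigenvector -/
lemma correct_A {e' : E d} (he' : ‖e'‖ = 1) {A'' : Bil d} (hA'' : STF2 A'') {η : ℝ} (hη : 0 ≤ η)
    (h : ∀ z, ‖z‖ ≤ 1 → ⟪e', z⟫_ℝ = 0 → |A'' e' z| ≤ η) :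
    ∃ A' : Bil d, STF2 A' ∧ (∀ t, ⟪e', t⟫_ℝ = 0 → A' e' t = 0) ∧ ‖A' - A''‖ ≤ 2 * η ∧
      A' e' e' = A'' e' e' := by
  have hee : ⟪e', e'⟫_ℝ = 1 := by rw [real_inner_self_eq_norm_sq, he']; norm_num
  set w : E d →L[ℝ] ℝ := A'' e' - (A'' e' e') • innerSL ℝ e' with hw
  have hw' : ∀ y, w y = A'' e' (y - ⟪e', y⟫_ℝ • e') := by
    intro y
    rw [map_sub, map_smul, hw]
    simp only [ContinuousLinearMap.sub_apply, ContinuousLinearMap.smul_apply,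
      innerSL_apply_apply, smul_eq_mul]
    ring
  have hwe : w e' = 0 := by
    rw [hw', hee, one_smul, sub_self, map_zero]
  have hwn : ∀ y, ‖y‖ ≤ 1 → |w y| ≤ η := by
    intro y hy
    rw [hw']
    exact h _ ((norm_sub_inner_smul_le he' y).trans hy) (inner_sub_inner_smul he' y)
  set A' : Bil d := A'' - (innerSL ℝ e').smulRight w - w.smulRight (innerSL ℝ e') with hA'
  have hA'x : ∀ x y, A' x y = A'' x y - ⟪e', x⟫_ℝ * w y - w x * ⟪e', y⟫_ℝ := by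
    intro x y
    rw [hA']
    simp only [ContinuousLinearMap.sub_apply, ContinuousLinearMap.smulRight_apply,
      ContinuousLinearMap.smul_apply, innerSL_apply_apply, smul_eq_mul]
  refine ⟨A', ⟨?_, ?_⟩, ?_, ?_, ?_⟩
  · intro x y
    rw [hA'x, hA'x, hA''.symm x y]; ring
  · have h1 : ∀ i, A' (bv i) (bv i) = A'' (bv i) (bv i) - 2 * ((innerSL ℝ e') (bv i) * w (bv i)) := by
      intro i
      rw [hA'x, innerSL_apply_apply]; ring
    rw [Finset.sum_congr rfl fun i _ => h1 i, Finset.sum_sub_distrib, hA''.tr, ← Finset.mul_sum]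
    have h2 : ∑ i, (innerSL ℝ e') (bv i) * w (bv i) = w e' := dt_inner w e'
    rw [h2, hwe]; ring
  · intro t ht
    rw [hA'x, hee, ht, hw', ht, zero_smul, sub_zero]
    ring
  · refine bil_norm_le (by positivity) fun x y hx hy => ?_
    have h3 : (A' - A'') x y = -(⟪e', x⟫_ℝ * w y) - w x * ⟪e', y⟫_ℝ := by
      rw [ContinuousLinearMap.sub_apply, ContinuousLinearMap.sub_apply, hA'x]; ring
    rw [h3]
    have h4 : |⟪e', x⟫_ℝ * w y| ≤ 1 * η := by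
      rw [abs_mul]
      exact mul_le_mul (abs_inner_le_one he'.le hx) (hwn y hy) (abs_nonneg _) zero_le_one
    have h5 : |w x * ⟪e', y⟫_ℝ| ≤ η * 1 := by
      rw [abs_mul]
      exact mul_le_mul (hwn x hx) (abs_inner_le_one he'.le hy) (abs_nonneg _) hη
    rw [abs_le] at h4 h5 ⊢
    constructor <;> linarith [h4.1, h4.2, h5.1, h5.2]
  · rw [hA'x, hwe]; ring

/-- the bilinear form `dt (A x) (A y)` -/
noncomputable def sqf (A : Bil d) : Bil d := ∑ i, (A (bv i)).smulRight (A (bv i))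

lemma sqf_apply {A : Bil d} (hA : ∀ x y, A x y = A y x) (x y : E d) :
    sqf A x y = dt (A x) (A y) := by
  simp only [sqf, dt, ContinuousLinearMap.sum_apply, ContinuousLinearMap.smulRight_apply,
    ContinuousLinearMap.smul_apply, smul_eq_mul]
  exact Finset.sum_congr rfl fun i _ => by rw [hA (bv i) x, hA (bv i) y]

/-- step 3: the trilinear form -/
lemma correct_B {e' : E d} (he' : ‖e'‖ = 1) {A' : Bil d} {B'' : Tri d} (hA' : STF2 A')
    (hB'' : STF3 B'') {ρ : ℝ} (hρ : 0 ≤ ρ)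
    (h : ∀ z z', ‖z‖ ≤ 1 → ‖z'‖ ≤ 1 → ⟪e', z⟫_ℝ = 0 → ⟪e', z'⟫_ℝ = 0 →
      |A' e' e' * A' z z' - dt (A' z) (A' z') - B'' z z' e'| ≤ ρ) :
    ∃ B' : Tri d, STF3 B' ∧
      (∀ t, ⟪e', t⟫_ℝ = 0 → B' t t e' = A' e' e' * A' t t - ∑ i, (A' t (bv i)) ^ 2) ∧
      ‖B' - B''‖ ≤ (3 + d) * ρ := by
  have hee : ⟪e', e'⟫_ℝ = 1 := by rw [real_inner_self_eq_norm_sq, he']; norm_num
  set R0 : Bil d := (A' e' e') • A' - sqf A' - B'' e' with hR0
  have hR0x : ∀ x y, R0 x y = A' e' e' * A' x y - dt (A' x) (A' y) - B'' x y e' := by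
    intro x y
    rw [hR0]
    simp only [ContinuousLinearMap.sub_apply, ContinuousLinearMap.smul_apply, smul_eq_mul]
    rw [sqf_apply hA'.symm, hB''.symm12 e' x y, hB''.symm23 x e' y]
  set Pj : E d →L[ℝ] E d := ContinuousLinearMap.id ℝ (E d) -
    (innerSL ℝ e').smulRight e' with hP
  have hPx : ∀ x, Pj x = x - ⟪e', x⟫_ℝ • e' := by
    intro x
    rw [hP]
    simp
  have hPe : Pj e' = 0 := by rw [hPx, hee, one_smul, sub_self]
  set R : Bil d := R0.bilinearComp Pj Pj with hR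
  have hRx : ∀ x y, R x y = R0 (Pj x) (Pj y) := fun x y => rfl
  have hRsymm : ∀ x y, R x y = R y x := by
    intro x y
    rw [hRx, hRx, hR0x, hR0x, hA'.symm (Pj x) (Pj y), dt_comm, hB''.symm12 (Pj x) (Pj y)]
  have hRe : ∀ x, R x e' = 0 := by
    intro x
    rw [hRx, hPe, map_zero]
  have hRn : ∀ x y, ‖x‖ ≤ 1 → ‖y‖ ≤ 1 → |R x y| ≤ ρ := by
    intro x y hx hy
    rw [hRx, hR0x, hPx, hPx]
    exact h _ _ ((norm_sub_inner_smul_le he' x).trans hx) ((norm_sub_inner_smul_le he' y).trans hy)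
      (inner_sub_inner_smul he' x) (inner_sub_inner_smul he' y)
  set τ : ℝ := ∑ i, R (bv i) (bv i) with hτ
  have hτn : |τ| ≤ d * ρ := by
    rw [hτ]
    refine (Finset.abs_sum_le_sum_abs _ _).trans ?_
    refine (Finset.sum_le_sum fun i _ => hRn (bv i) (bv i) (norm_bv i).le (norm_bv i).le).trans ?_
    simp
  set φ : E d →L[ℝ] ℝ := innerSL ℝ e' with hφ
  set B' : Tri d := B'' + ((ContinuousLinearMap.smulRightL ℝ (E d) (E d →L[ℝ] ℝ)).flip φ).comp R +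
    φ.smulRight R + ((ContinuousLinearMap.smulRightL ℝ (E d) (E d →L[ℝ] ℝ)) φ).comp R -
    τ • φ.smulRight (φ.smulRight φ) with hB'
  have hB'x : ∀ x y z, B' x y z = B'' x y z + R x y * ⟪e', z⟫_ℝ + ⟪e', x⟫_ℝ * R y z +
      ⟪e', y⟫_ℝ * R x z - τ * (⟪e', x⟫_ℝ * (⟪e', y⟫_ℝ * ⟪e', z⟫_ℝ)) := by
    intro x y z
    rw [hB', hφ]
    simp only [ContinuousLinearMap.sub_apply, ContinuousLinearMap.add_apply,
      ContinuousLinearMap.smul_apply, ContinuousLinearMap.smulRight_apply,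
      ContinuousLinearMap.comp_apply, ContinuousLinearMap.flip_apply,
      ContinuousLinearMap.smulRightL_apply_apply, innerSL_apply_apply, smul_eq_mul]
  refine ⟨B', ⟨?_, ?_, ?_⟩, ?_, ?_⟩
  · intro x y z
    rw [hB'x, hB'x, hB''.symm12 x y z, hRsymm x y]; ring
  · intro x y z
    rw [hB'x, hB'x, hB''.symm23 x y z, hRsymm y z]; ring
  · intro x
    have h1 : ∀ i, B' x (bv i) (bv i) = B'' x (bv i) (bv i) +
        2 * ((innerSL ℝ e') (bv i) * R x (bv i)) + ⟪e', x⟫_ℝ * R (bv i) (bv i) -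
        τ * ⟪e', x⟫_ℝ * ((innerSL ℝ e') (bv i) * (innerSL ℝ e') (bv i)) := by
      intro i
      rw [hB'x, innerSL_apply_apply]; ring
    have h2 : ∑ i, (innerSL ℝ e') (bv i) * R x (bv i) = R x e' := dt_inner (R x) e'
    have h3 : ∑ i, (innerSL ℝ e') (bv i) * (innerSL ℝ e') (bv i) = (innerSL ℝ e') e' :=
      dt_inner (innerSL ℝ e') e'
    rw [Finset.sum_congr rfl fun i _ => h1 i, Finset.sum_sub_distrib, Finset.sum_add_distrib,
      Finset.sum_add_distrib, hB''.tr, ← Finset.mul_sum, ← Finset.mul_sum, ← Finset.mul_sum, h2, h3,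
      hRe, innerSL_apply_apply, hee, ← hτ]
    ring
  · intro t ht
    have h4 : Pj t = t := by rw [hPx, ht, zero_smul, sub_zero]
    have h5 : ∑ i, (A' t (bv i)) ^ 2 = dt (A' t) (A' t) := by
      simp only [dt, sq]
    rw [hB'x, ht, hee, hRx, h4, hR0x, h5]
    ring
  · refine tri_norm_le (by positivity) fun x y z hx hy hz => ?_
    have h6 : (B' - B'') x y z = R x y * ⟪e', z⟫_ℝ + ⟪e', x⟫_ℝ * R y z +
      ⟪e', y⟫_ℝ * R x z - τ * (⟪e', x⟫_ℝ * (⟪e', y⟫_ℝ * ⟪e', z⟫_ℝ)) := by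
      rw [ContinuousLinearMap.sub_apply, ContinuousLinearMap.sub_apply,
        ContinuousLinearMap.sub_apply, hB'x]; ring
    rw [h6]
    have ix := abs_inner_le_one he'.le hx
    have iy := abs_inner_le_one he'.le hy
    have iz := abs_inner_le_one he'.le hz
    have h7 : |R x y * ⟪e', z⟫_ℝ| ≤ ρ * 1 := by
      rw [abs_mul]; exact mul_le_mul (hRn x y hx hy) iz (abs_nonneg _) hρ
    have h8 : |⟪e', x⟫_ℝ * R y z| ≤ 1 * ρ := by
      rw [abs_mul]; exact mul_le_mul ix (hRn y z hy hz) (abs_nonneg _) zero_le_one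
    have h9 : |⟪e', y⟫_ℝ * R x z| ≤ 1 * ρ := by
      rw [abs_mul]; exact mul_le_mul iy (hRn x z hx hz) (abs_nonneg _) zero_le_one
    have h10 : |τ * (⟪e', x⟫_ℝ * (⟪e', y⟫_ℝ * ⟪e', z⟫_ℝ))| ≤ d * ρ * (1 * (1 * 1)) := by
      rw [abs_mul, abs_mul, abs_mul]
      gcongr
    rw [abs_le] at h7 h8 h9 h10 ⊢
    constructor <;> linarith [h7.1, h7.2, h8.1, h8.2, h9.1, h9.2, h10.1, h10.2]

end Crest.Agent.R097
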