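import Crest.Agent.R097.F4b

/-!
# Row 97, F4 (c): the correction lemma `kk_correct`
-/

set_option autoImplicit false
set_option synthInstance.maxHeartbeats 400000
open MeasureTheory Metric Set Filter Topology InnerProductSpace
open scoped RealInnerProductSpace NNReal ENNReal Gradient Laplacian

namespace Crest.Agent.R097

variable {d : ℕ}

lemma STF2.add_smul {A A2 : Bil d} (hA : STF2 A) (hA2 : STF2 A2) (δ : ℝ) : STF2 (A + δ • A2) := by
  refine ⟨fun x y => ?_, ?_⟩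
  · change A x y + δ * A2 x y = A y x + δ * A2 y x
    rw [hA.symm x y, hA2.symm x y]
  · change ∑ i, (A (bv i) (bv i) + δ * A2 (bv i) (bv i)) = 0
    rw [Finset.sum_add_distrib, ← Finset.mul_sum, hA.tr, hA2.tr]; ring

lemma STF3.add_smul {B B2 : Tri d} (hB : STF3 B) (hB2 : STF3 B2) (δ : ℝ) : STF3 (B + δ • B2) := by
  refine ⟨fun x y z => ?_, fun x y z => ?_, fun x => ?_⟩
  · change B x y z + δ * B2 x y z = B y x z + δ * B2 y x z
    rw [hB.symm12 x y z, hB2.symm12 x y z]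
  · change B x y z + δ * B2 x y z = B x z y + δ * B2 x z y
    rw [hB.symm23 x y z, hB2.symm23 x y z]
  · change ∑ i, (B x (bv i) (bv i) + δ * B2 x (bv i) (bv i)) = 0
    rw [Finset.sum_add_distrib, ← Finset.mul_sum, hB.tr, hB2.tr]; ring

private lemma const_est {a b c δ α : ℝ} (ha : 0 ≤ a) (ha1 : a ≤ 1) (hb : 0 ≤ b) (hc : 1 ≤ c)
    (hδ : 0 ≤ δ) (hα0 : 0 ≤ α) (hα : α ≤ 17 * c ^ 2 * δ) :
    2 * ((2 * a + b) * (2 * c * δ)) + ((α + 2 * (a * (2 * c * δ))) * (a + α) + a * α) +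
      (α * (a + α) + a * α) + (b * (2 * c * δ) + δ * (3 * (c * (2 * c * δ)))) ≤
      700 * c ^ 4 * (δ * (a + b + δ)) := by
  have hc0 : 0 ≤ c := by linarith
  have h1 : c ≤ c ^ 4 := by
    calc c = c ^ 1 := (pow_one c).symm
      _ ≤ c ^ 4 := pow_le_pow_right₀ hc (by norm_num)
  have h2 : c ^ 2 ≤ c ^ 4 := pow_le_pow_right₀ hc (by norm_num)
  have h3 : c ^ 3 ≤ c ^ 4 := pow_le_pow_right₀ hc (by norm_num)
  have e1 : c * (δ * a) ≤ c ^ 4 * (δ * a) := by gcongr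
  have e2 : c * (δ * b) ≤ c ^ 4 * (δ * b) := by gcongr
  have e3 : c ^ 2 * (δ * a) ≤ c ^ 4 * (δ * a) := by gcongr
  have e4 : c ^ 2 * (δ * δ) ≤ c ^ 4 * (δ * δ) := by gcongr
  have e5 : a * (c ^ 3 * (δ * δ)) ≤ 1 * (c ^ 4 * (δ * δ)) := by gcongr
  have e6 : a * (c * (δ * a)) ≤ 1 * (c ^ 4 * (δ * a)) := by gcongr
  have g1 : (α + 2 * (a * (2 * c * δ))) * (a + α) ≤
      (17 * c ^ 2 * δ + 2 * (a * (2 * c * δ))) * (a + 17 * c ^ 2 * δ) := by gcongr
  have g2 : a * α ≤ a * (17 * c ^ 2 * δ) := by gcongr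
  have g3 : α * (a + α) ≤ (17 * c ^ 2 * δ) * (a + 17 * c ^ 2 * δ) := by gcongr
  have p1 : 0 ≤ c ^ 4 * (δ * a) := by positivity
  have p2 : 0 ≤ c ^ 4 * (δ * b) := by positivity
  have p3 : 0 ≤ c ^ 4 * (δ * δ) := by positivity
  have key : 2 * ((2 * a + b) * (2 * c * δ)) +
      ((17 * c ^ 2 * δ + 2 * (a * (2 * c * δ))) * (a + 17 * c ^ 2 * δ) + a * (17 * c ^ 2 * δ)) +
      ((17 * c ^ 2 * δ) * (a + 17 * c ^ 2 * δ) + a * (17 * c ^ 2 * δ)) +
      (b * (2 * c * δ) + δ * (3 * (c * (2 * c * δ)))) =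
      8 * (c * (δ * a)) + 6 * (c * (δ * b)) + 68 * (c ^ 2 * (δ * a)) +
        578 * (c ^ 4 * (δ * δ)) + 4 * (a * (c * (δ * a))) + 68 * (a * (c ^ 3 * (δ * δ))) +
        6 * (c ^ 2 * (δ * δ)) := by ring
  have key2 : 700 * c ^ 4 * (δ * (a + b + δ)) = 700 * (c ^ 4 * (δ * a)) +
      700 * (c ^ 4 * (δ * b)) + 700 * (c ^ 4 * (δ * δ)) := by ring
  rw [key2]
  linarith

set_option maxHeartbeats 2000000 in
/-- the residual of the boundary relation -/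
private lemma resid {e e' : E d} {A A' : Bil d} {B B2 : Tri d} {δ a b c α : ℝ}
    (h : KK e A B) (he' : ‖e'‖ = 1) (ha : ‖A‖ ≤ a) (hb : ‖B‖ ≤ b)
    (hδ : 0 ≤ δ) (hc : 1 ≤ c) (hf : ‖e' - e‖ ≤ 2 * c * δ) (hα : ‖A' - A‖ ≤ α)
    (hB2 : STF3 B2) (hB2n : ‖B2‖ ≤ c)
    (hB2e : ∀ t t', ⟪e, t⟫_ℝ = 0 → ⟪e, t'⟫_ℝ = 0 → B2 e t t' = 0)
    {z z' : E d} (hz : ‖z‖ ≤ 1) (hz' : ‖z'‖ ≤ 1) (hez : ⟪e', z⟫_ℝ = 0) (hez' : ⟪e', z'⟫_ℝ = 0) :
    |A' e' e' * A' z z' - dt (A' z) (A' z') - (B + δ • B2) z z' e'| ≤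
      2 * ((2 * a ^ 2 + b) * (2 * c * δ)) + ((α + 2 * (a * (2 * c * δ))) * (a + α) + a * α) +
      (α * (a + α) + a * α) + (b * (2 * c * δ) + δ * (3 * (c * (2 * c * δ)))) := by
  set f : E d := e' - e with hfdef
  set φ : ℝ := 2 * c * δ with hφ
  have hφ0 : 0 ≤ φ := by positivity
  have hc0 : 0 ≤ c := by linarith
  have ha0 : 0 ≤ a := (norm_nonneg _).trans ha
  have hb0 : 0 ≤ b := (norm_nonneg _).trans hb
  have hα0 : 0 ≤ α := (norm_nonneg _).trans hα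
  have hen : ‖e‖ ≤ 1 := h.norm_e.le
  have he'n : ‖e'‖ ≤ 1 := he'.le
  have he'f : e' = e + f := by rw [hfdef]; abel
  -- bounds for forms
  have hAb : ∀ x y : E d, ‖x‖ ≤ 1 → ‖y‖ ≤ 1 → |A x y| ≤ a := fun x y hx hy =>
    (bil_le_norm hx hy).trans ha
  have hBb : ∀ x y z : E d, ‖x‖ ≤ 1 → ‖y‖ ≤ 1 → ‖z‖ ≤ 1 → |B x y z| ≤ b := fun x y z hx hy hz =>
    (tri_le_norm hx hy hz).trans hb
  have hB2b : ∀ x y z : E d, ‖x‖ ≤ 1 → ‖y‖ ≤ 1 → ‖z‖ ≤ 1 → |B2 x y z| ≤ c :=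
    fun x y z hx hy hz => (tri_le_norm hx hy hz).trans hB2n
  have hA'A : ‖A'‖ ≤ a + α := by
    calc ‖A'‖ = ‖A + (A' - A)‖ := by congr 1; abel
      _ ≤ ‖A‖ + ‖A' - A‖ := norm_add_le _ _
      _ ≤ a + α := add_le_add ha hα
  -- functionals
  have hAx : ∀ x : E d, ‖x‖ ≤ 1 → ‖A x‖ ≤ a := fun x hx => (A.le_opNorm x).trans (by
    calc ‖A‖ * ‖x‖ ≤ a * 1 := by gcongr
      _ = a := mul_one a)
  have hA'x : ∀ x : E d, ‖x‖ ≤ 1 → ‖A' x‖ ≤ a + α := fun x hx => (A'.le_opNorm x).trans (by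
    calc ‖A'‖ * ‖x‖ ≤ (a + α) * 1 := by gcongr
      _ = a + α := mul_one _)
  have hDx : ∀ x : E d, ‖x‖ ≤ 1 → ‖(A' - A) x‖ ≤ α := fun x hx =>
    ((A' - A).le_opNorm x).trans (by
    calc ‖A' - A‖ * ‖x‖ ≤ α * 1 := by gcongr
      _ = α := mul_one _)
  -- the components along e
  obtain ⟨s, hs⟩ : ∃ s : ℝ, s = ⟪e, z⟫_ℝ := ⟨_, rfl⟩
  obtain ⟨s', hs'⟩ : ∃ s' : ℝ, s' = ⟪e, z'⟫_ℝ := ⟨_, rfl⟩
  have hsn : |s| ≤ φ := by
    have h1 : ⟪e, z⟫_ℝ = -⟪f, z⟫_ℝ := by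
      have h2 : ⟪e + f, z⟫_ℝ = 0 := by rw [← he'f]; exact hez
      rw [inner_add_left] at h2
      linarith
    rw [hs, h1, abs_neg]
    calc |⟪f, z⟫_ℝ| ≤ ‖f‖ * ‖z‖ := abs_real_inner_le_norm _ _
      _ ≤ φ * 1 := by gcongr
      _ = φ := mul_one _
  have hs'n : |s'| ≤ φ := by
    have h1 : ⟪e, z'⟫_ℝ = -⟪f, z'⟫_ℝ := by
      have h2 : ⟪e + f, z'⟫_ℝ = 0 := by rw [← he'f]; exact hez'
      rw [inner_add_left] at h2
      linarith
    rw [hs', h1, abs_neg]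
    calc |⟪f, z'⟫_ℝ| ≤ ‖f‖ * ‖z'‖ := abs_real_inner_le_norm _ _
      _ ≤ φ * 1 := by gcongr
      _ = φ := mul_one _
  obtain ⟨z0, hz0⟩ : ∃ z0 : E d, z0 = z - s • e := ⟨_, rfl⟩
  obtain ⟨z0', hz0'⟩ : ∃ z0' : E d, z0' = z' - s' • e := ⟨_, rfl⟩
  have hz0n : ‖z0‖ ≤ 1 := by
    rw [hz0, hs]; exact (norm_sub_inner_smul_le h.norm_e z).trans hz
  have hz0e : ⟪e, z0⟫_ℝ = 0 := by
    rw [hz0, hs]; exact inner_sub_inner_smul h.norm_e z
  have hz0'e : ⟪e, z0'⟫_ℝ = 0 := by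
    rw [hz0', hs']; exact inner_sub_inner_smul h.norm_e z'
  have hz0'n : ‖z0'‖ ≤ 1 := by
    rw [hz0', hs']; exact (norm_sub_inner_smul_le h.norm_e z').trans hz'
  have hzz : z = z0 + s • e := by rw [hz0]; abel
  have hzz' : z' = z0' + s' • e := by rw [hz0']; abel
  -- the old residual
  set Q : Bil d := (A e e) • A - sqf A - B e with hQ
  have hQx : ∀ x y, Q x y = A e e * A x y - dt (A x) (A y) - B x y e := by
    intro x y
    rw [hQ]
    simp only [ContinuousLinearMap.sub_apply, ContinuousLinearMap.smul_apply, smul_eq_mul]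
    rw [sqf_apply h.stfA.symm, h.stfB.symm12 e x y, h.stfB.symm23 x e y]
  have hQ0 : Q z0 z0' = 0 := by
    rw [hQx, h.bdry' hz0e hz0'e]; ring
  have hQn : ∀ x y : E d, ‖x‖ ≤ 1 → ‖y‖ ≤ 1 → |Q x y| ≤ 2 * a ^ 2 + b := by
    intro x y hx hy
    rw [hQx]
    have h1 : |A e e * A x y| ≤ a * a := by
      rw [abs_mul]; exact mul_le_mul (hAb e e hen hen) (hAb x y hx hy) (abs_nonneg _) ha0
    have h2 : |dt (A x) (A y)| ≤ a * a := (abs_dt_le _ _).trans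
      (mul_le_mul (hAx x hx) (hAx y hy) (norm_nonneg _) ha0)
    have h3 := hBb x y e hx hy hen
    rw [abs_le] at h1 h2 h3 ⊢
    constructor <;> nlinarith [h1.1, h1.2, h2.1, h2.2, h3.1, h3.2]
  have hQzz : Q z z' = s * Q e z' + s' * Q z0 e := by
    have h1 : Q z z' = Q z0 z' + s * Q e z' := by
      have := congrArg (fun w => Q w z') hzz
      simpa using this
    have h2 : Q z0 z' = Q z0 z0' + s' * Q z0 e := by
      have := congrArg (fun w => Q z0 w) hzz'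
      simpa using this
    rw [h1, h2, hQ0]; ring
  have hQest : |Q z z'| ≤ 2 * ((2 * a ^ 2 + b) * φ) := by
    rw [hQzz]
    have h1 : |s * Q e z'| ≤ φ * (2 * a ^ 2 + b) := by
      rw [abs_mul]; exact mul_le_mul hsn (hQn e z' hen hz') (abs_nonneg _) hφ0
    have h2 : |s' * Q z0 e| ≤ φ * (2 * a ^ 2 + b) := by
      rw [abs_mul]; exact mul_le_mul hs'n (hQn z0 e hz0n hen) (abs_nonneg _) hφ0
    rw [abs_le] at h1 h2 ⊢
    constructor <;> linarith [h1.1, h1.2, h2.1, h2.2]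
  -- first difference
  have hD1 : |A' e' e' * A' z z' - A e e * A z z'| ≤ (α + 2 * (a * φ)) * (a + α) + a * α := by
    have h1 : A' e' e' * A' z z' - A e e * A z z' =
        (A' e' e' - A e e) * A' z z' + A e e * ((A' - A) z z') := by
      rw [ContinuousLinearMap.sub_apply, ContinuousLinearMap.sub_apply]; ring
    have h2 : A' e' e' - A e e = (A' - A) e' e' + A f e' + A e f := by
      have h3 : A e' e' = A e e' + A f e' := by
        have := congrArg (fun w => A w e') he'f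
        simpa using this
      have h4 : A e e' = A e e + A e f := by
        have := congrArg (fun w => A e w) he'f
        simpa using this
      rw [ContinuousLinearMap.sub_apply, ContinuousLinearMap.sub_apply, h3, h4]; ring
    have h5 : |(A' - A) e' e'| ≤ α := (bil_le_norm he'n he'n).trans hα
    have h6 : |A f e'| ≤ a * φ := (bil_abs_le A f e').trans (by
      calc ‖A‖ * ‖f‖ * ‖e'‖ ≤ a * φ * 1 := by gcongr
        _ = a * φ := mul_one _)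
    have h7 : |A e f| ≤ a * φ := (bil_abs_le A e f).trans (by
      calc ‖A‖ * ‖e‖ * ‖f‖ ≤ a * 1 * φ := by gcongr
        _ = a * φ := by ring)
    have h8 : |A' e' e' - A e e| ≤ α + 2 * (a * φ) := by
      rw [h2]
      rw [abs_le] at h5 h6 h7 ⊢
      constructor <;> linarith [h5.1, h5.2, h6.1, h6.2, h7.1, h7.2]
    have h9 : |A' z z'| ≤ a + α := (bil_le_norm hz hz').trans hA'A
    have h10 : |(A' - A) z z'| ≤ α := (bil_le_norm hz hz').trans hα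
    rw [h1]
    refine (abs_add_le _ _).trans ?_
    rw [abs_mul, abs_mul]
    exact add_le_add (mul_le_mul h8 h9 (abs_nonneg _) (by positivity))
      (mul_le_mul (hAb e e hen hen) h10 (abs_nonneg _) ha0)
  -- second difference
  have hD2 : |dt (A' z) (A' z') - dt (A z) (A z')| ≤ α * (a + α) + a * α := by
    have h1 : dt (A' z) (A' z') - dt (A z) (A z') =
        dt ((A' - A) z) (A' z') + dt (A z) ((A' - A) z') := by
      rw [ContinuousLinearMap.sub_apply, ContinuousLinearMap.sub_apply, dt_sub_left, dt_sub_right]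
      ring
    rw [h1]
    refine (abs_add_le _ _).trans ?_
    exact add_le_add ((abs_dt_le _ _).trans (mul_le_mul (hDx z hz) (hA'x z' hz') (norm_nonneg _) hα0))
      ((abs_dt_le _ _).trans (mul_le_mul (hAx z hz) (hDx z' hz') (norm_nonneg _) ha0))
  -- third difference
  have hD3 : |(B + δ • B2) z z' e' - B z z' e| ≤ b * φ + δ * (3 * (c * φ)) := by
    have h1 : (B + δ • B2) z z' e' - B z z' e = B z z' f + δ * B2 z z' e' := by
      have h2 : B z z' e' = B z z' e + B z z' f := by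
        have := congrArg (fun w => B z z' w) he'f
        simpa using this
      simp only [ContinuousLinearMap.add_apply, ContinuousLinearMap.smul_apply, smul_eq_mul]
      rw [h2]; ring
    have h3 : |B z z' f| ≤ b * φ := (abs_tri_le B z z' f).trans (by
      calc ‖B‖ * ‖z‖ * ‖z'‖ * ‖f‖ ≤ b * 1 * 1 * φ := by gcongr
        _ = b * φ := by ring)
    have h4 : B2 z z' e' = s * B2 e e z' + s' * B2 e z0 e + B2 z z' f := by
      have h5 : B2 z z' e' = B2 z z' e + B2 z z' f := by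
        have := congrArg (fun w => B2 z z' w) he'f
        simpa using this
      have h6 : B2 z z' e = B2 e z z' := by
        rw [hB2.symm23 z z' e, hB2.symm12 z e z']
      have h7 : B2 e z z' = B2 e z0 z' + s * B2 e e z' := by
        have := congrArg (fun w => B2 e w z') hzz
        simpa using this
      have h8 : B2 e z0 z' = B2 e z0 z0' + s' * B2 e z0 e := by
        have := congrArg (fun w => B2 e z0 w) hzz'
        simpa using this
      rw [h5, h6, h7, h8, hB2e z0 z0' hz0e hz0'e]; ring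
    have h9 : |s * B2 e e z'| ≤ φ * c := by
      rw [abs_mul]; exact mul_le_mul hsn (hB2b e e z' hen hen hz') (abs_nonneg _) hφ0
    have h10 : |s' * B2 e z0 e| ≤ φ * c := by
      rw [abs_mul]; exact mul_le_mul hs'n (hB2b e z0 e hen hz0n hen) (abs_nonneg _) hφ0
    have h11 : |B2 z z' f| ≤ c * φ := (abs_tri_le B2 z z' f).trans (by
      calc ‖B2‖ * ‖z‖ * ‖z'‖ * ‖f‖ ≤ c * 1 * 1 * φ := by gcongr
        _ = c * φ := by ring)
    have h12 : |B2 z z' e'| ≤ 3 * (c * φ) := by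
      rw [h4]
      rw [abs_le] at h9 h10 h11 ⊢
      constructor <;> linarith [h9.1, h9.2, h10.1, h10.2, h11.1, h11.2]
    rw [h1]
    refine (abs_add_le _ _).trans ?_
    rw [abs_mul, abs_of_nonneg hδ]
    gcongr
  have hfin : A' e' e' * A' z z' - dt (A' z) (A' z') - (B + δ • B2) z z' e' =
      Q z z' + (A' e' e' * A' z z' - A e e * A z z') - (dt (A' z) (A' z') - dt (A z) (A z')) -
        ((B + δ • B2) z z' e' - B z z' e) := by
    rw [hQx]; ring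
  rw [hfin]
  rw [abs_le] at hQest hD1 hD2 hD3 ⊢
  constructor <;> linarith [hQest.1, hQest.2, hD1.1, hD1.2, hD2.1, hD2.2, hD3.1, hD3.2]

set_option maxHeartbeats 2000000 in
/-- **the correction lemma** -/
theorem kk_correct (d : ℕ) (C0 : ℝ) : ∃ C : ℝ, 1 ≤ C ∧ ∀ (e : E d) (A : Bil d) (B : Tri d)
    (v : E d) (A2 : Bil d) (B2 : Tri d) (δ : ℝ), KK e A B → ‖A‖ ≤ 1 → ‖B‖ ≤ 1 → 0 ≤ δ →
    δ ≤ 1 / C → ⟪e, v⟫_ℝ = 0 → STF2 A2 → STF3 B2 → ‖v‖ ≤ C0 → ‖A2‖ ≤ C0 → ‖B2‖ ≤ C0 →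
    (∀ t, ⟪e, t⟫_ℝ = 0 → A2 e t = 0) →
    (∀ t t', ⟪e, t⟫_ℝ = 0 → ⟪e, t'⟫_ℝ = 0 → B2 e t t' = 0) →
    ∃ (e' : E d) (A' : Bil d) (B' : Tri d), KK e' A' B' ∧
      ‖e' - (e + δ • v)‖ ≤ C * δ * (‖A‖ + ‖B‖ + δ) ∧
      ‖A' - (A + δ • A2)‖ ≤ C * δ * (‖A‖ + ‖B‖ + δ) ∧
      ‖B' - (B + δ • B2)‖ ≤ C * δ * (‖A‖ + ‖B‖ + δ) := by
  obtain ⟨c, hc1, hcC⟩ : ∃ c : ℝ, 1 ≤ c ∧ C0 ≤ c := ⟨max 1 C0, le_max_left _ _, le_max_right _ _⟩
  have hc0 : 0 ≤ c := by linarith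
  have hc4 : 1 ≤ c ^ 4 := one_le_pow₀ hc1
  have hdn : (0 : ℝ) ≤ d := Nat.cast_nonneg d
  have hC1 : 1 ≤ (3 + d) * (700 * c ^ 4) := by nlinarith
  refine ⟨(3 + d) * (700 * c ^ 4), hC1, ?_⟩
  intro e A B v A2 B2 δ h hA1 hB1 hδ hδC hv hA2 hB2 hvn hA2n hB2n hA2e hB2e
  obtain ⟨a, ha⟩ : ∃ a : ℝ, a = ‖A‖ := ⟨_, rfl⟩
  obtain ⟨b, hb⟩ : ∃ b : ℝ, b = ‖B‖ := ⟨_, rfl⟩
  have ha0 : 0 ≤ a := by rw [ha]; exact norm_nonneg _
  have hb0 : 0 ≤ b := by rw [hb]; exact norm_nonneg _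
  rw [← ha, ← hb]
  have hδ1 : δ ≤ 1 := hδC.trans (by rw [div_le_one (by positivity)]; exact hC1)
  have hcC4 : c ≤ (3 + d) * (700 * c ^ 4) := by
    have h1 : c ≤ c ^ 4 := by
      calc c = c ^ 1 := (pow_one c).symm
        _ ≤ c ^ 4 := pow_le_pow_right₀ hc1 (by norm_num)
    nlinarith
  have hδc : δ * c ≤ 1 := by
    have h1 : δ * ((3 + d) * (700 * c ^ 4)) ≤ 1 := by
      rw [le_div_iff₀ (by positivity)] at hδC
      exact hδC
    exact (mul_le_mul_of_nonneg_left hcC4 hδ).trans h1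
  obtain ⟨e', he', hee1, hf⟩ := correct_e h.norm_e hv hc1 (hvn.trans hcC) hδ hδc
  obtain ⟨f, hfdef⟩ : ∃ f : E d, f = e' - e := ⟨_, rfl⟩
  have he'f : e' = e + f := by rw [hfdef]; abel
  have hfn : ‖f‖ ≤ 2 * c * δ := by rw [hfdef]; exact hf
  -- the bilinear form
  have hA'' : STF2 (A + δ • A2) := h.stfA.add_smul hA2 δ
  have hη : ∀ z, ‖z‖ ≤ 1 → ⟪e', z⟫_ℝ = 0 →
      |(A + δ • A2) e' z| ≤ 4 * c ^ 2 * (δ * (a + δ)) := by
    intro z hz hez
    have hsz : |⟪e, z⟫_ℝ| ≤ 2 * c * δ := by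
      have h1 : ⟪e, z⟫_ℝ = -⟪f, z⟫_ℝ := by
        have h2 : ⟪e + f, z⟫_ℝ = 0 := by rw [← he'f]; exact hez
        rw [inner_add_left] at h2
        linarith
      rw [h1, abs_neg]
      calc |⟪f, z⟫_ℝ| ≤ ‖f‖ * ‖z‖ := abs_real_inner_le_norm _ _
        _ ≤ 2 * c * δ * 1 := by gcongr
        _ = 2 * c * δ := mul_one _
    have h3 : (A + δ • A2) e' z = A e e * ⟪e, z⟫_ℝ + A f z + δ * (A2 e e * ⟪e, z⟫_ℝ + A2 f z) := by
      have h4 : A e' z = A e z + A f z := by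
        have := congrArg (fun w => A w z) he'f
        simpa using this
      have h5 : A2 e' z = A2 e z + A2 f z := by
        have := congrArg (fun w => A2 w z) he'f
        simpa using this
      have h6 : A2 e z = A2 e e * ⟪e, z⟫_ℝ := by
        have h7 := hA2e (z - ⟪e, z⟫_ℝ • e) (inner_sub_inner_smul h.norm_e z)
        rw [map_sub, map_smul, smul_eq_mul, sub_eq_zero] at h7
        rw [h7]; ring
      simp only [ContinuousLinearMap.add_apply, ContinuousLinearMap.smul_apply, smul_eq_mul]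
      rw [h4, h5, h6, h.eig' z]
    have hen : ‖e‖ ≤ 1 := h.norm_e.le
    have h8 : |A e e * ⟪e, z⟫_ℝ| ≤ a * (2 * c * δ) := by
      rw [abs_mul]
      exact mul_le_mul ((bil_le_norm hen hen).trans ha.ge) hsz (abs_nonneg _) ha0
    have h9 : |A f z| ≤ a * (2 * c * δ) := (bil_abs_le A f z).trans (by
      rw [← ha]
      calc a * ‖f‖ * ‖z‖ ≤ a * (2 * c * δ) * 1 := by gcongr
        _ = a * (2 * c * δ) := mul_one _)
    have h10 : |A2 e e * ⟪e, z⟫_ℝ| ≤ c * (2 * c * δ) := by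
      rw [abs_mul]
      exact mul_le_mul (((bil_le_norm hen hen).trans hA2n).trans hcC) hsz (abs_nonneg _) hc0
    have h11 : |A2 f z| ≤ c * (2 * c * δ) := (bil_abs_le A2 f z).trans (by
      calc ‖A2‖ * ‖f‖ * ‖z‖ ≤ c * (2 * c * δ) * 1 := by
            gcongr
            exact hA2n.trans hcC
        _ = c * (2 * c * δ) := mul_one _)
    have h12 : |A2 e e * ⟪e, z⟫_ℝ + A2 f z| ≤ 2 * (c * (2 * c * δ)) := by
      rw [abs_le] at h10 h11 ⊢
      constructor <;> linarith [h10.1, h10.2, h11.1, h11.2]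
    have h13 : |δ * (A2 e e * ⟪e, z⟫_ℝ + A2 f z)| ≤ δ * (2 * (c * (2 * c * δ))) := by
      rw [abs_mul, abs_of_nonneg hδ]; gcongr
    rw [h3]
    have h14 : a * (2 * c * δ) + a * (2 * c * δ) + δ * (2 * (c * (2 * c * δ))) ≤
        4 * c ^ 2 * (δ * (a + δ)) := by
      have h15 : c * (δ * a) ≤ c ^ 2 * (δ * a) := by
        gcongr
        nlinarith
      nlinarith
    rw [abs_le] at h8 h9 h13 ⊢
    constructor <;> linarith [h8.1, h8.2, h9.1, h9.2, h13.1, h13.2]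
  have hη0 : 0 ≤ 4 * c ^ 2 * (δ * (a + δ)) := by positivity
  obtain ⟨A', hA'stf, hA'e, hA'n, hA'ee⟩ := correct_A he' hA'' hη0 hη
  -- the size of A' - A
  have hα : ‖A' - A‖ ≤ 17 * c ^ 2 * δ := by
    have h1 : A' - A = (A' - (A + δ • A2)) + δ • A2 := by abel
    rw [h1]
    refine (norm_add_le _ _).trans ?_
    rw [norm_smul, Real.norm_eq_abs, abs_of_nonneg hδ]
    have h2 : δ * ‖A2‖ ≤ δ * c := by gcongr; exact hA2n.trans hcC
    have h3 : 2 * (4 * c ^ 2 * (δ * (a + δ))) ≤ 16 * c ^ 2 * δ := by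
      have h4 : a + δ ≤ 2 := by linarith [ha ▸ hA1]
      have h5 : c ^ 2 * δ * (a + δ) ≤ c ^ 2 * δ * 2 := by gcongr
      linarith
    have h6 : δ * c ≤ c ^ 2 * δ := by nlinarith
    linarith
  have hα0 : 0 ≤ 17 * c ^ 2 * δ := by positivity
  -- the trilinear form
  have hB'' : STF3 (B + δ • B2) := h.stfB.add_smul hB2 δ
  have hρ0 : 0 ≤ 700 * c ^ 4 * (δ * (a + b + δ)) := by positivity
  have ha1 : a ≤ 1 := by rw [ha]; exact hA1
  have hρ : ∀ z z', ‖z‖ ≤ 1 → ‖z'‖ ≤ 1 → ⟪e', z⟫_ℝ = 0 → ⟪e', z'⟫_ℝ = 0 →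
      |A' e' e' * A' z z' - dt (A' z) (A' z') - (B + δ • B2) z z' e'| ≤
        700 * c ^ 4 * (δ * (a + b + δ)) := by
    intro z z' hz hz' hez hez'
    refine (resid h he' ha.ge hb.ge hδ hc1 hf hα hB2 (hB2n.trans hcC) hB2e hz hz' hez hez').trans ?_
    refine le_trans ?_ (const_est ha0 ha1 hb0 hc1 hδ hα0 le_rfl)
    have : 2 * a ^ 2 + b ≤ 2 * a + b := by nlinarith
    gcongr
  obtain ⟨B', hB'stf, hB'bd, hB'n⟩ := correct_B he' hA'stf hB'' hρ0 hρ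
  have hfac : 0 ≤ δ * (a + b + δ) := by positivity
  refine ⟨e', A', B', ⟨he', hA'stf, hB'stf, hA'e, hB'bd⟩, ?_, ?_, ?_⟩
  · refine hee1.trans ?_
    have h1 : c ^ 2 ≤ (3 + d) * (700 * c ^ 4) := by
      have : c ^ 2 ≤ c ^ 4 := pow_le_pow_right₀ hc1 (by norm_num)
      nlinarith
    calc c ^ 2 * δ ^ 2 = c ^ 2 * (δ * δ) := by ring
      _ ≤ (3 + d) * (700 * c ^ 4) * (δ * (a + b + δ)) := by
          gcongr
          linarith
      _ = _ := by ring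
  · refine hA'n.trans ?_
    have h1 : c ^ 2 ≤ c ^ 4 := pow_le_pow_right₀ hc1 (by norm_num)
    calc 2 * (4 * c ^ 2 * (δ * (a + δ))) = 8 * c ^ 2 * (δ * (a + δ)) := by ring
      _ ≤ ((3 + d) * (700 * c ^ 4)) * (δ * (a + b + δ)) := by
          have h2 : 8 * c ^ 2 ≤ (3 + d) * (700 * c ^ 4) := by nlinarith
          have h3 : a + δ ≤ a + b + δ := by linarith
          gcongr
      _ = _ := by ring
  · refine hB'n.trans (le_of_eq ?_)
    ring

end Crest.Agent.R097
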