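import Crest.Agent.R097.Iface
import Crest.Agent.R097.Defs

/-!
# Row 97: statements F5, F6 (definitions only)
-/

set_option autoImplicit false
open MeasureTheory Metric Set Filter Topology InnerProductSpace
open scoped RealInnerProductSpace NNReal ENNReal Gradient Laplacian

namespace Crest.Agent.R097

variable {d : ℕ}

/-- two-sided expansion of `u` of order `7/2` at the free boundary point `y` with jets `e, A, B`
in the constraint set -/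
structure Expn (u : E d → ℝ) (C r : ℝ) (y e : E d) (A : Bil d) (B : Tri d) : Prop where
  kk : KK e A B
  nA : ‖A‖ ≤ C
  nB : ‖B‖ ≤ C
  lo : ∀ x ∈ ball y r, max (cub e A B (x - y) - C * (‖x - y‖ ^ 3 * Real.sqrt ‖x - y‖)) 0 ≤ u x
  hi : ∀ x ∈ ball y r, u x ≤ max (cub e A B (x - y) + C * (‖x - y‖ ^ 3 * Real.sqrt ‖x - y‖)) 0

/-- F5: expansions at all free boundary points near a flat one -/
def F5Stmt (d : ℕ) : Prop :=
  ∃ δ₁ : ℝ, 0 < δ₁ ∧ ∃ C : ℝ, 1 ≤ C ∧ ∀ (u : E d → ℝ) (K : ℝ≥0) (e : E d), LM u K → ‖e‖ = 1 →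
    Sand u (fun x => ⟪e, x⟫_ℝ) (-δ₁) δ₁ (ball 0 1) →
    ∀ y ∈ frontier (Om u), y ∈ ball (0 : E d) (1 / 2) →
      ∃ (e' : E d) (A : Bil d) (B : Tri d), Expn u C (1 / 2) y e' A B

/-- F6: regularity of all free boundary points near a flat one -/
def F6Concl (d : ℕ) : Prop :=
  ∃ δ₁ : ℝ, 0 < δ₁ ∧ ∀ (u : E d → ℝ) (K : ℝ≥0) (e : E d), LM u K → ‖e‖ = 1 →
    Sand u (fun x => ⟪e, x⟫_ℝ) (-δ₁) δ₁ (ball 0 1) →
    ∀ y ∈ frontier (Om u), y ∈ ball (0 : E d) (1 / 2) → RegPt u y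

/-- the step from F5 to F6 -/
def F56Stmt (d : ℕ) : Prop :=
  ∀ (u : E d → ℝ) (C : ℝ), 1 ≤ C → (∀ x, 0 ≤ u x) → Continuous u →
    ContDiffOn ℝ (⊤ : ℕ∞) u (Om u) → (∀ x ∈ Om u, (Δ u) x = 0) →
    (∀ y ∈ frontier (Om u), y ∈ ball (0 : E d) (1 / 2) →
      ∃ (e : E d) (A : Bil d) (B : Tri d), Expn u C (1 / 2) y e A B) →
    ∀ y ∈ frontier (Om u), y ∈ ball (0 : E d) (1 / 2) → RegPt u y

end Crest.Agent.R097
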