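import Crest.Agent.R097.F6
import Crest.Agent.R097.B1
import Crest.Agent.R097.F3Fin

/-!
# Row 97: F6 from F5, and F3 without hypotheses (helper392)
-/

set_option autoImplicit false
open MeasureTheory Metric Set Filter Topology InnerProductSpace
open scoped RealInnerProductSpace NNReal ENNReal Gradient Laplacian

namespace Crest.Agent.R097

variable {d : ℕ}

theorem harmPos (d : ℕ) : HarmPos d := by
  intro u K hu x hx
  have hO : IsOpen {x | 0 < u x} := isOpen_lt continuous_const hu.lip.continuous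
  have h := hu.harm
  refine ⟨(h.1.contDiffAt (hO.mem_nhds hx)).of_le F6P.two_le_top', ?_⟩
  filter_upwards [hO.mem_nhds hx] with y hy
  exact h.2 y hy

/-- F3 -/
theorem f3_final (hd : 1 ≤ d) : F3Stmt d := f3_main (harmPos d) hd

/-- F6 from F5 -/
theorem f6_of_f5 (h5 : F5Stmt d) : F6Concl d := by
  obtain ⟨δ₁, hδ₁, C, hC, h⟩ := h5
  refine ⟨δ₁, hδ₁, fun u K e hu he hS y hy hyb => ?_⟩
  exact f56 d u C hC hu.nonneg hu.lip.continuous hu.harm.1 hu.harm.2
    (fun y hy hyb => h u K e hu he hS y hy hyb) y hy hyb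

end Crest.Agent.R097
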