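import Crest.Agent.R097.RegScale
import Crest.Agent.R097.F5Def
import Crest.Agent.R097.DimRed

/-!
# Row 97: regularity of cones away from the vertex
-/

set_option autoImplicit false
open MeasureTheory Metric Set Filter Topology InnerProductSpace
open scoped RealInnerProductSpace NNReal ENNReal Gradient Laplacian ContDiff

namespace Crest.Agent.R097

variable {d : ℕ}

/-- F6: regularity of all free boundary points near a flat one -/
abbrev F6Stmt (d : ℕ) : Prop := F6Concl d

lemma zero_mem_frontier_blow {u : E d → ℝ} {y : E d} {r : ℝ} (hr : 0 < r)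
    (hy : y ∈ frontier (Om u)) : (0 : E d) ∈ frontier (Om (blow u y r)) := by
  set ψ : E d ≃ₜ E d := (Homeomorph.smulOfNeZero r hr.ne').trans (Homeomorph.addLeft y) with hψ
  have h1 : Om (blow u y r) = ψ ⁻¹' (Om u) := by
    ext x
    have e1 : ψ x = y + r • x := rfl
    simp only [Om, mem_setOf_eq, mem_preimage, blow, e1]
    constructor
    · intro h
      by_contra h'
      exact absurd h (not_lt.2 (div_nonpos_of_nonpos_of_nonneg (not_lt.1 h') hr.le))
    · intro h; exact div_pos h hr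
  rw [h1, ← ψ.preimage_frontier]
  have e2 : ψ 0 = y := by
    have : ψ 0 = y + r • (0 : E d) := rfl
    rw [this, smul_zero, add_zero]
  rw [mem_preimage, e2]
  exact hy

/-- flat free boundary points are regular, at any scale -/
theorem reg_of_sand (h6 : F6Stmt d) : ∃ δ0 : ℝ, 0 < δ0 ∧
    ∀ (u : E d → ℝ) (K : ℝ≥0), LM u K → ∀ (y e : E d) (r : ℝ), 0 < r → ‖e‖ = 1 →
      y ∈ frontier (Om u) → Sand u (fun x => ⟪e, x - y⟫_ℝ) (-(δ0 * r)) (δ0 * r) (ball y r) →
      RegPt u y := by
  obtain ⟨δ1, hδ1, h6⟩ := h6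
  refine ⟨δ1, hδ1, fun u K hu y e r hr he hy hS => ?_⟩
  refine regPt_of_blow hr ?_
  refine h6 (blow u y r) K e (hu.blow y hr) he ?_ 0 (zero_mem_frontier_blow hr hy)
    (mem_ball_self (by norm_num))
  intro x hx
  have hx' : y + r • x ∈ ball y r := by
    rw [mem_ball_iff_norm, add_sub_cancel_left, norm_smul, Real.norm_of_nonneg hr.le]
    have : ‖x‖ < 1 := by simpa using hx
    nlinarith
  have h1 := hS (y + r • x) hx'
  simp only [add_sub_cancel_left, inner_smul_right] at h1
  have e1 : max (⟪e, x⟫_ℝ + -δ1) 0 = max (r * ⟪e, x⟫_ℝ + -(δ1 * r)) 0 / r := by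
    rw [← max_div_div_right hr.le, zero_div]
    congr 1; field_simp
  have e2 : max (⟪e, x⟫_ℝ + δ1) 0 = max (r * ⟪e, x⟫_ℝ + δ1 * r) 0 / r := by
    rw [← max_div_div_right hr.le, zero_div]
    congr 1; field_simp
  rw [e1, e2]
  exact ⟨div_le_div_of_nonneg_right h1.1 hr.le, div_le_div_of_nonneg_right h1.2 hr.le⟩

/-- every free boundary point of a cone, except the vertex, is regular -/
theorem cone_reg (h6 : F6Stmt (d + 1)) (hd : 1 ≤ d) (hc : Cls d) {K : ℝ≥0} {u : E (d + 1) → ℝ}
    (hu : LM u K) (hh : Hom1 u) {y : E (d + 1)} (hy : y ∈ frontier (Om u)) (hy0 : y ≠ 0) :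
    RegPt u y := by
  obtain ⟨δ0, hδ0, hreg⟩ := reg_of_sand h6
  obtain ⟨r, e, hr, -, he, h⟩ := cone_flat hd hc hu hh hy hy0 hδ0
  refine hreg u K hu y e r hr he hy fun x hx => ?_
  have h1 := h x hx
  rw [real_inner_comm] at h1
  exact h1

end Crest.Agent.R097
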