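import Crest.Agent.R097.F5d
import Crest.Agent.R097.F6Fin
import Crest.Agent.R097.RegCone
import Crest.Agent.R097.Blow

/-!
# Row 97: F6, flat implies regular (final form)
-/

set_option autoImplicit false
open MeasureTheory Metric Set Filter Topology InnerProductSpace
open scoped RealInnerProductSpace NNReal ENNReal Gradient Laplacian

namespace Crest.Agent.R097

variable {d : ℕ}

theorem f5_final (hd : 1 ≤ d) : F5Stmt d :=
  F5 (f3_final hd) (Hm.harm_jets' d) (fun _ _ hu x0 _ hr => hu.blow x0 hr)

/-- **flat implies regular** -/
theorem f6_final (hd : 1 ≤ d) : F6Stmt d := f6_of_f5 (f5_final hd)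

end Crest.Agent.R097
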