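import Crest.Agent.R097.F4c
import Crest.Agent.R097.F3Def
import Crest.Agent.R097.Defs

/-!
# Row 97, F5 (a): one step of the iteration
-/

set_option autoImplicit false
set_option synthInstance.maxHeartbeats 400000
open MeasureTheory Metric Set Filter Topology InnerProductSpace
open scoped RealInnerProductSpace NNReal ENNReal Gradient Laplacian

namespace Crest.Agent.R097

variable {d : ℕ}

/-- interior estimates and Taylor expansion for harmonic functions (`harm_jets` of note 10074) -/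
def Jet3Stmt (d : ℕ) : Prop :=
  ∃ C : ℝ, 1 ≤ C ∧ ∀ (x : E d) (r : ℝ), 0 < r → ∀ (h : E d → ℝ) (M : ℝ),
    ContDiffOn ℝ 2 h (ball x r) → (∀ y ∈ ball x r, (Δ h) y = 0) → (∀ y ∈ ball x r, |h y| ≤ M) →
    STF2 (D2 h x) ∧ STF3 (D3 h x) ∧ ‖fderiv ℝ h x‖ ≤ C * M / r ∧ ‖D2 h x‖ ≤ C * M / r ^ 2 ∧
    ‖D3 h x‖ ≤ C * M / r ^ 3 ∧
    ∀ y ∈ ball x (r / 2), |h y - (h x + fderiv ℝ h x (y - x) + D2 h x (y - x) (y - x) / 2 +
      D3 h x (y - x) (y - x) (y - x) / 6)| ≤ C * M * (‖y - x‖ / r) ^ 4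

/-- derivatives of a function invariant under a linear map -/
lemma fderiv_of_invariant {h : E d → ℝ} (hh : ContDiff ℝ (⊤ : ℕ∞) h) (S : E d →L[ℝ] E d)
    (hS : ∀ x, h (S x) = h x) (x v : E d) : fderiv ℝ h x v = fderiv ℝ h (S x) (S v) := by
  have hd : Differentiable ℝ h := hh.differentiable (by simp)
  have h1 : HasFDerivAt (fun y => h (S y)) ((fderiv ℝ h (S x)).comp S) x :=
    (hd (S x)).hasFDerivAt.comp x S.hasFDerivAt
  have h2 : (fun y => h (S y)) = h := funext hS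
  rw [h2] at h1
  rw [h1.fderiv]
  rfl

lemma contDiff_fderiv {F : Type*} [NormedAddCommGroup F] [NormedSpace ℝ F] {h : E d → F}
    (hh : ContDiff ℝ (⊤ : ℕ∞) h) : ContDiff ℝ (⊤ : ℕ∞) (fderiv ℝ h) :=
  hh.fderiv_right (by simp)

lemma D2_of_invariant {h : E d → ℝ} (hh : ContDiff ℝ (⊤ : ℕ∞) h) (S : E d →L[ℝ] E d)
    (hS : ∀ x, h (S x) = h x) (x v w : E d) : D2 h x v w = D2 h (S x) (S v) (S w) := by
  have hd : Differentiable ℝ (fderiv ℝ h) := (contDiff_fderiv hh).differentiable (by simp)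
  have h0 : (fun y => fderiv ℝ h y w) = fun y => fderiv ℝ h (S y) (S w) := by
    funext y; exact fderiv_of_invariant hh S hS y w
  have h1 : HasFDerivAt (fun y => fderiv ℝ h y w) _ x :=
    ((hd x).hasFDerivAt).clm_apply (hasFDerivAt_const w x)
  have h2 : HasFDerivAt (fun y => fderiv ℝ h (S y)) ((fderiv ℝ (fderiv ℝ h) (S x)).comp S) x :=
    (hd (S x)).hasFDerivAt.comp x S.hasFDerivAt
  have h3 : HasFDerivAt (fun y => fderiv ℝ h (S y) (S w)) _ x :=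
    h2.clm_apply (hasFDerivAt_const (S w) x)
  have h4 := h1.unique (h0 ▸ h3)
  have h5 := congrArg (fun L : E d →L[ℝ] ℝ => L v) h4
  simpa [D2] using h5

lemma D3_of_invariant {h : E d → ℝ} (hh : ContDiff ℝ (⊤ : ℕ∞) h) (S : E d →L[ℝ] E d)
    (hS : ∀ x, h (S x) = h x) (x v w z : E d) :
    D3 h x v w z = D3 h (S x) (S v) (S w) (S z) := by
  have hd : Differentiable ℝ (D2 h) :=
    (contDiff_fderiv (contDiff_fderiv hh)).differentiable (by simp)
  have h0 : (fun y => D2 h y w z) = fun y => D2 h (S y) (S w) (S z) := by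
    funext y; exact D2_of_invariant hh S hS y w z
  have h1 : HasFDerivAt (fun y => D2 h y w z) _ x :=
    (((hd x).hasFDerivAt).clm_apply (hasFDerivAt_const w x)).clm_apply (hasFDerivAt_const z x)
  have h2 : HasFDerivAt (fun y => D2 h (S y)) ((fderiv ℝ (D2 h) (S x)).comp S) x :=
    (hd (S x)).hasFDerivAt.comp x S.hasFDerivAt
  have h3 : HasFDerivAt (fun y => D2 h (S y) (S w) (S z)) _ x :=
    (h2.clm_apply (hasFDerivAt_const (S w) x)).clm_apply (hasFDerivAt_const (S z) x)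
  have h4 := h1.unique (h0 ▸ h3)
  have h5 := congrArg (fun L : E d →L[ℝ] ℝ => L v) h4
  have e1 : ∀ x, fderiv ℝ (D2 h) x = D3 h x := fun x => rfl
  simpa [e1] using h5

/-- reflection -/
noncomputable def refl (e : E d) : E d →L[ℝ] E d :=
  ContinuousLinearMap.id ℝ (E d) - (2 : ℝ) • (innerSL ℝ e).smulRight e

lemma refl_apply (e x : E d) : refl e x = x - (2 * ⟪e, x⟫_ℝ) • e := by
  simp only [refl, ContinuousLinearMap.sub_apply, ContinuousLinearMap.smul_apply,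
    ContinuousLinearMap.smulRight_apply, innerSL_apply_apply]
  rw [smul_smul]
  rfl

/-- jets at the origin of an even function -/
lemma even_jets {h : E d → ℝ} (hh : ContDiff ℝ (⊤ : ℕ∞) h) {e : E d} (he : ‖e‖ = 1)
    (hev : ∀ x, h (x - (2 * ⟪e, x⟫_ℝ) • e) = h x) :
    fderiv ℝ h 0 e = 0 ∧ (∀ t, ⟪e, t⟫_ℝ = 0 → D2 h 0 e t = 0) ∧
      ∀ t t', ⟪e, t⟫_ℝ = 0 → ⟪e, t'⟫_ℝ = 0 → D3 h 0 e t t' = 0 := by
  have hee : ⟪e, e⟫_ℝ = 1 := by rw [real_inner_self_eq_norm_sq, he]; norm_num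
  have hS : ∀ x, h (refl e x) = h x := fun x => by rw [refl_apply]; exact hev x
  have hSe : refl e e = -e := by
    rw [refl_apply, hee]
    module
  have hSt : ∀ t, ⟪e, t⟫_ℝ = 0 → refl e t = t := by
    intro t ht
    rw [refl_apply, ht]; simp
  refine ⟨?_, fun t ht => ?_, fun t t' ht ht' => ?_⟩
  · have := fderiv_of_invariant hh (refl e) hS 0 e
    rw [map_zero, hSe, map_neg] at this
    linarith
  · have := D2_of_invariant hh (refl e) hS 0 e t
    rw [map_zero, hSe, hSt t ht, map_neg, ContinuousLinearMap.neg_apply] at this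
    linarith
  · have := D3_of_invariant hh (refl e) hS 0 e t t'
    rw [map_zero, hSe, hSt t ht, hSt t' ht', map_neg, ContinuousLinearMap.neg_apply,
      ContinuousLinearMap.neg_apply] at this
    linarith

/-- the Taylor polynomial shifts the cubic polynomial -/
lemma cub_add (e v : E d) (A A2 : Bil d) (B B2 : Tri d) (δ : ℝ) (x : E d) :
    cub (e + δ • v) (A + δ • A2) (B + δ • B2) x =
      cub e A B x + δ * (⟪v, x⟫_ℝ + A2 x x / 2 + B2 x x x / 6) := by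
  have h1 : (A + δ • A2) x x = A x x + δ * A2 x x := rfl
  have h2 : (B + δ • B2) x x x = B x x x + δ * B2 x x x := rfl
  rw [cub, cub, h1, h2, inner_add_left, inner_smul_left]
  simp only [conj_trivial]
  ring

/-- comparison of cubic polynomials with close coefficients -/
lemma cub_sub_le {e e' : E d} {A A' : Bil d} {B B' : Tri d} {η₁ η₂ η₃ r : ℝ} (he : ‖e' - e‖ ≤ η₁)
    (hA : ‖A' - A‖ ≤ η₂) (hB : ‖B' - B‖ ≤ η₃) {x : E d} (hx : ‖x‖ ≤ r) :
    |cub e' A' B' x - cub e A B x| ≤ η₁ * r + η₂ * r ^ 2 + η₃ * r ^ 3 := by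
  have h1 : cub e' A' B' x - cub e A B x =
      ⟪e' - e, x⟫_ℝ + (A' - A) x x / 2 + (B' - B) x x x / 6 := by
    have e1 : (A' - A) x x = A' x x - A x x := rfl
    have e2 : (B' - B) x x x = B' x x x - B x x x := rfl
    rw [cub, cub, e1, e2, inner_sub_left]; ring
  have hr : 0 ≤ r := (norm_nonneg x).trans hx
  have hη₁ : 0 ≤ η₁ := (norm_nonneg _).trans he
  have hη₂ : 0 ≤ η₂ := (norm_nonneg _).trans hA
  have hη₃ : 0 ≤ η₃ := (norm_nonneg _).trans hB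
  have h2 : |⟪e' - e, x⟫_ℝ| ≤ η₁ * r := (abs_real_inner_le_norm _ _).trans (by gcongr)
  have h3 : |(A' - A) x x| ≤ η₂ * r ^ 2 := (bil_abs_le _ x x).trans (by
    calc ‖A' - A‖ * ‖x‖ * ‖x‖ ≤ η₂ * r * r := by gcongr
      _ = _ := by ring)
  have h4 : |(B' - B) x x x| ≤ η₃ * r ^ 3 := (abs_tri_le _ x x x).trans (by
    calc ‖B' - B‖ * ‖x‖ * ‖x‖ * ‖x‖ ≤ η₃ * r * r * r := by gcongr
      _ = _ := by ring)
  rw [h1]
  have p2 : 0 ≤ η₂ * r ^ 2 := by positivity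
  have p3 : 0 ≤ η₃ * r ^ 3 := by positivity
  rw [abs_le] at h2 h3 h4 ⊢
  constructor <;> linarith [h2.1, h2.2, h3.1, h3.2, h4.1, h4.2]

/-- a perturbation of the sandwich -/
lemma max_shift {p q a w u : ℝ} (h : |p - q| ≤ w) (hu : max (p - a) 0 ≤ u ∧ u ≤ max (p + a) 0) :
    max (q - (a + w)) 0 ≤ u ∧ u ≤ max (q + (a + w)) 0 := by
  rw [abs_le] at h
  refine ⟨(max_le_max (by linarith [h.1, h.2]) le_rfl).trans hu.1,
    hu.2.trans (max_le_max (by linarith [h.1, h.2]) le_rfl)⟩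

set_option maxHeartbeats 1000000 in
/-- **one step of the iteration** (radius `σ²`, width factor `σ⁷`) -/
theorem F5step (hF3 : F3Stmt d) (hJ : Jet3Stmt d) :
    ∃ σ η k C₁ : ℝ, 0 < σ ∧ σ < 1 / 2 ∧ 0 < η ∧ η ≤ 1 ∧ 0 < k ∧ 1 ≤ C₁ ∧
    ∀ (u : E d → ℝ) (K : ℝ≥0) (e : E d) (A : Bil d) (B : Tri d) (δ : ℝ), LM u K → u 0 = 0 →
      (0 : E d) ∈ closure (Om u) → KK e A B → ‖A‖ ≤ η → ‖B‖ ≤ η → 0 < δ → δ ≤ η →
      9 * (‖A‖ + ‖B‖) * δ + 3 * ‖A‖ * ‖B‖ + ‖B‖ ^ 2 ≤ k * δ →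
      Sand u (cub e A B) (-δ) δ (ball 0 1) →
      ∃ (e' : E d) (A' : Bil d) (B' : Tri d), KK e' A' B' ∧ ‖e' - e‖ ≤ C₁ * δ ∧
        ‖A' - A‖ ≤ C₁ * δ ∧ ‖B' - B‖ ≤ C₁ * δ ∧
        Sand u (cub e' A' B') (-(σ ^ 7 * δ)) (σ ^ 7 * δ) (ball 0 (σ ^ 2)) := by
  obtain ⟨C, hC1, hJ⟩ := hJ
  obtain ⟨C2, hC21, hkk⟩ := kk_correct d (16 * C)
  have hC0 : 0 < C := by linarith
  have hC20 : 0 < C2 := by linarith
  obtain ⟨σ, hσ⟩ : ∃ σ : ℝ, σ = 1 / (128 * C) := ⟨_, rfl⟩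
  have hσ0 : 0 < σ := by rw [hσ]; positivity
  have hσ1 : σ ≤ 1 / 128 := by
    rw [hσ]
    apply div_le_div_of_nonneg_left <;> linarith
  have hCσ : 128 * C * σ = 1 := by rw [hσ]; field_simp
  obtain ⟨k₀, hk₀, δ₀, hδ₀, hF⟩ := hF3 (σ ^ 7 / 8) (by positivity)
  obtain ⟨η, hη⟩ : ∃ η : ℝ, η = min (min (1 / C2) (k₀ / 2)) (min δ₀ (min 1 (σ ^ 7 / (24 * C2)))) :=
    ⟨_, rfl⟩
  have hη0 : 0 < η := by rw [hη]; positivity
  have hηC2 : η ≤ 1 / C2 := by rw [hη]; exact (min_le_left _ _).trans (min_le_left _ _)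
  have hηk : η ≤ k₀ / 2 := by rw [hη]; exact (min_le_left _ _).trans (min_le_right _ _)
  have hηδ : η ≤ δ₀ := by rw [hη]; exact (min_le_right _ _).trans (min_le_left _ _)
  have hη1 : η ≤ 1 := by
    rw [hη]; exact (min_le_right _ _).trans ((min_le_right _ _).trans (min_le_left _ _))
  have hησ : η ≤ σ ^ 7 / (24 * C2) := by
    rw [hη]; exact (min_le_right _ _).trans ((min_le_right _ _).trans (min_le_right _ _))
  refine ⟨σ, η, k₀, 16 * C + 3 * C2, hσ0, by linarith, hη0, hη1, hk₀, by linarith, ?_⟩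
  intro u K e A B δ hu hu0 hcl h hA hB hδ hδη hgr hS
  have he := h.norm_e
  have ha0 := norm_nonneg A
  have hb0 := norm_nonneg B
  -- apply F3
  have hnice : Nice (cub e A B) e k₀ δ := by
    refine ⟨contDiff_cub e A B, fun x hx => ?_, fun x hx => ?_, fun x _ => ?_, fun x hx hP => ?_⟩
    · refine (abs_cub_sub_le e A B (mem_ball_zero_iff.1 hx).le).trans ?_
      linarith
    · refine (norm_fderiv_cub_sub_le h (mem_ball_zero_iff.1 hx).le).trans ?_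
      linarith
    · rw [laplacian_cub h, abs_zero]; positivity
    · refine (grad_est h (mem_ball_zero_iff.1 hx).le).trans (le_trans ?_ hgr)
      have : 3 * (‖A‖ + ‖B‖) * |cub e A B x| ≤ 3 * (‖A‖ + ‖B‖) * (3 * δ) := by gcongr
      linarith
  obtain ⟨w, hw, hwΔ, hwe, hwb, hwS⟩ := hF u K (cub e A B) e δ hu he hδ (hδη.trans hηδ) hnice hS
  -- the value at the origin
  have h00 : (0 : E d) ∈ ball (0 : E d) (1 / 2) := by simp
  have hw0u : w 0 ≤ σ ^ 7 / 8 := by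
    have := (hwS 0 h00).1
    rw [hu0, cub_zero, zero_add] at this
    have h1 : δ * (w 0 - σ ^ 7 / 8) ≤ 0 := (le_max_left _ _).trans this
    by_contra hcon
    push Not at hcon
    have : 0 < δ * (w 0 - σ ^ 7 / 8) := mul_pos hδ (by linarith)
    linarith
  have hw0l : -(σ ^ 7 / 8) ≤ w 0 := by
    by_contra hcon
    push Not at hcon
    have hcont : Continuous (fun x => cub e A B x + δ * (w x + σ ^ 7 / 8)) :=
      (contDiff_cub e A B (n := 0)).continuous.add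
        (continuous_const.mul (hw.continuous.add continuous_const))
    have h0 : cub e A B 0 + δ * (w 0 + σ ^ 7 / 8) < 0 := by
      rw [cub_zero, zero_add]
      exact mul_neg_of_pos_of_neg hδ (by linarith)
    have hev : ∀ᶠ x in 𝓝 (0 : E d), cub e A B x + δ * (w x + σ ^ 7 / 8) < 0 ∧
        x ∈ ball (0 : E d) (1 / 2) :=
      (hcont.continuousAt.eventually_lt continuousAt_const h0).and (ball_mem_nhds 0 (by norm_num))
    obtain ⟨x, ⟨hx1, hx2⟩, hx3⟩ := (mem_closure_iff_nhds.1 hcl _ hev)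
    have := (hwS x hx2).2
    rw [max_eq_right hx1.le] at this
    have hx4 : 0 < u x := hx3
    linarith
  -- the Taylor expansion
  obtain ⟨hD2, hD3, hn1, hn2, hn3, hT⟩ := hJ 0 (1 / 2) (by norm_num) w 2
    (show ContDiff ℝ 2 w by exact_mod_cast contDiff_infty.1 hw 2).contDiffOn (fun y _ => hwΔ y) hwb
  have n1 : C * 2 / (1 / 2) = 4 * C := by ring
  have n2 : C * 2 / (1 / 2) ^ 2 = 8 * C := by ring
  have n3 : C * 2 / (1 / 2) ^ 3 = 16 * C := by ring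
  rw [n1] at hn1
  rw [n2] at hn2
  rw [n3] at hn3
  obtain ⟨j1, j2, j3⟩ := even_jets hw he hwe
  obtain ⟨v, hv⟩ : ∃ v : E d, v = ∇ w 0 := ⟨_, rfl⟩
  have hvx : ∀ x, ⟪v, x⟫_ℝ = fderiv ℝ w 0 x := fun x => by rw [hv, inner_gradient]
  have hvn : ‖v‖ ≤ 16 * C := by
    rw [hv, norm_gradient]
    refine hn1.trans ?_
    linarith
  have hev : ⟪e, v⟫_ℝ = 0 := by rw [real_inner_comm, hvx, j1]
  have hδC2 : δ ≤ 1 / C2 := hδη.trans hηC2
  obtain ⟨e', A', B', hKK, hk1, hk2, hk3⟩ := hkk e A B v (D2 w 0) (D3 w 0) δ h (hA.trans hη1)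
    (hB.trans hη1) hδ.le hδC2 hev hD2 hD3 hvn (hn2.trans (by linarith)) hn3
    j2 j3
  obtain ⟨err, herr⟩ : ∃ err : ℝ, err = C2 * δ * (‖A‖ + ‖B‖ + δ) := ⟨_, rfl⟩
  rw [← herr] at hk1 hk2 hk3
  have herr0 : 0 ≤ err := by rw [herr]; positivity
  have herr1 : err ≤ σ ^ 7 / 8 * δ := by
    have h1 : ‖A‖ + ‖B‖ + δ ≤ 3 * (σ ^ 7 / (24 * C2)) := by linarith
    have h2 : C2 * (‖A‖ + ‖B‖ + δ) ≤ C2 * (3 * (σ ^ 7 / (24 * C2))) := by gcongr
    have h3 : C2 * (3 * (σ ^ 7 / (24 * C2))) = σ ^ 7 / 8 := by field_simp; norm_num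
    calc err = C2 * (‖A‖ + ‖B‖ + δ) * δ := by rw [herr]; ring
      _ ≤ σ ^ 7 / 8 * δ := by
          rw [← h3]; gcongr
  have herr2 : err ≤ 3 * C2 * δ := by
    have h1 : ‖A‖ + ‖B‖ + δ ≤ 3 := by linarith
    calc err = C2 * δ * (‖A‖ + ‖B‖ + δ) := herr
      _ ≤ C2 * δ * 3 := by gcongr
      _ = 3 * C2 * δ := by ring
  refine ⟨e', A', B', hKK, ?_, ?_, ?_, ?_⟩
  · have : e' - e = (e' - (e + δ • v)) + δ • v := by abel
    rw [this]
    refine (norm_add_le _ _).trans ?_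
    rw [norm_smul, Real.norm_eq_abs, abs_of_pos hδ]
    have : δ * ‖v‖ ≤ δ * (16 * C) := by gcongr
    linarith
  · have : A' - A = (A' - (A + δ • D2 w 0)) + δ • D2 w 0 := by abel
    rw [this]
    refine (norm_add_le _ _).trans ?_
    rw [norm_smul, Real.norm_eq_abs, abs_of_pos hδ]
    have : δ * ‖D2 w 0‖ ≤ δ * (16 * C) := by
      gcongr
      refine hn2.trans ?_
      linarith
    linarith
  · have : B' - B = (B' - (B + δ • D3 w 0)) + δ • D3 w 0 := by abel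
    rw [this]
    refine (norm_add_le _ _).trans ?_
    rw [norm_smul, Real.norm_eq_abs, abs_of_pos hδ]
    have : δ * ‖D3 w 0‖ ≤ δ * (16 * C) := by
      gcongr
    linarith
  · -- the new sandwich
    intro x hx
    have hσ2 : σ ^ 2 ≤ 1 / 4 := by nlinarith
    have hxn : ‖x‖ < σ ^ 2 := mem_ball_zero_iff.1 hx
    have hx1 : x ∈ ball (0 : E d) (1 / 2) := mem_ball_zero_iff.2 (by linarith)
    have hx2 : x ∈ ball (0 : E d) (1 / 2 / 2) := mem_ball_zero_iff.2 (by linarith)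
    have hsand := hwS x hx1
    have hTx := hT x hx2
    simp only [sub_zero] at hTx
    have hTx2 : C * 2 * (‖x‖ / (1 / 2)) ^ 4 ≤ σ ^ 7 / 4 := by
      have h1 : ‖x‖ ^ 4 ≤ (σ ^ 2) ^ 4 := pow_le_pow_left₀ (norm_nonneg _) hxn.le 4
      have h2 : C * 2 * (‖x‖ / (1 / 2)) ^ 4 = 32 * C * ‖x‖ ^ 4 := by ring
      rw [h2]
      calc 32 * C * ‖x‖ ^ 4 ≤ 32 * C * (σ ^ 2) ^ 4 := by gcongr
        _ = (128 * C * σ) * (σ ^ 7 / 4) := by ring
        _ = σ ^ 7 / 4 := by rw [hCσ, one_mul]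
    obtain ⟨T, hTdef⟩ : ∃ T : ℝ, T = ⟪v, x⟫_ℝ + D2 w 0 x x / 2 + D3 w 0 x x x / 6 := ⟨_, rfl⟩
    have hT2 : |w x - (w 0 + T)| ≤ σ ^ 7 / 4 := by
      have : w 0 + T = w 0 + fderiv ℝ w 0 x + D2 w 0 x x / 2 + D3 w 0 x x x / 6 := by
        rw [hTdef, hvx]; ring
      rw [this]
      exact hTx.trans hTx2
    have hT3 : |w x - T| ≤ 3 * σ ^ 7 / 8 := by
      rw [abs_le] at hT2 ⊢
      constructor <;> linarith [hT2.1, hT2.2]
    have hc1 : |cub (e + δ • v) (A + δ • D2 w 0) (B + δ • D3 w 0) x - cub e' A' B' x| ≤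
        err * 1 + err * 1 ^ 2 + err * 1 ^ 3 := by
      rw [abs_sub_comm]
      exact cub_sub_le hk1 hk2 hk3 (by nlinarith)
    rw [cub_add, ← hTdef] at hc1
    have hc1' : |cub e A B x + δ * T - cub e' A' B' x| ≤ 3 * (σ ^ 7 / 8 * δ) := by
      refine hc1.trans ?_
      linarith
    have hsand2 : max ((cub e A B x + δ * w x) - σ ^ 7 / 8 * δ) 0 ≤ u x ∧
        u x ≤ max ((cub e A B x + δ * w x) + σ ^ 7 / 8 * δ) 0 := by
      have e1 : (cub e A B x + δ * w x) - σ ^ 7 / 8 * δ =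
          cub e A B x + δ * (w x - σ ^ 7 / 8) := by ring
      have e2 : (cub e A B x + δ * w x) + σ ^ 7 / 8 * δ =
          cub e A B x + δ * (w x + σ ^ 7 / 8) := by ring
      rw [e1, e2]
      exact hsand
    have hdiff : |(cub e A B x + δ * w x) - cub e' A' B' x| ≤ 6 * (σ ^ 7 / 8 * δ) := by
      have h1 : |δ * (w x - T)| ≤ δ * (3 * σ ^ 7 / 8) := by
        rw [abs_mul, abs_of_pos hδ]; gcongr
      rw [abs_le] at hc1' h1 ⊢
      constructor <;> linarith [hc1'.1, hc1'.2, h1.1, h1.2]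
    have hfin := max_shift hdiff hsand2
    have hp : 0 ≤ σ ^ 7 * δ := by positivity
    refine ⟨(max_le_max ?_ le_rfl).trans hfin.1, hfin.2.trans (max_le_max ?_ le_rfl)⟩
    · linarith
    · linarith

end Crest.Agent.R097
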