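import Crest.Agent.R097.F5a
import Crest.Agent.R097.F5Def

/-!
# Row 97, F5 (b): the iteration
-/

set_option autoImplicit false
set_option synthInstance.maxHeartbeats 400000
open MeasureTheory Metric Set Filter Topology InnerProductSpace
open scoped RealInnerProductSpace NNReal ENNReal Gradient Laplacian

namespace Crest.Agent.R097

variable {d : ℕ}

/-- minimality is invariant under blow-ups -/
def BlowStmt (d : ℕ) : Prop := ∀ (u : E d → ℝ) (K : ℝ≥0), LM u K → ∀ (x0 : E d) (r : ℝ), 0 < r →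
  LM (blow u x0 r) K

/-- scaling in the constraint set -/
lemma KK.smul {e : E d} {A : Bil d} {B : Tri d} (h : KK e A B) (r : ℝ) :
    KK e (r • A) (r ^ 2 • B) := by
  have eA : ∀ x y, (r • A) x y = r * A x y := fun x y => rfl
  have eB : ∀ x y z, (r ^ 2 • B) x y z = r ^ 2 * B x y z := fun x y z => rfl
  refine ⟨h.norm_e, ⟨fun x y => ?_, ?_⟩, ⟨fun x y z => ?_, fun x y z => ?_, fun x => ?_⟩,
    fun t ht => ?_, fun t ht => ?_⟩
  · rw [eA, eA, h.stfA.symm x y]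
  · simp only [eA]
    rw [← Finset.mul_sum, h.stfA.tr, mul_zero]
  · rw [eB, eB, h.stfB.symm12 x y z]
  · rw [eB, eB, h.stfB.symm23 x y z]
  · simp only [eB]
    rw [← Finset.mul_sum, h.stfB.tr, mul_zero]
  · rw [eA, h.eig t ht, mul_zero]
  · simp only [eA, eB]
    rw [h.bdry t ht]
    have : ∑ i, (r * A t (bv i)) ^ 2 = r ^ 2 * ∑ i, (A t (bv i)) ^ 2 := by
      rw [Finset.mul_sum]
      exact Finset.sum_congr rfl fun i _ => by ring
    rw [this]; ring

lemma cub_scale (e : E d) (A : Bil d) (B : Tri d) {r : ℝ} (hr : r ≠ 0) (x : E d) :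
    cub e (r • A) (r ^ 2 • B) x = cub e A B (r • x) / r := by
  have eA : (r • A) x x = r * A x x := rfl
  have eB : (r ^ 2 • B) x x x = r ^ 2 * B x x x := rfl
  rw [cub, cub, eA, eB, inner_smul_right]
  simp only [map_smul, ContinuousLinearMap.smul_apply, smul_eq_mul]
  field_simp

lemma tendsto_clm {F : Type*} [NormedAddCommGroup F] [NormedSpace ℝ F] {A : ℕ → E d →L[ℝ] F}
    {A' : E d →L[ℝ] F} (hA : Tendsto A atTop (𝓝 A')) {x : ℕ → E d} {x' : E d}
    (hx : Tendsto x atTop (𝓝 x')) : Tendsto (fun m => A m (x m)) atTop (𝓝 (A' x')) :=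
  (isBoundedBilinearMap_apply.continuous.tendsto (A', x')).comp (hA.prodMk_nhds hx)

/-- the constraint set is closed -/
lemma KK.lim {e : ℕ → E d} {A : ℕ → Bil d} {B : ℕ → Tri d} (h : ∀ m, KK (e m) (A m) (B m))
    {e' : E d} {A' : Bil d} {B' : Tri d} (he : Tendsto e atTop (𝓝 e'))
    (hA : Tendsto A atTop (𝓝 A')) (hB : Tendsto B atTop (𝓝 B')) : KK e' A' B' := by
  have tA : ∀ {x y : ℕ → E d} {x' y' : E d}, Tendsto x atTop (𝓝 x') → Tendsto y atTop (𝓝 y') →
      Tendsto (fun m => A m (x m) (y m)) atTop (𝓝 (A' x' y')) := fun hx hy =>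
    tendsto_clm (tendsto_clm hA hx) hy
  have tB : ∀ {x y z : ℕ → E d} {x' y' z' : E d}, Tendsto x atTop (𝓝 x') →
      Tendsto y atTop (𝓝 y') → Tendsto z atTop (𝓝 z') →
      Tendsto (fun m => B m (x m) (y m) (z m)) atTop (𝓝 (B' x' y' z')) := fun hx hy hz =>
    tendsto_clm (tendsto_clm (tendsto_clm hB hx) hy) hz
  have cst : ∀ x : E d, Tendsto (fun _ : ℕ => x) atTop (𝓝 x) := fun x => tendsto_const_nhds
  have hne : ‖e'‖ = 1 := by
    have h1 : Tendsto (fun m => ‖e m‖) atTop (𝓝 ‖e'‖) := he.norm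
    have h2 : Tendsto (fun m => ‖e m‖) atTop (𝓝 1) := by
      simp only [fun m => (h m).norm_e]
      exact tendsto_const_nhds
    exact tendsto_nhds_unique h1 h2
  refine ⟨hne, ⟨fun x y => ?_, ?_⟩, ⟨fun x y z => ?_, fun x y z => ?_, fun x => ?_⟩,
    fun t ht => ?_, fun t ht => ?_⟩
  · refine tendsto_nhds_unique (tA (cst x) (cst y)) ?_
    simp only [fun m => (h m).stfA.symm x y]
    exact tA (cst y) (cst x)
  · have h1 : Tendsto (fun m => ∑ i, A m (bv i) (bv i)) atTop (𝓝 (∑ i, A' (bv i) (bv i))) :=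
      tendsto_finsetSum _ fun i _ => tA (cst _) (cst _)
    simp only [fun m => (h m).stfA.tr] at h1
    exact tendsto_nhds_unique h1 tendsto_const_nhds
  · refine tendsto_nhds_unique (tB (cst x) (cst y) (cst z)) ?_
    simp only [fun m => (h m).stfB.symm12 x y z]
    exact tB (cst y) (cst x) (cst z)
  · refine tendsto_nhds_unique (tB (cst x) (cst y) (cst z)) ?_
    simp only [fun m => (h m).stfB.symm23 x y z]
    exact tB (cst x) (cst z) (cst y)
  · have h1 : Tendsto (fun m => ∑ i, B m x (bv i) (bv i)) atTop (𝓝 (∑ i, B' x (bv i) (bv i))) :=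
      tendsto_finsetSum _ fun i _ => tB (cst _) (cst _) (cst _)
    simp only [fun m => (h m).stfB.tr] at h1
    exact tendsto_nhds_unique h1 tendsto_const_nhds
  · have h1 : Tendsto (fun m => A m (e m) t) atTop (𝓝 (A' e' t)) := tA he (cst t)
    have h2 : Tendsto (fun m => A m (e m) (e m) * ⟪e m, t⟫_ℝ) atTop
        (𝓝 (A' e' e' * ⟪e', t⟫_ℝ)) := (tA he he).mul (he.inner (cst t))
    simp only [fun m => (h m).eig' t] at h1
    rw [tendsto_nhds_unique h1 h2, ht, mul_zero]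
  · have ht' : Tendsto (fun m => t - ⟪e m, t⟫_ℝ • e m) atTop (𝓝 t) := by
      have h1 : Tendsto (fun m => t - ⟪e m, t⟫_ℝ • e m) atTop (𝓝 (t - ⟪e', t⟫_ℝ • e')) :=
        (cst t).sub ((he.inner (cst t)).smul he)
      rwa [ht, zero_smul, sub_zero] at h1
    have h2 := tB ht' ht' he
    have h3 : Tendsto (fun m => A m (e m) (e m) * A m (t - ⟪e m, t⟫_ℝ • e m)
        (t - ⟪e m, t⟫_ℝ • e m) - ∑ i, (A m (t - ⟪e m, t⟫_ℝ • e m) (bv i)) ^ 2) atTop
        (𝓝 (A' e' e' * A' t t - ∑ i, (A' t (bv i)) ^ 2)) :=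
      ((tA he he).mul (tA ht' ht')).sub
        (tendsto_finsetSum _ fun i _ => (tA ht' (cst (bv i))).pow 2)
    refine tendsto_nhds_unique h2 ?_
    have h4 : ∀ m, B m (t - ⟪e m, t⟫_ℝ • e m) (t - ⟪e m, t⟫_ℝ • e m) (e m) =
        A m (e m) (e m) * A m (t - ⟪e m, t⟫_ℝ • e m)
        (t - ⟪e m, t⟫_ℝ • e m) - ∑ i, (A m (t - ⟪e m, t⟫_ℝ • e m) (bv i)) ^ 2 := fun m =>
      (h m).bdry _ (inner_sub_inner_smul (h m).norm_e t)
    simp only [h4]
    exact h3

/-- sequences by dependent choice -/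
lemma exists_seq_rel {S : Type*} {P : ℕ → S → Prop} {R : ℕ → S → S → Prop} {s0 : S} (h0 : P 0 s0)
    (hs : ∀ m s, P m s → ∃ s', P (m + 1) s' ∧ R m s s') :
    ∃ f : ℕ → S, f 0 = s0 ∧ ∀ m, P m (f m) ∧ R m (f m) (f (m + 1)) := by
  choose! g hg1 hg2 using hs
  set f : ℕ → S := fun n => Nat.rec s0 (fun m s => g m s) n with hf
  have hP : ∀ m, P m (f m) := by
    intro m
    induction m with
    | zero => exact h0
    | succ m ih => exact hg1 m (f m) ih
  exact ⟨f, rfl, fun m => ⟨hP m, hg2 m (f m) (hP m)⟩⟩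

lemma closure_blow {u : E d → ℝ} {r : ℝ} (hr : 0 < r) (h : (0 : E d) ∈ closure (Om u)) :
    (0 : E d) ∈ closure (Om (blow u 0 r)) := by
  rw [Metric.mem_closure_iff] at h ⊢
  intro ε hε
  obtain ⟨x, hx, hd⟩ := h (r * ε) (by positivity)
  refine ⟨r⁻¹ • x, ?_, ?_⟩
  · change 0 < u (0 + r • (r⁻¹ • x)) / r
    rw [smul_smul, mul_inv_cancel₀ hr.ne', one_smul, zero_add]
    exact div_pos hx hr
  · rw [dist_zero_left] at hd ⊢
    rw [norm_smul, norm_inv, Real.norm_eq_abs, abs_of_pos hr, inv_mul_lt_iff₀ hr]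
    exact hd

/-- rescaling a sandwich -/
lemma sand_blow {u : E d → ℝ} {e : E d} {A : Bil d} {B : Tri d} {r w : ℝ} (hr : 0 < r) {ρ : ℝ}
    (h : Sand u (cub e A B) (-(r * w)) (r * w) (ball 0 (r * ρ))) :
    Sand (blow u 0 r) (cub e (r • A) (r ^ 2 • B)) (-w) w (ball 0 ρ) := by
  intro x hx
  have hx' : r • x ∈ ball (0 : E d) (r * ρ) := by
    rw [mem_ball_zero_iff, norm_smul, Real.norm_eq_abs, abs_of_pos hr]
    exact mul_lt_mul_of_pos_left (mem_ball_zero_iff.1 hx) hr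
  have h1 := h (r • x) hx'
  have hc := cub_scale e A B hr.ne' x
  have e1 : cub e (r • A) (r ^ 2 • B) x + -w = (cub e A B (r • x) + -(r * w)) / r := by
    rw [hc]; field_simp
  have e2 : cub e (r • A) (r ^ 2 • B) x + w = (cub e A B (r • x) + r * w) / r := by
    rw [hc]; field_simp
  have e3 : blow u 0 r x = u (r • x) / r := by
    rw [blow, zero_add]
  have e4 : ∀ t : ℝ, max (t / r) 0 = max t 0 / r := by
    intro t
    rw [max_div_div_right hr.le t 0 |>.symm, zero_div]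
  rw [e1, e2, e3, e4, e4]
  exact ⟨div_le_div_of_nonneg_right h1.1 hr.le, div_le_div_of_nonneg_right h1.2 hr.le⟩

lemma sand_unblow {u : E d → ℝ} {e : E d} {A : Bil d} {B : Tri d} {r w : ℝ} (hr : 0 < r) {ρ : ℝ}
    (h : Sand (blow u 0 r) (cub e A B) (-w) w (ball 0 ρ)) :
    Sand u (cub e (r⁻¹ • A) ((r⁻¹) ^ 2 • B)) (-(r * w)) (r * w) (ball 0 (r * ρ)) := by
  intro x hx
  have hri : 0 < r⁻¹ := by positivity
  have hx' : r⁻¹ • x ∈ ball (0 : E d) ρ := by
    rw [mem_ball_zero_iff, norm_smul, Real.norm_eq_abs, abs_of_pos hri, inv_mul_lt_iff₀ hr]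
    exact mem_ball_zero_iff.1 hx
  have h1 := h (r⁻¹ • x) hx'
  have hc := cub_scale e A B hri.ne' x
  have e3 : u x = r * blow u 0 r (r⁻¹ • x) := by
    rw [blow, zero_add, smul_smul, mul_inv_cancel₀ hr.ne', one_smul]
    field_simp
  have e1 : cub e (r⁻¹ • A) ((r⁻¹) ^ 2 • B) x + -(r * w) = r * (cub e A B (r⁻¹ • x) + -w) := by
    rw [hc, div_inv_eq_mul]; ring
  have e2 : cub e (r⁻¹ • A) ((r⁻¹) ^ 2 • B) x + r * w = r * (cub e A B (r⁻¹ • x) + w) := by
    rw [hc, div_inv_eq_mul]; ring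
  have e4 : ∀ t : ℝ, max (r * t) 0 = r * max t 0 := by
    intro t
    rw [mul_max_of_nonneg _ _ hr.le, mul_zero]
  rw [e1, e2, e3, e4, e4]
  exact ⟨mul_le_mul_of_nonneg_left h1.1 hr.le, mul_le_mul_of_nonneg_left h1.2 hr.le⟩

end Crest.Agent.R097
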