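import Crest.Agent.R097.F5b

/-!
# Row 97, F5 (c): the iteration, expansion at the origin
-/

set_option autoImplicit false
set_option synthInstance.maxHeartbeats 400000
open MeasureTheory Metric Set Filter Topology InnerProductSpace
open scoped RealInnerProductSpace NNReal ENNReal Gradient Laplacian

namespace Crest.Agent.R097

variable {d : ℕ}

/-- invariants of the iteration -/
private structure Inv (u : E d → ℝ) (σ M δ : ℝ) (m : ℕ) (s : E d × Bil d × Tri d) : Prop where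
  kk : KK s.1 s.2.1 s.2.2
  nA : ‖s.2.1‖ ≤ M * (1 - (1 / 2) ^ m)
  nB : ‖s.2.2‖ ≤ M * (1 - (1 / 2) ^ m)
  sand : Sand u (cub s.1 s.2.1 s.2.2) (-(σ ^ (7 * m) * δ)) (σ ^ (7 * m) * δ) (ball 0 (σ ^ (2 * m)))

set_option maxHeartbeats 1000000 in
/-- one step at scale `σ^{2m}` -/
private lemma inv_step {σ η k C₁ : ℝ} (hσ0 : 0 < σ) (hσ : σ < 1 / 2) (hη1 : η ≤ 1) (hk : 0 < k)
    (hC₁ : 1 ≤ C₁)
    (hstep : ∀ (u : E d → ℝ) (K : ℝ≥0) (e : E d) (A : Bil d) (B : Tri d) (δ : ℝ), LM u K →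
      u 0 = 0 →
      (0 : E d) ∈ closure (Om u) → KK e A B → ‖A‖ ≤ η → ‖B‖ ≤ η → 0 < δ → δ ≤ η →
      9 * (‖A‖ + ‖B‖) * δ + 3 * ‖A‖ * ‖B‖ + ‖B‖ ^ 2 ≤ k * δ →
      Sand u (cub e A B) (-δ) δ (ball 0 1) →
      ∃ (e' : E d) (A' : Bil d) (B' : Tri d), KK e' A' B' ∧ ‖e' - e‖ ≤ C₁ * δ ∧
        ‖A' - A‖ ≤ C₁ * δ ∧ ‖B' - B‖ ≤ C₁ * δ ∧
        Sand u (cub e' A' B') (-(σ ^ 7 * δ)) (σ ^ 7 * δ) (ball 0 (σ ^ 2)))
    (hBl : BlowStmt d) {u : E d → ℝ} {K : ℝ≥0} (hu : LM u K) (hu0 : u 0 = 0)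
    (hcl : (0 : E d) ∈ closure (Om u)) {δ : ℝ} (hδ : 0 < δ) (hδ1 : 2 * C₁ * δ ≤ η)
    (hδ2 : (36 * C₁ + 16 * C₁ ^ 2) * δ ≤ k) (m : ℕ) (s : E d × Bil d × Tri d)
    (hs : Inv u σ (2 * C₁ * δ) δ m s) :
    ∃ s' : E d × Bil d × Tri d, Inv u σ (2 * C₁ * δ) δ (m + 1) s' ∧
      (‖s'.1 - s.1‖ ≤ C₁ * δ * (σ ^ 5) ^ m ∧ ‖s'.2.1 - s.2.1‖ ≤ C₁ * δ * (σ ^ 3) ^ m ∧
        ‖s'.2.2 - s.2.2‖ ≤ C₁ * δ * σ ^ m) := by
  obtain ⟨e, A, B⟩ := s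
  obtain ⟨hKK, hA, hB, hS⟩ := hs
  simp only at hKK hA hB hS
  obtain ⟨r, hr⟩ : ∃ r : ℝ, r = (σ ^ 2) ^ m := ⟨_, rfl⟩
  have hr0 : 0 < r := by rw [hr]; positivity
  have hσ1 : σ ≤ 1 := by linarith
  obtain ⟨t, ht⟩ : ∃ t : ℝ, t = σ ^ m := ⟨_, rfl⟩
  have ht0 : 0 < t := by rw [ht]; positivity
  have ht1 : t ≤ 1 := by rw [ht]; exact pow_le_one₀ hσ0.le hσ1
  have hrt : r = t ^ 2 := by rw [hr, ht, ← pow_mul, ← pow_mul, mul_comm]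
  have hr1 : r ≤ 1 := by rw [hrt]; exact pow_le_one₀ ht0.le ht1
  -- the width at the new scale
  obtain ⟨δm, hδm⟩ : ∃ δm : ℝ, δm = t ^ 5 * δ := ⟨_, rfl⟩
  have hδm0 : 0 < δm := by rw [hδm]; positivity
  have hδmδ : δm ≤ δ := by
    rw [hδm]
    have : t ^ 5 ≤ 1 := pow_le_one₀ ht0.le ht1
    nlinarith
  have hw : σ ^ (7 * m) * δ = r * δm := by
    rw [hδm, hrt, ht]; ring
  have hrad : σ ^ (2 * m) = r * 1 := by rw [hrt, ht]; ring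
  rw [hw, hrad] at hS
  have hS' := sand_blow hr0 hS
  have hp : (0 : ℝ) ≤ (1 / 2) ^ m := by positivity
  have hM0 : 0 ≤ 2 * C₁ * δ := by positivity
  have hA' : ‖A‖ ≤ 2 * C₁ * δ := hA.trans (by nlinarith)
  have hB' : ‖B‖ ≤ 2 * C₁ * δ := hB.trans (by nlinarith)
  have hrA : ‖r • A‖ ≤ 2 * C₁ * δ * t ^ 2 := by
    rw [norm_smul, Real.norm_eq_abs, abs_of_pos hr0, hrt, mul_comm]; gcongr
  have hrB : ‖r ^ 2 • B‖ ≤ 2 * C₁ * δ * t ^ 4 := by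
    rw [norm_smul, Real.norm_eq_abs, abs_of_pos (by positivity), hrt, mul_comm, ← pow_mul]; gcongr
  have ht2 : t ^ 2 ≤ 1 := pow_le_one₀ ht0.le ht1
  have ht4 : t ^ 4 ≤ 1 := pow_le_one₀ ht0.le ht1
  obtain ⟨e', A', B', h1, h2, h3, h4, h5⟩ := hstep (blow u 0 r) K e (r • A) (r ^ 2 • B) δm
    (hBl u K hu 0 r hr0) (by rw [blow, smul_zero, add_zero, hu0, zero_div])
    (closure_blow hr0 hcl) (hKK.smul r)
    (hrA.trans (by nlinarith)) (hrB.trans (by nlinarith)) hδm0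
    (hδmδ.trans (by nlinarith)) (by
      have ha0 := norm_nonneg (r • A)
      have hb0 := norm_nonneg (r ^ 2 • B)
      generalize ‖r • A‖ = a at *
      generalize ‖r ^ 2 • B‖ = b at *
      have ha1 : a ≤ 2 * C₁ * δ := hrA.trans (by nlinarith)
      have hb1 : b ≤ 2 * C₁ * δ := hrB.trans (by nlinarith)
      have e1 : 9 * (a + b) * δm ≤ 36 * C₁ * δ * δm := by nlinarith
      have e2 : a * b ≤ (2 * C₁ * δ * t ^ 2) * (2 * C₁ * δ * t ^ 4) := by gcongr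
      have e3 : b ^ 2 ≤ (2 * C₁ * δ * t ^ 4) ^ 2 := by gcongr
      have e4 : (2 * C₁ * δ * t ^ 2) * (2 * C₁ * δ * t ^ 4) ≤ 4 * C₁ ^ 2 * δ * δm := by
        have : t ^ 6 ≤ t ^ 5 := pow_le_pow_of_le_one ht0.le ht1 (by norm_num)
        have h6 : (2 * C₁ * δ * t ^ 2) * (2 * C₁ * δ * t ^ 4) = 4 * C₁ ^ 2 * δ * (δ * t ^ 6) := by
          ring
        rw [h6, hδm]
        have : δ * t ^ 6 ≤ t ^ 5 * δ := by nlinarith
        gcongr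
      have e5 : (2 * C₁ * δ * t ^ 4) ^ 2 ≤ 4 * C₁ ^ 2 * δ * δm := by
        have : t ^ 8 ≤ t ^ 5 := pow_le_pow_of_le_one ht0.le ht1 (by norm_num)
        have h6 : (2 * C₁ * δ * t ^ 4) ^ 2 = 4 * C₁ ^ 2 * δ * (δ * t ^ 8) := by ring
        rw [h6, hδm]
        have : δ * t ^ 8 ≤ t ^ 5 * δ := by nlinarith
        gcongr
      have e6 : (36 * C₁ + 16 * C₁ ^ 2) * δ * δm ≤ k * δm := by gcongr
      nlinarith) hS'
  have hu1 := sand_unblow hr0 h5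
  refine ⟨⟨e', r⁻¹ • A', (r⁻¹) ^ 2 • B'⟩, ⟨h1.smul r⁻¹, ?_, ?_, ?_⟩, ?_, ?_, ?_⟩
  · -- bound of A
    simp only
    have e1 : r⁻¹ • A' = A + r⁻¹ • (A' - r • A) := by
      rw [smul_sub, smul_smul, inv_mul_cancel₀ hr0.ne', one_smul]; abel
    rw [e1]
    refine (norm_add_le _ _).trans ?_
    rw [norm_smul, norm_inv, Real.norm_eq_abs, abs_of_pos hr0]
    have e2 : r⁻¹ * ‖A' - r • A‖ ≤ r⁻¹ * (C₁ * δm) := by gcongr
    have e3 : r⁻¹ * (C₁ * δm) = C₁ * δ * t ^ 3 := by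
      rw [hδm, hrt]; field_simp
    have e4 : t ^ 3 ≤ (1 / 2) ^ m := by
      have : t ^ 3 ≤ t ^ 1 := pow_le_pow_of_le_one ht0.le ht1 (by norm_num)
      calc t ^ 3 ≤ t := by simpa using this
        _ = σ ^ m := ht
        _ ≤ (1 / 2) ^ m := pow_le_pow_left₀ hσ0.le hσ.le m
    have e5 : C₁ * δ * t ^ 3 ≤ C₁ * δ * (1 / 2) ^ m := by gcongr
    rw [pow_succ (1 / 2 : ℝ) m]
    linarith
  · simp only
    have e1 : (r⁻¹) ^ 2 • B' = B + (r⁻¹) ^ 2 • (B' - r ^ 2 • B) := by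
      rw [smul_sub, smul_smul, ← mul_pow, inv_mul_cancel₀ hr0.ne', one_pow, one_smul]; abel
    rw [e1]
    refine (norm_add_le _ _).trans ?_
    rw [norm_smul, Real.norm_eq_abs, abs_of_pos (by positivity)]
    have e2 : (r⁻¹) ^ 2 * ‖B' - r ^ 2 • B‖ ≤ (r⁻¹) ^ 2 * (C₁ * δm) := by gcongr
    have e3 : (r⁻¹) ^ 2 * (C₁ * δm) = C₁ * δ * t := by
      rw [hδm, hrt]; field_simp
    have e4 : t ≤ (1 / 2) ^ m := by
      rw [ht]; exact pow_le_pow_left₀ hσ0.le hσ.le m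
    have e5 : C₁ * δ * t ≤ C₁ * δ * (1 / 2) ^ m := by gcongr
    rw [pow_succ (1 / 2 : ℝ) m]
    linarith
  · simp only
    have e1 : σ ^ (7 * (m + 1)) * δ = r * (σ ^ 7 * δm) := by
      rw [hδm, hrt, ht]; ring
    have e2 : σ ^ (2 * (m + 1)) = r * σ ^ 2 := by rw [hrt, ht]; ring
    rw [e1, e2]
    exact hu1
  · simp only
    refine h2.trans (le_of_eq ?_)
    rw [hδm, ht]; ring
  · simp only
    have e1 : r⁻¹ • A' - A = r⁻¹ • (A' - r • A) := by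
      rw [smul_sub, smul_smul, inv_mul_cancel₀ hr0.ne', one_smul]
    rw [e1, norm_smul, norm_inv, Real.norm_eq_abs, abs_of_pos hr0]
    have e2 : r⁻¹ * ‖A' - r • A‖ ≤ r⁻¹ * (C₁ * δm) := by gcongr
    have e3 : r⁻¹ * (C₁ * δm) = C₁ * δ * t ^ 3 := by
      rw [hδm, hrt]; field_simp
    refine (e2.trans e3.le).trans (le_of_eq ?_)
    rw [ht]; ring
  · simp only
    have e1 : (r⁻¹) ^ 2 • B' - B = (r⁻¹) ^ 2 • (B' - r ^ 2 • B) := by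
      rw [smul_sub, smul_smul, ← mul_pow, inv_mul_cancel₀ hr0.ne', one_pow, one_smul]
    rw [e1, norm_smul, Real.norm_eq_abs, abs_of_pos (by positivity)]
    have e2 : (r⁻¹) ^ 2 * ‖B' - r ^ 2 • B‖ ≤ (r⁻¹) ^ 2 * (C₁ * δm) := by gcongr
    have e3 : (r⁻¹) ^ 2 * (C₁ * δm) = C₁ * δ * t := by
      rw [hδm, hrt]; field_simp
    refine (e2.trans e3.le).trans (le_of_eq ?_)
    rw [ht]

/-- the size of a point between two consecutive scales -/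
private lemma scale_of {σ x : ℝ} (hσ0 : 0 < σ) (hσ : σ < 1 / 2) (hx : 0 < x) (hx1 : x < 1) :
    ∃ m : ℕ, x < σ ^ (2 * m) ∧ σ ^ (7 * m) * σ ^ 7 ≤ x ^ 3 * Real.sqrt x := by
  have hσ2 : σ ^ 2 < 1 := by nlinarith
  obtain ⟨n, hn⟩ := exists_pow_lt_of_lt_one hx hσ2
  have hex : ∃ n, (σ ^ 2) ^ n ≤ x := ⟨n, hn.le⟩
  classical
  obtain ⟨n, hn1, hn2⟩ : ∃ n, (σ ^ 2) ^ n ≤ x ∧ ∀ m < n, ¬ (σ ^ 2) ^ m ≤ x :=
    ⟨Nat.find hex, Nat.find_spec hex, fun m hm => Nat.find_min hex hm⟩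
  have hn0 : n ≠ 0 := by
    rintro rfl
    rw [pow_zero] at hn1
    linarith
  obtain ⟨m, rfl⟩ := Nat.exists_eq_succ_of_ne_zero hn0
  refine ⟨m, ?_, ?_⟩
  · have := hn2 m (Nat.lt_succ_self m)
    rw [pow_mul]
    exact not_le.1 this
  · have h1 : (σ ^ (m + 1)) ^ 2 ≤ x := by
      calc (σ ^ (m + 1)) ^ 2 = (σ ^ 2) ^ (m + 1) := by rw [← pow_mul, ← pow_mul, mul_comm]
        _ ≤ x := hn1
    have h2 : σ ^ (m + 1) ≤ Real.sqrt x := Real.le_sqrt_of_sq_le h1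
    have h3 : ((σ ^ (m + 1)) ^ 2) ^ 3 ≤ x ^ 3 := pow_le_pow_left₀ (by positivity) h1 3
    calc σ ^ (7 * m) * σ ^ 7 = ((σ ^ (m + 1)) ^ 2) ^ 3 * σ ^ (m + 1) := by ring
      _ ≤ x ^ 3 * Real.sqrt x := by gcongr

private lemma half_geom {q M : ℝ} (hq : q ≤ 1 / 2) (hM : 0 ≤ M) : M / (1 - q) ≤ 2 * M := by
  rw [div_le_iff₀ (by linarith)]
  nlinarith

set_option maxHeartbeats 1000000 in
/-- **expansion at the origin** -/
theorem F5zero (hF3 : F3Stmt d) (hJ : Jet3Stmt d) (hBl : BlowStmt d) :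
    ∃ δ C : ℝ, 0 < δ ∧ 1 ≤ C ∧ ∀ (u : E d → ℝ) (K : ℝ≥0) (e : E d), LM u K → ‖e‖ = 1 →
      Sand u (fun x => ⟪e, x⟫_ℝ) (-δ) δ (ball 0 1) → u 0 = 0 → (0 : E d) ∈ closure (Om u) →
      ∃ (e' : E d) (A : Bil d) (B : Tri d), Expn u C 1 0 e' A B := by
  obtain ⟨σ, η, k, C₁, hσ0, hσ, hη0, hη1, hk, hC₁, hstep⟩ := F5step hF3 hJ
  obtain ⟨δ, hδdef⟩ : ∃ δ : ℝ, δ = min (η / (2 * C₁)) (k / (36 * C₁ + 16 * C₁ ^ 2)) := ⟨_, rfl⟩
  have hC₁0 : 0 < C₁ := by linarith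
  have hδ0 : 0 < δ := by rw [hδdef]; positivity
  have hδ1 : 2 * C₁ * δ ≤ η := by
    have : δ ≤ η / (2 * C₁) := by rw [hδdef]; exact min_le_left _ _
    rw [le_div_iff₀ (by positivity)] at this
    linarith
  have hδ2 : (36 * C₁ + 16 * C₁ ^ 2) * δ ≤ k := by
    have : δ ≤ k / (36 * C₁ + 16 * C₁ ^ 2) := by rw [hδdef]; exact min_le_right _ _
    rw [le_div_iff₀ (by positivity)] at this
    linarith
  obtain ⟨C₃, hC₃⟩ : ∃ C₃ : ℝ, C₃ = (1 + 6 * C₁) * δ / σ ^ 7 + 1 := ⟨_, rfl⟩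
  have hC₃1 : 1 ≤ C₃ := by
    rw [hC₃]
    have : 0 ≤ (1 + 6 * C₁) * δ / σ ^ 7 := by positivity
    linarith
  refine ⟨δ, C₃, hδ0, hC₃1, ?_⟩
  intro u K e hu he hS hu0 hcl
  -- the initial state
  have hKK0 : KK e (0 : Bil d) (0 : Tri d) := by
    refine ⟨he, ⟨fun x y => rfl, by simp⟩, ⟨fun x y z => rfl, fun x y z => rfl, fun x => by simp⟩,
      fun t _ => rfl, fun t _ => by simp⟩
  have h0 : Inv u σ (2 * C₁ * δ) δ 0 (e, (0 : Bil d), (0 : Tri d)) := by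
    refine ⟨hKK0, by simp, by simp, ?_⟩
    have e1 : cub e (0 : Bil d) (0 : Tri d) = fun x => ⟪e, x⟫_ℝ := by
      funext x; simp [cub]
    simp only [mul_zero, pow_zero, one_mul]
    rw [e1]
    exact hS
  obtain ⟨f, hf0, hf⟩ := exists_seq_rel (R := fun m (s s' : E d × Bil d × Tri d) =>
    ‖s'.1 - s.1‖ ≤ C₁ * δ * (σ ^ 5) ^ m ∧ ‖s'.2.1 - s.2.1‖ ≤ C₁ * δ * (σ ^ 3) ^ m ∧
        ‖s'.2.2 - s.2.2‖ ≤ C₁ * δ * σ ^ m) h0
    (fun m s hs => inv_step hσ0 hσ hη1 hk hC₁ hstep hBl hu hu0 hcl hδ0 hδ1 hδ2 m s hs)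
  -- limits
  have q5 : σ ^ 5 ≤ 1 / 2 := by
    calc σ ^ 5 ≤ σ ^ 1 := pow_le_pow_of_le_one hσ0.le (by linarith) (by norm_num)
      _ ≤ 1 / 2 := by rw [pow_one]; exact hσ.le
  have q3 : σ ^ 3 ≤ 1 / 2 := by
    calc σ ^ 3 ≤ σ ^ 1 := pow_le_pow_of_le_one hσ0.le (by linarith) (by norm_num)
      _ ≤ 1 / 2 := by rw [pow_one]; exact hσ.le
  have d1 : ∀ m, dist (f m).1 (f (m + 1)).1 ≤ C₁ * δ * (σ ^ 5) ^ m := fun m => by
    rw [dist_comm, dist_eq_norm]; exact (hf m).2.1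
  have d2 : ∀ m, dist (f m).2.1 (f (m + 1)).2.1 ≤ C₁ * δ * (σ ^ 3) ^ m := fun m => by
    rw [dist_comm, dist_eq_norm]; exact (hf m).2.2.1
  have d3 : ∀ m, dist (f m).2.2 (f (m + 1)).2.2 ≤ C₁ * δ * σ ^ m := fun m => by
    rw [dist_comm, dist_eq_norm]; exact (hf m).2.2.2
  obtain ⟨e', he'⟩ := cauchySeq_tendsto_of_complete
    (cauchySeq_of_le_geometric (σ ^ 5) (C₁ * δ) (by linarith) d1)
  obtain ⟨A', hA'⟩ := cauchySeq_tendsto_of_complete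
    (cauchySeq_of_le_geometric (σ ^ 3) (C₁ * δ) (by linarith) d2)
  obtain ⟨B', hB'⟩ := cauchySeq_tendsto_of_complete
    (cauchySeq_of_le_geometric σ (C₁ * δ) (by linarith) d3)
  have t1 : ∀ m, ‖(f m).1 - e'‖ ≤ 2 * C₁ * δ * (σ ^ 5) ^ m := fun m => by
    have := dist_le_of_le_geometric_of_tendsto (σ ^ 5) (C₁ * δ) (by linarith) d1 he' m
    rw [dist_eq_norm] at this
    refine this.trans ((half_geom q5 (by positivity)).trans (le_of_eq ?_))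
    ring
  have t2 : ∀ m, ‖(f m).2.1 - A'‖ ≤ 2 * C₁ * δ * (σ ^ 3) ^ m := fun m => by
    have := dist_le_of_le_geometric_of_tendsto (σ ^ 3) (C₁ * δ) (by linarith) d2 hA' m
    rw [dist_eq_norm] at this
    refine this.trans ((half_geom q3 (by positivity)).trans (le_of_eq ?_))
    ring
  have t3 : ∀ m, ‖(f m).2.2 - B'‖ ≤ 2 * C₁ * δ * σ ^ m := fun m => by
    have := dist_le_of_le_geometric_of_tendsto σ (C₁ * δ) (by linarith) d3 hB' m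
    rw [dist_eq_norm] at this
    refine this.trans ((half_geom hσ.le (by positivity)).trans (le_of_eq ?_))
    ring
  have hKK : KK e' A' B' := KK.lim (fun m => (hf m).1.kk) he' hA' hB'
  have hM1 : 2 * C₁ * δ ≤ 1 := hδ1.trans hη1
  have hnA : ‖A'‖ ≤ C₃ := by
    have h1 : Tendsto (fun m => ‖(f m).2.1‖) atTop (𝓝 ‖A'‖) := hA'.norm
    refine le_trans (le_of_tendsto h1 (Eventually.of_forall fun m => ?_)) hC₃1
    have hp : (0 : ℝ) ≤ (1 / 2) ^ m := by positivity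
    refine (hf m).1.nA.trans ?_
    nlinarith [hM1, hp, mul_pos hC₁0 hδ0]
  have hnB : ‖B'‖ ≤ C₃ := by
    have h1 : Tendsto (fun m => ‖(f m).2.2‖) atTop (𝓝 ‖B'‖) := hB'.norm
    refine le_trans (le_of_tendsto h1 (Eventually.of_forall fun m => ?_)) hC₃1
    have hp : (0 : ℝ) ≤ (1 / 2) ^ m := by positivity
    refine (hf m).1.nB.trans ?_
    nlinarith [hM1, hp, mul_pos hC₁0 hδ0]
  -- the expansion
  have key : ∀ x ∈ ball (0 : E d) 1,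
      max (cub e' A' B' x - C₃ * (‖x‖ ^ 3 * Real.sqrt ‖x‖)) 0 ≤ u x ∧
        u x ≤ max (cub e' A' B' x + C₃ * (‖x‖ ^ 3 * Real.sqrt ‖x‖)) 0 := by
    intro x hx
    rcases eq_or_ne x 0 with rfl | hx0
    · rw [cub_zero, hu0]
      simp
    have hxn : 0 < ‖x‖ := norm_pos_iff.2 hx0
    obtain ⟨m, hm1, hm2⟩ := scale_of hσ0 hσ hxn (mem_ball_zero_iff.1 hx)
    have hsand := (hf m).1.sand x (mem_ball_zero_iff.2 hm1)
    obtain ⟨w, hw⟩ : ∃ w : ℝ, w = σ ^ (7 * m) * δ := ⟨_, rfl⟩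
    rw [← hw] at hsand
    have hsand' : max (cub (f m).1 (f m).2.1 (f m).2.2 x - w) 0 ≤ u x ∧
        u x ≤ max (cub (f m).1 (f m).2.1 (f m).2.2 x + w) 0 := by
      rw [sub_eq_add_neg]; exact hsand
    have hc := cub_sub_le (t1 m) (t2 m) (t3 m) hm1.le
    have hc' : |cub (f m).1 (f m).2.1 (f m).2.2 x - cub e' A' B' x| ≤ 6 * C₁ * w := by
      refine hc.trans (le_of_eq ?_)
      rw [hw]; ring
    have hfin := max_shift hc' hsand'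
    have hwle : w + 6 * C₁ * w ≤ C₃ * (‖x‖ ^ 3 * Real.sqrt ‖x‖) := by
      have hσ7 : 0 < σ ^ 7 := by positivity
      have h1 : w + 6 * C₁ * w = (1 + 6 * C₁) * δ / σ ^ 7 * (σ ^ (7 * m) * σ ^ 7) := by
        rw [hw]; field_simp
      rw [h1]
      have h2 : 0 ≤ (1 + 6 * C₁) * δ / σ ^ 7 := by positivity
      have h3 : (1 + 6 * C₁) * δ / σ ^ 7 ≤ C₃ := by rw [hC₃]; linarith
      gcongr
    refine ⟨(max_le_max ?_ le_rfl).trans hfin.1, hfin.2.trans (max_le_max ?_ le_rfl)⟩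
    · linarith
    · linarith
  refine ⟨e', A', B', ⟨hKK, hnA, hnB, fun x hx => ?_, fun x hx => ?_⟩⟩
  · rw [sub_zero]; exact (key x hx).1
  · rw [sub_zero]; exact (key x hx).2

end Crest.Agent.R097
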