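import Crest.Agent.R097.F5c

/-!
# Row 97, F5 (d): expansions at all free boundary points near a flat one
-/

set_option autoImplicit false
set_option synthInstance.maxHeartbeats 400000
open MeasureTheory Metric Set Filter Topology InnerProductSpace
open scoped RealInnerProductSpace NNReal ENNReal Gradient Laplacian

namespace Crest.Agent.R097

variable {d : ℕ}

/-- the value of `u` at a free boundary point -/
lemma val_frontier {u : E d → ℝ} (hc : Continuous u) (h0 : ∀ x, 0 ≤ u x) {y : E d}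
    (hy : y ∈ frontier (Om u)) : u y = 0 := by
  have hO : IsOpen (Om u) := isOpen_lt continuous_const hc
  rw [hO.frontier_eq] at hy
  have h1 : ¬ 0 < u y := hy.2
  exact le_antisymm (not_lt.1 h1) (h0 y)

/-- the height of free boundary points in a sandwich -/
lemma height_frontier {u : E d → ℝ} (hc : Continuous u) (h0 : ∀ x, 0 ≤ u x) {e : E d} {δ : ℝ}
    (hS : Sand u (fun x => ⟪e, x⟫_ℝ) (-δ) δ (ball 0 1)) {y : E d}
    (hy : y ∈ frontier (Om u)) (hyb : y ∈ ball (0 : E d) 1) : |⟪e, y⟫_ℝ| ≤ δ := by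
  have hu0 := val_frontier hc h0 hy
  rw [abs_le]
  constructor
  · by_contra hlt
    rw [not_le] at hlt
    have hop : IsOpen ({x : E d | ⟪e, x⟫_ℝ < -δ} ∩ ball (0 : E d) 1) :=
      (isOpen_lt (continuous_const.inner continuous_id) continuous_const).inter isOpen_ball
    obtain ⟨x, ⟨hx1, hx2⟩, hx3⟩ := mem_closure_iff.1 (frontier_subset_closure hy) _ hop ⟨hlt, hyb⟩
    have h1 := (hS x hx2).2
    have h2 : (0 : ℝ) < u x := hx3
    have h3 : max (⟪e, x⟫_ℝ + δ) 0 = 0 := max_eq_right (by linarith [show ⟪e, x⟫_ℝ < -δ from hx1])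
    rw [h3] at h1
    linarith
  · have h1 := (hS y hyb).1
    rw [hu0] at h1
    have h2 := le_max_left (⟪e, y⟫_ℝ + -δ) 0
    linarith

/-- **F5** -/
theorem F5 (hF3 : F3Stmt d) (hJ : Jet3Stmt d) (hBl : BlowStmt d) : F5Stmt d := by
  obtain ⟨δ, C, hδ, hC, hmain⟩ := F5zero hF3 hJ hBl
  refine ⟨δ / 4, by positivity, 6 * C, by linarith, ?_⟩
  intro u K e hu he hS y hy hyb
  have hyn : ‖y‖ < 1 / 2 := mem_ball_zero_iff.1 hyb
  have hyb1 : y ∈ ball (0 : E d) 1 := mem_ball_zero_iff.2 (by linarith)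
  have hu0 := val_frontier hu.lip.continuous hu.nonneg hy
  have hh := height_frontier hu.lip.continuous hu.nonneg hS hy hyb1
  rw [abs_le] at hh
  have h2 : (0 : ℝ) < 1 / 2 := by norm_num
  have hv := hBl u K hu y (1 / 2) h2
  have ev : ∀ x, blow u y (1 / 2) x = 2 * u (y + (1 / 2 : ℝ) • x) := fun x => by
    rw [blow]; ring
  have hvS : Sand (blow u y (1 / 2)) (fun x => ⟪e, x⟫_ℝ) (-δ) δ (ball 0 1) := by
    intro x hx
    have hxn : ‖x‖ < 1 := mem_ball_zero_iff.1 hx
    have hz : y + (1 / 2 : ℝ) • x ∈ ball (0 : E d) 1 := by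
      rw [mem_ball_zero_iff]
      refine (norm_add_le _ _).trans_lt ?_
      rw [norm_smul, Real.norm_eq_abs, abs_of_pos h2]
      linarith
    obtain ⟨h3, h4⟩ := hS _ hz
    simp only [inner_add_right, inner_smul_right] at h3 h4
    simp only [ev]
    constructor
    · refine max_le ?_ ?_
      · have := (le_max_left _ _).trans h3
        linarith
      · have := (le_max_right _ _).trans h3
        linarith
    · rcases le_total (⟪e, y⟫_ℝ + 1 / 2 * ⟪e, x⟫_ℝ + δ / 4) 0 with h5 | h5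
      · rw [max_eq_right h5] at h4
        exact le_trans (by linarith) (le_max_right _ _)
      · rw [max_eq_left h5] at h4
        exact le_trans (by linarith) (le_max_left _ _)
  have hv0 : blow u y (1 / 2) 0 = 0 := by
    rw [ev, smul_zero, add_zero, hu0, mul_zero]
  have hvcl : (0 : E d) ∈ closure (Om (blow u y (1 / 2))) := by
    rw [Metric.mem_closure_iff]
    intro ε hε
    obtain ⟨x, hx, hd⟩ := Metric.mem_closure_iff.1 (frontier_subset_closure hy) (ε / 2)
      (by positivity)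
    refine ⟨(2 : ℝ) • (x - y), ?_, ?_⟩
    · change 0 < blow u y (1 / 2) ((2 : ℝ) • (x - y))
      rw [ev, smul_smul]
      norm_num
      exact hx
    · rw [dist_zero_left, norm_smul, Real.norm_eq_abs, abs_of_pos (by norm_num : (0 : ℝ) < 2)]
      rw [dist_comm, dist_eq_norm] at hd
      linarith
  obtain ⟨e', A', B', hE⟩ := hmain _ K e hv he hvS hv0 hvcl
  have key : ∀ z ∈ ball y (1 / 2 : ℝ),
      max (cub e' ((2 : ℝ) • A') ((2 : ℝ) ^ 2 • B') (z - y) -
        6 * C * (‖z - y‖ ^ 3 * Real.sqrt ‖z - y‖)) 0 ≤ u z ∧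
      u z ≤ max (cub e' ((2 : ℝ) • A') ((2 : ℝ) ^ 2 • B') (z - y) +
        6 * C * (‖z - y‖ ^ 3 * Real.sqrt ‖z - y‖)) 0 := by
    intro z hz
    rw [mem_ball, dist_eq_norm] at hz
    have hx : (2 : ℝ) • (z - y) ∈ ball (0 : E d) 1 := by
      rw [mem_ball_zero_iff, norm_smul, Real.norm_eq_abs, abs_of_pos (by norm_num : (0 : ℝ) < 2)]
      linarith
    have h3 := hE.lo _ hx
    have h4 := hE.hi _ hx
    have h5 : blow u y (1 / 2) ((2 : ℝ) • (z - y)) = 2 * u z := by
      rw [ev, smul_smul]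
      norm_num
    rw [h5, sub_zero] at h3 h4
    rw [cub_scale e' A' B' (two_ne_zero) (z - y)]
    have h6 : ‖(2 : ℝ) • (z - y)‖ = 2 * ‖z - y‖ := by
      rw [norm_smul, Real.norm_eq_abs, abs_of_pos (by norm_num : (0 : ℝ) < 2)]
    rw [h6] at h3 h4
    obtain ⟨s, hs⟩ : ∃ s, s = ‖z - y‖ := ⟨_, rfl⟩
    have hs0 : 0 ≤ s := by rw [hs]; exact norm_nonneg _
    obtain ⟨q, hq⟩ : ∃ q, q = Real.sqrt s := ⟨_, rfl⟩
    have hq0 : 0 ≤ q := by rw [hq]; exact Real.sqrt_nonneg _
    have h7 : Real.sqrt (2 * s) ≤ 3 / 2 * q := by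
      rw [hq, Real.sqrt_le_left (by positivity), mul_pow, Real.sq_sqrt hs0]
      linarith
    rw [← hs] at h3 h4 ⊢
    rw [← hq]
    have h8 : C * ((2 * s) ^ 3 * Real.sqrt (2 * s)) ≤ 12 * C * (s ^ 3 * q) := by
      have : C * ((2 * s) ^ 3 * Real.sqrt (2 * s)) ≤ C * ((2 * s) ^ 3 * (3 / 2 * q)) := by
        gcongr
      refine this.trans (le_of_eq ?_)
      ring
    obtain ⟨c, hc⟩ : ∃ c, c = cub e' A' B' ((2 : ℝ) • (z - y)) := ⟨_, rfl⟩
    rw [← hc] at h3 h4 ⊢
    constructor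
    · refine max_le ?_ ?_
      · have := (le_max_left _ _).trans h3
        linarith
      · have := (le_max_right _ _).trans h3
        linarith
    · rcases le_total (c + C * ((2 * s) ^ 3 * Real.sqrt (2 * s))) 0 with h9 | h9
      · rw [max_eq_right h9] at h4
        exact le_trans (by linarith) (le_max_right _ _)
      · rw [max_eq_left h9] at h4
        exact le_trans (by linarith) (le_max_left _ _)
  refine ⟨e', (2 : ℝ) • A', (2 : ℝ) ^ 2 • B', ⟨hE.kk.smul 2, ?_, ?_, fun x hx => (key x hx).1,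
    fun x hx => (key x hx).2⟩⟩
  · rw [norm_smul, Real.norm_eq_abs, abs_of_pos (by norm_num : (0 : ℝ) < 2)]
    have := hE.nA
    linarith
  · rw [norm_smul, Real.norm_eq_abs, abs_of_pos (by norm_num : (0 : ℝ) < (2 : ℝ) ^ 2)]
    have := hE.nB
    linarith

end Crest.Agent.R097
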