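import Crest.Agent.R097.F5Def
import Crest.Agent.R097.F4
import Crest.Agent.R097.HarmJets

/-!
# Row 97, F6: from expansions to regular points (helper392)
-/

set_option autoImplicit false
open MeasureTheory Metric Set Filter Topology InnerProductSpace
open scoped RealInnerProductSpace NNReal ENNReal Gradient Laplacian

namespace Crest.Agent.R097

variable {d : ℕ}

namespace F6P

lemma two_le_top' : (2 : WithTop ℕ∞) ≤ ((⊤ : ℕ∞) : WithTop ℕ∞) := by
  have : ((2 : ℕ∞) : WithTop ℕ∞) ≤ ((⊤ : ℕ∞) : WithTop ℕ∞) := by exact_mod_cast le_top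
  exact this

/-! ### derivatives of the cubic polynomials -/

lemma D2_cub {e : E d} {A : Bil d} {B : Tri d} (h : KK e A B) (x : E d) :
    D2 (cub e A B) x = A + B x := by
  unfold D2
  have h1 : fderiv ℝ (cub e A B) = fun x => innerSL ℝ e + A x + (1 / 2 : ℝ) • B x x :=
    funext fun x => fderiv_cub h x
  rw [h1]
  have h2 : HasFDerivAt (fun x : E d => A x) A x := A.hasFDerivAt
  have h3 : HasFDerivAt (fun x : E d => B x x) _ x :=
    (B.hasFDerivAt (x := x)).clm_apply (hasFDerivAt_id x)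
  have h4 := (h2.const_add (innerSL ℝ e)).add (h3.const_smul (1 / 2 : ℝ))
  have h5 : HasFDerivAt (fun x => innerSL ℝ e + A x + (1 / 2 : ℝ) • B x x) _ x := h4
  rw [h5.fderiv]
  ext v w
  simp only [add_apply, smul_apply, ContinuousLinearMap.comp_apply,
    ContinuousLinearMap.flip_apply, ContinuousLinearMap.id_apply, smul_eq_mul]
  rw [h.stfB.symm12 v x w]
  ring

lemma D3_cub {e : E d} {A : Bil d} {B : Tri d} (h : KK e A B) (x : E d) :
    D3 (cub e A B) x = B := by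
  unfold D3
  have h1 : fderiv ℝ (fderiv ℝ (cub e A B)) = fun x => A + B x := funext fun x => D2_cub h x
  rw [h1]
  have h2 : HasFDerivAt (fun x : E d => B x) B x := B.hasFDerivAt
  exact (h2.const_add A).fderiv

/-- the translated cubic -/
noncomputable def cz (e : E d) (A : Bil d) (B : Tri d) (z x : E d) : ℝ := cub e A B (x - z)

lemma contDiff_cz (e : E d) (A : Bil d) (B : Tri d) (z : E d) {n : WithTop ℕ∞} :
    ContDiff ℝ n (cz e A B z) :=
  (contDiff_cub e A B).comp (contDiff_id.sub contDiff_const)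

lemma fderiv_cz (e : E d) (A : Bil d) (B : Tri d) (z x : E d) :
    fderiv ℝ (cz e A B z) x = fderiv ℝ (cub e A B) (x - z) := fderiv_comp_sub z

lemma D2_cz (e : E d) (A : Bil d) (B : Tri d) (z x : E d) :
    D2 (cz e A B z) x = D2 (cub e A B) (x - z) := by
  unfold D2
  have h1 : fderiv ℝ (cz e A B z) = fun x => fderiv ℝ (cub e A B) (x - z) :=
    funext fun x => fderiv_cz e A B z x
  rw [h1]
  exact fderiv_comp_sub (f := fderiv ℝ (cub e A B)) z

lemma D3_cz (e : E d) (A : Bil d) (B : Tri d) (z x : E d) :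
    D3 (cz e A B z) x = D3 (cub e A B) (x - z) := by
  unfold D3
  have h1 : fderiv ℝ (fderiv ℝ (cz e A B z)) = fun x => D2 (cub e A B) (x - z) :=
    funext fun x => D2_cz e A B z x
  rw [h1]
  exact fderiv_comp_sub (f := D2 (cub e A B)) z

lemma lap_eq_D2 {f : E d → ℝ} {x : E d} (hf : ContDiffAt ℝ 2 f x) :
    (Δ f) x = ∑ i, D2 f x (bv i) (bv i) := by
  rw [laplacian_eq_sum hf]
  refine Finset.sum_congr rfl fun i _ => ?_
  have h3 : ContDiffAt ℝ 1 (fderiv ℝ f) x := hf.fderiv_right (by norm_num)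
  have h4 : HasFDerivAt (fderiv ℝ f) (fderiv ℝ (fderiv ℝ f) x) x :=
    (h3.differentiableAt (by simp)).hasFDerivAt
  have h5 := (h4.clm_apply (hasFDerivAt_const (bv i) x)).fderiv
  rw [h5]
  simp [D2]

lemma laplacian_cz {e : E d} {A : Bil d} {B : Tri d} (h : KK e A B) (z x : E d) :
    (Δ (cz e A B z)) x = 0 := by
  rw [lap_eq_D2 (contDiff_cz e A B z).contDiffAt, D2_cz,
    ← lap_eq_D2 (contDiff_cub e A B).contDiffAt]
  exact laplacian_cub h _

/-! ### derivatives of a difference on an open set -/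

section sub
variable {u c : E d → ℝ} {U : Set (E d)}

lemma smooth_D1 (hU : IsOpen U) (hu : ContDiffOn ℝ (⊤ : ℕ∞) u U) :
    ContDiffOn ℝ (⊤ : ℕ∞) (fderiv ℝ u) U := hu.fderiv_of_isOpen hU (le_of_eq rfl)

lemma smooth_D2' (hU : IsOpen U) (hu : ContDiffOn ℝ (⊤ : ℕ∞) u U) :
    ContDiffOn ℝ (⊤ : ℕ∞) (D2 u) U := (smooth_D1 hU hu).fderiv_of_isOpen hU (le_of_eq rfl)

lemma fderiv_sub_on (hU : IsOpen U) (hu : ContDiffOn ℝ (⊤ : ℕ∞) u U)
    (hc : ContDiffOn ℝ (⊤ : ℕ∞) c U) {x : E d} (hx : x ∈ U) :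
    fderiv ℝ (fun y => u y - c y) x = fderiv ℝ u x - fderiv ℝ c x :=
  fderiv_fun_sub ((hu.contDiffAt (hU.mem_nhds hx)).differentiableAt (by simp))
    ((hc.contDiffAt (hU.mem_nhds hx)).differentiableAt (by simp))

lemma D2_sub_on (hU : IsOpen U) (hu : ContDiffOn ℝ (⊤ : ℕ∞) u U)
    (hc : ContDiffOn ℝ (⊤ : ℕ∞) c U) {x : E d} (hx : x ∈ U) :
    D2 (fun y => u y - c y) x = D2 u x - D2 c x := by
  unfold D2
  have h1 : fderiv ℝ (fun y => u y - c y) =ᶠ[𝓝 x] fun y => fderiv ℝ u y - fderiv ℝ c y := by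
    filter_upwards [hU.mem_nhds hx] with y hy using fderiv_sub_on hU hu hc hy
  rw [h1.fderiv_eq]
  exact fderiv_fun_sub (((smooth_D1 hU hu).contDiffAt (hU.mem_nhds hx)).differentiableAt (by simp))
    (((smooth_D1 hU hc).contDiffAt (hU.mem_nhds hx)).differentiableAt (by simp))

lemma D3_sub_on (hU : IsOpen U) (hu : ContDiffOn ℝ (⊤ : ℕ∞) u U)
    (hc : ContDiffOn ℝ (⊤ : ℕ∞) c U) {x : E d} (hx : x ∈ U) :
    D3 (fun y => u y - c y) x = D3 u x - D3 c x := by
  unfold D3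
  have h1 : fderiv ℝ (fderiv ℝ (fun y => u y - c y)) =ᶠ[𝓝 x] fun y => D2 u y - D2 c y := by
    filter_upwards [hU.mem_nhds hx] with y hy using D2_sub_on hU hu hc hy
  rw [h1.fderiv_eq]
  exact fderiv_fun_sub (((smooth_D2' hU hu).contDiffAt (hU.mem_nhds hx)).differentiableAt (by simp))
    (((smooth_D2' hU hc).contDiffAt (hU.mem_nhds hx)).differentiableAt (by simp))

end sub

/-! ### the jets of `u` near an expansion point -/

lemma pow_sqrt_bd (C ρ : ℝ) :
    C * ((4 * ρ) ^ 3 * Real.sqrt (4 * ρ)) = 128 * C * (ρ ^ 3 * Real.sqrt ρ) := by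
  have h4 : Real.sqrt 4 = 2 := by
    rw [show (4:ℝ) = 2 ^ 2 by norm_num]; exact Real.sqrt_sq (by norm_num)
  rw [Real.sqrt_mul (by norm_num) ρ, h4]
  ring

/-- **key lemma**: on an interior ball of radius comparable to the distance, the jets of `u` are
close to those of the expansion -/
lemma jets_close (d : ℕ) : ∃ C₀ : ℝ, 1 ≤ C₀ ∧ ∀ (u : E d → ℝ) (C : ℝ), 1 ≤ C →
    ContDiffOn ℝ (⊤ : ℕ∞) u (Om u) → IsOpen (Om u) → (∀ x ∈ Om u, (Δ u) x = 0) →
    ∀ (z e : E d) (A : Bil d) (B : Tri d), Expn u C (1 / 2) z e A B →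
    ∀ (x : E d) (ρ : ℝ), 0 < ρ → 4 * ρ ≤ 1 / 2 → ball x ρ ⊆ Om u → ‖x - z‖ ≤ 3 * ρ →
      ‖fderiv ℝ u x - innerSL ℝ e‖ ≤ C₀ * C * Real.sqrt ρ ∧
      ‖D2 u x - A‖ ≤ C₀ * C * Real.sqrt ρ ∧ ‖D3 u x - B‖ ≤ C₀ * C * Real.sqrt ρ := by
  obtain ⟨Ch, hCh, hJ⟩ := Hm.harm_jets' d
  refine ⟨128 * Ch + 8, by linarith, ?_⟩
  intro u C hC hsm hO hha z e A B hE x ρ hρ hρ4 hball hxz
  have hU : IsOpen (ball x ρ) := isOpen_ball
  have hu : ContDiffOn ℝ (⊤ : ℕ∞) u (ball x ρ) := hsm.mono hball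
  have hc : ContDiffOn ℝ (⊤ : ℕ∞) (cz e A B z) (ball x ρ) := (contDiff_cz e A B z).contDiffOn
  set h : E d → ℝ := fun y => u y - cz e A B z y with hh
  have hhC : ContDiffOn ℝ 2 h (ball x ρ) :=
    (hu.sub hc).of_le two_le_top'
  have hρs : 0 ≤ Real.sqrt ρ := Real.sqrt_nonneg ρ
  have hρ1 : ρ ≤ 1 := by linarith
  have hρle : ρ ≤ Real.sqrt ρ := by
    have h1 := Real.sq_sqrt hρ.le
    have h2 : Real.sqrt ρ ≤ 1 := Real.sqrt_le_one.2 hρ1
    nlinarith
  set M : ℝ := 128 * C * (ρ ^ 3 * Real.sqrt ρ) with hM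
  have hM0 : 0 ≤ M := by positivity
  have hlap : ∀ y ∈ ball x ρ, (Δ h) y = 0 := by
    intro y hy
    have h1 : ContDiffAt ℝ 2 h y := hhC.contDiffAt (hU.mem_nhds hy)
    have h2 : ContDiffAt ℝ 2 u y :=
      (hu.contDiffAt (hU.mem_nhds hy)).of_le two_le_top'
    rw [lap_eq_D2 h1, hh, D2_sub_on hU hu hc hy]
    simp only [sub_apply, Finset.sum_sub_distrib]
    rw [← lap_eq_D2 h2, ← lap_eq_D2 (contDiff_cz e A B z).contDiffAt, hha y (hball hy),
      laplacian_cz hE.kk, sub_zero]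
  have hbd : ∀ y ∈ ball x ρ, |h y| ≤ M := by
    intro y hy
    have hyx : ‖y - x‖ < ρ := by rwa [mem_ball, dist_eq_norm] at hy
    have hyz : ‖y - z‖ ≤ 4 * ρ := by
      have h1 : y - z = (y - x) + (x - z) := by abel
      rw [h1]
      exact (norm_add_le _ _).trans (by linarith)
    have hyz' : ‖y - z‖ < 4 * ρ := by
      have h1 : y - z = (y - x) + (x - z) := by abel
      rw [h1]
      exact lt_of_le_of_lt (norm_add_le _ _) (by linarith)
    have hyb : y ∈ ball z (1 / 2) := by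
      rw [mem_ball, dist_eq_norm]; linarith
    have hpos : 0 < u y := hball hy
    have hlo := (le_max_left _ _).trans (hE.lo y hyb)
    have hhi : u y ≤ cub e A B (y - z) + C * (‖y - z‖ ^ 3 * Real.sqrt ‖y - z‖) := by
      rcases le_max_iff.1 (hE.hi y hyb) with h1 | h1
      · exact h1
      · linarith
    have hr : C * (‖y - z‖ ^ 3 * Real.sqrt ‖y - z‖) ≤ M := by
      rw [hM, ← pow_sqrt_bd]
      gcongr
    have e1 : h y = u y - cub e A B (y - z) := rfl
    rw [e1, abs_le]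
    constructor <;> linarith
  obtain ⟨-, -, j1, j2, j3, -⟩ := hJ x ρ hρ h M hhC hlap hbd
  have hx : x ∈ ball x ρ := mem_ball_self hρ
  rw [hh, fderiv_sub_on hU hu hc hx, fderiv_cz, fderiv_cub hE.kk] at j1
  rw [hh, D2_sub_on hU hu hc hx, D2_cz, D2_cub hE.kk] at j2
  rw [hh, D3_sub_on hU hu hc hx, D3_cz, D3_cub hE.kk] at j3
  set v : E d := x - z with hv
  have hv0 : 0 ≤ ‖v‖ := norm_nonneg v
  -- sizes
  have hAv : ‖A v‖ ≤ C * (3 * ρ) := (A.le_opNorm v).trans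
    (mul_le_mul hE.nA hxz hv0 (by linarith))
  have hBv : ‖B v‖ ≤ C * (3 * ρ) := (B.le_opNorm v).trans
    (mul_le_mul hE.nB hxz hv0 (by linarith))
  have hBvv : ‖B v v‖ ≤ C * (3 * ρ) * (3 * ρ) := ((B v).le_opNorm v).trans
    (mul_le_mul hBv hxz hv0 (by positivity))
  have hCs : C * ρ ≤ C * Real.sqrt ρ := mul_le_mul_of_nonneg_left hρle (by linarith)
  have hCρρ : C * ρ * ρ ≤ C * ρ := by
    have : C * ρ * ρ ≤ C * ρ * 1 := mul_le_mul_of_nonneg_left hρ1 (by positivity)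
    linarith
  have hk1 : Ch * M / ρ ≤ 128 * Ch * C * Real.sqrt ρ := by
    have e1 : Ch * M / ρ = 128 * Ch * C * Real.sqrt ρ * (ρ * ρ) := by
      rw [hM]; field_simp
    rw [e1]
    have h1 : ρ * ρ ≤ 1 := by nlinarith
    have h2 : 0 ≤ 128 * Ch * C * Real.sqrt ρ := by positivity
    nlinarith
  have hk2 : Ch * M / ρ ^ 2 ≤ 128 * Ch * C * Real.sqrt ρ := by
    have e1 : Ch * M / ρ ^ 2 = 128 * Ch * C * Real.sqrt ρ * ρ := by
      rw [hM]; field_simp
    rw [e1]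
    have h2 : 0 ≤ 128 * Ch * C * Real.sqrt ρ := by positivity
    nlinarith
  have hk3 : Ch * M / ρ ^ 3 = 128 * Ch * C * Real.sqrt ρ := by
    rw [hM]; field_simp
  have hC8 : 0 ≤ C * Real.sqrt ρ := by positivity
  refine ⟨?_, ?_, ?_⟩
  · have e1 : fderiv ℝ u x - innerSL ℝ e = (fderiv ℝ u x - (innerSL ℝ e + A v +
        (1 / 2 : ℝ) • B v v)) + (A v + (1 / 2 : ℝ) • B v v) := by abel
    rw [e1]
    refine (norm_add_le _ _).trans ?_
    have h1 : ‖A v + (1 / 2 : ℝ) • B v v‖ ≤ C * (3 * ρ) + 1 / 2 * (C * (3 * ρ) * (3 * ρ)) := by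
      refine (norm_add_le _ _).trans (add_le_add hAv ?_)
      rw [norm_smul, Real.norm_eq_abs, abs_of_pos (by norm_num : (0:ℝ) < 1 / 2)]
      exact mul_le_mul_of_nonneg_left hBvv (by norm_num)
    nlinarith
  · have e1 : D2 u x - A = (D2 u x - (A + B v)) + B v := by abel
    rw [e1]
    refine (norm_add_le _ _).trans ?_
    nlinarith
  · rw [hk3] at j3
    nlinarith

/-- positivity of `u` in a ball on the inner side of an expansion point -/
lemma pos_ball {u : E d → ℝ} {C : ℝ} (hC : 1 ≤ C) {y e : E d} {A : Bil d} {B : Tri d}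
    (hE : Expn u C (1 / 2) y e A B) {r : ℝ} (hr : 0 < r) (hr1 : 72 * C * r ≤ 1) :
    ball (y + (2 * r) • e) r ⊆ Om u := by
  intro x hx
  have hr72 : 72 * r ≤ 1 := by nlinarith
  have h1 : ‖x - (y + (2 * r) • e)‖ < r := by rwa [mem_ball, dist_eq_norm] at hx
  set v : E d := x - y with hv
  have e1 : v = (x - (y + (2 * r) • e)) + (2 * r) • e := by rw [hv]; abel
  have hvn : ‖v‖ ≤ 3 * r := by
    rw [e1]
    refine (norm_add_le _ _).trans ?_
    rw [norm_smul, hE.kk.norm_e, Real.norm_eq_abs, abs_of_pos (by positivity)]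
    linarith
  have hev : r ≤ ⟪e, v⟫_ℝ := by
    rw [e1, inner_add_right, inner_smul_right, real_inner_self_eq_norm_sq, hE.kk.norm_e]
    have h2 := (abs_le.1 (abs_real_inner_le_norm e (x - (y + (2 * r) • e)))).1
    rw [hE.kk.norm_e, one_mul] at h2
    linarith
  have hv0 : 0 ≤ ‖v‖ := norm_nonneg v
  have hv1 : ‖v‖ ≤ 1 := by linarith
  have hA : |A v v| ≤ C * (3 * r) * (3 * r) := by
    have h2 := bil_abs_le A v v
    have h3 : ‖A‖ * ‖v‖ * ‖v‖ ≤ C * (3 * r) * (3 * r) := by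
      have := hE.nA
      gcongr
    exact h2.trans h3
  have hB : |B v v v| ≤ C * (3 * r) * (3 * r) := by
    have h2 := abs_tri_le B v v v
    have h3 : ‖B‖ * ‖v‖ * ‖v‖ * ‖v‖ ≤ C * (3 * r) * (3 * r) * 1 := by
      have := hE.nB
      gcongr
    linarith
  have hs : ‖v‖ ^ 3 * Real.sqrt ‖v‖ ≤ (3 * r) * (3 * r) := by
    have h2 : Real.sqrt ‖v‖ ≤ 1 := Real.sqrt_le_one.2 hv1
    have h3 : ‖v‖ ^ 3 ≤ (3 * r) * (3 * r) := by
      have : ‖v‖ * ‖v‖ * ‖v‖ ≤ (3 * r) * (3 * r) * 1 := by gcongr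
      nlinarith
    have h4 : ‖v‖ ^ 3 * Real.sqrt ‖v‖ ≤ ‖v‖ ^ 3 * 1 :=
      mul_le_mul_of_nonneg_left h2 (by positivity)
    linarith
  have hxb : x ∈ ball y (1 / 2) := by
    rw [mem_ball, dist_eq_norm, ← hv]; linarith
  have hlo := (le_max_left _ _).trans (hE.lo x hxb)
  rw [← hv] at hlo
  have hcub : cub e A B v = ⟪e, v⟫_ℝ + A v v / 2 + B v v v / 6 := rfl
  have hCs : C * (‖v‖ ^ 3 * Real.sqrt ‖v‖) ≤ C * ((3 * r) * (3 * r)) :=
    mul_le_mul_of_nonneg_left hs (by linarith)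
  have h2 := (abs_le.1 hA).1
  have h3 := (abs_le.1 hB).1
  show 0 < u x
  have h5 : 72 * C * r * r ≤ 1 * r := mul_le_mul_of_nonneg_right hr1 hr.le
  nlinarith

/-- continuity of the jets along the free boundary -/
lemma jets_cont (d : ℕ) : ∃ C₀ : ℝ, 1 ≤ C₀ ∧ ∀ (u : E d → ℝ) (C : ℝ), 1 ≤ C →
    ContDiffOn ℝ (⊤ : ℕ∞) u (Om u) → IsOpen (Om u) → (∀ x ∈ Om u, (Δ u) x = 0) →
    ∀ (y e : E d) (A : Bil d) (B : Tri d), Expn u C (1 / 2) y e A B →
    ∀ (z e' : E d) (A' : Bil d) (B' : Tri d), Expn u C (1 / 2) z e' A' B' →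
    ∀ r : ℝ, 0 < r → 72 * C * r ≤ 1 → ‖z - y‖ ≤ r →
      ‖innerSL ℝ e' - innerSL ℝ e‖ ≤ C₀ * C * Real.sqrt r ∧
      ‖A' - A‖ ≤ C₀ * C * Real.sqrt r ∧ ‖B' - B‖ ≤ C₀ * C * Real.sqrt r := by
  obtain ⟨C₀, hC₀, hJ⟩ := jets_close d
  refine ⟨2 * C₀, by linarith, ?_⟩
  intro u C hC hsm hO hha y e A B hE z e' A' B' hE' r hr hr1 hzy
  have hr72 : 72 * r ≤ 1 := by nlinarith
  set q : E d := y + (2 * r) • e with hq
  have hqy : ‖q - y‖ ≤ 3 * r := by
    rw [hq, add_sub_cancel_left, norm_smul, hE.kk.norm_e, Real.norm_eq_abs,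
      abs_of_pos (by positivity)]
    linarith
  have hqz : ‖q - z‖ ≤ 3 * r := by
    have e1 : q - z = (q - y) - (z - y) := by abel
    rw [e1]
    refine (norm_sub_le _ _).trans ?_
    have h1 : ‖q - y‖ ≤ 2 * r := by
      rw [hq, add_sub_cancel_left, norm_smul, hE.kk.norm_e, Real.norm_eq_abs,
        abs_of_pos (by positivity)]
      linarith
    linarith
  have hb := pos_ball hC hE hr hr1
  obtain ⟨a1, a2, a3⟩ := hJ u C hC hsm hO hha y e A B hE q r hr (by linarith) hb hqy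
  obtain ⟨b1, b2, b3⟩ := hJ u C hC hsm hO hha z e' A' B' hE' q r hr (by linarith) hb hqz
  refine ⟨?_, ?_, ?_⟩
  · have e1 : innerSL ℝ e' - innerSL ℝ e = (fderiv ℝ u q - innerSL ℝ e) -
        (fderiv ℝ u q - innerSL ℝ e') := by abel
    rw [e1]
    exact (norm_sub_le _ _).trans (by linarith)
  · have e1 : A' - A = (D2 u q - A) - (D2 u q - A') := by abel
    rw [e1]
    exact (norm_sub_le _ _).trans (by linarith)
  · have e1 : B' - B = (D3 u q - B) - (D3 u q - B') := by abel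
    rw [e1]
    exact (norm_sub_le _ _).trans (by linarith)

lemma tendsto_of_sqrt_bound {F : Type*} [NormedAddCommGroup F] {f : E d → F} {a : F}
    {s : Set (E d)} {y : E d} {C : ℝ}
    (h : ∀ᶠ x in 𝓝[s] y, ‖f x - a‖ ≤ C * Real.sqrt ‖x - y‖) : Tendsto f (𝓝[s] y) (𝓝 a) := by
  rw [tendsto_iff_norm_sub_tendsto_zero]
  have h1 : Tendsto (fun x => C * Real.sqrt ‖x - y‖) (𝓝[s] y) (𝓝 0) := by
    have hc : Continuous fun x : E d => C * Real.sqrt ‖x - y‖ := by fun_prop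
    have h2 := hc.tendsto y
    simp only [sub_self, norm_zero, Real.sqrt_zero, mul_zero] at h2
    exact h2.mono_left nhdsWithin_le_nhds
  exact squeeze_zero' (Eventually.of_forall fun x => norm_nonneg _) h h1

end F6P

open F6P in
/-- **F6 from F5** -/
theorem f56 (d : ℕ) : F56Stmt d := by
  obtain ⟨C₀, hC₀, hJ⟩ := jets_close d
  obtain ⟨C₁, hC₁, hJc⟩ := jets_cont d
  intro u C hC hu0 hcu hsm hha hexp y hy hyb
  have hO : IsOpen (Om u) := isOpen_lt continuous_const hcu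
  obtain ⟨e, A, B, hE⟩ := hexp y hy hyb
  have hyO : y ∉ Om u := by
    rw [hO.frontier_eq] at hy; exact hy.2
  have hy2 : ‖y‖ < 1 / 2 := by simpa using hyb
  -- the closeness near `y`
  set r₀ : ℝ := min (1 / (288 * C)) ((1 / 2 - ‖y‖) / 4) with hr₀
  have hr₀0 : 0 < r₀ := lt_min (by positivity) (by linarith)
  have hmain : ∀ x ∈ Om u, ‖x - y‖ < r₀ →
      ‖fderiv ℝ u x - innerSL ℝ e‖ ≤ (C₀ * C + C₁ * C * 2) * Real.sqrt ‖x - y‖ ∧
      ‖D2 u x - A‖ ≤ (C₀ * C + C₁ * C * 2) * Real.sqrt ‖x - y‖ ∧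
      ‖D3 u x - B‖ ≤ (C₀ * C + C₁ * C * 2) * Real.sqrt ‖x - y‖ := by
    intro x hx hxy
    set t : ℝ := ‖x - y‖ with ht
    have htr1 : t < 1 / (288 * C) := hxy.trans_le (min_le_left _ _)
    have htr2 : t < (1 / 2 - ‖y‖) / 4 := hxy.trans_le (min_le_right _ _)
    have htC : 288 * C * t ≤ 1 := by
      have := (lt_div_iff₀ (by positivity)).1 htr1
      linarith
    have ht288 : 288 * t ≤ 1 := by
      have ht0 : 0 ≤ t := norm_nonneg _
      nlinarith
    -- nearest point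
    have hcl : IsClosed (Om u)ᶜ := hO.isClosed_compl
    obtain ⟨z, hz, hzd⟩ := hcl.exists_infDist_eq_dist ⟨y, hyO⟩ x
    set ρ : ℝ := infDist x (Om u)ᶜ with hρ
    have hball : ball x ρ ⊆ Om u := ball_infDist_compl_subset
    have hρ0 : 0 < ρ := by
      rw [hρ]
      exact (hcl.notMem_iff_infDist_pos ⟨y, hyO⟩).1 (fun h => h hx)
    have hρt : ρ ≤ t := by
      have := infDist_le_dist_of_mem (x := x) (show y ∈ (Om u)ᶜ from hyO)
      rwa [dist_eq_norm] at this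
    have hxz : ‖x - z‖ = ρ := by rw [← dist_eq_norm, hzd]
    have hzy : ‖z - y‖ ≤ 2 * t := by
      have e1 : z - y = (x - y) - (x - z) := by abel
      rw [e1]
      exact (norm_sub_le _ _).trans (by rw [hxz]; linarith)
    have hzf : z ∈ frontier (Om u) := by
      rw [hO.frontier_eq]
      refine ⟨?_, hz⟩
      have h1 : z ∈ closure (ball x ρ) := by
        rw [closure_ball x hρ0.ne', mem_closedBall, dist_comm, ← hzd]
      exact closure_mono hball h1
    have hzb : z ∈ ball (0 : E d) (1 / 2) := by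
      rw [mem_ball_zero_iff]
      have e1 : z = (z - y) + y := by abel
      rw [e1]
      exact lt_of_le_of_lt (norm_add_le _ _) (by linarith)
    obtain ⟨e', A', B', hE'⟩ := hexp z hzf hzb
    have ht0 : 0 < t := lt_of_lt_of_le hρ0 hρt
    obtain ⟨a1, a2, a3⟩ := hJ u C hC hsm hO hha z e' A' B' hE' x ρ hρ0 (by linarith) hball
      (by rw [hxz]; linarith)
    obtain ⟨b1, b2, b3⟩ := hJc u C hC hsm hO hha y e A B hE z e' A' B' hE' (4 * t) (by linarith)
      (by linarith) (by linarith)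
    have hs4 : Real.sqrt (4 * t) = 2 * Real.sqrt t := by
      have h4 : Real.sqrt 4 = 2 := by
        rw [show (4:ℝ) = 2 ^ 2 by norm_num]; exact Real.sqrt_sq (by norm_num)
      rw [Real.sqrt_mul (by norm_num) t, h4]
    rw [hs4] at b1 b2 b3
    have hsρ : C₀ * C * Real.sqrt ρ ≤ C₀ * C * Real.sqrt t :=
      mul_le_mul_of_nonneg_left (Real.sqrt_le_sqrt hρt) (by positivity)
    refine ⟨?_, ?_, ?_⟩
    · have e1 : fderiv ℝ u x - innerSL ℝ e = (fderiv ℝ u x - innerSL ℝ e') +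
          (innerSL ℝ e' - innerSL ℝ e) := by abel
      rw [e1]
      exact (norm_add_le _ _).trans (by linarith)
    · have e1 : D2 u x - A = (D2 u x - A') + (A' - A) := by abel
      rw [e1]
      exact (norm_add_le _ _).trans (by linarith)
    · have e1 : D3 u x - B = (D3 u x - B') + (B' - B) := by abel
      rw [e1]
      exact (norm_add_le _ _).trans (by linarith)
  have hev : ∀ᶠ x in 𝓝[Om u] y, x ∈ Om u ∧ ‖x - y‖ < r₀ := by
    have h1 : ∀ᶠ x in 𝓝[Om u] y, x ∈ ball y r₀ := mem_nhdsWithin_of_mem_nhds (ball_mem_nhds y hr₀0)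
    filter_upwards [self_mem_nhdsWithin, h1] with x hx hx2
    exact ⟨hx, by rwa [mem_ball, dist_eq_norm] at hx2⟩
  exact ⟨e, A, B, hE.kk,
    tendsto_of_sqrt_bound (hev.mono fun x hx => (hmain x hx.1 hx.2).1),
    tendsto_of_sqrt_bound (hev.mono fun x hx => (hmain x hx.1 hx.2).2.1),
    tendsto_of_sqrt_bound (hev.mono fun x hx => (hmain x hx.1 hx.2).2.2)⟩

end Crest.Agent.R097
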