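import Crest.Agent.R097.B1
import Crest.Agent.R097.B2
import Crest.Agent.R097.B3

/-! H1: a cone with vanishing Hessian in the positivity set is a half-plane profile; dimensions 1 and 2. -/
set_option autoImplicit false
set_option linter.unusedVariables false
open MeasureTheory Metric Set Filter Topology
open scoped NNReal RealInnerProductSpace Gradient ContDiff Laplacian

namespace Crest.Agent.R097
variable {d : ℕ}

namespace FE

/-! ### the bump `(1 - |x|²)₊²` -/

lemma hasDerivAt_max_sq (t : ℝ) : HasDerivAt (fun s : ℝ => (max s 0) ^ 2) (2 * max t 0) t := by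
  rcases lt_trichotomy t 0 with h | h | h
  · have e : (fun s : ℝ => (max s 0) ^ 2) =ᶠ[𝓝 t] fun _ => 0 := by
      filter_upwards [Iio_mem_nhds h] with s hs
      rw [max_eq_right (le_of_lt hs)]; norm_num
    rw [max_eq_right h.le, mul_zero]
    exact (hasDerivAt_const t (0 : ℝ)).congr_of_eventuallyEq e
  · subst h
    rw [max_self, mul_zero]
    rw [hasDerivAt_iff_isLittleO]
    simp only [max_self, sub_zero, smul_zero, ne_eq, OfNat.ofNat_ne_zero, not_false_eq_true, zero_pow]
    have h1 : (fun x : ℝ => (max x 0) ^ 2) =O[𝓝 0] fun x => x ^ 2 := by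
      refine Asymptotics.IsBigO.of_bound 1 (Eventually.of_forall fun x => ?_)
      rw [one_mul, norm_pow, norm_pow, Real.norm_eq_abs, Real.norm_eq_abs]
      have : |max x 0| ≤ |x| := by
        rcases le_total x 0 with h | h
        · rw [max_eq_right h]; simp
        · rw [max_eq_left h]
      gcongr
    have h2 : (fun x : ℝ => x ^ 2) =o[𝓝 0] fun x => x := by
      have := Asymptotics.isLittleO_pow_id (𝕜 := ℝ) (n := 2) (by norm_num)
      simpa using this
    exact h1.trans_isLittleO h2
  · have e : (fun s : ℝ => (max s 0) ^ 2) =ᶠ[𝓝 t] fun s => s ^ 2 := by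
      filter_upwards [Ioi_mem_nhds h] with s hs
      rw [max_eq_left (le_of_lt hs)]
    rw [max_eq_left h.le]
    have := (hasDerivAt_pow 2 t).congr_of_eventuallyEq e
    simpa using this

/-- the bump -/
noncomputable def bmp (x : E d) : ℝ := (max (1 - ‖x‖ ^ 2) 0) ^ 2

lemma hasFDerivAt_bmp (x : E d) :
    HasFDerivAt (bmp : E d → ℝ) ((-4 * max (1 - ‖x‖ ^ 2) 0) • (innerSL ℝ x)) x := by
  have h1 : HasFDerivAt (fun y : E d => 1 - ‖y‖ ^ 2) (-(2 • (innerSL ℝ x))) x := by
    have := (hasStrictFDerivAt_norm_sq x).hasFDerivAt.const_sub 1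
    simpa using this
  have h2 := (hasDerivAt_max_sq (1 - ‖x‖ ^ 2)).comp_hasFDerivAt x h1
  have e : (-4 * max (1 - ‖x‖ ^ 2) 0) • (innerSL ℝ x) =
      (2 * max (1 - ‖x‖ ^ 2) 0) • (-(2 • (innerSL ℝ x)) : E d →L[ℝ] ℝ) := by
    rw [two_nsmul]; module
  rw [e]
  exact h2

lemma contDiff_bmp : ContDiff ℝ 1 (bmp : E d → ℝ) := by
  rw [contDiff_one_iff_fderiv]
  refine ⟨fun x => (hasFDerivAt_bmp x).differentiableAt, ?_⟩
  have : fderiv ℝ (bmp : E d → ℝ) = fun x => (-4 * max (1 - ‖x‖ ^ 2) 0) • (innerSL ℝ x) := by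
    ext x v; rw [(hasFDerivAt_bmp x).fderiv]
  rw [this]
  have h1 : Continuous fun x : E d => (-4 * max (1 - ‖x‖ ^ 2) 0) := by fun_prop
  exact h1.smul (innerSL ℝ).continuous

lemma bmp_supp : HasCompactSupport (bmp : E d → ℝ) := by
  refine HasCompactSupport.of_support_subset_isCompact (isCompact_closedBall 0 1) fun x hx => ?_
  by_contra h
  rw [mem_closedBall_zero_iff, not_le] at h
  apply hx
  have : 1 - ‖x‖ ^ 2 ≤ 0 := by nlinarith
  simp [bmp, max_eq_right this]

lemma bmp_nonneg (x : E d) : 0 ≤ bmp x := by unfold bmp; positivity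

lemma grad_eq {u : E d → ℝ} {x v : E d} {L : E d →L[ℝ] ℝ} (h : HasFDerivAt u L x) (hL : ∀ w, L w = inner ℝ v w) :
    ∇ u x = v := by
  refine ext_inner_right ℝ fun w => ?_
  rw [inner_gradient, h.fderiv, hL]

lemma grad_bmp (x : E d) : ∇ (bmp : E d → ℝ) x = (-4 * max (1 - ‖x‖ ^ 2) 0) • x := by
  refine grad_eq (hasFDerivAt_bmp x) fun w => ?_
  rw [inner_smul_left]
  simp

/-! ### gradients of piecewise linear functions -/

lemma grad_of_eventually {u : E d → ℝ} {x a : E d} (h : u =ᶠ[𝓝 x] fun y => inner ℝ y a) : ∇ u x = a := by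
  have h1 : HasFDerivAt (fun y : E d => (inner ℝ y a : ℝ)) (innerSL ℝ a : E d →L[ℝ] ℝ) x := by
    have h2 : (fun y : E d => (inner ℝ y a : ℝ)) = fun y => innerSL ℝ a y := by
      ext y; rw [innerSL_apply_apply]; exact real_inner_comm _ _
    rw [h2]
    exact (innerSL ℝ a : E d →L[ℝ] ℝ).hasFDerivAt
  exact grad_eq (h1.congr_of_eventuallyEq h) fun w => by simp

lemma grad_zero_of_min {u : E d → ℝ} (h0 : ∀ x, 0 ≤ u x) {x : E d} (hx : u x = 0) : ∇ u x = 0 := by
  have := fderiv_eq_zero_of_nonneg h0 hx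
  simp [gradient, this]

/-! ### slope one -/

lemma hcs_of {F : Type*} [Zero F] {f : E d → F} (hf : ∀ x : E d, 1 < ‖x‖ → f x = 0) : HasCompactSupport f := by
  refine HasCompactSupport.of_support_subset_isCompact (isCompact_closedBall 0 1) fun x hx => ?_
  by_contra h
  rw [mem_closedBall_zero_iff, not_le] at h
  exact hx (hf x h)

lemma bump_zero {x : E d} (h : 1 < ‖x‖) : max (1 - ‖x‖ ^ 2) 0 = 0 := max_eq_right (by nlinarith)

lemma integral_bump_pos {v : E d → ℝ} (hv : Continuous v) (h0 : ∀ x, 0 ≤ v x) {x : E d} (hx : ‖x‖ < 1)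
    (hvx : 0 < v x) : 0 < ∫ x : E d, max (1 - ‖x‖ ^ 2) 0 * v x := by
  have hc : Continuous fun x : E d => max (1 - ‖x‖ ^ 2) 0 * v x := by fun_prop
  have hs : HasCompactSupport fun x : E d => max (1 - ‖x‖ ^ 2) 0 * v x :=
    hcs_of fun x hx => by rw [bump_zero hx, zero_mul]
  refine hc.integral_pos_of_hasCompactSupport_nonneg_nonzero hs (fun x => mul_nonneg (le_max_right _ _) (h0 x))
    (x := x) ?_
  have h1 : 0 < 1 - ‖x‖ ^ 2 := by nlinarith [norm_nonneg x]
  rw [max_eq_left h1.le]
  positivity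

lemma fderiv_bmp (x v : E d) : fderiv ℝ (bmp : E d → ℝ) x v = -4 * max (1 - ‖x‖ ^ 2) 0 * inner ℝ x v := by
  rw [(hasFDerivAt_bmp x).fderiv]; simp

end FE
open FE

/-- a linear profile which is minimising has slope one -/
theorem slope_one (hd : 1 ≤ d) {K : ℝ≥0} {a : E d} (ha : a ≠ 0) (h : LM (fun x => max (inner ℝ x a) 0) K) :
    ‖a‖ = 1 := by
  set u : E d → ℝ := fun x => max (inner ℝ x a) 0 with hu
  have hXd : ContDiff ℝ 1 (fun x : E d => bmp x • a) := contDiff_bmp.smul contDiff_const
  have hXc : HasCompactSupport (fun x : E d => bmp x • a) := bmp_supp.smul_right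
  have key := h.inner hXd hXc
  have hpa : 0 < ‖a‖ := norm_pos_iff.2 ha
  have hder : ∀ x v : E d, fderiv ℝ (fun x : E d => bmp x • a) x v = (fderiv ℝ (bmp : E d → ℝ) x v) • a := by
    intro x v
    rw [((hasFDerivAt_bmp x).smul_const a).fderiv, (hasFDerivAt_bmp x).fderiv]
    simp
  have hdv : ∀ x : E d, dv (fun x : E d => bmp x • a) x = fderiv ℝ (bmp : E d → ℝ) x a := by
    intro x
    unfold dv
    simp_rw [hder]
    conv_rhs => rw [← sum_bv a, map_sum]
    refine Finset.sum_congr rfl fun i _ => ?_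
    rw [map_smul]
    simp [mul_comm]
  have hint : ∀ x : E d, ((‖∇ u x‖ ^ 2 + pos (u x)) * dv (fun x : E d => bmp x • a) x -
      2 * inner ℝ (∇ u x) (fderiv ℝ (fun x : E d => bmp x • a) x (∇ u x))) =
      (-4 * (1 - ‖a‖ ^ 2)) * (max (1 - ‖x‖ ^ 2) 0 * u x) := by
    intro x
    rcases lt_or_ge 0 (inner ℝ x a : ℝ) with hx | hx
    · have hg : ∇ u x = a := by
        refine grad_of_eventually ?_
        have : IsOpen {y : E d | 0 < (inner ℝ y a : ℝ)} := isOpen_lt continuous_const (by fun_prop)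
        filter_upwards [this.mem_nhds hx] with y hy
        simp only [hu]
        exact max_eq_left (le_of_lt hy)
      have hux : u x = inner ℝ x a := max_eq_left hx.le
      rw [hg, hder, hdv, hux, pos_of_pos hx, inner_smul_right, real_inner_self_eq_norm_sq, fderiv_bmp]
      ring
    · have hux : u x = 0 := max_eq_right hx
      have hg : ∇ u x = 0 := grad_zero_of_min h.nonneg hux
      rw [hg, hux, pos_of_nonpos le_rfl]
      simp
  change (∫ x, ((‖∇ u x‖ ^ 2 + pos (u x)) * dv (fun x : E d => bmp x • a) x -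
      2 * inner ℝ (∇ u x) (fderiv ℝ (fun x : E d => bmp x • a) x (∇ u x)))) = 0 at key
  simp_rw [hint] at key
  rw [integral_const_mul] at key
  have hpos : 0 < ∫ x : E d, max (1 - ‖x‖ ^ 2) 0 * u x := by
    refine integral_bump_pos (by fun_prop) h.nonneg (x := (1 / (2 * ‖a‖)) • a) ?_ ?_
    · rw [norm_smul, Real.norm_of_nonneg (by positivity)]
      field_simp; norm_num
    · simp only [hu]
      rw [inner_smul_left, real_inner_self_eq_norm_sq]
      refine lt_max_of_lt_left ?_
      simp; positivity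
  have h1 : -4 * (1 - ‖a‖ ^ 2) = 0 := by
    rcases mul_eq_zero.1 key with h | h
    · exact h
    · exact absurd h hpos.ne'
  have h2 : (‖a‖ - 1) * (‖a‖ + 1) = 0 := by linarith
  rcases mul_eq_zero.1 h2 with h | h
  · linarith
  · linarith

namespace FE

lemma int_gb : Integrable (fun x : E d => ‖∇ (bmp : E d → ℝ) x‖ ^ 2) := by
  simp_rw [grad_bmp]
  exact Continuous.integrable_of_hasCompactSupport (by fun_prop) (hcs_of fun x hx => by rw [bump_zero hx]; simp)

lemma bmp_lip : ∃ L : ℝ≥0, LipschitzWith L (bmp : E d → ℝ) :=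
  (contDiff_bmp (d := d)).lipschitzWith_of_hasCompactSupport bmp_supp (by norm_num)

lemma lip_add_bmp {u : E d → ℝ} {K L : ℝ≥0} (hu : LipschitzWith K u) (hL : LipschitzWith L (bmp : E d → ℝ))
    {t : ℝ} (ht : 0 ≤ t) : LipschitzWith (K + Real.toNNReal t * L) (fun x => u x + t * bmp x) := by
  refine hu.add ?_
  refine LipschitzWith.of_dist_le_mul fun x y => ?_
  have := hL.dist_le_mul x y
  rw [Real.dist_eq] at this ⊢
  rw [← mul_sub, abs_mul, abs_of_nonneg ht]
  push_cast
  rw [Real.coe_toNNReal t ht, mul_assoc]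
  exact mul_le_mul_of_nonneg_left this ht

lemma volume_hyperplane {a : E d} (ha : a ≠ 0) : volume {x : E d | (inner ℝ x a : ℝ) = 0} = 0 := by
  have h1 : {x : E d | (inner ℝ x a : ℝ) = 0} = ((ℝ ∙ a)ᗮ : Submodule ℝ (E d)) := by
    ext x
    rw [SetLike.mem_coe, Submodule.mem_orthogonal_singleton_iff_inner_left]
    rfl
  rw [h1]
  refine Measure.addHaar_submodule _ _ fun h => ?_
  have : a ∈ (ℝ ∙ a)ᗮ := by rw [h]; trivial
  rw [Submodule.mem_orthogonal_singleton_iff_inner_left] at this
  exact ha (inner_self_eq_zero.1 this)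

end FE

/-- two opposite half-spaces are impossible -/
theorem no_two {K : ℝ≥0} {a b : E d} (ha : a ≠ 0) (hb : b ≠ 0) (hab : ∃ c : ℝ, 0 < c ∧ b = -(c • a)) :
    ¬ LM (fun x => max (inner ℝ x a) 0 + max (inner ℝ x b) 0) K := by
  intro h
  obtain ⟨c, hc, hbc⟩ := hab
  set u : E d → ℝ := fun x => max (inner ℝ x a) 0 + max (inner ℝ x b) 0 with hu
  have hpa : 0 < ‖a‖ := norm_pos_iff.2 ha
  have hib : ∀ x : E d, (inner ℝ x b : ℝ) = -(c * inner ℝ x a) := by
    intro x; rw [hbc, inner_neg_right, inner_smul_right]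
  obtain ⟨L, hL⟩ := bmp_lip (d := d)
  -- gradient of `u` off the hyperplane
  have hgu : ∀ x : E d, (inner ℝ x a : ℝ) ≠ 0 → DifferentiableAt ℝ u x ∧ inner ℝ x (∇ u x) = u x ∧ 0 < u x := by
    intro x hx
    have hop1 : IsOpen {y : E d | 0 < (inner ℝ y a : ℝ)} := isOpen_lt continuous_const (by fun_prop)
    have hop2 : IsOpen {y : E d | (inner ℝ y a : ℝ) < 0} := isOpen_lt (by fun_prop) continuous_const
    rcases lt_or_gt_of_ne hx with hx | hx
    · have he : u =ᶠ[𝓝 x] fun y => inner ℝ y b := by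
        filter_upwards [hop2.mem_nhds hx] with y hy
        simp only [hu] at hy ⊢
        rw [max_eq_right hy.le, max_eq_left (by rw [hib]; nlinarith), zero_add]
      have hux : u x = inner ℝ x b := he.eq_of_nhds
      refine ⟨?_, ?_, ?_⟩
      · exact DifferentiableAt.congr_of_eventuallyEq (differentiableAt_id.inner ℝ (differentiableAt_const _)) he
      · rw [grad_of_eventually he, hux]
      · rw [hux, hib]; nlinarith
    · have he : u =ᶠ[𝓝 x] fun y => inner ℝ y a := by
        filter_upwards [hop1.mem_nhds hx] with y hy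
        simp only [hu] at hy ⊢
        rw [max_eq_left hy.le, max_eq_right (by rw [hib]; nlinarith), add_zero]
      have hux : u x = inner ℝ x a := he.eq_of_nhds
      refine ⟨?_, ?_, ?_⟩
      · exact DifferentiableAt.congr_of_eventuallyEq (differentiableAt_id.inner ℝ (differentiableAt_const _)) he
      · rw [grad_of_eventually he, hux]
      · rw [hux]; exact hx
  obtain ⟨I1, hI1⟩ : ∃ I : ℝ, I = ∫ x : E d, max (1 - ‖x‖ ^ 2) 0 * u x := ⟨_, rfl⟩
  have hI1p : 0 < I1 := by
    rw [hI1]
    refine integral_bump_pos (by fun_prop) h.nonneg (x := (1 / (2 * ‖a‖)) • a) ?_ ?_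
    · rw [norm_smul, Real.norm_of_nonneg (by positivity)]
      field_simp; norm_num
    · refine (hgu _ ?_).2.2
      rw [inner_smul_left, real_inner_self_eq_norm_sq]
      simp; exact ha
  obtain ⟨I2, hI2⟩ : ∃ I : ℝ, I = ∫ x : E d, ‖∇ (bmp : E d → ℝ) x‖ ^ 2 := ⟨_, rfl⟩
  have hI2n : 0 ≤ I2 := by rw [hI2]; exact integral_nonneg fun x => by positivity
  -- the energy of the competitor
  have hen : ∀ t : ℝ, 0 < t → dJ (fun x => u x + t * bmp x) u = -(8 * t * I1) + t ^ 2 * I2 := by
    intro t ht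
    have hae : ∀ᵐ x : E d, (inner ℝ x a : ℝ) ≠ 0 := by
      rw [ae_iff]
      simpa using volume_hyperplane ha
    have h1 : (fun x => eD (fun x => u x + t * bmp x) u x) =ᵐ[volume]
        fun x => (-(8 * t)) * (max (1 - ‖x‖ ^ 2) 0 * u x) + t ^ 2 * ‖∇ (bmp : E d → ℝ) x‖ ^ 2 := by
      filter_upwards [hae] with x hx
      obtain ⟨hdu, hiu, hpu⟩ := hgu x hx
      have hgw : ∇ (fun x => u x + t * bmp x) x = ∇ u x + t • ∇ (bmp : E d → ℝ) x := by
        have hf : HasFDerivAt (fun x => u x + t * bmp x) (fderiv ℝ u x + t • fderiv ℝ (bmp : E d → ℝ) x) x :=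
          hdu.hasFDerivAt.add (((hasFDerivAt_bmp x).differentiableAt.hasFDerivAt).const_mul t)
        refine grad_eq hf fun w => ?_
        rw [inner_add_left, inner_smul_left, inner_gradient, inner_gradient]
        simp
      have hpw : 0 < u x + t * bmp x := by
        have := mul_nonneg ht.le (bmp_nonneg x); linarith
      rw [eD, hgw, pos_of_pos hpu, pos_of_pos hpw, norm_add_sq_real, norm_smul, inner_smul_right, grad_bmp,
        inner_smul_right, real_inner_comm, hiu]
      rw [Real.norm_of_nonneg ht.le]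
      ring
    rw [dJ, integral_congr_ae h1, integral_add, integral_const_mul, integral_const_mul, ← hI1, ← hI2]
    · ring
    · refine Integrable.const_mul ?_ _
      exact Continuous.integrable_of_hasCompactSupport (by fun_prop) (hcs_of fun x hx => by rw [bump_zero hx, zero_mul])
    · exact int_gb.const_mul _
  obtain ⟨t, ht⟩ : ∃ t : ℝ, t = I1 / (I2 + 1) := ⟨_, rfl⟩
  have htp : 0 < t := by rw [ht]; exact div_pos hI1p (by linarith)
  have hc2 : HasCompactSupport (fun x => (u x + t * bmp x) - u x) := by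
    have : (fun x => (u x + t * bmp x) - u x) = fun x => t * bmp x := by ext x; ring
    rw [this]
    exact bmp_supp.mul_left
  have hn2 : ∀ x, 0 ≤ u x + t * bmp x := fun x => add_nonneg (h.nonneg x) (mul_nonneg htp.le (bmp_nonneg x))
  have hmin : 0 ≤ dJ (fun x => u x + t * bmp x) u := LM.dJ_nonneg h (lip_add_bmp h.lip hL htp.le) hn2 hc2
  rw [hen t htp] at hmin
  have h3 : t * I2 < I1 := by
    rw [ht, div_mul_eq_mul_div, div_lt_iff₀ (by positivity)]
    have := mul_pos hI1p one_pos
    linarith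
  have h4 : t * (t * I2) < t * I1 := mul_lt_mul_of_pos_left h3 htp
  have h5 : t ^ 2 * I2 = t * (t * I2) := by ring
  have h6 : 8 * t * I1 = 8 * (t * I1) := by ring
  have h7 : 0 < t * I1 := mul_pos htp hI1p
  rw [h5, h6] at hmin
  linarith

/-! ### cones with vanishing Hessian -/

namespace FE

lemma hom1_zero {u : E d → ℝ} (hh : Hom1 u) : u 0 = 0 := by
  have := hh 2 (by norm_num) 0
  rw [smul_zero] at this; linarith

lemma isOpen_pos {u : E d → ℝ} (hu : Continuous u) : IsOpen {x | 0 < u x} := isOpen_lt continuous_const hu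

lemma cda {K : ℝ≥0} {u : E d → ℝ} (hu : LM u K) {x : E d} (hx : 0 < u x) : ContDiffAt ℝ 2 u x :=
  (contDiffOn_infty.mp hu.harm.1 2).contDiffAt ((isOpen_pos hu.lip.continuous).mem_nhds hx)

lemma lapz {K : ℝ≥0} {u : E d → ℝ} (hu : LM u K) {x : E d} (hx : 0 < u x) : (Δ u) x = 0 := hu.harm.2 x hx

/-- Euler's identity -/
lemma euler1 {u : E d → ℝ} (hh : Hom1 u) {x : E d} (hx : DifferentiableAt ℝ u x) : fderiv ℝ u x x = u x := by
  have h1 : HasDerivAt (fun r : ℝ => r • x) x 1 := by
    simpa using (hasDerivAt_id (1 : ℝ)).smul_const x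
  have h2 : HasDerivAt (fun r : ℝ => u (r • x)) (fderiv ℝ u x x) 1 := by
    have h3 : HasFDerivAt u (fderiv ℝ u x) ((1 : ℝ) • x) := by rw [one_smul]; exact hx.hasFDerivAt
    exact h3.comp_hasDerivAt 1 h1
  have h4 : HasDerivAt (fun r : ℝ => r * u x) (u x) 1 := by
    simpa using (hasDerivAt_id (1 : ℝ)).mul_const (u x)
  have h5 : (fun r : ℝ => u (r • x)) =ᶠ[𝓝 1] fun r : ℝ => r * u x := by
    filter_upwards [Ioi_mem_nhds (zero_lt_one' ℝ)] with r hr using hh r hr x
  exact h2.unique (h4.congr_of_eventuallyEq h5)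

/-- the gradient of a one-homogeneous function is zero-homogeneous -/
lemma fderiv_hom0 {u : E d → ℝ} (hh : Hom1 u) {r : ℝ} (hr : 0 < r) (x : E d) :
    fderiv ℝ u (r • x) = fderiv ℝ u x := by
  have h1 : (fun y => u (r • y)) = fun y => r • u y := by ext y; exact hh r hr y
  have h2 : fderiv ℝ (fun y => u (r • y)) x = r • fderiv ℝ u (r • x) := fderiv_comp_smul (f := u) r
  have h3 : fderiv ℝ (fun y => r • u y) x = r • fderiv ℝ u x :=
    congrFun (fderiv_const_smul_field (R := ℝ) (𝕜 := ℝ) (f := u) r) x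
  rw [h1, h3] at h2
  have := congrArg (fun L => r⁻¹ • L) h2
  simpa [smul_smul, inv_mul_cancel₀ hr.ne'] using this.symm

lemma hess_self {u : E d → ℝ} (hh : Hom1 u) {x : E d} (hx : ContDiffAt ℝ 2 u x) :
    fderiv ℝ (fderiv ℝ u) x x = 0 := by
  have hd : DifferentiableAt ℝ (fderiv ℝ u) x :=
    (hx.fderiv_right (m := 1) (by norm_num)).differentiableAt (by simp)
  have h1 : HasDerivAt (fun r : ℝ => r • x) x 1 := by
    simpa using (hasDerivAt_id (1 : ℝ)).smul_const x
  have h2 : HasDerivAt (fun r : ℝ => fderiv ℝ u (r • x)) (fderiv ℝ (fderiv ℝ u) x x) 1 := by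
    have h3 : HasFDerivAt (fderiv ℝ u) (fderiv ℝ (fderiv ℝ u) x) ((1 : ℝ) • x) := by
      rw [one_smul]; exact hd.hasFDerivAt
    exact h3.comp_hasDerivAt 1 h1
  have h5 : (fun r : ℝ => fderiv ℝ u (r • x)) =ᶠ[𝓝 1] fun _ : ℝ => fderiv ℝ u x := by
    filter_upwards [Ioi_mem_nhds (zero_lt_one' ℝ)] with r hr using fderiv_hom0 hh hr x
  exact h2.unique ((hasDerivAt_const 1 _).congr_of_eventuallyEq h5)

/-- linear on the half-space determined by the gradient at a point -/
lemma lin_on_half {K : ℝ≥0} {u : E d → ℝ} (hu : LM u K) (hh : Hom1 u)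
    (hz : ∀ x, 0 < u x → fderiv ℝ (fderiv ℝ u) x = 0) {x0 : E d} (hx0 : 0 < u x0) :
    0 < (inner ℝ x0 (∇ u x0) : ℝ) ∧ ∀ x, 0 < (inner ℝ x (∇ u x0) : ℝ) → u x = inner ℝ x (∇ u x0) := by
  have hop := isOpen_pos hu.lip.continuous
  set a := ∇ u x0 with ha
  have hdiff : ∀ x, 0 < u x → DifferentiableAt ℝ u x := fun x hx => (cda hu hx).differentiableAt (by norm_num)
  have hdiff2 : ∀ x, 0 < u x → DifferentiableAt ℝ (fderiv ℝ u) x := fun x hx =>
    ((cda hu hx).fderiv_right (m := 1) (by norm_num)).differentiableAt (by simp)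
  have h0 : (inner ℝ x0 a : ℝ) = u x0 := by
    rw [real_inner_comm, ha, inner_gradient, euler1 hh (hdiff x0 hx0)]
  refine ⟨by rw [h0]; exact hx0, ?_⟩
  have hHo : IsOpen {x : E d | 0 < (inner ℝ x a : ℝ)} := isOpen_lt continuous_const (by fun_prop)
  have hHc : IsPreconnected {x : E d | 0 < (inner ℝ x a : ℝ)} := by
    refine Convex.isPreconnected ?_
    have : {x : E d | 0 < (inner ℝ x a : ℝ)} = {x | 0 < innerSL ℝ a x} := by
      ext x; simp only [mem_ofPred_eq, innerSL_apply_apply]; rw [real_inner_comm]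
    rw [this]
    exact convex_halfSpace_gt (innerSL ℝ a).isLinear 0
  -- the good set
  set S : Set (E d) := {x | 0 < (inner ℝ x a : ℝ) ∧ u x = inner ℝ x a ∧ ∇ u x = a} with hS
  have hSo : IsOpen S := by
    rw [isOpen_iff_mem_nhds]
    rintro x ⟨h1, h2, h3⟩
    have hux : 0 < u x := by rw [h2]; exact h1
    obtain ⟨r, hr, hb⟩ := Metric.isOpen_iff.1 (hop.inter hHo) x ⟨hux, h1⟩
    refine mem_of_superset (ball_mem_nhds x hr) fun y hy => ?_
    have hg : ∀ z ∈ ball x r, fderiv ℝ u z = fderiv ℝ u x := by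
      intro z hz'
      refine (convex_ball x r).is_const_of_fderivWithin_eq_zero (𝕜 := ℝ) (f := fderiv ℝ u) ?_ ?_ hz' (mem_ball_self hr)
      · exact fun w hw => (hdiff2 w (hb hw).1).differentiableWithinAt
      · intro w hw
        rw [fderivWithin_of_isOpen isOpen_ball hw, hz w (hb hw).1]
    have hga : ∀ z ∈ ball x r, ∇ u z = a := by
      intro z hz'
      have := hg z hz'
      rw [← h3]; unfold gradient; rw [this]
    have hlin : ∀ z ∈ ball x r, u z - inner ℝ z a = u x - inner ℝ x a := by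
      intro z hz'
      refine (convex_ball x r).is_const_of_fderivWithin_eq_zero (𝕜 := ℝ) (f := fun z => u z - inner ℝ z a) ?_ ?_ hz'
        (mem_ball_self hr)
      · exact fun w hw => ((hdiff w (hb hw).1).sub
          (differentiableAt_id.inner ℝ (differentiableAt_const _))).differentiableWithinAt
      · intro w hw
        rw [fderivWithin_of_isOpen isOpen_ball hw]
        have h5 : HasFDerivAt (fun z : E d => (inner ℝ z a : ℝ)) (innerSL ℝ a : E d →L[ℝ] ℝ) w := by
          have h2 : (fun y : E d => (inner ℝ y a : ℝ)) = fun y => innerSL ℝ a y := by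
            ext y; rw [innerSL_apply_apply]; exact real_inner_comm _ _
          rw [h2]
          exact (innerSL ℝ a : E d →L[ℝ] ℝ).hasFDerivAt
        have h7 : HasFDerivAt (fun z => u z - inner ℝ z a) (fderiv ℝ u w - innerSL ℝ a) w :=
          (hdiff w (hb hw).1).hasFDerivAt.sub h5
        rw [h7.fderiv]
        ext v
        have h6 : fderiv ℝ u w v = inner ℝ a v := by rw [← hga w hw, inner_gradient]
        simp [h6]
    refine ⟨(hb hy).2, ?_, hga y hy⟩
    have := hlin y hy
    rw [h2] at this; linarith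
  have hsub : {x : E d | 0 < (inner ℝ x a : ℝ)} ⊆ S := by
    refine hHc.subset_of_closure_inter_subset hSo ⟨x0, ?_, ?_⟩ ?_
    · change 0 < (inner ℝ x0 a : ℝ)
      rw [h0]; exact hx0
    · exact ⟨by rw [h0]; exact hx0, h0.symm, rfl⟩
    · rintro x ⟨hx1, hx2⟩
      have hx2' : 0 < (inner ℝ x a : ℝ) := hx2
      have h1 : u x = inner ℝ x a := by
        have hcl : IsClosed {x : E d | u x = inner ℝ x a} := isClosed_eq hu.lip.continuous (by fun_prop)
        exact closure_minimal (fun y hy => hy.2.1) hcl hx1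
      have hux : 0 < u x := by rw [h1]; exact hx2'
      refine ⟨hx2', h1, ?_⟩
      have hc : ContinuousAt (fun y => ∇ u y) x := by
        have h7 := (hdiff2 x hux).continuousAt
        unfold gradient
        exact ((InnerProductSpace.toDual ℝ (E d)).symm.continuous.continuousAt).comp h7
      have hfr : (𝓝[S] x).NeBot := mem_closure_iff_nhdsWithin_neBot.1 hx1
      have h8 : Tendsto (fun y => ∇ u y) (𝓝[S] x) (𝓝 (∇ u x)) := hc.tendsto.mono_left nhdsWithin_le_nhds
      have h9 : Tendsto (fun y => ∇ u y) (𝓝[S] x) (𝓝 a) := by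
        refine Tendsto.congr' ?_ tendsto_const_nhds
        filter_upwards [self_mem_nhdsWithin] with y hy using hy.2.2.symm
      exact tendsto_nhds_unique h8 h9
  exact fun x hx => (hsub hx).2.1

end FE

/-- Hessian zero in the positivity set -/
theorem flat_of_hess (hd : 1 ≤ d) {K : ℝ≥0} {u : E d → ℝ} (hu : LM u K) (hh : Hom1 u) (hne : ∃ x, u x ≠ 0)
    (hz : ∀ x, 0 < u x → fderiv ℝ (fderiv ℝ u) x = 0) : ∃ e : E d, ‖e‖ = 1 ∧ ∀ x, u x = hp e x := by
  obtain ⟨x0, hx0⟩ := hne
  have hx0 : 0 < u x0 := lt_of_le_of_ne (hu.nonneg x0) (Ne.symm hx0)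
  obtain ⟨ha0, hla⟩ := lin_on_half hu hh hz hx0
  set a := ∇ u x0 with ha
  have hane : a ≠ 0 := by rintro h; rw [h, inner_zero_right] at ha0; exact lt_irrefl _ ha0
  by_cases hcase : ∀ y, 0 < u y → 0 < (inner ℝ y a : ℝ)
  · have hueq : u = fun x => max (inner ℝ x a) 0 := by
      ext x
      rcases lt_or_ge 0 (inner ℝ x a : ℝ) with h | h
      · rw [hla x h, max_eq_left h.le]
      · rw [max_eq_right h]
        by_contra hne
        exact absurd (hcase x (lt_of_le_of_ne (hu.nonneg x) (Ne.symm hne))) (not_lt.2 h)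
    refine ⟨a, slope_one hd hane (K := K) (by rw [← hueq]; exact hu), fun x => ?_⟩
    exact congrFun hueq x
  · exfalso
    push Not at hcase
    obtain ⟨y, hy, hya⟩ := hcase
    obtain ⟨hb0, hlb⟩ := lin_on_half hu hh hz hy
    set b := ∇ u y with hb
    have hbne : b ≠ 0 := by rintro h; rw [h, inner_zero_right] at hb0; exact lt_irrefl _ hb0
    -- the two half-spaces are disjoint
    have hdisj : ∀ x : E d, 0 < (inner ℝ x a : ℝ) → 0 < (inner ℝ x b : ℝ) → False := by
      intro x h1 h2
      -- near `x` both formulas hold, so `a = b`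
      have he1 : u =ᶠ[𝓝 x] fun z => inner ℝ z a := by
        filter_upwards [(isOpen_lt continuous_const (by fun_prop : Continuous fun z : E d => (inner ℝ z a : ℝ))).mem_nhds h1]
          with z hz' using hla z hz'
      have he2 : u =ᶠ[𝓝 x] fun z => inner ℝ z b := by
        filter_upwards [(isOpen_lt continuous_const (by fun_prop : Continuous fun z : E d => (inner ℝ z b : ℝ))).mem_nhds h2]
          with z hz' using hlb z hz'
      have hab : a = b := (grad_of_eventually he1).symm.trans (grad_of_eventually he2)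
      rw [← hab] at hb0
      exact absurd hb0 (not_lt.2 hya)
    have hna : 0 < ‖a‖ ^ 2 := by have := norm_pos_iff.2 hane; positivity
    set l : ℝ := inner ℝ a b / ‖a‖ ^ 2 with hl
    set w : E d := b - l • a with hw
    have haw : (inner ℝ a w : ℝ) = 0 := by
      rw [hw, inner_sub_right, inner_smul_right, real_inner_self_eq_norm_sq, hl]
      field_simp; ring
    have hwb : (inner ℝ w b : ℝ) = ‖w‖ ^ 2 := by
      have : b = w + l • a := by rw [hw]; abel
      rw [this, inner_add_right, inner_smul_right, real_inner_comm a w, haw, real_inner_self_eq_norm_sq]; ring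
    have hw0 : w = 0 := by
      by_contra hwne
      have hwp : 0 < ‖w‖ ^ 2 := by have := norm_pos_iff.2 hwne; positivity
      refine hdisj (a + ((|inner ℝ a b| + 1) / ‖w‖ ^ 2) • w) ?_ ?_
      · have hwa : (inner ℝ w a : ℝ) = 0 := by rw [real_inner_comm]; exact haw
        rw [inner_add_left, inner_smul_left, real_inner_self_eq_norm_sq, hwa, mul_zero, add_zero]
        exact hna
      · rw [inner_add_left, inner_smul_left, hwb]
        simp only [conj_trivial]
        rw [div_mul_cancel₀ _ hwp.ne']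
        have := neg_abs_le (inner ℝ a b : ℝ)
        linarith
    have hbl : b = l • a := by rw [hw, sub_eq_zero] at hw0; exact hw0
    have hlneg : l < 0 := by
      rcases lt_trichotomy l 0 with h | h | h
      · exact h
      · rw [h, zero_smul] at hbl; exact absurd hbl hbne
      · exfalso
        refine hdisj a ?_ ?_
        · rw [real_inner_self_eq_norm_sq]; exact hna
        · rw [hbl, inner_smul_right, real_inner_self_eq_norm_sq]; positivity
    have hueq : u = fun x => max (inner ℝ x a) 0 + max (inner ℝ x b) 0 := by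
      ext x
      have hxb : (inner ℝ x b : ℝ) = l * inner ℝ x a := by rw [hbl, inner_smul_right]
      rcases lt_trichotomy (inner ℝ x a : ℝ) 0 with h | h | h
      · have h2 : 0 < (inner ℝ x b : ℝ) := by rw [hxb]; exact mul_pos_of_neg_of_neg hlneg h
        rw [max_eq_right h.le, max_eq_left h2.le, zero_add, hlb x h2]
      · rw [hxb, h, mul_zero, max_self, add_zero]
        -- continuity
        have hcl : IsClosed {z : E d | u z = inner ℝ z a} := isClosed_eq hu.lip.continuous (by fun_prop)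
        have hxc : x ∈ closure {z : E d | 0 < (inner ℝ z a : ℝ)} := by
          rw [Metric.mem_closure_iff]
          intro ε hε
          refine ⟨x + (ε / (2 * ‖a‖)) • a, ?_, ?_⟩
          · change 0 < (inner ℝ (x + (ε / (2 * ‖a‖)) • a) a : ℝ)
            rw [inner_add_left, inner_smul_left, h, real_inner_self_eq_norm_sq, zero_add]
            have := norm_pos_iff.2 hane
            simp only [conj_trivial]
            positivity
          · rw [dist_eq_norm, sub_add_cancel_left, norm_neg, norm_smul]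
            have := norm_pos_iff.2 hane
            rw [Real.norm_of_nonneg (by positivity)]
            field_simp; linarith
        have h3 : u x = inner ℝ x a := closure_minimal (fun z hz' => hla z hz') hcl hxc
        rw [h3, h]
      · have h2 : (inner ℝ x b : ℝ) < 0 := by rw [hxb]; exact mul_neg_of_neg_of_pos hlneg h
        rw [max_eq_left h.le, max_eq_right h2.le, add_zero, hla x h]
    refine no_two hane hbne ⟨-l, by linarith, by rw [hbl]; simp⟩ (K := K) ?_
    rw [← hueq]; exact hu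

namespace FE

/-- second derivatives in coordinates -/
lemma hess_coord {u : E d → ℝ} {x : E d} (hx : ContDiffAt ℝ 2 u x) :
    (Δ u) x = ∑ i, fderiv ℝ (fderiv ℝ u) x (bv i) (bv i) := by
  rw [laplacian_eq_sum hx]
  refine Finset.sum_congr rfl fun i _ => ?_
  have h4 : HasFDerivAt (fderiv ℝ u) (fderiv ℝ (fderiv ℝ u) x) x :=
    ((hx.fderiv_right (m := 1) (by norm_num)).differentiableAt (by simp)).hasFDerivAt
  rw [(h4.clm_apply (hasFDerivAt_const (bv i) x)).fderiv]
  simp

lemma bil_ext {A : E d →L[ℝ] E d →L[ℝ] ℝ} (h : ∀ i j, A (bv i) (bv j) = 0) : A = 0 := by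
  ext v w
  rw [← sum_bv v, ← sum_bv w]
  simp [h]

end FE

theorem cls_one : Cls 1 := by
  intro K u hu hh hne
  refine flat_of_hess le_rfl hu hh hne fun x hx => ?_
  have h1 := hess_coord (cda hu hx)
  rw [lapz hu hx] at h1
  simp only [Finset.univ_unique, Finset.sum_singleton] at h1
  refine bil_ext fun i j => ?_
  rw [Subsingleton.elim i default, Subsingleton.elim j default]
  exact h1.symm

theorem cls_two : Cls 2 := by
  intro K u hu hh hne
  refine flat_of_hess (by norm_num) hu hh hne fun x hx => ?_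
  have h1 := hess_coord (cda hu hx)
  rw [lapz hu hx, Fin.sum_univ_two] at h1
  have h2 := hess_self hh (cda hu hx)
  set A := fderiv ℝ (fderiv ℝ u) x with hA
  have hsym : ∀ v w, A v w = A w v := by
    intro v w
    exact (cda hu hx).isSymmSndFDerivAt (by simp) v w
  have hx0 : x ≠ 0 := by
    rintro rfl
    rw [hom1_zero hh] at hx; exact lt_irrefl _ hx
  have hxs : x = x 0 • bv 0 + x 1 • bv 1 := by
    have := sum_bv x
    rw [Fin.sum_univ_two] at this
    exact this.symm
  have e0 : x 0 * A (bv 0) (bv 0) + x 1 * A (bv 0) (bv 1) = 0 := by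
    have h3 : A x (bv 0) = 0 := by rw [h2]; rfl
    rw [hxs] at h3
    simp only [map_add, map_smul] at h3
    have h4 : x 0 * A (bv 0) (bv 0) + x 1 * A (bv 1) (bv 0) = 0 := h3
    rw [hsym (bv 1) (bv 0)] at h4
    exact h4
  have e1 : x 0 * A (bv 0) (bv 1) + x 1 * A (bv 1) (bv 1) = 0 := by
    have h3 : A x (bv 1) = 0 := by rw [h2]; rfl
    rw [hxs] at h3
    simp only [map_add, map_smul] at h3
    exact h3
  have hn : 0 < x 0 ^ 2 + x 1 ^ 2 := by
    rcases (by positivity : 0 ≤ x 0 ^ 2 + x 1 ^ 2).lt_or_eq with h | h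
    · exact h
    · exfalso; apply hx0
      have h3 : x 0 = 0 := by nlinarith [sq_nonneg (x 0), sq_nonneg (x 1)]
      have h4 : x 1 = 0 := by nlinarith [sq_nonneg (x 0), sq_nonneg (x 1)]
      rw [hxs, h3, h4]; simp
  have e2 : A (bv 1) (bv 1) = -A (bv 0) (bv 0) := by linarith
  rw [e2] at e1
  have e3 : (x 0 ^ 2 + x 1 ^ 2) * A (bv 0) (bv 0) = 0 := by
    linear_combination x 0 * e0 - x 1 * e1
  have e4 : (x 0 ^ 2 + x 1 ^ 2) * A (bv 0) (bv 1) = 0 := by
    linear_combination x 0 * e1 + x 1 * e0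
  have e5 : A (bv 0) (bv 0) = 0 := by
    rcases mul_eq_zero.1 e3 with h | h
    · exact absurd h hn.ne'
    · exact h
  have e6 : A (bv 0) (bv 1) = 0 := by
    rcases mul_eq_zero.1 e4 with h | h
    · exact absurd h hn.ne'
    · exact h
  refine bil_ext fun i j => ?_
  fin_cases i <;> fin_cases j
  · exact e5
  · exact e6
  · change A (bv 1) (bv 0) = 0
    rw [hsym, e6]
  · change A (bv 1) (bv 1) = 0
    rw [e2, e5, neg_zero]

end Crest.Agent.R097
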