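import Crest.Agent.R097.RegCone
import Crest.Agent.R097.FlatEnd

/-!
# Row 97: the induction step, from the regularity theory and the stability certificate
-/

set_option autoImplicit false
open MeasureTheory Metric Set Filter Topology InnerProductSpace
open scoped RealInnerProductSpace NNReal ENNReal Gradient Laplacian ContDiff

namespace Crest.Agent.R097

variable {d : ℕ}

/-- the conclusion of the certificate part in `E d`: a Lipschitz minimising cone all of whose free
boundary points (except the vertex) are regular has vanishing Hessian in its positivity set -/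
def RedStmt (d : ℕ) : Prop := ∀ (K : ℝ≥0) (u : E d → ℝ), LM u K → Hom1 u →
  (∀ y ∈ frontier (Om u), y ≠ 0 → RegPt u y) → ∀ x ∈ Om u, D2 u x = 0

theorem cls_succ (hd : 1 ≤ d) (h6 : F6Stmt (d + 1)) (hred : RedStmt (d + 1)) (hc : Cls d) :
    Cls (d + 1) := by
  intro K u hu hh hne
  exact flat_of_hess (Nat.succ_le_succ (Nat.zero_le d)) hu hh hne
    (hred K u hu hh fun y hy hy0 => cone_reg h6 hd hc hu hh hy hy0)

end Crest.Agent.R097
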