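import Crest.Agent.R097.Main
import Crest.Agent.R097.Hstep
import Crest.Agent.R097.F5Fin

/-!
# Row 97: final assembly (linker: helper169)

`S0128_of_red`: the statement of S0128 from the four reductions `RedStmt 3`, …, `RedStmt 6`
(stability certificates in the dimensions `n = 2, 3, 4, 5`).
-/

set_option autoImplicit false
open MeasureTheory Metric Set Filter Topology
open scoped NNReal RealInnerProductSpace Gradient ContDiff Laplacian
open Crest.AnalysisR.PDE.OnePhase

namespace Crest.Agent.R097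

/-- the induction step in all dimensions from the reductions -/
theorem hstep_of_red (h3 : RedStmt 3) (h4 : RedStmt 4) (h5 : RedStmt 5) (h6 : RedStmt 6) :
    ∀ d : ℕ, 2 ≤ d → d ≤ 5 → Cls d → Cls (d + 1) := by
  intro d hd2 hd5 hc
  have hr : RedStmt (d + 1) := by
    obtain rfl | rfl | rfl | rfl : d = 2 ∨ d = 3 ∨ d = 4 ∨ d = 5 := by omega
    · exact h3
    · exact h4
    · exact h5
    · exact h6
  exact cls_succ (by omega) (f6_final (by omega)) hr hc

/-- **S0128 from the four reductions** -/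
theorem S0128_of_red (h3 : RedStmt 3) (h4 : RedStmt 4) (h5 : RedStmt 5) (h6 : RedStmt 6)
    (d : ℕ) (hd1 : 1 ≤ d) (hd6 : d ≤ 6)
    (u : EuclideanSpace ℝ (Fin d) → ℝ) (G : EuclideanSpace ℝ (Fin d) → EuclideanSpace ℝ (Fin d))
    (hmin : IsGlobalMinimizer u G) (hhom : IsOneHomogeneous u)
    (hne : ¬ (u =ᵐ[volume] 0)) :
    ∃ e : EuclideanSpace ℝ (Fin d), ‖e‖ = 1 ∧ u =ᵐ[volume] fun x => max (inner ℝ x e) 0 :=
  final (hstep_of_red h3 h4 h5 h6) d hd1 hd6 u G hmin hhom hne

end Crest.Agent.R097
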