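import Crest.Agent.R097.HarmMax
import Crest.Agent.R097.Calc

/-!
# Row 97: Green's formula for Lipschitz functions, sub mean value property of weak subsolutions
-/

set_option autoImplicit false
open MeasureTheory Metric Set Laplacian InnerProductSpace Topology Filter
open scoped RealInnerProductSpace NNReal ENNReal ContDiff Gradient

namespace Crest.Agent.R097.Hm
noncomputable section
variable {d : ℕ}

/-- Green's formula: Lipschitz function against a smooth test function -/
theorem lip_green {K : ℝ≥0} {u : E d → ℝ} (hu : LipschitzWith K u) {ψ : E d → ℝ}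
    (hψ : ContDiff ℝ ∞ ψ) (hc : HasCompactSupport ψ) :
    ∫ x, u x * (Δ ψ) x = -∫ x, ⟪∇ u x, ∇ ψ x⟫_ℝ := by
  have hψ2 : ContDiff ℝ 2 ψ := contDiff_infty.mp hψ 2
  have hp : ∀ i : Fin d, ContDiff ℝ 1 (fun y => fderiv ℝ ψ y (bv i)) := fun i =>
    (hψ2.fderiv_right (m := 1) (by norm_num)).clm_apply contDiff_const
  have hpc : ∀ i : Fin d, HasCompactSupport (fun y => fderiv ℝ ψ y (bv i)) := fun i =>
    hc.fderiv_apply (𝕜 := ℝ) (bv i)
  have hpp : ∀ i : Fin d, Continuous (fun y => fderiv ℝ (fun z => fderiv ℝ ψ z (bv i)) y (bv i)) :=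
    fun i => ((hp i).continuous_fderiv (by norm_num)).clm_apply continuous_const
  have e1 : ∀ x, u x * (Δ ψ) x
      = ∑ i, u x * fderiv ℝ (fun z => fderiv ℝ ψ z (bv i)) x (bv i) := by
    intro x
    rw [laplacian_eq_sum hψ2.contDiffAt, Finset.mul_sum]
  have e2 : ∀ x, ⟪∇ u x, ∇ ψ x⟫_ℝ = ∑ i, fderiv ℝ u x (bv i) * fderiv ℝ ψ x (bv i) := by
    intro x
    rw [PiLp.inner_apply]
    apply Finset.sum_congr rfl
    intro i _
    rw [gradient_coord, gradient_coord]
    simp [mul_comm]
  simp_rw [e1, e2]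
  rw [integral_finsetSum, integral_finsetSum, ← Finset.sum_neg_distrib]
  · apply Finset.sum_congr rfl
    intro i _
    obtain ⟨L, hL⟩ := lip_of_contDiff_compact (hp i) (hpc i)
    have key := LipschitzWith.integral_lineDeriv_mul_eq (μ := volume) hu hL (hpc i) (bv i)
    have h1 : ∫ x, lineDeriv ℝ u x (bv i) * fderiv ℝ ψ x (bv i)
        = ∫ x, fderiv ℝ u x (bv i) * fderiv ℝ ψ x (bv i) := by
      apply integral_congr_ae
      filter_upwards [hu.ae_differentiableAt] with x hx
      rw [hx.lineDeriv_eq_fderiv]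
    have h2 : ∫ x, lineDeriv ℝ (fun y => fderiv ℝ ψ y (bv i)) x (-bv i) * u x
        = -∫ x, u x * fderiv ℝ (fun z => fderiv ℝ ψ z (bv i)) x (bv i) := by
      rw [← integral_neg]
      congr 1
      funext x
      rw [((hp i).differentiable (by norm_num)).differentiableAt.lineDeriv_eq_fderiv, map_neg]
      ring
    rw [h1, h2] at key
    linarith
  · intro i _
    obtain ⟨M, hM⟩ := (hpc i).isCompact.exists_bound_of_continuousOn (hp i).continuous.continuousOn
    refine integrable_of_bdd (C := (K * ‖bv i‖) * M) (hpc i).isCompact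
      ((measurable_fd u (bv i)).mul (hp i).continuous.measurable).aestronglyMeasurable ?_ ?_
    · intro x hx
      have : fderiv ℝ ψ x (bv i) = 0 :=
        image_eq_zero_of_notMem_tsupport (f := fun y => fderiv ℝ ψ y (bv i)) hx
      simp [this]
    · intro x hx
      rw [abs_mul]
      refine mul_le_mul ?_ (hM x hx) (abs_nonneg _) (by positivity)
      exact (ContinuousLinearMap.le_opNorm _ _).trans
        (mul_le_mul_of_nonneg_right (norm_fderiv_le_of_lip hu x) (norm_nonneg _))
  · intro i _
    exact (hu.continuous.mul (hpp i)).integrable_of_hasCompactSupport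
      ((hpc i).fderiv_apply (𝕜 := ℝ) (bv i)).mul_left

/-- weak subsolutions have monotone smooth means -/
theorem submvp_lip_ker (k : ℕ) {K : ℝ≥0} {u : E d → ℝ} (hu : LipschitzWith K u)
    {x : E d} {r : ℝ} (hr : 0 < r)
    (hs : ∀ t, 0 < t → t ≤ r → 0 ≤ ∫ y, ⟪∇ u y, ∇ (pot k t x) y⟫_ℝ) :
    kap d k * u x ≤ MM k r u x := by
  have hI : ∀ R, IntegrableOn u (ball x R) := fun R =>
    (hu.continuous.continuousOn.integrableOn_compact (isCompact_closedBall x R)).mono_set
      ball_subset_closedBall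
  have hder : ∀ s, 0 < s → HasDerivAt (fun s => MM k s u x) (∫ y, ⟪∇ u y, ∇ (pot k s x) y⟫_ℝ) s := by
    intro s hs0
    have h1 := hasDerivAt_MM k hs0 (lt_add_one s) (hI (s + 1))
    refine h1.congr_deriv ?_
    have h2 := lip_green hu (contDiff_pot k s x) (hasCompactSupport_pot k hs0 x)
    simp_rw [lap_pot k hs0] at h2
    rw [h2, neg_neg]
  have hmono : MonotoneOn (fun s => MM k s u x) (Ioc 0 r) := by
    apply monotoneOn_of_deriv_nonneg (convex_Ioc 0 r)
    · intro s hs'
      exact (hder s hs'.1).continuousAt.continuousWithinAt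
    · intro s hs'
      rw [interior_Ioc] at hs'
      exact (hder s hs'.1).differentiableAt.differentiableWithinAt
    · intro s hs'
      rw [interior_Ioc] at hs'
      rw [(hder s hs'.1).deriv]
      exact hs s hs'.1 hs'.2.le
  have hlim := tendsto_MM k hr (hI r) hu.continuous.continuousAt
  apply le_of_tendsto hlim
  filter_upwards [Ioo_mem_nhdsGT hr] with s hs'
  exact hmono ⟨hs'.1, hs'.2.le⟩ ⟨hr, le_rfl⟩ hs'.2.le

theorem submvp_lip {K : ℝ≥0} {u : E d → ℝ} (hu : LipschitzWith K u)
    (hs : ∀ (φ : E d → ℝ) (L : ℝ≥0), LipschitzWith L φ → HasCompactSupport φ → (∀ x, 0 ≤ φ x) →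
      ∫ x, inner ℝ (∇ u x) (∇ φ x) ≤ 0) (x : E d) {r : ℝ} (hr : 0 < r) :
    u x ≤ ⨍ y in ball x r, u y := by
  have h1 : ∀ k, kap d k * u x ≤ MM k r u x := by
    intro k
    apply submvp_lip_ker k hu hr
    intro t ht _
    have hc : ContDiff ℝ 1 (fun y => -pot k t x y) := (contDiff_infty.mp (contDiff_pot k t x) 1).neg
    have hcs : HasCompactSupport (fun y => -pot k t x y) := (hasCompactSupport_pot k ht x).neg
    obtain ⟨L, hL⟩ := lip_of_contDiff_compact hc hcs
    have h2 := hs _ L hL hcs (fun y => by linarith [pot_nonpos k ht.le x y])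
    have h3 : ∀ y, ∇ (fun y => -pot k t x y) y = -∇ (pot k t x) y := by
      intro y
      have h4 : fderiv ℝ (fun y => -pot k t x y) y = -fderiv ℝ (pot k t x) y := by
        have := fderiv_neg (𝕜 := ℝ) (f := pot k t x) (x := y)
        exact this
      simp [gradient, h4]
    simp_rw [h3, inner_neg_right, integral_neg] at h2
    linarith
  have hI : IntegrableOn u (closedBall x r) :=
    hu.continuous.continuousOn.integrableOn_compact (isCompact_closedBall x r)
  have h2 := le_of_tendsto_of_tendsto' ((tendsto_kap (d := d)).mul_const (u x))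
    (tendsto_MM_k hr hI) h1
  rw [setAverage_eq, measureReal_def, volume_ball_real x hr, smul_eq_mul]
  have h3 : 0 < omg d := omg_pos
  have h4 : 0 < r ^ d := by positivity
  have h5 : omg d * u x ≤ omg d * ((r ^ d * omg d)⁻¹ * (∫ y in ball x r, u y)) := by
    refine h2.trans (le_of_eq ?_)
    field_simp
  exact le_of_mul_le_mul_left h5 h3

/-- mean value property for functions harmonic in an open ball only -/
theorem mvp_ball_open {f : E d → ℝ} {x : E d} {r : ℝ} (hr : 0 < r)
    (hf2 : ContDiffOn ℝ 2 f (ball x r)) (hf0 : ∀ y ∈ ball x r, (Δ f) y = 0)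
    (hi : IntegrableOn f (ball x r)) : f x = ⨍ y in ball x r, f y := by
  set s : ℕ → Set (E d) := fun n => ball x (r * (1 - 1 / (n + 2 : ℝ))) with hs
  have hlt : ∀ n : ℕ, 0 < r * (1 - 1 / (n + 2 : ℝ)) ∧ r * (1 - 1 / (n + 2 : ℝ)) < r := by
    intro n
    have h1 : (0:ℝ) < n + 2 := by positivity
    have h2 : (1:ℝ) / (n + 2) < 1 := by rw [div_lt_one h1]; linarith [(Nat.cast_nonneg n : (0:ℝ) ≤ n)]
    have h3 : (0:ℝ) < 1 / (n + 2) := by positivity
    constructor
    · apply mul_pos hr; linarith
    · nlinarith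
  have hmono : Monotone s := by
    intro m n hmn
    apply ball_subset_ball
    apply mul_le_mul_of_nonneg_left _ hr.le
    have : (1:ℝ) / (n + 2) ≤ 1 / (m + 2) := by
      apply one_div_le_one_div_of_le (by positivity)
      have : (m:ℝ) ≤ n := by exact_mod_cast hmn
      linarith
    linarith
  have hlimr : Tendsto (fun n : ℕ => r * (1 - 1 / (n + 2 : ℝ))) atTop (𝓝 r) := by
    have h1 : Tendsto (fun n : ℕ => (1:ℝ) / (n + 2 : ℝ)) atTop (𝓝 0) := by
      have := tendsto_one_div_add_atTop_nhds_zero_nat (𝕜 := ℝ)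
      have h2 := (tendsto_add_atTop_iff_nat 1).mpr this
      refine h2.congr fun n => ?_
      push_cast
      ring_nf
    have h2 := (h1.const_sub 1).const_mul r
    simpa using h2
  have hU : (⋃ n, s n) = ball x r := by
    apply subset_antisymm
    · exact iUnion_subset fun n => ball_subset_ball (hlt n).2.le
    · intro y hy
      rw [mem_ball] at hy
      have := hlimr.eventually (lt_mem_nhds hy)
      obtain ⟨n, hn⟩ := this.exists
      exact mem_iUnion.mpr ⟨n, hn⟩
  have hlim := tendsto_setIntegral_of_monotone (μ := volume) (f := f)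
    (fun n => isOpen_ball.measurableSet (s := s n)) hmono (by rw [hU]; exact hi)
  rw [hU] at hlim
  have h1 : ∀ n : ℕ, ((r * (1 - 1 / (n + 2 : ℝ))) ^ d * omg d) * f x = ∫ y in s n, f y := by
    intro n
    have h := mean_ball (hlt n).1 (hlt n).2 hf2
      (fun y hy => hf0 y (ball_subset_ball (hlt n).2.le hy))
    rw [setAverage_eq, measureReal_def, volume_ball_real x (hlt n).1, smul_eq_mul] at h
    have h3 : 0 < omg d := omg_pos
    have h4 : 0 < (r * (1 - 1 / (n + 2 : ℝ))) ^ d := pow_pos (hlt n).1 d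
    rw [h]
    rw [← mul_assoc, mul_inv_cancel₀ (by positivity), one_mul]
  have hlim2 : Tendsto (fun n : ℕ => ((r * (1 - 1 / (n + 2 : ℝ))) ^ d * omg d) * f x) atTop
      (𝓝 ((r ^ d * omg d) * f x)) := ((hlimr.pow d).mul_const _).mul_const _
  have h2 : (r ^ d * omg d) * f x = ∫ y in ball x r, f y := by
    apply tendsto_nhds_unique hlim2
    refine hlim.congr fun n => ?_
    rw [h1 n]
  rw [setAverage_eq, measureReal_def, volume_ball_real x hr, smul_eq_mul, ← h2]
  have h3 : 0 < omg d := omg_pos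
  have h4 : 0 < r ^ d := by positivity
  field_simp

end
end Crest.Agent.R097.Hm
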