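import Crest.Agent.R097.Lip
import Crest.Agent.R097.HarmLip

/-! HF1: mean value property on balls. -/
set_option autoImplicit false
open MeasureTheory Metric Set Filter Topology
open scoped NNReal RealInnerProductSpace Gradient ContDiff Laplacian

namespace Crest.Agent.R097
variable {d : ℕ}

/-- sub-mean value inequality -/
theorem submvp_ball {f : E d → ℝ} {x : E d} {r R : ℝ} (hr : 0 < r) (hR : r < R)
    (hf : ContDiffOn ℝ 2 f (ball x R)) (hΔ : ∀ y ∈ ball x r, 0 ≤ (Δ f) y) :
    f x ≤ ⨍ y in ball x r, f y := by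
  have := Hm.sub_mean hr hR hf le_rfl (A := 0) (fun y hy => by simpa using hΔ y hy)
  simpa using this

theorem mvp_ball {f : E d → ℝ} {x : E d} {r R : ℝ} (hr : 0 < r) (hR : r < R) (hf : Harm f (ball x R)) :
    f x = ⨍ y in ball x r, f y :=
  Hm.mean_ball hr hR (contDiffOn_infty.mp hf.1 2) (fun y hy => hf.2 y (ball_subset_ball hR.le hy))

/-- version where `f` is harmonic in the open ball only, and integrable there -/
theorem mvp_ball' {f : E d → ℝ} {x : E d} {r : ℝ} (hr : 0 < r) (hf : Harm f (ball x r))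
    (hi : IntegrableOn f (ball x r)) : f x = ⨍ y in ball x r, f y :=
  Hm.mvp_ball_open hr (contDiffOn_infty.mp hf.1 2) hf.2 hi

/-- weak subsolutions: a Lipschitz function with `∫ ∇u·∇φ ≤ 0` for all nonnegative Lipschitz `φ` with compact
support has the sub-mean value property -/
theorem submvp_lip {K : ℝ≥0} {u : E d → ℝ} (hu : LipschitzWith K u)
    (hs : ∀ (φ : E d → ℝ) (L : ℝ≥0), LipschitzWith L φ → HasCompactSupport φ → (∀ x, 0 ≤ φ x) →
      ∫ x, inner ℝ (∇ u x) (∇ φ x) ≤ 0) (x : E d) {r : ℝ} (hr : 0 < r) :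
    u x ≤ ⨍ y in ball x r, u y := Hm.submvp_lip hu hs x hr

end Crest.Agent.R097
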