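import Crest.Agent.R097.HarmWeyl

/-!
# Row 97: derivative estimates for harmonic functions
-/

set_option autoImplicit false
open MeasureTheory Metric Set Laplacian InnerProductSpace Topology Filter
open scoped RealInnerProductSpace NNReal ENNReal ContDiff Gradient

namespace Crest.Agent.R097.Hm
noncomputable section
variable {d : ℕ}

lemma ker_lip (d : ℕ) (k : ℕ) : ∃ L : ℝ, 0 ≤ L ∧ ∀ (t : ℝ) (x z y : E d), 0 < t →
    |ker k t z y - ker k t x y| ≤ L * (t ^ (d + 1))⁻¹ * ‖z - x‖ := by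
  have hc : ContDiff ℝ 1 (ker k 1 (0 : E d)) := contDiff_infty.mp (contDiff_ker k 1 0) 1
  obtain ⟨L, hL⟩ := lip_of_contDiff_compact hc (hasCompactSupport_ker k one_pos 0)
  refine ⟨L, L.2, fun t x z y ht => ?_⟩
  have h1 : ∀ w : E d, ker k t w y = (t ^ d)⁻¹ * ker k 1 (0 : E d) (t⁻¹ • (y - w)) := by
    intro w
    unfold ker
    rw [sub_zero, norm_smul, norm_inv, Real.norm_eq_abs, abs_of_pos ht]
    simp only [one_pow, inv_one, one_mul, div_one]
    congr 2
    field_simp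
  rw [h1 z, h1 x, ← mul_sub, abs_mul, abs_of_pos (by positivity : 0 < (t ^ d)⁻¹)]
  have h2 := hL.dist_le_mul (t⁻¹ • (y - z)) (t⁻¹ • (y - x))
  rw [Real.dist_eq, dist_eq_norm, ← smul_sub, norm_smul, norm_inv, Real.norm_eq_abs,
    abs_of_pos ht] at h2
  have h3 : y - z - (y - x) = -(z - x) := by abel
  rw [h3, norm_neg] at h2
  calc (t ^ d)⁻¹ * |ker k 1 (0 : E d) (t⁻¹ • (y - z)) - ker k 1 (0 : E d) (t⁻¹ • (y - x))|
      ≤ (t ^ d)⁻¹ * (L * (t⁻¹ * ‖z - x‖)) := mul_le_mul_of_nonneg_left h2 (by positivity)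
    _ = L * (t ^ (d + 1))⁻¹ * ‖z - x‖ := by
      rw [pow_succ, mul_inv]
      ring

/-- gradient estimate by the mean of the absolute value -/
theorem grad_mean (d : ℕ) : ∃ C : ℝ, 0 < C ∧ ∀ (f : E d → ℝ) (x : E d) (r : ℝ), 0 < r →
    ContDiffOn ℝ 2 f (ball x r) → (∀ y ∈ ball x r, (Δ f) y = 0) →
    IntegrableOn f (ball x r) → ‖fderiv ℝ f x‖ ≤ C / r * ⨍ y in ball x r, |f y| := by
  obtain ⟨L, hL0, hL⟩ := ker_lip d 1
  have hκ : 0 < kap d 1 := kap_pos 1
  have hω : 0 < omg d := omg_pos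
  refine ⟨(kap d 1)⁻¹ * (L + 1) * 2 ^ (d + 1) * omg d, by positivity, ?_⟩
  intro f x r hr hf h0 hi
  have ht : 0 < r / 2 := by linarith
  have hrep : ∀ z ∈ ball x (r / 2), f z = (kap d 1)⁻¹ * MM 1 (r / 2) f z := by
    intro z hz
    rw [mem_ball] at hz
    have hsub : ball z (r - dist z x) ⊆ ball x r := by
      intro y hy
      rw [mem_ball] at hy ⊢
      have := dist_triangle y z x
      linarith
    rw [mean_ker 1 ht (show r / 2 < r - dist z x by linarith) (hf.mono hsub)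
      (fun y hy => h0 y (hsub (ball_subset_ball (by linarith) hy)))]
    rw [← mul_assoc, inv_mul_cancel₀ hκ.ne', one_mul]
  have hfx : DifferentiableAt ℝ f x :=
    (hf.contDiffAt (ball_mem_nhds x hr)).differentiableAt (by norm_num)
  set I : ℝ := ∫ y in ball x r, |f y| with hI
  have hI0 : 0 ≤ I := integral_nonneg fun y => abs_nonneg _
  have hbound : ‖fderiv ℝ f x‖ ≤ (kap d 1)⁻¹ * (L * ((r / 2) ^ (d + 1))⁻¹ * I) := by
    apply hfx.hasFDerivAt.le_of_lip' (by positivity)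
    filter_upwards [ball_mem_nhds x ht] with z hz
    have hx2 : x ∈ ball x (r / 2) := mem_ball_self ht
    rw [hrep z hz, hrep x hx2, ← mul_sub, norm_mul, Real.norm_eq_abs, Real.norm_eq_abs,
      abs_of_pos (inv_pos.mpr hκ), mul_assoc]
    apply mul_le_mul_of_nonneg_left _ (inv_pos.mpr hκ).le
    have hcb : ∀ w ∈ ball x (r / 2), closedBall w (r / 2) ⊆ ball x r := by
      intro w hw y hy
      rw [mem_ball] at hw ⊢
      rw [mem_closedBall] at hy
      have := dist_triangle y w x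
      linarith
    have hiz := integrable_mul_ker 1 ht (hi.mono_set (hcb z hz))
    have hix := integrable_mul_ker 1 ht (hi.mono_set (hcb x hx2))
    have h1 : MM 1 (r / 2) f z - MM 1 (r / 2) f x
        = ∫ y, (f y * ker 1 (r / 2) z y - f y * ker 1 (r / 2) x y) := by
      unfold MM
      rw [← integral_sub hiz hix]
    rw [h1, ← Real.norm_eq_abs]
    have h2 : ‖∫ y, (f y * ker 1 (r / 2) z y - f y * ker 1 (r / 2) x y)‖
        ≤ ∫ y, (ball x r).indicator (fun y => |f y| * (L * ((r / 2) ^ (d + 1))⁻¹ * ‖z - x‖)) y := by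
      refine norm_integral_le_of_norm_le ?_ (Filter.Eventually.of_forall fun y => ?_)
      · have hI2 : IntegrableOn (fun y => |f y| * (L * ((r / 2) ^ (d + 1))⁻¹ * ‖z - x‖))
            (ball x r) := hi.abs.mul_const _
        exact hI2.integrable_indicator isOpen_ball.measurableSet
      · by_cases hy : y ∈ ball x r
        · rw [indicator_of_mem hy, ← mul_sub, norm_mul, Real.norm_eq_abs, Real.norm_eq_abs]
          exact mul_le_mul_of_nonneg_left (hL _ _ _ _ ht) (abs_nonneg _)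
        · rw [indicator_of_notMem hy]
          have hy1 : ker 1 (r / 2) z y = 0 := by
            apply ker_zero 1 ht
            by_contra hcon
            push Not at hcon
            exact hy (hcb z hz (by rw [mem_closedBall, dist_eq_norm]; exact hcon.le))
          have hy2 : ker 1 (r / 2) x y = 0 := by
            apply ker_zero 1 ht
            by_contra hcon
            push Not at hcon
            exact hy (hcb x hx2 (by rw [mem_closedBall, dist_eq_norm]; exact hcon.le))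
          rw [hy1, hy2]
          simp
    refine h2.trans (le_of_eq ?_)
    rw [integral_indicator isOpen_ball.measurableSet, integral_mul_const]
    ring
  refine hbound.trans ?_
  rw [setAverage_eq, measureReal_def, volume_ball_real x hr, smul_eq_mul]
  have h3 : (kap d 1)⁻¹ * (L * ((r / 2) ^ (d + 1))⁻¹ * I)
      ≤ (kap d 1)⁻¹ * ((L + 1) * ((r / 2) ^ (d + 1))⁻¹ * I) := by
    apply mul_le_mul_of_nonneg_left _ (inv_pos.mpr hκ).le
    apply mul_le_mul_of_nonneg_right _ hI0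
    apply mul_le_mul_of_nonneg_right (by linarith) (by positivity)
  refine h3.trans (le_of_eq ?_)
  rw [div_pow, pow_succ r d, ← hI]
  have hr' : r ≠ 0 := hr.ne'
  field_simp

/-- gradient estimate by the sup -/
theorem grad_sup (d : ℕ) : ∃ C : ℝ, 0 < C ∧ ∀ (f : E d → ℝ) (x : E d) (r B : ℝ), 0 < r →
    ContDiffOn ℝ 2 f (ball x r) → (∀ y ∈ ball x r, (Δ f) y = 0) →
    (∀ y ∈ ball x r, |f y| ≤ B) → ‖fderiv ℝ f x‖ ≤ C * B / r := by
  obtain ⟨C, hC0, hC⟩ := grad_mean d
  refine ⟨C, hC0, fun f x r B hr hf h0 hB => ?_⟩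
  have hi : IntegrableOn f (ball x r) := by
    have : IsFiniteMeasure (volume.restrict (ball x r)) :=
      ⟨by rw [Measure.restrict_apply_univ]; exact measure_ball_lt_top⟩
    refine Integrable.of_bound (C := B)
      (hf.continuousOn.aestronglyMeasurable isOpen_ball.measurableSet) ?_
    rw [ae_restrict_iff' isOpen_ball.measurableSet]
    exact Eventually.of_forall fun y hy => by simpa using hB y hy
  refine (hC f x r hr hf h0 hi).trans ?_
  have h1 : (⨍ y in ball x r, |f y|) ≤ B := by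
    rw [setAverage_eq, measureReal_def, volume_ball_real x hr, smul_eq_mul]
    have h2 : (∫ y in ball x r, |f y|) ≤ (r ^ d * omg d) * B := by
      have h3 := setIntegral_mono_on hi.abs (integrableOn_const (C := B)
        (measure_ball_lt_top (μ := (volume : Measure (E d))) (x := x) (r := r)).ne)
        isOpen_ball.measurableSet (fun y hy => hB y hy)
      rw [setIntegral_const, measureReal_def, volume_ball_real x hr, smul_eq_mul] at h3
      exact h3
    have hω : 0 < omg d := omg_pos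
    rw [inv_mul_le_iff₀ (by positivity)]
    exact h2
  calc C / r * (⨍ y in ball x r, |f y|) ≤ C / r * B :=
        mul_le_mul_of_nonneg_left h1 (by positivity)
    _ = C * B / r := by ring

/-! ### vector valued functions -/

variable {F : Type} [NormedAddCommGroup F] [NormedSpace ℝ F]

/-- gradient estimate for vector valued harmonic functions -/
theorem grad_sup_F (d : ℕ) : ∃ C : ℝ, 0 < C ∧ ∀ {F : Type} [NormedAddCommGroup F]
    [NormedSpace ℝ F] (f : E d → F) (x : E d) (r B : ℝ), 0 < r →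
    ContDiffOn ℝ 2 f (ball x r) → (∀ y ∈ ball x r, (Δ f) y = 0) →
    (∀ y ∈ ball x r, ‖f y‖ ≤ B) → ‖fderiv ℝ f x‖ ≤ C * B / r := by
  obtain ⟨C, hC0, hC⟩ := grad_sup d
  refine ⟨C, hC0, ?_⟩
  intro F _ _ f x r B hr hf h0 hB
  have hB0 : 0 ≤ B := (norm_nonneg _).trans (hB x (mem_ball_self hr))
  apply ContinuousLinearMap.opNorm_le_bound _ (by positivity)
  intro v
  apply NormedSpace.norm_le_dual_bound ℝ _ (by positivity)
  intro ℓ
  have hd : DifferentiableAt ℝ f x :=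
    (hf.contDiffAt (ball_mem_nhds x hr)).differentiableAt (by norm_num)
  have h1 := hC (ℓ ∘ f) x r (‖ℓ‖ * B) hr (ℓ.contDiff.comp_contDiffOn hf)
    (fun y hy => by
      rw [(hf.contDiffAt (isOpen_ball.mem_nhds hy)).laplacian_CLM_comp_left]
      simp [h0 y hy])
    (fun y hy => (ℓ.le_opNorm _).trans (mul_le_mul_of_nonneg_left (hB y hy) (norm_nonneg _)))
  have h2 : fderiv ℝ (ℓ ∘ f) x = ℓ.comp (fderiv ℝ f x) :=
    (ℓ.hasFDerivAt.comp x hd.hasFDerivAt).fderiv
  rw [h2] at h1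
  calc ‖ℓ ((fderiv ℝ f x) v)‖ = ‖(ℓ.comp (fderiv ℝ f x)) v‖ := rfl
    _ ≤ ‖ℓ.comp (fderiv ℝ f x)‖ * ‖v‖ := ContinuousLinearMap.le_opNorm _ _
    _ ≤ (C * (‖ℓ‖ * B) / r) * ‖v‖ := mul_le_mul_of_nonneg_right h1 (norm_nonneg _)
    _ = C * B / r * ‖v‖ * ‖ℓ‖ := by ring

lemma lap_F {f : E d → F} {x : E d} :
    (Δ f) x = ∑ i : Fin d, fderiv ℝ (fderiv ℝ f) x (bv i) (bv i) := by
  rw [laplacian_eq_iteratedFDeriv_orthonormalBasis f (EuclideanSpace.basisFun (Fin d) ℝ)]
  refine Finset.sum_congr rfl fun i _ => ?_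
  rw [iteratedFDeriv_two_apply]
  simp [bv]

lemma hasFDerivAt_app {G : E d → (E d →L[ℝ] F)} {G' : E d →L[ℝ] E d →L[ℝ] F} {x : E d}
    (h : HasFDerivAt G G' x) (a : E d) : HasFDerivAt (fun y => G y a) (G'.flip a) x := by
  have := h.clm_apply (hasFDerivAt_const a x)
  simpa using this

lemma hasFDerivAt_app2 {G : E d → (E d →L[ℝ] E d →L[ℝ] F)}
    {G' : E d →L[ℝ] E d →L[ℝ] E d →L[ℝ] F} {x : E d}
    (h : HasFDerivAt G G' x) (a b : E d) :
    HasFDerivAt (fun y => G y a b) ((G'.flip a).flip b) x :=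
  hasFDerivAt_app (hasFDerivAt_app (F := E d →L[ℝ] F) h a) b

lemma symm2 {f : E d → F} {x : E d} (h : ContDiffAt ℝ ∞ f x) (v w : E d) :
    fderiv ℝ (fderiv ℝ f) x v w = fderiv ℝ (fderiv ℝ f) x w v :=
  h.isSymmSndFDerivAt (by simpa using (ENat.LEInfty.out : (2 : WithTop ℕ∞) ≤ ((⊤ : ℕ∞) : WithTop ℕ∞))) v w

/-- symmetry of the third derivative in the last two arguments -/
lemma symm3 {f : E d → F} {x : E d} (h : ContDiffAt ℝ ∞ f x) (u v w : E d) :
    fderiv ℝ (fderiv ℝ (fderiv ℝ f)) x u v w = fderiv ℝ (fderiv ℝ (fderiv ℝ f)) x u w v := by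
  have hD1 : ContDiffAt ℝ ∞ (fderiv ℝ f) x := h.fderiv_right (by simp)
  have hD2 : ContDiffAt ℝ ∞ (fderiv ℝ (fderiv ℝ f)) x := hD1.fderiv_right (by simp)
  have hD3 : HasFDerivAt (fderiv ℝ (fderiv ℝ f)) (fderiv ℝ (fderiv ℝ (fderiv ℝ f)) x) x :=
    (hD2.differentiableAt (by simp)).hasFDerivAt
  have e1 := hasFDerivAt_app2 hD3 v w
  have e2 := hasFDerivAt_app2 hD3 w v
  have e3 : (fun y => fderiv ℝ (fderiv ℝ f) y v w) =ᶠ[𝓝 x]
      (fun y => fderiv ℝ (fderiv ℝ f) y w v) := by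
    have hev : ∀ᶠ y in 𝓝 x, ContDiffAt ℝ 2 f y :=
      (contDiffAt_infty.mp h 2).eventually (by simp)
    filter_upwards [hev] with y hy
    exact hy.isSymmSndFDerivAt (by simp) v w
  have e4 := (e2.congr_of_eventuallyEq e3).unique e1
  have e5 := congrArg (fun T : E d →L[ℝ] F => T u) e4
  simpa using e5.symm

/-- the derivative of a harmonic function is harmonic -/
theorem lap_fderiv {f : E d → F} {U : Set (E d)} (hU : IsOpen U) (hf : ContDiffOn ℝ ∞ f U)
    (h0 : ∀ x ∈ U, (Δ f) x = 0) : ∀ x ∈ U, (Δ (fderiv ℝ f)) x = 0 := by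
  intro x hx
  have hfa : ContDiffAt ℝ ∞ f x := hf.contDiffAt (hU.mem_nhds hx)
  have hD1 : ContDiffAt ℝ ∞ (fderiv ℝ f) x := hfa.fderiv_right (by simp)
  have hD2 : ContDiffAt ℝ ∞ (fderiv ℝ (fderiv ℝ f)) x := hD1.fderiv_right (by simp)
  have hD3 : HasFDerivAt (fderiv ℝ (fderiv ℝ f)) (fderiv ℝ (fderiv ℝ (fderiv ℝ f)) x) x :=
    (hD2.differentiableAt (by simp)).hasFDerivAt
  rw [lap_F]
  ext v
  -- derivative of the Laplacian
  have h1 : HasFDerivAt (fun y => ∑ i : Fin d, fderiv ℝ (fderiv ℝ f) y (bv i) (bv i))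
      (∑ i : Fin d, ((fderiv ℝ (fderiv ℝ (fderiv ℝ f)) x).flip (bv i)).flip (bv i)) x := by
    apply HasFDerivAt.fun_sum
    intro i _
    exact hasFDerivAt_app2 hD3 (bv i) (bv i)
  have h2 : (fun y => ∑ i : Fin d, fderiv ℝ (fderiv ℝ f) y (bv i) (bv i)) =ᶠ[𝓝 x]
      fun _ => (0 : F) := by
    filter_upwards [hU.mem_nhds hx] with y hy
    rw [← lap_F]
    exact h0 y hy
  have h3 := h1.unique ((hasFDerivAt_const (0 : F) x).congr_of_eventuallyEq h2)
  have h4 : ∑ i : Fin d, fderiv ℝ (fderiv ℝ (fderiv ℝ f)) x v (bv i) (bv i) = 0 := by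
    have := congrArg (fun T : E d →L[ℝ] F => T v) h3
    simpa using this
  have h5 : (∑ i : Fin d, fderiv ℝ (fderiv ℝ (fderiv ℝ f)) x (bv i) (bv i)) v
      = ∑ i : Fin d, fderiv ℝ (fderiv ℝ (fderiv ℝ f)) x (bv i) (bv i) v := by
    simp
  rw [h5]
  have h6 : ∀ i : Fin d, fderiv ℝ (fderiv ℝ (fderiv ℝ f)) x (bv i) (bv i) v
      = fderiv ℝ (fderiv ℝ (fderiv ℝ f)) x v (bv i) (bv i) := by
    intro i
    rw [symm3 hfa (bv i) (bv i) v, symm2 hD1 (bv i) v]
  simp_rw [h6, h4]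
  simp

lemma contDiffOn_fderiv {f : E d → F} {U : Set (E d)} (hU : IsOpen U) (hf : ContDiffOn ℝ ∞ f U) :
    ContDiffOn ℝ ∞ (fderiv ℝ f) U := by
  intro x hx
  exact ((hf.contDiffAt (hU.mem_nhds hx)).fderiv_right (by simp)).contDiffWithinAt

/-- all derivatives -/
theorem deriv_sup_F (d k : ℕ) : ∃ C : ℝ, 0 < C ∧ ∀ {F : Type} [NormedAddCommGroup F]
    [NormedSpace ℝ F] (f : E d → F) (x : E d) (r B : ℝ), 0 < r →
    ContDiffOn ℝ ∞ f (ball x r) → (∀ y ∈ ball x r, (Δ f) y = 0) →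
    (∀ y ∈ ball x r, ‖f y‖ ≤ B) → ‖iteratedFDeriv ℝ k f x‖ ≤ C * B / r ^ k := by
  obtain ⟨C1, hC10, hC1⟩ := grad_sup_F d
  induction k with
  | zero =>
    refine ⟨1, one_pos, ?_⟩
    intro F _ _ f x r B hr _ _ hB
    simpa using hB x (mem_ball_self hr)
  | succ k ih =>
    obtain ⟨C, hC0, hC⟩ := ih
    refine ⟨C * (2 * C1) * 2 ^ k, by positivity, ?_⟩
    intro F _ _ f x r B hr hf h0 hB
    rw [← norm_iteratedFDeriv_fderiv]
    have hr2 : 0 < r / 2 := by linarith
    have hsub : ball x (r / 2) ⊆ ball x r := ball_subset_ball (by linarith)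
    have hsub2 : ∀ y ∈ ball x (r / 2), ball y (r / 2) ⊆ ball x r := by
      intro y hy z hz
      rw [mem_ball] at hy hz ⊢
      have := dist_triangle z y x
      linarith
    have h1 := hC (fderiv ℝ f) x (r / 2) (C1 * B / (r / 2)) hr2
      ((contDiffOn_fderiv isOpen_ball hf).mono hsub)
      (fun y hy => lap_fderiv isOpen_ball hf h0 y (hsub hy))
      (fun y hy => hC1 f y (r / 2) B hr2 (contDiffOn_infty.mp (hf.mono (hsub2 y hy)) 2)
        (fun z hz => h0 z (hsub2 y hy hz)) (fun z hz => hB z (hsub2 y hy hz)))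
    refine h1.trans (le_of_eq ?_)
    rw [div_pow, pow_succ r k]
    have hr' : r ≠ 0 := hr.ne'
    field_simp

end
end Crest.Agent.R097.Hm
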