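import Crest.Agent.R097.HarmLip

/-!
# Row 97: smoothness of harmonic functions, Weyl's lemma
-/

set_option autoImplicit false
open MeasureTheory Metric Set Laplacian InnerProductSpace Topology Filter
open scoped RealInnerProductSpace NNReal ENNReal ContDiff Gradient Convolution

namespace Crest.Agent.R097.Hm
noncomputable section
variable {d : ℕ}

/-- smooth means of integrable functions are smooth (global version) -/
lemma contDiff_MM (k : ℕ) {t : ℝ} (ht : 0 < t) {u : E d → ℝ} (hu : LocallyIntegrable u) :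
    ContDiff ℝ ∞ (fun x => MM k t u x) := by
  have h1 : (fun x => MM k t u x)
      = (u ⋆[ContinuousLinearMap.mul ℝ ℝ, volume] (ker k t (0 : E d))) := by
    funext x
    rw [convolution_def]
    unfold MM
    congr 1
    funext y
    simp only [ContinuousLinearMap.mul_apply']
    congr 1
    unfold ker
    rw [sub_zero, norm_sub_rev]
  rw [h1]
  exact HasCompactSupport.contDiff_convolution_right _ (hasCompactSupport_ker k ht 0) hu
    (contDiff_ker k t 0)

/-- smooth means only depend on the values in the ball -/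
lemma MM_congr (k : ℕ) {t : ℝ} (ht : 0 < t) {u v : E d → ℝ} {x : E d}
    (h : ∀ᵐ y, y ∈ ball x t → u y = v y) : MM k t u x = MM k t v x := by
  unfold MM
  apply integral_congr_ae
  filter_upwards [h] with y hy
  by_cases hyx : y ∈ ball x t
  · rw [hy hyx]
  · rw [mem_ball, dist_eq_norm, not_lt] at hyx
    rw [ker_zero k ht hyx]; simp

/-- smooth means are smooth, local version -/
lemma contDiffOn_MM (k : ℕ) {t : ℝ} (ht : 0 < t) {u : E d → ℝ} {x0 : E d} {R : ℝ}
    (hu : IntegrableOn u (ball x0 R)) :
    ContDiffOn ℝ ∞ (fun x => MM k t u x) (ball x0 (R - t)) := by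
  have h1 : Integrable ((ball x0 R).indicator u) := hu.integrable_indicator isOpen_ball.measurableSet
  have h2 := contDiff_MM k ht h1.locallyIntegrable
  refine h2.contDiffOn.congr fun x hx => ?_
  apply MM_congr k ht
  refine Filter.Eventually.of_forall fun y hy => ?_
  rw [indicator_of_mem]
  rw [mem_ball] at hx hy ⊢
  have := dist_triangle y x x0
  linarith

/-- harmonic functions are smooth -/
theorem harm_smooth' {f : E d → ℝ} {U : Set (E d)} (hU : IsOpen U) (hf : ContDiffOn ℝ 2 f U)
    (h0 : ∀ x ∈ U, (Δ f) x = 0) : ContDiffOn ℝ ∞ f U := by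
  intro x0 hx0
  apply ContDiffAt.contDiffWithinAt
  obtain ⟨R, hR, hRU⟩ := Metric.isOpen_iff.mp hU x0 hx0
  have hI : IntegrableOn f (ball x0 (R / 2)) :=
    ((hf.continuousOn.mono ((closedBall_subset_ball (half_lt_self hR)).trans
      hRU)).integrableOn_compact (isCompact_closedBall x0 (R / 2))).mono_set ball_subset_closedBall
  have ht : 0 < R / 4 := by linarith
  have h1 := contDiffOn_MM 1 ht hI
  have h2 : ∀ x ∈ ball x0 (R / 2 - R / 4), f x = (kap d 1)⁻¹ * MM 1 (R / 4) f x := by
    intro x hx
    have hsub : ball x (R / 2) ⊆ U := by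
      refine subset_trans ?_ hRU
      intro y hy
      rw [mem_ball] at hx hy ⊢
      have := dist_triangle y x x0
      linarith
    rw [mean_ker 1 ht (show R / 4 < R / 2 by linarith) (hf.mono hsub)
      (fun y hy => h0 y (hsub (ball_subset_ball (by linarith) hy)))]
    rw [← mul_assoc, inv_mul_cancel₀ (kap_pos 1).ne', one_mul]
  have h3 : ContDiffOn ℝ ∞ f (ball x0 (R / 2 - R / 4)) :=
    (contDiffOn_const.mul h1).congr h2
  exact h3.contDiffAt (ball_mem_nhds x0 (by linarith))

lemma continuousOn_lap {v : E d → ℝ} {U : Set (E d)} (hU : IsOpen U) (hv : ContDiffOn ℝ 2 v U) :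
    ContinuousOn (Δ v) U := by
  have h5 : ContinuousOn (fun y => iteratedFDeriv ℝ 2 v y) U := by
    have h6 := hv.continuousOn_iteratedFDerivWithin (m := 2) le_rfl hU.uniqueDiffOn
    refine h6.congr fun y hy => ?_
    exact (iteratedFDerivWithin_of_isOpen 2 hU hy).symm
  rw [laplacian_eq_iteratedFDeriv_orthonormalBasis v (EuclideanSpace.basisFun (Fin d) ℝ)]
  apply continuousOn_finsetSum
  intro i _
  exact (ContinuousMultilinearMap.apply ℝ (fun _ : Fin 2 => E d) ℝ
    ![(EuclideanSpace.basisFun (Fin d) ℝ) i,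
      (EuclideanSpace.basisFun (Fin d) ℝ) i]).continuous.comp_continuousOn h5

/-- global extension near a compact set -/
lemma exists_ext {U : Set (E d)} (hU : IsOpen U) {v : E d → ℝ} {m : ℕ∞}
    (hv : ContDiffOn ℝ m v U) {S : Set (E d)} (hS : IsCompact S) (hSU : S ⊆ U) :
    ∃ g : E d → ℝ, ContDiff ℝ m g ∧ HasCompactSupport g ∧ ∀ x ∈ S, g =ᶠ[𝓝 x] v := by
  obtain ⟨χ, hχ, hχc, hχU, -, hχ1⟩ := exists_cutoff hS hU hSU
  refine ⟨fun y => χ y * v y, ?_, hχc.mul_right, ?_⟩
  · rw [contDiff_iff_contDiffAt]
    intro y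
    by_cases hy : y ∈ U
    · exact (hχ.of_le (by exact_mod_cast le_top)).contDiffAt.mul (hv.contDiffAt (hU.mem_nhds hy))
    · have hy2 : y ∉ tsupport χ := fun hcon => hy (hχU hcon)
      have h0 : (fun y => χ y * v y) =ᶠ[𝓝 y] fun _ => (0:ℝ) := by
        filter_upwards [(isClosed_tsupport χ).isOpen_compl.mem_nhds hy2] with z hz
        rw [image_eq_zero_of_notMem_tsupport hz, zero_mul]
      exact contDiffAt_const.congr_of_eventuallyEq h0
  · intro x hx
    filter_upwards [hχ1 x hx] with y hy
    rw [hy, one_mul]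

lemma tsupport_lap_subset (φ : E d → ℝ) : ∀ x, x ∉ tsupport φ → (Δ φ) x = 0 := by
  intro x hx
  have h : φ =ᶠ[𝓝 x] fun _ => (0:ℝ) := by
    rw [notMem_tsupport_iff_eventuallyEq] at hx
    exact hx
  rw [lap_congr_at h]
  simp

/-- Green's identity on an open set with a test function -/
lemma green_on {U : Set (E d)} (hU : IsOpen U) {v : E d → ℝ} (hv : ContDiffOn ℝ 2 v U)
    {φ : E d → ℝ} (hφ : ContDiff ℝ ∞ φ) (hc : HasCompactSupport φ) (hs : tsupport φ ⊆ U) :
    ∫ x, v x * (Δ φ) x = ∫ x, (Δ v) x * φ x := by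
  obtain ⟨g, hg, hgc, hgv⟩ := exists_ext (m := 2) hU hv hc.isCompact hs
  have h1 := Crest.Agent.R077.green_smooth hg (contDiff_infty.mp hφ 2) hc
  have h2 : ∫ x, v x * (Δ φ) x = ∫ x, g x * (Δ φ) x := by
    congr 1
    funext x
    by_cases hx : x ∈ tsupport φ
    · rw [(hgv x hx).eq_of_nhds]
    · rw [tsupport_lap_subset φ x hx]; simp
  have h3 : ∫ x, (Δ v) x * φ x = ∫ x, (Δ g) x * φ x := by
    congr 1
    funext x
    by_cases hx : x ∈ tsupport φ
    · rw [lap_congr_at (hgv x hx)]
    · rw [image_eq_zero_of_notMem_tsupport hx]; simp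
  rw [h2, h3, h1]

/-- smooth means of weakly harmonic functions are constant in the radius -/
lemma MM_const (k : ℕ) {u : E d → ℝ} {x : E d} {R : ℝ} (hu : IntegrableOn u (ball x R))
    (hw : ∀ t, 0 < t → t < R → ∫ y, u y * (Δ (pot k t x)) y = 0) {s t : ℝ} (hs : 0 < s)
    (hst : s ≤ t) (htR : t < R) : MM k t u x = MM k s u x := by
  have hder : ∀ r, 0 < r → r < R → HasDerivAt (fun r => MM k r u x) 0 r := by
    intro r hr hrR
    have h1 := hasDerivAt_MM k hr hrR hu
    have h2 := hw r hr hrR
    simp_rw [lap_pot k hr] at h2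
    rw [h2, neg_zero] at h1
    exact h1
  have h := constant_of_has_deriv_right_zero (f := fun r => MM k r u x) (a := s) (b := t)
    (fun r hr => (hder r (hs.trans_le hr.1) (hr.2.trans_lt htR)).continuousAt.continuousWithinAt)
    (fun r hr => (hder r (hs.trans_le hr.1) (hr.2.trans htR)).hasDerivWithinAt)
  exact h t ⟨hst, le_rfl⟩

/-- Lebesgue points of the smooth means -/
lemma ae_tendsto_MM (k : ℕ) {u : E d → ℝ} (hu : LocallyIntegrable u) :
    ∀ᵐ x, Tendsto (fun t => MM k t u x) (𝓝[>] 0) (𝓝 (kap d k * u x)) := by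
  filter_upwards [IsUnifLocDoublingMeasure.ae_tendsto_average_norm_sub (μ := (volume : Measure (E d)))
    hu 1] with x hx
  have h1 := hx (ι := ℝ) (l := 𝓝[>] (0:ℝ)) (fun _ => x) (fun t => t) tendsto_id (by
    filter_upwards [self_mem_nhdsWithin] with t ht
    simp only [one_mul, mem_closedBall, dist_self]
    exact (le_of_lt ht))
  have h2 : Tendsto (fun t => omg d * ⨍ y in closedBall x t, ‖u y - u x‖) (𝓝[>] 0) (𝓝 0) := by
    simpa using h1.const_mul (omg d)
  rw [← tendsto_sub_nhds_zero_iff]
  refine squeeze_zero_norm' ?_ h2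
  filter_upwards [self_mem_nhdsWithin] with t (ht : 0 < t)
  have hut : IntegrableOn u (closedBall x t) := hu.integrableOn_isCompact (isCompact_closedBall x t)
  have h3 : MM k t u x - kap d k * u x = ∫ y, (u y - u x) * ker k t x y := by
    have h2 : ∫ y, (u y - u x) * ker k t x y
        = (∫ y, u y * ker k t x y) - ∫ y, u x * ker k t x y := by
      rw [← integral_sub (integrable_mul_ker k ht hut) ((integrable_ker k ht x).const_mul _)]
      congr 1
      funext y
      ring
    rw [h2, integral_const_mul, integral_ker k ht]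
    unfold MM
    ring
  rw [h3]
  have h4 : IntegrableOn (fun y => ‖u y - u x‖) (closedBall x t) :=
    (hut.sub (integrableOn_const measure_closedBall_lt_top.ne)).norm
  have h5 : ‖∫ y, (u y - u x) * ker k t x y‖
      ≤ ∫ y, (closedBall x t).indicator (fun y => ‖u y - u x‖ * (t ^ d)⁻¹) y := by
    refine norm_integral_le_of_norm_le ?_ (Filter.Eventually.of_forall fun y => ?_)
    · have hI : IntegrableOn (fun y => ‖u y - u x‖ * (t ^ d)⁻¹) (closedBall x t) := h4.mul_const _
      exact hI.integrable_indicator isClosed_closedBall.measurableSet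
    · rw [norm_mul]
      by_cases hy : y ∈ closedBall x t
      · rw [indicator_of_mem hy]
        exact mul_le_mul_of_nonneg_left (abs_ker_le k ht.le x y) (norm_nonneg _)
      · rw [indicator_of_notMem hy]
        rw [mem_closedBall, dist_eq_norm, not_le] at hy
        rw [ker_zero k ht hy.le]; simp
  refine h5.trans (le_of_eq ?_)
  rw [integral_indicator isClosed_closedBall.measurableSet, integral_mul_const, setAverage_eq,
    measureReal_def, volume_closedBall_real x ht, smul_eq_mul]
  have h6 : 0 < omg d := omg_pos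
  have h7 : 0 < t ^ d := by positivity
  field_simp

theorem weyl' {f : E d → ℝ} {U : Set (E d)} (hU : IsOpen U) (hf : LocallyIntegrableOn f U)
    (h : ∀ φ : E d → ℝ, ContDiff ℝ ∞ φ → HasCompactSupport φ → tsupport φ ⊆ U →
      ∫ x, f x * (Δ φ) x = 0) :
    ∃ g : E d → ℝ, ContDiffOn ℝ ∞ g U ∧ (∀ x ∈ U, (Δ g) x = 0) ∧
      (∀ᵐ x ∂(volume.restrict U), f x = g x) ∧
      (∀ x t, 0 < t → closedBall x t ⊆ U → MM 1 t f x = kap d 1 * g x) := by
  classical
  -- independence of the radius
  have hconst : ∀ x s t, 0 < s → 0 < t → closedBall x s ⊆ U → closedBall x t ⊆ U →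
      MM 1 t f x = MM 1 s f x := by
    have key : ∀ x s t, 0 < s → s ≤ t → closedBall x t ⊆ U → MM 1 t f x = MM 1 s f x := by
      intro x s t hs hst htU
      obtain ⟨δ, hδ, hδ2⟩ := (isCompact_closedBall x t).exists_cthickening_subset_open hU htU
      have ht : 0 < t := hs.trans_le hst
      have hsub : closedBall x (t + δ) ⊆ U := by
        rw [cthickening_closedBall hδ.le ht.le] at hδ2
        rwa [add_comm]
      have hI : IntegrableOn f (ball x (t + δ)) :=
        (hf.integrableOn_compact_subset hsub (isCompact_closedBall _ _)).mono_set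
          ball_subset_closedBall
      refine MM_const 1 hI (fun r hr hrR => ?_) hs hst (by linarith)
      exact h _ (contDiff_pot 1 r x) (hasCompactSupport_pot 1 hr x)
        ((tsupport_pot_subset 1 hr x).trans ((closedBall_subset_closedBall hrR.le).trans hsub))
    intro x s t hs ht hsU htU
    rcases le_total s t with hst | hst
    · exact key x s t hs hst htU
    · exact (key x t s ht hst hsU).symm
  have hex : ∀ x ∈ U, ∃ r, 0 < r ∧ closedBall x r ⊆ U := by
    intro x hx
    obtain ⟨R, hR, hRU⟩ := Metric.isOpen_iff.mp hU x hx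
    exact ⟨R / 2, by linarith, (closedBall_subset_ball (half_lt_self hR)).trans hRU⟩
  choose! ρ hρ0 hρU using hex
  set g : E d → ℝ := fun x => (kap d 1)⁻¹ * MM 1 (ρ x) f x with hg
  have hκ : 0 < kap d 1 := kap_pos 1
  have hgt : ∀ x t, 0 < t → closedBall x t ⊆ U → MM 1 t f x = kap d 1 * g x := by
    intro x t ht htU
    have hxU : x ∈ U := htU (mem_closedBall_self ht.le)
    rw [hg]
    simp only
    rw [hconst x (ρ x) t (hρ0 x hxU) ht (hρU x hxU) htU, ← mul_assoc, mul_inv_cancel₀ hκ.ne',
      one_mul]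
  have hsm : ContDiffOn ℝ ∞ g U := by
    intro x0 hx0
    apply ContDiffAt.contDiffWithinAt
    obtain ⟨R, hR, hRU⟩ : ∃ R, 0 < R ∧ closedBall x0 R ⊆ U := ⟨ρ x0, hρ0 x0 hx0, hρU x0 hx0⟩
    have hI : IntegrableOn f (ball x0 R) :=
      (hf.integrableOn_compact_subset hRU (isCompact_closedBall _ _)).mono_set
        ball_subset_closedBall
    have h1 := contDiffOn_MM 1 (show 0 < R / 2 by linarith) hI
    have h2 : ∀ x ∈ ball x0 (R - R / 2), g x = (kap d 1)⁻¹ * MM 1 (R / 2) f x := by
      intro x hx
      have hsub : closedBall x (R / 2) ⊆ U := by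
        refine subset_trans ?_ hRU
        intro y hy
        rw [mem_ball] at hx
        rw [mem_closedBall] at hy ⊢
        have := dist_triangle y x x0
        linarith
      rw [hgt x (R / 2) (by linarith) hsub, ← mul_assoc, inv_mul_cancel₀ hκ.ne', one_mul]
    exact ((contDiffOn_const.mul h1).congr h2).contDiffAt (ball_mem_nhds x0 (by linarith))
  have hae : ∀ᵐ x ∂(volume.restrict U), f x = g x := by
    rw [ae_restrict_iff' hU.measurableSet, ae_iff]
    apply measure_null_of_locally_null
    intro x0 hx0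
    have hx0' : x0 ∈ U := by
      by_contra hcon
      exact hx0 (fun h => absurd h hcon)
    obtain ⟨R, hR, hRU⟩ : ∃ R, 0 < R ∧ closedBall x0 R ⊆ U := ⟨ρ x0, hρ0 x0 hx0', hρU x0 hx0'⟩
    refine ⟨ball x0 (R / 2) ∩ {x | ¬(x ∈ U → f x = g x)}, ?_, ?_⟩
    · exact inter_mem (mem_nhdsWithin_of_mem_nhds (ball_mem_nhds x0 (by linarith)))
        self_mem_nhdsWithin
    · have hI : Integrable ((closedBall x0 R).indicator f) :=
        (hf.integrableOn_compact_subset hRU (isCompact_closedBall _ _)).integrable_indicator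
          isClosed_closedBall.measurableSet
      have h1 := ae_tendsto_MM 1 hI.locallyIntegrable
      rw [ae_iff] at h1
      refine measure_mono_null ?_ h1
      rintro x ⟨hx, hx2⟩
      simp only [mem_ofPred_eq] at hx2 ⊢
      intro hcon
      apply hx2
      intro _
      have hxR : x ∈ closedBall x0 R := by
        rw [mem_ball] at hx
        rw [mem_closedBall]
        linarith
      rw [indicator_of_mem hxR] at hcon
      have h2 : Tendsto (fun t => MM 1 t ((closedBall x0 R).indicator f) x) (𝓝[>] 0)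
          (𝓝 (kap d 1 * g x)) := by
        apply tendsto_const_nhds.congr'
        filter_upwards [Ioo_mem_nhdsGT (show 0 < R / 2 by linarith)] with t ht
        have hsub : closedBall x t ⊆ closedBall x0 R := by
          intro y hy
          rw [mem_ball] at hx
          rw [mem_closedBall] at hy ⊢
          have := dist_triangle y x x0
          have := ht.2
          linarith
        rw [← hgt x t ht.1 (hsub.trans hRU)]
        apply MM_congr 1 ht.1
        refine Filter.Eventually.of_forall fun y hy => ?_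
        rw [indicator_of_mem (hsub (ball_subset_closedBall hy))]
      have h3 := tendsto_nhds_unique hcon h2
      exact mul_left_cancel₀ hκ.ne' h3
  refine ⟨g, hsm, ?_, hae, hgt⟩
  have hg2 : ContDiffOn ℝ 2 g U := contDiffOn_infty.mp hsm 2
  have hlc := continuousOn_lap hU hg2
  have h1 := IsOpen.ae_eq_zero_of_integral_contDiff_smul_eq_zero (μ := (volume : Measure (E d))) hU
    (hlc.locallyIntegrableOn hU.measurableSet) (fun φ hφ hφc hφU => by
      have h2 := green_on hU hg2 hφ hφc hφU
      have h3 : ∫ x, f x * (Δ φ) x = ∫ x, g x * (Δ φ) x := by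
        apply integral_congr_ae
        have h4 := (ae_restrict_iff' hU.measurableSet).mp hae
        filter_upwards [h4] with x hx
        by_cases hx2 : x ∈ U
        · rw [hx hx2]
        · rw [tsupport_lap_subset φ x (fun hcon => hx2 (hφU hcon))]; simp
      rw [h φ hφ hφc hφU] at h3
      rw [← h3] at h2
      rw [h2]
      congr 1
      funext x
      simp [mul_comm])
  intro x0 hx0
  by_contra hne
  have hne2 : ∀ᶠ x in 𝓝 x0, (Δ g) x ≠ 0 ∧ x ∈ U := by
    have := (hlc.continuousAt (hU.mem_nhds hx0)).eventually_ne hne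
    exact this.and (hU.mem_nhds hx0)
  obtain ⟨ε, hε, hε2⟩ := Metric.eventually_nhds_iff_ball.mp hne2
  have h5 : volume (ball x0 ε) = 0 := by
    rw [ae_iff] at h1
    refine measure_mono_null (fun x hx => ?_) h1
    have := hε2 x hx
    simp only [mem_ofPred_eq]
    intro hcon
    exact this.1 (hcon this.2)
  exact (measure_ball_pos volume x0 hε).ne' h5

theorem weyl_cont' {f : E d → ℝ} {U : Set (E d)} (hU : IsOpen U) (hf : ContinuousOn f U)
    (h : ∀ φ : E d → ℝ, ContDiff ℝ ∞ φ → HasCompactSupport φ → tsupport φ ⊆ U →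
      ∫ x, f x * (Δ φ) x = 0) :
    ContDiffOn ℝ ∞ f U ∧ ∀ x ∈ U, (Δ f) x = 0 := by
  obtain ⟨g, hg1, hg2, -, hg4⟩ := weyl' hU (hf.locallyIntegrableOn hU.measurableSet) h
  have hfg : ∀ x ∈ U, f x = g x := by
    intro x hx
    obtain ⟨R, hR, hRU⟩ := Metric.isOpen_iff.mp hU x hx
    have hI : IntegrableOn f (ball x (R / 2)) :=
      ((hf.mono ((closedBall_subset_ball (half_lt_self hR)).trans hRU)).integrableOn_compact
        (isCompact_closedBall _ _)).mono_set ball_subset_closedBall
    have h1 := tendsto_MM 1 (show 0 < R / 2 by linarith) hI (hf.continuousAt (hU.mem_nhds hx))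
    have h2 : Tendsto (fun t => MM 1 t f x) (𝓝[>] 0) (𝓝 (kap d 1 * g x)) := by
      apply tendsto_const_nhds.congr'
      filter_upwards [Ioo_mem_nhdsGT hR] with t ht
      exact (hg4 x t ht.1 ((closedBall_subset_ball ht.2).trans hRU)).symm
    exact mul_left_cancel₀ (kap_pos 1).ne' (tendsto_nhds_unique h1 h2)
  refine ⟨hg1.congr hfg, fun x hx => ?_⟩
  rw [← hg2 x hx]
  apply lap_congr_at
  filter_upwards [hU.mem_nhds hx] with y hy using hfg y hy

end
end Crest.Agent.R097.Hm
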