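import Crest.Agent.R097.HF1
import Crest.Agent.R097.HarmWeyl
import Crest.Agent.R097.HarmReg

/-! HF2: smoothness of harmonic functions, Weyl's lemma, derivative estimates. -/
set_option autoImplicit false
open MeasureTheory Metric Set Filter Topology
open scoped NNReal RealInnerProductSpace Gradient ContDiff Laplacian

namespace Crest.Agent.R097
variable {d : ℕ}

theorem harm_of_two {f : E d → ℝ} {U : Set (E d)} (hU : IsOpen U) (hf : ContDiffOn ℝ 2 f U)
    (h0 : ∀ x ∈ U, (Δ f) x = 0) : Harm f U := ⟨Hm.harm_smooth' hU hf h0, h0⟩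

theorem weyl {f : E d → ℝ} {U : Set (E d)} (hU : IsOpen U) (hf : LocallyIntegrableOn f U)
    (h : ∀ φ : E d → ℝ, ContDiff ℝ ∞ φ → HasCompactSupport φ → tsupport φ ⊆ U → ∫ x, f x * (Δ φ) x = 0) :
    ∃ g : E d → ℝ, Harm g U ∧ ∀ᵐ x ∂(volume.restrict U), f x = g x := by
  obtain ⟨g, h1, h2, h3, -⟩ := Hm.weyl' hU hf h
  exact ⟨g, ⟨h1, h2⟩, h3⟩

theorem weyl_cont {f : E d → ℝ} {U : Set (E d)} (hU : IsOpen U) (hf : ContinuousOn f U)
    (h : ∀ φ : E d → ℝ, ContDiff ℝ ∞ φ → HasCompactSupport φ → tsupport φ ⊆ U → ∫ x, f x * (Δ φ) x = 0) :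
    Harm f U := Hm.weyl_cont' hU hf h

theorem harm_deriv_est (d k : ℕ) : ∃ C : ℝ, 0 < C ∧ ∀ (f : E d → ℝ) (x : E d) (r : ℝ), 0 < r → Harm f (ball x r) →
    ∀ B : ℝ, (∀ y ∈ ball x r, |f y| ≤ B) → ‖iteratedFDeriv ℝ k f x‖ ≤ C * B / r ^ k := by
  obtain ⟨C, h0, h⟩ := Hm.deriv_sup_F d k
  exact ⟨C, h0, fun f x r hr hf B hB => h f x r B hr hf.1 hf.2 hB⟩

theorem Harm.contDiffOn_two {f : E d → ℝ} {U : Set (E d)} (hf : Harm f U) : ContDiffOn ℝ 2 f U :=
  contDiffOn_infty.mp hf.1 2

theorem Harm.mono {f : E d → ℝ} {U V : Set (E d)} (hf : Harm f U) (h : V ⊆ U) : Harm f V :=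
  ⟨hf.1.mono h, fun x hx => hf.2 x (h hx)⟩

theorem norm_grad (f : E d → ℝ) (x : E d) : ‖∇ f x‖ = ‖fderiv ℝ f x‖ := by
  unfold gradient
  exact LinearIsometryEquiv.norm_map _ _

theorem harm_grad_mean (d : ℕ) : ∃ C : ℝ, 0 < C ∧ ∀ (f : E d → ℝ) (x : E d) (r : ℝ), 0 < r → Harm f (ball x r) →
    IntegrableOn f (ball x r) → ‖∇ f x‖ ≤ C / r * ⨍ y in ball x r, |f y| := by
  obtain ⟨C, h0, h⟩ := Hm.grad_mean d
  refine ⟨C, h0, fun f x r hr hf hi => ?_⟩
  rw [norm_grad]
  exact h f x r hr hf.contDiffOn_two hf.2 hi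

/-- gradient estimate by the sup norm -/
theorem harm_grad_sup (d : ℕ) : ∃ C : ℝ, 0 < C ∧ ∀ (f : E d → ℝ) (x : E d) (r B : ℝ), 0 < r →
    Harm f (ball x r) → (∀ y ∈ ball x r, |f y| ≤ B) → ‖∇ f x‖ ≤ C * B / r := by
  obtain ⟨C, h0, h⟩ := Hm.grad_sup d
  refine ⟨C, h0, fun f x r B hr hf hB => ?_⟩
  rw [norm_grad]
  exact h f x r B hr hf.contDiffOn_two hf.2 hB

theorem Harm.sub' {f g : E d → ℝ} {U : Set (E d)} (hU : IsOpen U) (hf : Harm f U) (hg : Harm g U) :
    Harm (fun x => f x - g x) U := by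
  refine ⟨hf.1.sub hg.1, fun x hx => ?_⟩
  have h1 : (Δ (fun x => f x + -g x)) x = 0 := by
    rw [Hm.lap_add_at (hf.contDiffOn_two.contDiffAt (hU.mem_nhds hx))
      ((hg.contDiffOn_two.contDiffAt (hU.mem_nhds hx)).neg), hf.2 x hx, Hm.lap_neg, hg.2 x hx]
    simp
  simpa only [sub_eq_add_neg] using h1

/-- locally uniform limits -/
theorem harm_lim {U : Set (E d)} (hU : IsOpen U) {f : ℕ → E d → ℝ} {g : E d → ℝ} (hf : ∀ᶠ k in atTop, Harm (f k) U)
    (h : TendstoLocallyUniformlyOn f g atTop U) :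
    Harm g U ∧ ∀ x ∈ U, Tendsto (fun k => ∇ (f k) x) atTop (𝓝 (∇ g x)) := by
  have hgc : ContinuousOn g U :=
    h.continuousOn (hf.mono fun k hk => hk.1.continuousOn).frequently
  have hG : Harm g U := by
    apply weyl_cont hU hgc
    intro φ hφ hφc hφU
    -- the integral is the limit of zero
    have hK : IsCompact (tsupport φ) := hφc
    have hunif : TendstoUniformlyOn f g atTop (tsupport φ) :=
      (tendstoLocallyUniformlyOn_iff_forall_isCompact hU).mp h _ hφU hK
    have hφ2 : ContDiff ℝ 2 φ := contDiff_infty.mp hφ 2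
    have hΔc : Continuous (Δ φ) := by
      have := Hm.continuousOn_lap isOpen_univ hφ2.contDiffOn
      rwa [← continuousOn_univ]
    have hΔ0 : ∀ x, x ∉ tsupport φ → (Δ φ) x = 0 := Hm.tsupport_lap_subset φ
    have hi : ∀ {v : E d → ℝ}, ContinuousOn v U → Integrable (fun x => v x * (Δ φ) x) := by
      intro v hv
      have h1 : IntegrableOn (fun x => v x * (Δ φ) x) (tsupport φ) :=
        ((hv.mono hφU).mul hΔc.continuousOn).integrableOn_compact hK
      rw [← integrableOn_univ]
      refine h1.of_forall_sdiff_eq_zero MeasurableSet.univ ?_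
      intro x hx
      rw [hΔ0 x hx.2, mul_zero]
    have hzero : ∀ᶠ k in atTop, ∫ x, f k x * (Δ φ) x = 0 := by
      filter_upwards [hf] with k hk
      rw [Hm.green_on hU hk.contDiffOn_two hφ hφc hφU]
      apply integral_eq_zero_of_ae
      refine Eventually.of_forall fun x => ?_
      change (Δ (f k)) x * φ x = 0
      by_cases hx : x ∈ tsupport φ
      · rw [hk.2 x (hφU hx), zero_mul]
      · rw [image_eq_zero_of_notMem_tsupport hx, mul_zero]
    have habs : Integrable (fun x => |(Δ φ) x|) := by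
      have h1 := (hi (v := fun _ => (1:ℝ)) continuousOn_const).abs
      simpa using h1
    set A : ℝ := ∫ x, |(Δ φ) x| with hA
    have hA0 : 0 ≤ A := integral_nonneg fun x => abs_nonneg _
    -- |∫ g Δφ| ≤ ε A for all ε
    have hle : ∀ ε : ℝ, 0 < ε → |∫ x, g x * (Δ φ) x| ≤ ε * A := by
      intro ε hε
      obtain ⟨k, hk1, hk2, hk3⟩ := (((Metric.tendstoUniformlyOn_iff.mp hunif) ε hε).and
        (hzero.and hf)).exists
      have h1 : ∫ x, g x * (Δ φ) x = ∫ x, (g x - f k x) * (Δ φ) x := by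
        have h2 := integral_sub (hi hgc) (hi hk3.1.continuousOn)
        rw [hk2, sub_zero] at h2
        rw [← h2]
        congr 1
        ext x
        ring
      rw [h1]
      calc |∫ x, (g x - f k x) * (Δ φ) x| ≤ ∫ x, |(g x - f k x) * (Δ φ) x| :=
            abs_integral_le_integral_abs
        _ ≤ ∫ x, ε * |(Δ φ) x| := by
            apply integral_mono
            · have h3 := ((hi hgc).sub (hi hk3.1.continuousOn)).abs
              refine h3.congr (Eventually.of_forall fun x => ?_)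
              simp only [Pi.sub_apply]
              congr 1
              ring
            · exact habs.const_mul ε
            · intro x
              simp only
              by_cases hx : x ∈ tsupport φ
              · rw [abs_mul]
                apply mul_le_mul_of_nonneg_right _ (abs_nonneg _)
                have := hk1 x hx
                rw [Real.dist_eq] at this
                exact this.le
              · rw [hΔ0 x hx]
                simp
        _ = ε * A := by rw [integral_const_mul]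
    have h0 : |∫ x, g x * (Δ φ) x| ≤ 0 := by
      by_contra hcon
      push Not at hcon
      have h1 := hle (|∫ x, g x * (Δ φ) x| / (2 * (A + 1))) (by positivity)
      have h2 : |∫ x, g x * (Δ φ) x| / (2 * (A + 1)) * A ≤ |∫ x, g x * (Δ φ) x| / 2 := by
        rw [div_mul_eq_mul_div, div_le_div_iff₀ (by positivity) (by norm_num)]
        nlinarith
      linarith
    exact abs_nonpos_iff.mp h0
  refine ⟨hG, fun x hx => ?_⟩
  obtain ⟨C, hC0, hC⟩ := harm_grad_sup d
  obtain ⟨R, hR, hRU⟩ := Metric.isOpen_iff.mp hU x hx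
  have hr : 0 < R / 2 := by linarith
  have hcb : closedBall x (R / 2) ⊆ U := (closedBall_subset_ball (by linarith)).trans hRU
  have hunif : TendstoUniformlyOn f g atTop (closedBall x (R / 2)) :=
    (tendstoLocallyUniformlyOn_iff_forall_isCompact hU).mp h _ hcb (isCompact_closedBall _ _)
  rw [Metric.tendsto_nhds]
  intro ε hε
  have hδ : 0 < ε * (R / 2) / (2 * C) := by positivity
  filter_upwards [(Metric.tendstoUniformlyOn_iff.mp hunif) _ hδ, hf] with k hk1 hk2
  have hb : ball x (R / 2) ⊆ U := ball_subset_closedBall.trans hcb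
  have h1 := hC (fun y => f k y - g y) x (R / 2) (ε * (R / 2) / (2 * C)) hr
    ((Harm.sub' hU hk2 hG).mono hb) (fun y hy => by
      have := hk1 y (ball_subset_closedBall hy)
      rw [dist_comm, Real.dist_eq] at this
      exact this.le)
  have h2 : C * (ε * (R / 2) / (2 * C)) / (R / 2) = ε / 2 := by
    field_simp
  rw [h2] at h1
  have h3 : ∇ (fun y => f k y - g y) x = ∇ (f k) x - ∇ g x := by
    have hd1 : DifferentiableAt ℝ (f k) x :=
      (hk2.1.contDiffAt (hU.mem_nhds hx)).differentiableAt (by simp)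
    have hd2 : DifferentiableAt ℝ g x :=
      (hG.1.contDiffAt (hU.mem_nhds hx)).differentiableAt (by simp)
    have : HasGradientAt (fun y => f k y - g y) (∇ (f k) x - ∇ g x) x := by
      rw [hasGradientAt_iff_hasFDerivAt]
      have h4 := (hd1.hasGradientAt.hasFDerivAt).sub (hd2.hasGradientAt.hasFDerivAt)
      rw [← map_sub] at h4
      exact h4
    exact this.gradient
  rw [h3] at h1
  rw [dist_eq_norm]
  linarith

end Crest.Agent.R097
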