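import Crest.Agent.R097.HF2
import Crest.Agent.R097.HarmHar

/-! HF3: Harnack inequality. -/
set_option autoImplicit false
open MeasureTheory Metric Set Filter Topology
open scoped NNReal RealInnerProductSpace Gradient ContDiff Laplacian

namespace Crest.Agent.R097
variable {d : ℕ}

theorem harnack (d : ℕ) : ∃ C : ℝ, 1 ≤ C ∧ ∀ (f : E d → ℝ) (x : E d) (r : ℝ), 0 < r → Harm f (ball x r) →
    (∀ y ∈ ball x r, 0 ≤ f y) → ∀ y ∈ ball x (r / 2), f y ≤ C * f x ∧ f x ≤ C * f y := by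
  obtain ⟨C, hC1, hC⟩ := Hm.harnack' d
  refine ⟨C, hC1, fun f x r hr hf h0 y hy => ?_⟩
  have hx : x ∈ ball x (r / 2) := mem_ball_self (by linarith)
  have hz : ∀ w ∈ ball x r, |(Δ f) w| ≤ 0 := fun w hw => by rw [hf.2 w hw]; simp
  have h1 := hC x r hr f 0 hf.contDiffOn_two h0 hz y hy x hx
  have h2 := hC x r hr f 0 hf.contDiffOn_two h0 hz x hx y hy
  simp only [mul_zero, zero_mul, add_zero] at h1 h2
  exact ⟨h1, h2⟩

/-- a harmonic function attaining its maximum in a preconnected open set is constant -/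
theorem harm_max {f : E d → ℝ} {U : Set (E d)} (hU : IsOpen U) (hc : IsPreconnected U) (hf : Harm f U)
    {x : E d} (hx : x ∈ U) (hm : ∀ y ∈ U, f y ≤ f x) : ∀ y ∈ U, f y = f x :=
  Hm.harm_max' hU hc hf.contDiffOn_two hf.2 hx hm

theorem harm_zero {f : E d → ℝ} {x : E d} {r : ℝ} (hr : 0 < r) (hf : Harm f (ball x r))
    (h0 : ∀ y ∈ ball x r, 0 ≤ f y) (hx : ∃ y ∈ ball x r, f y = 0) : ∀ y ∈ ball x r, f y = 0 := by
  have _ := hr
  obtain ⟨y0, hy0, h00⟩ := hx
  have h1 := Hm.harm_max' (f := fun w => -f w) isOpen_ball (convex_ball x r).isPreconnected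
    hf.contDiffOn_two.neg (fun w hw => by rw [Hm.lap_neg, hf.2 w hw, neg_zero]) hy0
    (fun w hw => by rw [h00]; simpa using h0 w hw)
  intro y hy
  have := h1 y hy
  simp only [h00, neg_zero, neg_eq_zero] at this
  exact this

end Crest.Agent.R097
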