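import Crest.Agent.R097.Calc

/-!
# Row 97: polynomials on Euclidean space, Laplacian, the Dirichlet problem on a ball for polynomial
data, the classical maximum principle on a ball.
-/

set_option autoImplicit false
open MeasureTheory Metric Set Filter Topology InnerProductSpace
open scoped RealInnerProductSpace NNReal ENNReal Gradient Laplacian ContDiff

namespace Crest.Agent.R097.HP

variable {d : ℕ}

/-- evaluation of a polynomial at a point -/
noncomputable def ev (p : MvPolynomial (Fin d) ℝ) (x : E d) : ℝ :=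
  MvPolynomial.eval (fun i => x i) p

lemma ev_add (p q : MvPolynomial (Fin d) ℝ) (x : E d) : ev (p + q) x = ev p x + ev q x := by
  simp [ev]
lemma ev_sub (p q : MvPolynomial (Fin d) ℝ) (x : E d) : ev (p - q) x = ev p x - ev q x := by
  simp [ev]
lemma ev_mul (p q : MvPolynomial (Fin d) ℝ) (x : E d) : ev (p * q) x = ev p x * ev q x := by
  simp [ev]
lemma ev_C (a : ℝ) (x : E d) : ev (MvPolynomial.C a) x = a := by simp [ev]
lemma ev_X (i : Fin d) (x : E d) : ev (MvPolynomial.X i) x = x i := by simp [ev]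
lemma ev_sum {ι : Type*} (s : Finset ι) (f : ι → MvPolynomial (Fin d) ℝ) (x : E d) :
    ev (∑ i ∈ s, f i) x = ∑ i ∈ s, ev (f i) x := by
  simp [ev]

lemma contDiff_ev (p : MvPolynomial (Fin d) ℝ) {n : WithTop ℕ∞} : ContDiff ℝ n (ev p) := by
  induction p using MvPolynomial.induction_on with
  | C a => simpa [funext (ev_C a)] using (contDiff_const : ContDiff ℝ n (fun _ : E d => a))
  | add p q hp hq =>
    rw [funext (ev_add p q)]; exact hp.add hq
  | mul_X p i hp =>
    have : ev (p * MvPolynomial.X i) = fun x : E d => ev p x * x i := by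
      funext x; rw [ev_mul, ev_X]
    rw [this]
    exact hp.mul (EuclideanSpace.proj i : E d →L[ℝ] ℝ).contDiff

lemma hasFDerivAt_ev (p : MvPolynomial (Fin d) ℝ) (x : E d) :
    HasFDerivAt (ev p) (fderiv ℝ (ev p) x) x :=
  ((contDiff_ev p (n := 1)).differentiable (by simp) x).hasFDerivAt

lemma fderiv_ev (p : MvPolynomial (Fin d) ℝ) (x : E d) (i : Fin d) :
    fderiv ℝ (ev p) x (bv i) = ev (MvPolynomial.pderiv i p) x := by
  induction p using MvPolynomial.induction_on with
  | C a =>
    have : ev (MvPolynomial.C a : MvPolynomial (Fin d) ℝ) = fun _ : E d => a := funext (ev_C a)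
    rw [this]; simp [ev]
  | add p q hp hq =>
    have : ev (p + q) = ev p + ev q := funext (ev_add p q)
    rw [this, ((hasFDerivAt_ev p x).add (hasFDerivAt_ev q x)).fderiv, map_add, ev_add,
      add_apply, hp, hq]
  | mul_X p j hp =>
    have : ev (p * MvPolynomial.X j) = ev p * fun x : E d => x j := by
      funext x; rw [ev_mul, ev_X]; rfl
    have h2 : HasFDerivAt (fun x : E d => x j) (EuclideanSpace.proj j : E d →L[ℝ] ℝ) x :=
      (EuclideanSpace.proj j : E d →L[ℝ] ℝ).hasFDerivAt
    have h3 := (hasFDerivAt_ev p x).mul h2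
    rw [this, h3.fderiv]
    simp only [add_apply, smul_apply, hp,
      MvPolynomial.pderiv_mul, ev_add, ev_mul, ev_X, smul_eq_mul]
    by_cases hij : j = i
    · subst hij
      simp [bv, ev]
      ring
    · rw [MvPolynomial.pderiv_X_of_ne hij]
      simp [bv, ev, hij]
      ring

/-- the algebraic Laplacian -/
noncomputable def lapP (d : ℕ) : MvPolynomial (Fin d) ℝ →ₗ[ℝ] MvPolynomial (Fin d) ℝ :=
  ∑ i : Fin d, ((MvPolynomial.pderiv i : Derivation ℝ _ _) : MvPolynomial (Fin d) ℝ →ₗ[ℝ] _) ∘ₗ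
    ((MvPolynomial.pderiv i : Derivation ℝ _ _) : MvPolynomial (Fin d) ℝ →ₗ[ℝ] _)

lemma lapP_apply (p : MvPolynomial (Fin d) ℝ) :
    lapP d p = ∑ i, MvPolynomial.pderiv i (MvPolynomial.pderiv i p) := by
  simp [lapP, LinearMap.sum_apply]

lemma laplacian_ev (p : MvPolynomial (Fin d) ℝ) (x : E d) : (Δ (ev p)) x = ev (lapP d p) x := by
  rw [laplacian_eq_sum (contDiff_ev p).contDiffAt, lapP_apply, ev_sum]
  refine Finset.sum_congr rfl fun i _ => ?_
  rw [show (fun y => fderiv ℝ (ev p) y (bv i)) = ev (MvPolynomial.pderiv i p) from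
    funext fun y => fderiv_ev p y i, fderiv_ev]

lemma totalDegree_pderiv (p : MvPolynomial (Fin d) ℝ) (i : Fin d) :
    (MvPolynomial.pderiv i p).totalDegree ≤ p.totalDegree - 1 := by
  classical
  rw [MvPolynomial.totalDegree]
  refine Finset.sup_le fun m hm => ?_
  rw [MvPolynomial.mem_support_iff, MvPolynomial.coeff_pderiv] at hm
  have h1 : m + Finsupp.single i 1 ∈ p.support := by
    rw [MvPolynomial.mem_support_iff]
    exact fun h => hm (by rw [h, zero_mul])
  have h2 := MvPolynomial.le_totalDegree h1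
  rw [Finsupp.sum_add_index' (by simp) (by simp)] at h2
  have h3 : ((Finsupp.single i 1 : Fin d →₀ ℕ).sum fun _ e => e) = 1 := by simp
  omega

lemma totalDegree_lapP (p : MvPolynomial (Fin d) ℝ) :
    (lapP d p).totalDegree ≤ p.totalDegree - 2 := by
  rw [lapP_apply]
  refine MvPolynomial.totalDegree_finsetSum_le fun i _ => ?_
  have h1 := totalDegree_pderiv (MvPolynomial.pderiv i p) i
  have h2 := totalDegree_pderiv p i
  omega

/-- `|x|² - s²` -/
noncomputable def rho (d : ℕ) (s : ℝ) : MvPolynomial (Fin d) ℝ :=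
  ∑ i, MvPolynomial.X i ^ 2 - MvPolynomial.C (s ^ 2)

lemma ev_rho (s : ℝ) (x : E d) : ev (rho d s) x = ‖x‖ ^ 2 - s ^ 2 := by
  rw [rho, ev_sub, ev_sum, ev_C, EuclideanSpace.norm_sq_eq]
  simp [ev]

lemma totalDegree_rho (s : ℝ) : (rho d s).totalDegree ≤ 2 := by
  rw [rho]
  refine (MvPolynomial.totalDegree_sub _ _).trans (max_le ?_ ?_)
  · refine MvPolynomial.totalDegree_finsetSum_le fun i _ => ?_
    refine (MvPolynomial.totalDegree_pow _ _).trans ?_
    simp
  · rw [MvPolynomial.totalDegree_C]; norm_num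

/-- the second derivative test: at a local maximum the Laplacian is not positive -/
lemma laplacian_le_of_isLocalMax {f : E d → ℝ} {x : E d} (hf : ContDiffAt ℝ 2 f x)
    (hm : IsLocalMax f x) : (Δ f) x ≤ 0 := by
  by_contra hlt
  rw [not_le, laplacian_eq_sum hf] at hlt
  obtain ⟨i, -, hi⟩ := Finset.exists_lt_of_sum_lt (s := Finset.univ)
    (f := fun _ : Fin d => (0 : ℝ)) (g := fun i => fderiv ℝ (fun y => fderiv ℝ f y (bv i)) x (bv i))
    (by simpa using hlt)
  set v : E d := bv i
  set φ : ℝ → ℝ := fun t => f (x + t • v) with hφ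
  have hline : ∀ t : ℝ, HasDerivAt (fun t : ℝ => x + t • v) v t := fun t => by
    simpa using ((hasDerivAt_id t).smul_const v).const_add x
  have hc : Tendsto (fun t : ℝ => x + t • v) (𝓝 0) (𝓝 x) := by
    have := (hline 0).continuousAt
    simpa [ContinuousAt] using this
  have h1 : ∀ᶠ t in 𝓝 (0 : ℝ), HasDerivAt φ (fderiv ℝ f (x + t • v) v) t := by
    filter_upwards [hc.eventually (hf.eventually (by simp))] with t ht
    exact (ht.differentiableAt (by simp)).hasFDerivAt.comp_hasDerivAt t (hline t)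
  have h2 : deriv φ =ᶠ[𝓝 0] fun t => fderiv ℝ f (x + t • v) v := by
    filter_upwards [h1] with t ht using ht.deriv
  have h3 : ContDiffAt ℝ 1 (fderiv ℝ f) x := hf.fderiv_right (by norm_num)
  have h4 : DifferentiableAt ℝ (fun y => fderiv ℝ f y v) x :=
    (h3.differentiableAt (by simp)).clm_apply (differentiableAt_const _)
  have h5 : HasDerivAt (fun t : ℝ => fderiv ℝ f (x + t • v) v)
      (fderiv ℝ (fun y => fderiv ℝ f y v) x v) 0 := by
    have h6 : HasFDerivAt (fun y => fderiv ℝ f y v) (fderiv ℝ (fun y => fderiv ℝ f y v) x)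
        (x + (0 : ℝ) • v) := by simpa using h4.hasFDerivAt
    exact h6.comp_hasDerivAt (0 : ℝ) (hline 0)
  have h7 : deriv (deriv φ) 0 = fderiv ℝ (fun y => fderiv ℝ f y v) x v := by
    rw [h2.deriv_eq, h5.deriv]
  have hmax : IsLocalMax φ 0 := by
    have : ∀ᶠ t in 𝓝 (0 : ℝ), f (x + t • v) ≤ f x := hc.eventually hm
    filter_upwards [this] with t ht
    simpa [hφ] using ht
  have hcont : ContinuousAt φ 0 := (h1.self_of_nhds).continuousAt
  have hmin : IsLocalMin φ 0 :=
    isLocalMin_of_deriv_deriv_pos (by rw [h7]; exact hi) hmax.deriv_eq_zero hcont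
  have hconst : φ =ᶠ[𝓝 0] fun _ => φ 0 := by
    filter_upwards [hmax, hmin] with t ht1 ht2 using le_antisymm ht1 ht2
  have h8 : deriv φ =ᶠ[𝓝 0] fun _ => 0 := by
    have := hconst.deriv
    filter_upwards [this] with t ht
    rw [ht, deriv_const]
  have h9 : deriv (deriv φ) 0 = 0 := by rw [h8.deriv_eq, deriv_const]
  rw [h7] at h9
  exact absurd hi (by simp only [h9]; exact lt_irrefl _)

lemma laplacian_norm_sq (x : E d) : (Δ (fun y : E d => ‖y‖ ^ 2)) x = 2 * (d : ℝ) := by
  rw [laplacian_eq_sum (contDiff_norm_sq ℝ).contDiffAt]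
  have h1 : ∀ i : Fin d, (fun y : E d => fderiv ℝ (fun y : E d => ‖y‖ ^ 2) y (bv i)) =
      fun y => 2 * ⟪bv i, y⟫_ℝ := by
    intro i; funext y
    rw [fderiv_norm_sq_apply]
    simp [real_inner_comm]
  simp_rw [h1]
  have h2 : ∀ i : Fin d, fderiv ℝ (fun y : E d => 2 * ⟪bv i, y⟫_ℝ) x (bv i) = 2 := by
    intro i
    have h3 : HasFDerivAt (fun y : E d => 2 * ⟪bv i, y⟫_ℝ) ((2 : ℝ) • innerSL ℝ (bv i)) x := by
      simpa using ((innerSL ℝ (bv i)).hasFDerivAt (x := x)).const_mul (2 : ℝ)
    rw [h3.fderiv]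
    simp [norm_bv]
  simp_rw [h2]
  simp [mul_comm]

/-- the classical maximum principle on a ball -/
theorem max_ball (hd : 0 < d) {f : E d → ℝ} {s M : ℝ} (hf : ContDiff ℝ 2 f)
    (hΔ : ∀ x ∈ ball (0 : E d) s, 0 ≤ (Δ f) x) (hM : ∀ x ∈ sphere (0 : E d) s, f x ≤ M) :
    ∀ x ∈ closedBall (0 : E d) s, f x ≤ M := by
  intro x1 hx1
  by_contra hlt
  rw [not_le] at hlt
  obtain ⟨ε, hε, hε2⟩ : ∃ ε : ℝ, 0 < ε ∧ ε * s ^ 2 < f x1 - M := by
    refine ⟨(f x1 - M) / (2 * (s ^ 2 + 1)), by have : 0 < f x1 - M := by linarith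
                                               positivity, ?_⟩
    have h1 : 0 < f x1 - M := by linarith
    have h2 : (0 : ℝ) < 2 * (s ^ 2 + 1) := by positivity
    rw [div_mul_eq_mul_div, div_lt_iff₀ h2]
    nlinarith [sq_nonneg s]
  set g : E d → ℝ := f + (ε • fun y : E d => ‖y‖ ^ 2) with hg
  have hgv : ∀ y, g y = f y + ε * ‖y‖ ^ 2 := fun y => rfl
  have hgc : ContDiff ℝ 2 g := hf.add ((contDiff_norm_sq ℝ).const_smul ε)
  obtain ⟨x0, hx0, hmax⟩ := (isCompact_closedBall (0 : E d) s).exists_isMaxOn ⟨x1, hx1⟩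
    hgc.continuous.continuousOn
  have h1 : g x1 ≤ g x0 := hmax hx1
  by_cases hx0s : x0 ∈ ball (0 : E d) s
  · have hloc : IsLocalMax g x0 := by
      filter_upwards [isOpen_ball.mem_nhds hx0s] with y hy using hmax (ball_subset_closedBall hy)
    have h2 := laplacian_le_of_isLocalMax hgc.contDiffAt hloc
    have h3 : (Δ g) x0 = (Δ f) x0 + ε * (2 * d) := by
      have hs2 : ContDiffAt ℝ 2 (ε • fun y : E d => ‖y‖ ^ 2) x0 :=
        ((contDiff_norm_sq ℝ).const_smul ε).contDiffAt
      rw [hg, hf.contDiffAt.laplacian_add hs2,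
        laplacian_smul ε (contDiff_norm_sq ℝ).contDiffAt, laplacian_norm_sq, smul_eq_mul]
    have h4 := hΔ x0 hx0s
    have h5 : (0 : ℝ) < ε * (2 * d) := by
      have : (0 : ℝ) < d := by exact_mod_cast hd
      positivity
    linarith
  · have h2 : x0 ∈ sphere (0 : E d) s := by
      rw [mem_sphere]
      rw [mem_closedBall] at hx0
      rw [mem_ball, not_lt] at hx0s
      exact le_antisymm hx0 hx0s
    have h3 : ‖x0‖ = s := by simpa using h2
    have h4 := hM x0 h2
    rw [hgv, hgv, h3] at h1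
    have h5 : 0 ≤ ε * ‖x1‖ ^ 2 := by positivity
    linarith

/-- a polynomial vanishing on a ball around the origin vanishes -/
lemma eq_zero_of_ball {p : MvPolynomial (Fin d) ℝ} {s : ℝ} (hs : 0 < s)
    (h : ∀ x ∈ closedBall (0 : E d) s, ev p x = 0) : p = 0 := by
  refine MvPolynomial.funext_set (fun _ : Fin d => Icc (0 : ℝ) (s / (d + 1)))
    (fun _ => Icc_infinite (by positivity)) fun x hx => ?_
  have h1 : (WithLp.toLp 2 x : E d) ∈ closedBall (0 : E d) s := by
    rw [mem_closedBall, dist_zero_right, ← sq_le_sq₀ (norm_nonneg _) hs.le,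
      EuclideanSpace.norm_sq_eq]
    have h2 : ∀ i : Fin d, ‖(WithLp.toLp 2 x : E d) i‖ ^ 2 ≤ (s / (d + 1)) ^ 2 := by
      intro i
      have := hx i (mem_univ i)
      rw [mem_Icc] at this
      have h3 : ‖(WithLp.toLp 2 x : E d) i‖ = x i := by
        simp [abs_of_nonneg this.1]
      rw [h3]
      exact pow_le_pow_left₀ this.1 this.2 2
    refine (Finset.sum_le_sum fun i _ => h2 i).trans ?_
    simp only [Finset.sum_const, Finset.card_univ, Fintype.card_fin, nsmul_eq_mul]
    have hd1 : (0 : ℝ) < (d : ℝ) + 1 := by positivity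
    rw [div_pow, mul_div_assoc', div_le_iff₀ (by positivity)]
    have : (0 : ℝ) ≤ d := Nat.cast_nonneg d
    nlinarith [sq_nonneg s, mul_nonneg this (sq_nonneg s), mul_nonneg (mul_nonneg this this) (sq_nonneg s)]
  have := h _ h1
  simpa [ev] using this

/-- the Dirichlet problem on a ball with polynomial data -/
theorem dirichlet_poly (hd : 0 < d) {s : ℝ} (hs : 0 < s) (p : MvPolynomial (Fin d) ℝ) :
    ∃ h : MvPolynomial (Fin d) ℝ, (∀ x : E d, (Δ (ev h)) x = 0) ∧
      ∀ x : E d, ‖x‖ = s → ev h x = ev p x := by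
  set n := p.totalDegree with hn
  set V := MvPolynomial.restrictTotalDegree (Fin d) ℝ n with hV
  have hmap : ∀ q ∈ V, lapP d (rho d s * q) ∈ V := by
    intro q hq
    rw [hV, MvPolynomial.mem_restrictTotalDegree] at hq ⊢
    refine (totalDegree_lapP _).trans ?_
    have h1 := MvPolynomial.totalDegree_mul (rho d s) q
    have h2 := totalDegree_rho (d := d) s
    omega
  let T : V →ₗ[ℝ] V :=
    ((lapP d ∘ₗ LinearMap.mulLeft ℝ (rho d s)) ∘ₗ V.subtype).codRestrict V
      (fun q => hmap q.1 q.2)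
  have hTv : ∀ q : V, ((T q : V) : MvPolynomial (Fin d) ℝ) = lapP d (rho d s * q.1) := fun q => rfl
  have hinj : Function.Injective T := by
    rw [← LinearMap.ker_eq_bot, LinearMap.ker_eq_bot']
    intro q hq
    have h1 : lapP d (rho d s * q.1) = 0 := by rw [← hTv, hq]; rfl
    set w := ev (rho d s * q.1) with hw
    have hΔ : ∀ x : E d, (Δ w) x = 0 := by
      intro x; rw [hw, laplacian_ev, h1]; simp [ev]
    have hsph : ∀ x ∈ sphere (0 : E d) s, w x = 0 := by
      intro x hx
      have : ‖x‖ = s := by simpa using hx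
      rw [hw, ev_mul, ev_rho, this]; ring
    have hup := max_ball hd (contDiff_ev _) (fun x _ => (hΔ x).ge) (fun x hx => (hsph x hx).le)
    have hwneg : ContDiff ℝ 2 (-w) := (contDiff_ev _).neg
    have hlo := max_ball (f := -w) (M := 0) (s := s) hd hwneg
      (fun x _ => by
        rw [laplacian_neg]; simp [hΔ x])
      (fun x hx => by simp [hsph x hx])
    have h2 : rho d s * q.1 = 0 := by
      refine eq_zero_of_ball hs fun x hx => ?_
      have a := hup x hx
      have b := hlo x hx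
      simp only [Pi.neg_apply] at b
      exact le_antisymm a (by linarith)
    rcases mul_eq_zero.1 h2 with h3 | h3
    · exfalso
      have h4 := ev_rho (d := d) s 0
      rw [h3] at h4
      have h5 : (0 : ℝ) < s ^ 2 := by positivity
      simp [ev] at h4
      exact hs.ne' h4
    · exact Subtype.ext h3
  have hsurj : Function.Surjective T := LinearMap.injective_iff_surjective.1 hinj
  have hlp : lapP d p ∈ V := by
    rw [hV, MvPolynomial.mem_restrictTotalDegree]
    exact (totalDegree_lapP p).trans (Nat.sub_le _ _)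
  obtain ⟨q, hq⟩ := hsurj ⟨lapP d p, hlp⟩
  refine ⟨p - rho d s * q.1, fun x => ?_, fun x hx => ?_⟩
  · rw [laplacian_ev, map_sub, ← hTv, hq]
    simp [ev]
  · rw [ev_sub, ev_mul, ev_rho, hx]; ring

end Crest.Agent.R097.HP
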