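import Crest.Agent.R097.Base
import Crest.Agent.R077.Rep
import Crest.Agent.R077.Lap

/-!
# Row 97: radial mean value kernels
`ker k t x y = t^{-d} eta k (|y-x|^2/t^2)`, `pot k t x` with `∂ₜ ker k t x y = -(Δ (pot k t x)) y`.
-/

set_option autoImplicit false
open MeasureTheory Metric Set Laplacian InnerProductSpace Topology Filter
open scoped RealInnerProductSpace NNReal ENNReal ContDiff
open Crest.Agent.R077 (pdv ev lap_eq lap_radial contDiff_radial green_smooth)

namespace Crest.Agent.R097.Hm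
noncomputable section
variable {d : ℕ}

/-- radial profiles: zero on `[1,∞)`, converging to the indicator of `(-∞,1)` as `k → ∞` -/
def eta (k : ℕ) (s : ℝ) : ℝ := Real.smoothTransition ((k + 1) * (1 - s))

lemma contDiff_eta (k : ℕ) : ContDiff ℝ ∞ (eta k) := by
  unfold eta
  exact Real.smoothTransition.contDiff.comp (by fun_prop)

lemma continuous_eta (k : ℕ) : Continuous (eta k) := (contDiff_eta k).continuous

lemma eta_nonneg (k : ℕ) (s : ℝ) : 0 ≤ eta k s := Real.smoothTransition.nonneg _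
lemma eta_le_one (k : ℕ) (s : ℝ) : eta k s ≤ 1 := Real.smoothTransition.le_one _
lemma eta_zero (k : ℕ) {s : ℝ} (h : 1 ≤ s) : eta k s = 0 :=
  Real.smoothTransition.zero_of_nonpos
    (mul_nonpos_of_nonneg_of_nonpos (by positivity) (by linarith))
lemma eta_one_one {s : ℝ} (h : s ≤ 1 / 2) : eta 1 s = 1 :=
  Real.smoothTransition.one_of_one_le (by push_cast; linarith)
lemma eta_pos (k : ℕ) {s : ℝ} (h : s < 1) : 0 < eta k s :=
  Real.smoothTransition.pos_of_pos (mul_pos (by positivity) (by linarith))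

lemma tendsto_eta {s : ℝ} (h : s < 1) : Tendsto (fun k : ℕ => eta k s) atTop (𝓝 1) := by
  apply tendsto_const_nhds.congr'
  obtain ⟨N, hN⟩ := exists_nat_gt (1 / (1 - s))
  filter_upwards [eventually_ge_atTop N] with k hk
  symm
  apply Real.smoothTransition.one_of_one_le
  have h1 : 0 < 1 - s := by linarith
  have h2 : (N : ℝ) ≤ k := by exact_mod_cast hk
  rw [div_lt_iff₀ h1] at hN
  nlinarith

/-- potential profile -/
def phi0 (k : ℕ) (s : ℝ) : ℝ := ∫ r in (1:ℝ)..s, eta k r / 2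

lemma hasDerivAt_phi0 (k : ℕ) (s : ℝ) : HasDerivAt (phi0 k) (eta k s / 2) s := by
  unfold phi0
  have hc : Continuous fun r => eta k r / 2 := (continuous_eta k).div_const 2
  exact intervalIntegral.integral_hasDerivAt_right (hc.intervalIntegrable _ _)
    hc.stronglyMeasurable.stronglyMeasurableAtFilter hc.continuousAt

lemma phi0_zero (k : ℕ) {s : ℝ} (h : 1 ≤ s) : phi0 k s = 0 := by
  unfold phi0
  rw [intervalIntegral.integral_congr (g := fun _ => (0:ℝ))]
  · simp
  · intro r hr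
    rw [uIcc_of_le h] at hr
    simp [eta_zero k hr.1]

lemma phi0_nonpos (k : ℕ) (s : ℝ) : phi0 k s ≤ 0 := by
  rcases le_total 1 s with h | h
  · rw [phi0_zero k h]
  · unfold phi0
    rw [intervalIntegral.integral_symm]
    have := intervalIntegral.integral_nonneg (μ := volume) h
      (f := fun r => eta k r / 2) (fun r _ => by have := eta_nonneg k r; positivity)
    linarith

lemma neg_half_le_phi0 (k : ℕ) {s : ℝ} (h0 : 0 ≤ s) : -(1/2) ≤ phi0 k s := by
  rcases le_total 1 s with h | h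
  · rw [phi0_zero k h]; norm_num
  · unfold phi0
    rw [intervalIntegral.integral_symm]
    have h1 : (∫ r in s..1, eta k r / 2) ≤ ∫ r in s..(1:ℝ), (1/2 : ℝ) := by
      apply intervalIntegral.integral_mono_on h
      · exact ((continuous_eta k).div_const 2).intervalIntegrable _ _
      · exact intervalIntegrable_const
      · intro r _
        have := eta_le_one k r
        linarith
    have h2 : (∫ r in s..(1:ℝ), (1/2 : ℝ)) = (1 - s) * (1/2) := by simp
    rw [h2] at h1
    nlinarith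

lemma contDiff_phi0 (k : ℕ) : ContDiff ℝ ∞ (phi0 k) := by
  rw [contDiff_infty_iff_deriv]
  refine ⟨fun s => (hasDerivAt_phi0 k s).differentiableAt, ?_⟩
  have : deriv (phi0 k) = fun s => eta k s / 2 := by
    funext s; exact (hasDerivAt_phi0 k s).deriv
  rw [this]
  exact (contDiff_eta k).div_const 2

lemma hasDerivAt_eta (k : ℕ) (s : ℝ) : HasDerivAt (eta k) (deriv (eta k) s) s :=
  (((contDiff_eta k).differentiable (by simp)) s).hasDerivAt

lemma continuous_deriv_eta (k : ℕ) : Continuous (deriv (eta k)) :=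
  (contDiff_eta k).continuous_deriv (by simp)

lemma deriv_eta_zero (k : ℕ) {s : ℝ} (h : 1 < s) : deriv (eta k) s = 0 := by
  have : eta k =ᶠ[𝓝 s] fun _ => (0:ℝ) := by
    filter_upwards [Ioi_mem_nhds h] with r hr
    exact eta_zero k (le_of_lt hr)
  rw [this.deriv_eq]
  simp

lemma exists_eta_bound (k : ℕ) :
    ∃ C : ℝ, 0 ≤ C ∧ ∀ s : ℝ, 0 ≤ s → |2 * s * deriv (eta k) s| ≤ C := by
  have hc : Continuous fun s => 2 * s * deriv (eta k) s :=
    (continuous_const.mul continuous_id).mul (continuous_deriv_eta k)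
  obtain ⟨C, hC⟩ := (isCompact_Icc (a := (0:ℝ)) (b := 1)).exists_bound_of_continuousOn
    hc.continuousOn
  refine ⟨max C 0, le_max_right _ _, fun s hs => ?_⟩
  rcases le_or_gt s 1 with h | h
  · exact (hC s ⟨hs, h⟩).trans (le_max_left _ _)
  · rw [deriv_eta_zero k h]
    simp

/-- mean value kernel centred at `x` of scale `t` -/
def ker (k : ℕ) (t : ℝ) (x y : E d) : ℝ := (t ^ d)⁻¹ * eta k (‖y - x‖ ^ 2 / t ^ 2)

/-- its potential -/
def pot (k : ℕ) (t : ℝ) (x y : E d) : ℝ := t * (t ^ d)⁻¹ * phi0 k (‖y - x‖ ^ 2 / t ^ 2)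

/-- minus the derivative of the kernel in `t` -/
def dker (k : ℕ) (t : ℝ) (x y : E d) : ℝ :=
  (t ^ (d + 1))⁻¹ * (d * eta k (‖y - x‖ ^ 2 / t ^ 2)
    + 2 * (‖y - x‖ ^ 2 / t ^ 2) * deriv (eta k) (‖y - x‖ ^ 2 / t ^ 2))

variable (k : ℕ)

lemma ker_nonneg {t : ℝ} (ht : 0 ≤ t) (x y : E d) : 0 ≤ ker k t x y := by
  unfold ker
  have := eta_nonneg k (‖y - x‖ ^ 2 / t ^ 2)
  positivity

lemma ker_le {t : ℝ} (ht : 0 ≤ t) (x y : E d) : ker k t x y ≤ (t ^ d)⁻¹ := by
  unfold ker
  have := eta_le_one k (‖y - x‖ ^ 2 / t ^ 2)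
  have h2 : 0 ≤ (t ^ d)⁻¹ := by positivity
  nlinarith

lemma pot_nonpos {t : ℝ} (ht : 0 ≤ t) (x y : E d) : pot k t x y ≤ 0 := by
  unfold pot
  have := phi0_nonpos k (‖y - x‖ ^ 2 / t ^ 2)
  have h2 : 0 ≤ t * (t ^ d)⁻¹ := by positivity
  exact mul_nonpos_of_nonneg_of_nonpos h2 this

lemma one_le_ratio {t : ℝ} (ht : 0 < t) {x y : E d} (h : t ≤ ‖y - x‖) :
    1 ≤ ‖y - x‖ ^ 2 / t ^ 2 := by
  rw [le_div_iff₀ (by positivity), one_mul]
  exact pow_le_pow_left₀ ht.le h 2

lemma one_lt_ratio {t : ℝ} (ht : 0 < t) {x y : E d} (h : t < ‖y - x‖) :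
    1 < ‖y - x‖ ^ 2 / t ^ 2 := by
  rw [lt_div_iff₀ (by positivity), one_mul]
  exact pow_lt_pow_left₀ h ht.le (by norm_num)

lemma ker_zero {t : ℝ} (ht : 0 < t) {x y : E d} (h : t ≤ ‖y - x‖) : ker k t x y = 0 := by
  unfold ker
  rw [eta_zero k (one_le_ratio ht h), mul_zero]

lemma pot_zero {t : ℝ} (ht : 0 < t) {x y : E d} (h : t ≤ ‖y - x‖) : pot k t x y = 0 := by
  unfold pot
  rw [phi0_zero k (one_le_ratio ht h), mul_zero]

lemma dker_zero {t : ℝ} (ht : 0 < t) {x y : E d} (h : t < ‖y - x‖) : dker k t x y = 0 := by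
  unfold dker
  rw [eta_zero k (one_lt_ratio ht h).le, deriv_eta_zero k (one_lt_ratio ht h)]
  simp

lemma contDiff_normsq (x : E d) : ContDiff ℝ ∞ fun y : E d => ‖y - x‖ ^ 2 :=
  (contDiff_id.sub contDiff_const).norm_sq ℝ

lemma continuous_ratio (t : ℝ) (x : E d) : Continuous fun y : E d => ‖y - x‖ ^ 2 / t ^ 2 :=
  (contDiff_normsq x).continuous.div_const _

lemma contDiff_ker (t : ℝ) (x : E d) : ContDiff ℝ ∞ (ker k t x) := by
  unfold ker
  exact contDiff_const.mul ((contDiff_eta k).comp ((contDiff_normsq x).div_const _))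

lemma contDiff_pot (t : ℝ) (x : E d) : ContDiff ℝ ∞ (pot k t x) := by
  unfold pot
  exact contDiff_const.mul ((contDiff_phi0 k).comp ((contDiff_normsq x).div_const _))

lemma continuous_dker (t : ℝ) (x : E d) : Continuous (dker k t x) := by
  unfold dker
  have h := continuous_ratio t x
  exact continuous_const.mul ((continuous_const.mul ((continuous_eta k).comp h)).add
    ((continuous_const.mul h).mul ((continuous_deriv_eta k).comp h)))

lemma tsupport_ker_subset {t : ℝ} (ht : 0 < t) (x : E d) :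
    tsupport (ker k t x) ⊆ closedBall x t := by
  apply closure_minimal _ isClosed_closedBall
  intro y hy
  rw [mem_closedBall, dist_eq_norm]
  by_contra hcon
  exact hy (ker_zero k ht (le_of_lt (not_le.mp hcon)))

lemma tsupport_pot_subset {t : ℝ} (ht : 0 < t) (x : E d) :
    tsupport (pot k t x) ⊆ closedBall x t := by
  apply closure_minimal _ isClosed_closedBall
  intro y hy
  rw [mem_closedBall, dist_eq_norm]
  by_contra hcon
  exact hy (pot_zero k ht (le_of_lt (not_le.mp hcon)))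

lemma hasCompactSupport_ker {t : ℝ} (ht : 0 < t) (x : E d) : HasCompactSupport (ker k t x) :=
  HasCompactSupport.of_support_subset_isCompact (isCompact_closedBall x t)
    ((subset_tsupport _).trans (tsupport_ker_subset k ht x))

lemma hasCompactSupport_pot {t : ℝ} (ht : 0 < t) (x : E d) : HasCompactSupport (pot k t x) :=
  HasCompactSupport.of_support_subset_isCompact (isCompact_closedBall x t)
    ((subset_tsupport _).trans (tsupport_pot_subset k ht x))

/-- the Laplacian of the potential -/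
lemma lap_pot {t : ℝ} (ht : 0 < t) (x y : E d) : (Δ (pot k t x)) y = dker k t x y := by
  have h0 : ∀ s : ℝ, 0 ≤ s → HasDerivAt (fun s => t * (t ^ d)⁻¹ * phi0 k (s / t ^ 2))
      (t * (t ^ d)⁻¹ * (eta k (s / t ^ 2) / 2 * (1 / t ^ 2))) s := by
    intro s _
    have h := (hasDerivAt_phi0 k (s / t ^ 2)).comp s ((hasDerivAt_id s).div_const (t ^ 2))
    exact h.const_mul _
  have h1 : ∀ s : ℝ, 0 ≤ s → HasDerivAt
      (fun s => t * (t ^ d)⁻¹ * (eta k (s / t ^ 2) / 2 * (1 / t ^ 2)))
      (t * (t ^ d)⁻¹ * (deriv (eta k) (s / t ^ 2) * (1 / t ^ 2) / 2 * (1 / t ^ 2))) s := by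
    intro s _
    have h := (hasDerivAt_eta k (s / t ^ 2)).comp s ((hasDerivAt_id s).div_const (t ^ 2))
    exact ((h.div_const 2).mul_const _).const_mul _
  have h2 : Continuous fun y : E d =>
      (fun s => t * (t ^ d)⁻¹ * (deriv (eta k) (s / t ^ 2) * (1 / t ^ 2) / 2 * (1 / t ^ 2)))
        (‖y - x‖ ^ 2) := by
    have h := continuous_ratio t x
    exact continuous_const.mul (((((continuous_deriv_eta k).comp h).mul
      continuous_const).div_const 2).mul continuous_const)
  have h3 := lap_radial (x := x) h0 h1 h2 y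
  have h4 : (fun y : E d => (fun s => t * (t ^ d)⁻¹ * phi0 k (s / t ^ 2)) (‖y - x‖ ^ 2))
      = pot k t x := rfl
  rw [h4] at h3
  rw [h3]
  unfold dker
  field_simp
  ring

/-- the derivative of the kernel in the scale -/
lemma hasDerivAt_ker {t : ℝ} (ht : 0 < t) (x y : E d) :
    HasDerivAt (fun t => ker k t x y) (-(dker k t x y)) t := by
  unfold ker dker
  generalize ha : ‖y - x‖ ^ 2 = a
  have ht' : t ≠ 0 := ht.ne'
  have h1 : HasDerivAt (fun t : ℝ => a / t ^ 2) (-(2 * a / t ^ 3)) t := by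
    have h := (hasDerivAt_const t a).div (hasDerivAt_pow 2 t) (by positivity)
    refine h.congr_deriv ?_
    push_cast
    field_simp
    ring
  have h2 : HasDerivAt (fun t : ℝ => eta k (a / t ^ 2))
      (deriv (eta k) (a / t ^ 2) * -(2 * a / t ^ 3)) t :=
    HasDerivAt.comp (h₂ := eta k) (h := fun t : ℝ => a / t ^ 2) t (hasDerivAt_eta k _) h1
  have h3 : HasDerivAt (fun t : ℝ => (t ^ d)⁻¹) (-(d * t ^ (d - 1)) / (t ^ d) ^ 2) t :=
    (hasDerivAt_pow d t).inv (by positivity)
  have h4 := h3.mul h2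
  refine h4.congr_deriv ?_
  rcases Nat.eq_zero_or_pos d with h | h
  · subst h
    simp
    field_simp
  · obtain ⟨e, rfl⟩ : ∃ e, d = e + 1 := ⟨d - 1, by omega⟩
    simp only [Nat.add_sub_cancel]
    field_simp
    ring

lemma exists_dker_bound : ∃ C : ℝ, 0 ≤ C ∧ ∀ (t : ℝ) (x y : E d), 0 < t →
    |dker k t x y| ≤ (t ^ (d + 1))⁻¹ * C := by
  obtain ⟨C, hC0, hC⟩ := exists_eta_bound k
  refine ⟨d + C, by positivity, fun t x y ht => ?_⟩
  unfold dker
  rw [abs_mul, abs_of_nonneg (by positivity : (0:ℝ) ≤ (t ^ (d + 1))⁻¹)]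
  apply mul_le_mul_of_nonneg_left _ (by positivity)
  refine (abs_add_le _ _).trans ?_
  apply add_le_add
  · rw [abs_mul, abs_of_nonneg (by positivity : (0:ℝ) ≤ (d:ℝ)), abs_of_nonneg (eta_nonneg k _)]
    have := eta_le_one k (‖y - x‖ ^ 2 / t ^ 2)
    nlinarith [(by positivity : (0:ℝ) ≤ (d:ℝ))]
  · exact hC _ (by positivity)

/-- total mass of the profile -/
def kap (d : ℕ) (k : ℕ) : ℝ := ∫ z : E d, eta k (‖z‖ ^ 2)

lemma kap_eq_ker : kap d k = ∫ z : E d, ker k 1 0 z := by
  unfold kap ker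
  simp

lemma kap_pos : 0 < kap d k := by
  unfold kap
  have hc : Continuous fun z : E d => eta k (‖z‖ ^ 2) :=
    (continuous_eta k).comp (continuous_norm.pow 2)
  have hs : HasCompactSupport fun z : E d => eta k (‖z‖ ^ 2) := by
    have h := hasCompactSupport_ker (d := d) k one_pos 0
    have h2 : ker k 1 (0 : E d) = fun z : E d => eta k (‖z‖ ^ 2) := by
      funext z; simp [ker]
    rwa [h2] at h
  have h1 : Integrable fun z : E d => eta k (‖z‖ ^ 2) := hc.integrable_of_hasCompactSupport hs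
  rw [integral_pos_iff_support_of_nonneg (fun z => eta_nonneg k _) h1]
  refine (Continuous.isOpen_support hc).measure_pos volume ?_
  exact ⟨0, by simpa using (eta_pos k (show (0:ℝ) < 1 by norm_num)).ne'⟩

end
end Crest.Agent.R097.Hm
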