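import Crest.Agent.R097.HarmKer

/-!
# Row 97: mean value inequalities (radial kernels and balls)
-/

set_option autoImplicit false
open MeasureTheory Metric Set Laplacian InnerProductSpace Topology Filter
open scoped RealInnerProductSpace NNReal ENNReal ContDiff
open Crest.Agent.R077 (pdv ev lap_eq lap_radial contDiff_radial green_smooth)

namespace Crest.Agent.R097.Hm
noncomputable section
variable {d : ℕ}

/-- product of an integrable function on `S` with a bounded continuous function vanishing off `S` -/
lemma integrable_mul_of_supp {u g : E d → ℝ} {S : Set (E d)} {C : ℝ} (hS : MeasurableSet S)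
    (hu : IntegrableOn u S) (hg : Continuous g) (hgb : ∀ y, |g y| ≤ C)
    (hg0 : ∀ y, y ∉ S → g y = 0) : Integrable (fun y => u y * g y) := by
  have h1 : Integrable (S.indicator u) := hu.integrable_indicator hS
  have h2 : Integrable (fun y => S.indicator u y * g y) :=
    h1.mul_bdd (c := C) hg.aestronglyMeasurable (Filter.Eventually.of_forall fun y => hgb y)
  refine h2.congr (Filter.Eventually.of_forall fun y => ?_)
  by_cases hy : y ∈ S
  · simp [hy]
  · simp [hy, hg0 y hy]

/-- smooth mean (not normalised) -/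
def MM (k : ℕ) (t : ℝ) (u : E d → ℝ) (x : E d) : ℝ := ∫ y, u y * ker k t x y

variable (k : ℕ)

lemma abs_ker_le {t : ℝ} (ht : 0 ≤ t) (x y : E d) : |ker k t x y| ≤ (t ^ d)⁻¹ := by
  rw [abs_of_nonneg (ker_nonneg k ht x y)]
  exact ker_le k ht x y

lemma integrable_mul_ker {u : E d → ℝ} {x : E d} {t : ℝ} (ht : 0 < t)
    (hu : IntegrableOn u (closedBall x t)) : Integrable (fun y => u y * ker k t x y) := by
  refine integrable_mul_of_supp isClosed_closedBall.measurableSet hu (contDiff_ker k t x).continuous
    (C := (t ^ d)⁻¹) (fun y => abs_ker_le k ht.le x y) (fun y hy => ?_)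
  apply ker_zero k ht
  rw [mem_closedBall, dist_eq_norm, not_le] at hy
  exact hy.le

lemma integrable_mul_dker {u : E d → ℝ} {x : E d} {t : ℝ} (ht : 0 < t)
    (hu : IntegrableOn u (closedBall x t)) : Integrable (fun y => u y * dker k t x y) := by
  obtain ⟨C, hC0, hC⟩ := exists_dker_bound (d := d) k
  refine integrable_mul_of_supp isClosed_closedBall.measurableSet hu (continuous_dker k t x)
    (C := (t ^ (d + 1))⁻¹ * C) (fun y => hC t x y ht) (fun y hy => ?_)
  apply dker_zero k ht
  rw [mem_closedBall, dist_eq_norm, not_le] at hy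
  exact hy

lemma hasDerivAt_MM {u : E d → ℝ} {x : E d} {t R : ℝ} (ht : 0 < t) (htR : t < R)
    (hu : IntegrableOn u (ball x R)) :
    HasDerivAt (fun t => MM k t u x) (-∫ y, u y * dker k t x y) t := by
  obtain ⟨C, hC0, hC⟩ := exists_dker_bound (d := d) k
  set b := (t + R) / 2 with hb
  have htb : t < b := by rw [hb]; linarith
  have hbR : b < R := by rw [hb]; linarith
  have hub : IntegrableOn u (closedBall x b) := hu.mono_set (closedBall_subset_ball hbR)
  have hs : Ioo (t / 2) b ∈ 𝓝 t := Ioo_mem_nhds (by linarith) htb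
  have key := hasDerivAt_integral_of_dominated_loc_of_deriv_le (μ := (volume : Measure (E d)))
    (F := fun t y => u y * ker k t x y) (F' := fun t y => u y * (-dker k t x y)) (x₀ := t)
    (s := Ioo (t / 2) b)
    (bound := fun y => (closedBall x b).indicator (fun y => |u y| * (((t / 2) ^ (d + 1))⁻¹ * C)) y)
    hs ?_ ?_ ?_ ?_ ?_ ?_
  · have h := key.2
    have h2 : (∫ y, u y * (-dker k t x y)) = -∫ y, u y * dker k t x y := by
      rw [← integral_neg]
      congr 1
      funext y
      ring
    rw [h2] at h
    exact h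
  · filter_upwards [hs] with s hs'
    have hs0 : 0 < s := by have := hs'.1; linarith
    exact (integrable_mul_ker k hs0
      (hub.mono_set (closedBall_subset_closedBall hs'.2.le))).aestronglyMeasurable
  · exact integrable_mul_ker k ht (hub.mono_set (closedBall_subset_closedBall htb.le))
  · have h := (integrable_mul_dker k ht
      (hub.mono_set (closedBall_subset_closedBall htb.le))).aestronglyMeasurable.neg
    refine h.congr (Filter.Eventually.of_forall fun y => ?_)
    simp
  · refine Filter.Eventually.of_forall fun y s hs' => ?_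
    have hs0 : 0 < s := by have := hs'.1; linarith
    by_cases hy : y ∈ closedBall x b
    · rw [indicator_of_mem hy, norm_mul, Real.norm_eq_abs, Real.norm_eq_abs, abs_neg]
      apply mul_le_mul_of_nonneg_left _ (abs_nonneg _)
      refine (hC s x y hs0).trans ?_
      apply mul_le_mul_of_nonneg_right _ hC0
      apply inv_anti₀ (by positivity)
      apply pow_le_pow_left₀ (by positivity) hs'.1.le
    · rw [indicator_of_notMem hy]
      rw [mem_closedBall, dist_eq_norm, not_le] at hy
      rw [dker_zero k hs0 (hs'.2.trans hy)]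
      simp
  · have hI : IntegrableOn (fun y => |u y| * (((t / 2) ^ (d + 1))⁻¹ * C)) (closedBall x b) :=
      hub.abs.mul_const _
    exact hI.integrable_indicator isClosed_closedBall.measurableSet
  · refine Filter.Eventually.of_forall fun y s hs' => ?_
    have hs0 : 0 < s := by have := hs'.1; linarith
    exact (hasDerivAt_ker k hs0 x y).const_mul _

lemma integral_ker {t : ℝ} (ht : 0 < t) (x : E d) : ∫ y, ker k t x y = kap d k := by
  have h1 : ∫ y, ker k t x y = ∫ y : E d, ker k t 0 y := by
    rw [← integral_sub_right_eq_self (fun y : E d => ker k t 0 y) x]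
    congr 1
    funext y
    simp [ker]
  rw [h1]
  have h2 : (fun y : E d => ker k t 0 y)
      = fun y : E d => (t ^ d)⁻¹ * (fun z : E d => eta k (‖z‖ ^ 2)) (t⁻¹ • y) := by
    funext y
    simp only [ker, sub_zero, norm_smul, norm_inv, Real.norm_eq_abs, abs_of_pos ht]
    congr 2
    field_simp
  rw [h2, integral_const_mul,
    Measure.integral_comp_smul volume (fun z : E d => eta k (‖z‖ ^ 2)) t⁻¹]
  simp only [finrank_euclideanSpace, Fintype.card_fin, smul_eq_mul]
  rw [abs_of_pos (by positivity)]
  unfold kap
  field_simp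
  rw [← mul_pow, mul_one_div_cancel ht.ne', one_pow, one_mul]

lemma integrable_ker {t : ℝ} (ht : 0 < t) (x : E d) : Integrable (ker k t x) :=
  (contDiff_ker k t x).continuous.integrable_of_hasCompactSupport (hasCompactSupport_ker k ht x)

lemma tendsto_MM {u : E d → ℝ} {x : E d} {R : ℝ} (hR : 0 < R) (hu : IntegrableOn u (ball x R))
    (hc : ContinuousAt u x) :
    Tendsto (fun t => MM k t u x) (𝓝[>] 0) (𝓝 (kap d k * u x)) := by
  rw [Metric.tendsto_nhds]
  intro ε hε
  have hκ : 0 < kap d k := kap_pos k
  obtain ⟨δ, hδ, hδ2⟩ := Metric.continuousAt_iff.mp hc (ε / (2 * kap d k)) (by positivity)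
  have hm : Ioo (0:ℝ) (min δ R) ∈ 𝓝[>] (0:ℝ) := Ioo_mem_nhdsGT (lt_min hδ hR)
  filter_upwards [hm] with t ht
  have ht0 : 0 < t := ht.1
  have htδ : t < δ := ht.2.trans_le (min_le_left _ _)
  have htR : t < R := ht.2.trans_le (min_le_right _ _)
  have hut : IntegrableOn u (closedBall x t) := hu.mono_set (closedBall_subset_ball htR)
  have h1 : MM k t u x - kap d k * u x = ∫ y, (u y - u x) * ker k t x y := by
    have h2 : ∫ y, (u y - u x) * ker k t x y
        = (∫ y, u y * ker k t x y) - ∫ y, u x * ker k t x y := by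
      rw [← integral_sub (integrable_mul_ker k ht0 hut) ((integrable_ker k ht0 x).const_mul _)]
      congr 1
      funext y
      ring
    rw [h2, integral_const_mul, integral_ker k ht0]
    unfold MM
    ring
  rw [Real.dist_eq, h1]
  have h3 : |∫ y, (u y - u x) * ker k t x y| ≤ ∫ y, ε / (2 * kap d k) * ker k t x y := by
    rw [← Real.norm_eq_abs]
    refine norm_integral_le_of_norm_le ((integrable_ker k ht0 x).const_mul _)
      (Filter.Eventually.of_forall fun y => ?_)
    rw [norm_mul, Real.norm_eq_abs, Real.norm_eq_abs, abs_of_nonneg (ker_nonneg k ht0.le x y)]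
    by_cases hy : t ≤ ‖y - x‖
    · rw [ker_zero k ht0 hy]; simp
    · apply mul_le_mul_of_nonneg_right _ (ker_nonneg k ht0.le x y)
      have hy2 : dist y x < δ := by
        rw [dist_eq_norm]; push Not at hy; linarith
      have := hδ2 hy2
      rw [Real.dist_eq] at this
      exact this.le
  refine h3.trans_lt ?_
  rw [integral_const_mul, integral_ker k ht0]
  rw [div_mul_eq_mul_div, mul_div_mul_right _ _ hκ.ne']
  linarith

/-- the volume of the unit ball -/
def omg (d : ℕ) : ℝ := (volume (ball (0 : E d) 1)).toReal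

lemma omg_pos : 0 < omg d :=
  ENNReal.toReal_pos (measure_ball_pos volume _ one_pos).ne' measure_ball_lt_top.ne

lemma volume_ball_real (x : E d) {t : ℝ} (ht : 0 < t) :
    (volume (ball x t)).toReal = t ^ d * omg d := by
  rw [Measure.addHaar_ball_of_pos volume x ht, ENNReal.toReal_mul]
  simp [omg, finrank_euclideanSpace, ENNReal.toReal_ofReal (by positivity : 0 ≤ t ^ d)]

lemma volume_closedBall_real (x : E d) {t : ℝ} (ht : 0 < t) :
    (volume (closedBall x t)).toReal = t ^ d * omg d := by
  rw [Measure.addHaar_closedBall volume x ht.le, ENNReal.toReal_mul]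
  simp [omg, finrank_euclideanSpace, ENNReal.toReal_ofReal (by positivity : 0 ≤ t ^ d)]

lemma neg_pot_le {t : ℝ} (ht : 0 < t) (x y : E d) :
    -pot k t x y ≤ (closedBall x t).indicator (fun _ => t * (t ^ d)⁻¹ * (1 / 2)) y := by
  by_cases hy : y ∈ closedBall x t
  · rw [indicator_of_mem hy]
    unfold pot
    have h := neg_half_le_phi0 k (s := ‖y - x‖ ^ 2 / t ^ 2) (by positivity)
    have h2 : 0 ≤ t * (t ^ d)⁻¹ := by positivity
    nlinarith
  · rw [indicator_of_notMem hy]
    rw [mem_closedBall, dist_eq_norm, not_le] at hy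
    rw [pot_zero k ht hy.le]
    simp

lemma integral_neg_pot_le {t : ℝ} (ht : 0 < t) (x : E d) :
    ∫ y, -pot k t x y ≤ t * omg d / 2 := by
  have h1 : Integrable ((closedBall x t).indicator (fun _ => t * (t ^ d)⁻¹ * (1 / 2) : E d → ℝ)) := by
    rw [integrable_indicator_iff isClosed_closedBall.measurableSet]
    exact integrableOn_const measure_closedBall_lt_top.ne
  have h2 : Integrable (fun y => -pot k t x y) :=
    ((contDiff_pot k t x).continuous.integrable_of_hasCompactSupport
      (hasCompactSupport_pot k ht x)).neg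
  refine (integral_mono h2 h1 (fun y => neg_pot_le k ht x y)).trans ?_
  rw [integral_indicator isClosed_closedBall.measurableSet, setIntegral_const, measureReal_def,
    volume_closedBall_real x ht, smul_eq_mul]
  apply le_of_eq
  field_simp

/-- a global `C^m` function agreeing with `h` near a closed ball -/
lemma exists_cut {h : E d → ℝ} {x : E d} {t R : ℝ} {m : ℕ∞} (ht : 0 < t) (htR : t < R)
    (hh : ContDiffOn ℝ m h (ball x R)) :
    ∃ g : E d → ℝ, ContDiff ℝ m g ∧ HasCompactSupport g ∧ ∀ y ∈ ball x ((t + R) / 2), g y = h y := by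
  have hb1 : t < (t + R) / 2 := by linarith
  have hb2 : (t + R) / 2 < (t + 3 * R) / 4 := by linarith
  have hb3 : (t + 3 * R) / 4 < R := by linarith
  let f : ContDiffBump x := ⟨(t + R) / 2, (t + 3 * R) / 4, by linarith, hb2⟩
  refine ⟨fun y => f y * h y, ?_, ?_, ?_⟩
  · rw [contDiff_iff_contDiffAt]
    intro y
    by_cases hy : y ∈ ball x R
    · exact f.contDiff.contDiffAt.mul (hh.contDiffAt (isOpen_ball.mem_nhds hy))
    · have hy2 : y ∉ tsupport f := by
        rw [f.tsupport_eq]
        intro hcon
        apply hy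
        have : dist y x ≤ (t + 3 * R) / 4 := hcon
        rw [mem_ball]
        linarith
      have h0 : (fun y => f y * h y) =ᶠ[𝓝 y] fun _ => (0:ℝ) := by
        have := (isClosed_tsupport f).isOpen_compl.mem_nhds hy2
        filter_upwards [this] with z hz
        rw [image_eq_zero_of_notMem_tsupport hz, zero_mul]
      exact contDiffAt_const.congr_of_eventuallyEq h0
  · exact f.hasCompactSupport.mul_right
  · intro y hy
    have : f y = 1 := f.one_of_mem_closedBall (ball_subset_closedBall hy)
    simp [this]

lemma lap_congr_at {f g : E d → ℝ} {x : E d} (h : f =ᶠ[𝓝 x] g) : (Δ f) x = (Δ g) x :=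
  Crest.Agent.R077.lap_congr_at h

lemma green_dker {h : E d → ℝ} {x : E d} {t R : ℝ} (ht : 0 < t) (htR : t < R)
    (hh : ContDiffOn ℝ 2 h (ball x R)) :
    ∫ y, h y * dker k t x y = ∫ y, (Δ h) y * pot k t x y := by
  obtain ⟨g, hg, hgc, hgh⟩ := exists_cut (m := 2) ht htR hh
  have h1 := green_smooth hg (contDiff_infty.mp (contDiff_pot k t x) 2)
    (hasCompactSupport_pot k ht x)
  have hnear : ∀ y, ‖y - x‖ ≤ t → g =ᶠ[𝓝 y] h := by
    intro y hy
    have : ball x ((t + R) / 2) ∈ 𝓝 y := by
      apply isOpen_ball.mem_nhds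
      rw [mem_ball, dist_eq_norm]
      linarith
    filter_upwards [this] with z hz using hgh z hz
  have h2 : ∫ y, h y * dker k t x y = ∫ y, g y * (Δ (pot k t x)) y := by
    congr 1
    funext y
    rw [lap_pot k ht]
    by_cases hy : ‖y - x‖ ≤ t
    · rw [(hnear y hy).eq_of_nhds]
    · rw [dker_zero k ht (not_le.mp hy)]; simp
  have h3 : ∫ y, (Δ h) y * pot k t x y = ∫ y, (Δ g) y * pot k t x y := by
    congr 1
    funext y
    by_cases hy : ‖y - x‖ ≤ t
    · rw [lap_congr_at (hnear y hy)]
    · rw [pot_zero k ht (not_le.mp hy).le]; simp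
  rw [h2, h3, h1]

/-- derivative of the smooth means of a `C²` function -/
lemma hasDerivAt_MM_C2 {h : E d → ℝ} {x : E d} {t R : ℝ} (ht : 0 < t) (htR : t < R)
    (hh : ContDiffOn ℝ 2 h (ball x R)) :
    HasDerivAt (fun t => MM k t h x) (∫ y, (Δ h) y * (-pot k t x y)) t := by
  have hc : ContinuousOn h (closedBall x ((t + R) / 2)) :=
    hh.continuousOn.mono (closedBall_subset_ball (by linarith))
  have hI : IntegrableOn h (ball x ((t + R) / 2)) :=
    (hc.integrableOn_compact (isCompact_closedBall _ _)).mono_set ball_subset_closedBall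
  have h1 := hasDerivAt_MM k ht (show t < (t + R) / 2 by linarith) hI
  rw [green_dker k ht htR hh, ← integral_neg] at h1
  refine h1.congr_deriv ?_
  congr 1
  funext y
  ring

/-- sub mean value property with radial smooth kernels -/
theorem sub_mean_ker {h : E d → ℝ} {x : E d} {t R A : ℝ} (ht : 0 < t) (htR : t < R)
    (hh : ContDiffOn ℝ 2 h (ball x R)) (hA : 0 ≤ A) (hΔ : ∀ y ∈ ball x t, -A ≤ (Δ h) y) :
    kap d k * h x ≤ MM k t h x + A * omg d * t ^ 2 / 4 := by
  -- `F s = MM s + A ω s²/4` is monotone on `(0,t]`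
  have hder : ∀ s, 0 < s → s ≤ t → HasDerivAt (fun s => MM k s h x + A * omg d * s ^ 2 / 4)
      ((∫ y, (Δ h) y * (-pot k s x y)) + A * omg d * s / 2) s := by
    intro s hs hst
    have h1 := hasDerivAt_MM_C2 k hs (hst.trans_lt htR) hh
    have h2 : HasDerivAt (fun s : ℝ => A * omg d * s ^ 2 / 4) (A * omg d * s / 2) s := by
      have := ((hasDerivAt_pow 2 s).const_mul (A * omg d)).div_const 4
      refine this.congr_deriv ?_
      push_cast
      ring
    exact h1.add h2
  have hpos : ∀ s, 0 < s → s < t → 0 ≤ (∫ y, (Δ h) y * (-pot k s x y)) + A * omg d * s / 2 := by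
    intro s hs hst
    have hI2 : Integrable (fun y => -pot k s x y) :=
      ((contDiff_pot k s x).continuous.integrable_of_hasCompactSupport
        (hasCompactSupport_pot k hs x)).neg
    have h1 : -A * ∫ y, -pot k s x y ≤ ∫ y, (Δ h) y * (-pot k s x y) := by
      rw [← integral_const_mul]
      by_cases hI : Integrable (fun y => (Δ h) y * (-pot k s x y))
      · apply integral_mono (hI2.const_mul _) hI
        intro y
        simp only
        by_cases hy : s ≤ ‖y - x‖
        · rw [pot_zero k hs hy]; simp
        · apply mul_le_mul_of_nonneg_right _ (by linarith [pot_nonpos k hs.le x y])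
          apply hΔ
          rw [mem_ball, dist_eq_norm]
          push Not at hy
          linarith
      · exfalso
        apply hI
        have hco : ContinuousOn (Δ h) (ball x R) := by
          have h5 : ContinuousOn (fun y => iteratedFDeriv ℝ 2 h y) (ball x R) := by
            have h6 := hh.continuousOn_iteratedFDerivWithin (m := 2) le_rfl isOpen_ball.uniqueDiffOn
            refine h6.congr fun y hy => ?_
            exact (iteratedFDerivWithin_of_isOpen 2 isOpen_ball hy).symm
          rw [laplacian_eq_iteratedFDeriv_orthonormalBasis h (EuclideanSpace.basisFun (Fin d) ℝ)]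
          apply continuousOn_finsetSum
          intro i _
          exact (ContinuousMultilinearMap.apply ℝ (fun _ : Fin 2 => E d) ℝ
            ![(EuclideanSpace.basisFun (Fin d) ℝ) i, (EuclideanSpace.basisFun (Fin d) ℝ) i]).continuous.comp_continuousOn h5
        have h7 : IntegrableOn (Δ h) (closedBall x s) :=
          (hco.mono (closedBall_subset_ball (hst.trans htR))).integrableOn_compact
            (isCompact_closedBall _ _)
        refine integrable_mul_of_supp isClosed_closedBall.measurableSet h7
          (contDiff_pot k s x).continuous.neg (C := s * (s ^ d)⁻¹ * (1 / 2)) (fun y => ?_)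
          (fun y hy => ?_)
        · rw [abs_of_nonneg (by linarith [pot_nonpos k hs.le x y])]
          refine (neg_pot_le k hs x y).trans ?_
          apply indicator_le_self'
          intro _ _
          positivity
        · rw [mem_closedBall, dist_eq_norm, not_le] at hy
          rw [pot_zero k hs hy.le]; simp
    have h2 := integral_neg_pot_le k hs x
    nlinarith
  have hmono : MonotoneOn (fun s => MM k s h x + A * omg d * s ^ 2 / 4) (Ioc 0 t) := by
    apply monotoneOn_of_deriv_nonneg (convex_Ioc 0 t)
    · intro s hs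
      exact (hder s hs.1 hs.2).continuousAt.continuousWithinAt
    · intro s hs
      rw [interior_Ioc] at hs
      exact (hder s hs.1 hs.2.le).differentiableAt.differentiableWithinAt
    · intro s hs
      rw [interior_Ioc] at hs
      rw [(hder s hs.1 hs.2.le).deriv]
      exact hpos s hs.1 hs.2
  have hR : 0 < R := ht.trans htR
  have hI : IntegrableOn h (ball x t) :=
    ((hh.continuousOn.mono (closedBall_subset_ball htR)).integrableOn_compact
      (isCompact_closedBall _ _)).mono_set ball_subset_closedBall
  have hcx : ContinuousAt h x := hh.continuousOn.continuousAt (ball_mem_nhds x hR)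
  have hlim : Tendsto (fun s => MM k s h x + A * omg d * s ^ 2 / 4) (𝓝[>] 0)
      (𝓝 (kap d k * h x + 0)) := by
    apply (tendsto_MM k ht hI hcx).add
    have : Tendsto (fun s : ℝ => A * omg d * s ^ 2 / 4) (𝓝 0) (𝓝 (A * omg d * 0 ^ 2 / 4)) :=
      Continuous.tendsto (by fun_prop) 0
    simpa using this.mono_left nhdsWithin_le_nhds
  rw [add_zero] at hlim
  apply le_of_tendsto hlim
  filter_upwards [Ioo_mem_nhdsGT ht] with s hs
  exact hmono ⟨hs.1, hs.2.le⟩ ⟨ht, le_rfl⟩ hs.2.le

lemma lap_neg {h : E d → ℝ} (y : E d) : (Δ (fun y => -h y)) y = -(Δ h) y := by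
  have : (fun y => -h y) = -h := rfl
  rw [this, laplacian_neg]
  rfl

/-- super mean value property with radial smooth kernels -/
theorem super_mean_ker {h : E d → ℝ} {x : E d} {t R A : ℝ} (ht : 0 < t) (htR : t < R)
    (hh : ContDiffOn ℝ 2 h (ball x R)) (hA : 0 ≤ A) (hΔ : ∀ y ∈ ball x t, (Δ h) y ≤ A) :
    MM k t h x - A * omg d * t ^ 2 / 4 ≤ kap d k * h x := by
  have h1 := sub_mean_ker k (h := fun y => -h y) ht htR hh.neg hA
    (fun y hy => by rw [lap_neg]; linarith [hΔ y hy])
  have h2 : MM k t (fun y => -h y) x = - MM k t h x := by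
    unfold MM
    rw [← integral_neg]
    congr 1
    funext y
    ring
  rw [h2] at h1
  linarith

theorem mean_ker {h : E d → ℝ} {x : E d} {t R : ℝ} (ht : 0 < t) (htR : t < R)
    (hh : ContDiffOn ℝ 2 h (ball x R)) (hΔ : ∀ y ∈ ball x t, (Δ h) y = 0) :
    MM k t h x = kap d k * h x := by
  have h1 := sub_mean_ker k ht htR hh le_rfl (fun y hy => by rw [hΔ y hy]; simp)
  have h2 := super_mean_ker k ht htR hh le_rfl (fun y hy => by rw [hΔ y hy])
  linarith

/-! ### means over balls -/

lemma tendsto_kap : Tendsto (fun k => kap d k) atTop (𝓝 (omg d)) := by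
  have h1 : omg d = ∫ z : E d, (ball (0 : E d) 1).indicator (fun _ => (1:ℝ)) z := by
    rw [integral_indicator isOpen_ball.measurableSet, setIntegral_const]
    simp [omg, measureReal_def]
  rw [h1]
  unfold kap
  refine tendsto_integral_of_dominated_convergence
    ((closedBall (0 : E d) 1).indicator (fun _ => (1:ℝ))) (fun k => ?_) ?_ (fun k => ?_) ?_
  · exact ((continuous_eta k).comp (continuous_norm.pow 2)).aestronglyMeasurable
  · rw [integrable_indicator_iff isClosed_closedBall.measurableSet]
    exact integrableOn_const measure_closedBall_lt_top.ne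
  · refine Filter.Eventually.of_forall fun z => ?_
    rw [Real.norm_eq_abs, abs_of_nonneg (eta_nonneg k _)]
    by_cases hz : z ∈ closedBall (0 : E d) 1
    · rw [indicator_of_mem hz]; exact eta_le_one k _
    · rw [indicator_of_notMem hz]
      rw [mem_closedBall, dist_zero_right, not_le] at hz
      rw [eta_zero k (by nlinarith)]
  · refine Filter.Eventually.of_forall fun z => ?_
    by_cases hz : z ∈ ball (0 : E d) 1
    · rw [indicator_of_mem hz]
      rw [mem_ball, dist_zero_right] at hz
      exact tendsto_eta (by nlinarith [norm_nonneg z])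
    · rw [indicator_of_notMem hz]
      rw [mem_ball, dist_zero_right, not_lt] at hz
      have : ∀ k : ℕ, eta k (‖z‖ ^ 2) = 0 := fun k => eta_zero k (by nlinarith)
      simp [this]

lemma tendsto_MM_k {u : E d → ℝ} {x : E d} {t : ℝ} (ht : 0 < t)
    (hu : IntegrableOn u (closedBall x t)) :
    Tendsto (fun k => MM k t u x) atTop (𝓝 ((t ^ d)⁻¹ * ∫ y in ball x t, u y)) := by
  have h1 : (t ^ d)⁻¹ * ∫ y in ball x t, u y
      = ∫ y, (ball x t).indicator (fun y => u y * (t ^ d)⁻¹) y := by
    rw [integral_indicator isOpen_ball.measurableSet, integral_mul_const, mul_comm]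
  rw [h1]
  unfold MM
  refine tendsto_integral_of_dominated_convergence
    ((closedBall x t).indicator (fun y => |u y| * (t ^ d)⁻¹)) (fun k => ?_) ?_ (fun k => ?_) ?_
  · exact (integrable_mul_ker k ht hu).aestronglyMeasurable
  · have hI : IntegrableOn (fun y => |u y| * (t ^ d)⁻¹) (closedBall x t) := hu.abs.mul_const _
    exact hI.integrable_indicator isClosed_closedBall.measurableSet
  · refine Filter.Eventually.of_forall fun z => ?_
    rw [norm_mul, Real.norm_eq_abs, Real.norm_eq_abs]
    by_cases hz : z ∈ closedBall x t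
    · rw [indicator_of_mem hz]
      exact mul_le_mul_of_nonneg_left (abs_ker_le k ht.le x z) (abs_nonneg _)
    · rw [indicator_of_notMem hz]
      rw [mem_closedBall, dist_eq_norm, not_le] at hz
      rw [ker_zero k ht hz.le]; simp
  · refine Filter.Eventually.of_forall fun z => ?_
    by_cases hz : z ∈ ball x t
    · rw [indicator_of_mem hz]
      rw [mem_ball, dist_eq_norm] at hz
      have h2 : ‖z - x‖ ^ 2 / t ^ 2 < 1 := by
        rw [div_lt_one (by positivity)]
        exact pow_lt_pow_left₀ hz (norm_nonneg _) (by norm_num)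
      have h3 := ((tendsto_eta h2).const_mul ((t ^ d)⁻¹)).const_mul (u z)
      rw [mul_one] at h3
      exact h3
    · rw [indicator_of_notMem hz]
      rw [mem_ball, dist_eq_norm, not_lt] at hz
      have : ∀ k : ℕ, ker k t x z = 0 := fun k => ker_zero k ht hz
      simp [this]

/-- sub mean value property on balls -/
theorem sub_mean {h : E d → ℝ} {x : E d} {t R A : ℝ} (ht : 0 < t) (htR : t < R)
    (hh : ContDiffOn ℝ 2 h (ball x R)) (hA : 0 ≤ A) (hΔ : ∀ y ∈ ball x t, -A ≤ (Δ h) y) :
    h x ≤ (⨍ y in ball x t, h y) + A * t ^ 2 / 4 := by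
  have hI : IntegrableOn h (closedBall x t) :=
    (hh.continuousOn.mono (closedBall_subset_ball htR)).integrableOn_compact
      (isCompact_closedBall _ _)
  have h1 := le_of_tendsto_of_tendsto' ((tendsto_kap (d := d)).mul_const (h x))
    ((tendsto_MM_k ht hI).add_const (A * omg d * t ^ 2 / 4))
    (fun k => sub_mean_ker k ht htR hh hA hΔ)
  have h2 : (⨍ y in ball x t, h y) = (t ^ d * omg d)⁻¹ * ∫ y in ball x t, h y := by
    rw [setAverage_eq, measureReal_def, volume_ball_real x ht, smul_eq_mul]
  rw [h2]
  have h3 : 0 < omg d := omg_pos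
  have h4 : 0 < t ^ d := by positivity
  have h5 : omg d * h x ≤ omg d * ((t ^ d * omg d)⁻¹ * (∫ y in ball x t, h y) + A * t ^ 2 / 4) := by
    refine h1.trans (le_of_eq ?_)
    field_simp
  exact le_of_mul_le_mul_left h5 h3

theorem super_mean {h : E d → ℝ} {x : E d} {t R A : ℝ} (ht : 0 < t) (htR : t < R)
    (hh : ContDiffOn ℝ 2 h (ball x R)) (hA : 0 ≤ A) (hΔ : ∀ y ∈ ball x t, (Δ h) y ≤ A) :
    (⨍ y in ball x t, h y) - A * t ^ 2 / 4 ≤ h x := by
  have h1 := sub_mean (h := fun y => -h y) ht htR hh.neg hA
    (fun y hy => by rw [lap_neg]; linarith [hΔ y hy])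
  rw [setAverage_eq, integral_neg, smul_neg] at h1
  rw [setAverage_eq]
  linarith

theorem mean_ball {h : E d → ℝ} {x : E d} {t R : ℝ} (ht : 0 < t) (htR : t < R)
    (hh : ContDiffOn ℝ 2 h (ball x R)) (hΔ : ∀ y ∈ ball x t, (Δ h) y = 0) :
    h x = ⨍ y in ball x t, h y := by
  have h1 := sub_mean ht htR hh le_rfl (fun y hy => by rw [hΔ y hy]; simp)
  have h2 := super_mean ht htR hh le_rfl (fun y hy => by rw [hΔ y hy])
  linarith

end
end Crest.Agent.R097.Hm
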