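import Crest.Agent.R097.Base

/-!
# Row 97: integration by parts for Lipschitz test functions
-/

set_option autoImplicit false
open MeasureTheory Metric Set Filter Topology InnerProductSpace
open scoped RealInnerProductSpace NNReal ENNReal

namespace Crest.Agent.R097

variable {d : ℕ}

/-- the standard basis vector -/
noncomputable def bv (i : Fin d) : E d := EuclideanSpace.single i 1

lemma norm_bv (i : Fin d) : ‖bv i‖ = 1 := by simp [bv]

lemma inner_bv (i : Fin d) (x : E d) : ⟪bv i, x⟫_ℝ = x i := by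
  simp [bv, EuclideanSpace.inner_single_left]

lemma inner_bv' (i : Fin d) (x : E d) : ⟪x, bv i⟫_ℝ = x i := by
  rw [real_inner_comm, inner_bv]

lemma sum_bv (x : E d) : ∑ i, x i • bv i = x := by
  have := (EuclideanSpace.basisFun (Fin d) ℝ).sum_repr x
  simpa [bv] using this

/-- divergence of a vector field -/
noncomputable def dv (Y : E d → E d) (x : E d) : ℝ := ∑ i, (fderiv ℝ Y x (bv i)) i

/-- Lipschitz functions: boundedness of the derivative -/
lemma norm_fderiv_le_of_lip {g : E d → ℝ} {C : ℝ≥0} (hg : LipschitzWith C g) (x : E d) :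
    ‖fderiv ℝ g x‖ ≤ C := norm_fderiv_le_of_lipschitz ℝ hg

/-- outside the topological support the derivative vanishes -/
lemma fderiv_eq_zero_of_notMem_tsupport {F : Type*} [NormedAddCommGroup F] [NormedSpace ℝ F]
    {g : E d → F} {x : E d} (hx : x ∉ tsupport g) :
    fderiv ℝ g x = 0 := by
  have : g =ᶠ[𝓝 x] fun _ => 0 := by
    rw [notMem_tsupport_iff_eventuallyEq] at hx
    exact hx
  rw [this.fderiv_eq]
  simp

/-- a bounded measurable function supported in a compact set is integrable -/
lemma integrable_of_bdd {f : E d → ℝ} {S : Set (E d)} (hS : IsCompact S)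
    (hf : AEStronglyMeasurable f) (h0 : ∀ x ∉ S, f x = 0) {C : ℝ} (hC : ∀ x ∈ S, |f x| ≤ C) :
    Integrable f := by
  have h1 : IntegrableOn f S := by
    refine Measure.integrableOn_of_bounded (M := C) hS.measure_lt_top.ne hf ?_
    rw [ae_restrict_iff' hS.measurableSet]
    exact Eventually.of_forall fun x hx => by simpa using hC x hx
  exact (integrableOn_iff_integrable_of_support_subset
    (fun x hx => by by_contra h; exact hx (h0 x h))).1 h1

/-- smooth cutoff functions -/
lemma exists_cutoff {S : Set (E d)} (hS : IsCompact S) {U : Set (E d)} (hU : IsOpen U)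
    (hSU : S ⊆ U) :
    ∃ χ : E d → ℝ, ContDiff ℝ (⊤ : ℕ∞) χ ∧ HasCompactSupport χ ∧ tsupport χ ⊆ U ∧
      (∀ x, χ x ∈ Icc (0 : ℝ) 1) ∧ ∀ x ∈ S, ∀ᶠ y in 𝓝 x, χ y = 1 := by
  obtain ⟨S', hS'c, hSS', hS'U⟩ := exists_compact_between hS hU hSU
  obtain ⟨f, hf1, hf2, hf3⟩ := exists_contMDiffMap_one_nhds_of_subset_interior
    (modelWithCornersSelf ℝ (E d)) (n := (⊤ : ℕ∞)) hS.isClosed hSS'
  have hsupp : tsupport (f : E d → ℝ) ⊆ S' := by
    refine closure_minimal (fun x hx => ?_) hS'c.isClosed
    by_contra h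
    exact hx (hf2 x h)
  refine ⟨f, ?_, ?_, hsupp.trans hS'U, hf3, ?_⟩
  · exact contMDiff_iff_contDiff.1 f.contMDiff
  · exact hS'c.of_isClosed_subset (isClosed_tsupport _) hsupp
  · intro x hx
    exact (eventually_nhdsSet_iff_forall.1 hf1) x hx

/-- integration by parts, scalar version -/
theorem ibp1 {f g : E d → ℝ} {C : ℝ≥0} (hf : ContDiff ℝ 1 f) (hg : LipschitzWith C g)
    (hgc : HasCompactSupport g) (v : E d) :
    ∫ x, f x * fderiv ℝ g x v = - ∫ x, fderiv ℝ f x v * g x := by
  obtain ⟨χ, hχ, hχc, -, -, hχ1⟩ := exists_cutoff hgc.isCompact isOpen_univ (subset_univ _)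
  have hF : ContDiff ℝ 1 (fun x => χ x * f x) := (hχ.of_le (by exact_mod_cast le_top)).mul hf
  have hFc : HasCompactSupport (fun x => χ x * f x) := hχc.mul_right
  obtain ⟨D, hD⟩ := hF.lipschitzWith_of_hasCompactSupport hFc (by norm_num)
  have key := LipschitzWith.integral_lineDeriv_mul_eq (μ := volume) hD hg hgc v
  have hgd : ∀ᵐ x, DifferentiableAt ℝ g x := hg.ae_differentiableAt
  have e1 : ∀ x, lineDeriv ℝ (fun x => χ x * f x) x v * g x = fderiv ℝ f x v * g x := by
    intro x
    by_cases hx : x ∈ tsupport g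
    · have h1 : (fun x => χ x * f x) =ᶠ[𝓝 x] f := by
        filter_upwards [hχ1 x hx] with y hy
        rw [hy, one_mul]
      rw [(hF.differentiable (by norm_num)).differentiableAt.lineDeriv_eq_fderiv, h1.fderiv_eq]
    · rw [image_eq_zero_of_notMem_tsupport hx]; simp
  have e2 : ∀ᵐ x, lineDeriv ℝ g x (-v) * (χ x * f x) = - (f x * fderiv ℝ g x v) := by
    filter_upwards [hgd] with x hx
    rw [hx.lineDeriv_eq_fderiv, map_neg]
    by_cases hx' : x ∈ tsupport g
    · rw [(hχ1 x hx').self_of_nhds]; ring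
    · rw [fderiv_eq_zero_of_notMem_tsupport hx']; simp
  rw [integral_congr_ae (Eventually.of_forall e1), integral_congr_ae e2, integral_neg] at key
  linarith

lemma lip_of_contDiff_compact {f : E d → ℝ} (hf : ContDiff ℝ 1 f) (hc : HasCompactSupport f) :
    ∃ C : ℝ≥0, LipschitzWith C f := hf.lipschitzWith_of_hasCompactSupport hc (by norm_num)

lemma measurable_fd (g : E d → ℝ) (v : E d) : Measurable fun x => fderiv ℝ g x v :=
  measurable_fderiv_apply_const ℝ g v

lemma integrable_fderiv_mul {f g : E d → ℝ} {C : ℝ≥0} (hf : Continuous f)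
    (hg : LipschitzWith C g) (hgc : HasCompactSupport g) (v : E d) :
    Integrable fun x => f x * fderiv ℝ g x v := by
  obtain ⟨M, hM⟩ := (hgc.isCompact).exists_bound_of_continuousOn hf.continuousOn
  refine integrable_of_bdd (C := M * (C * ‖v‖)) hgc.isCompact
    (hf.measurable.mul (measurable_fd g v)).aestronglyMeasurable ?_ ?_
  · intro x hx
    rw [fderiv_eq_zero_of_notMem_tsupport hx]; simp
  · intro x hx
    rw [abs_mul]
    refine mul_le_mul (hM x hx) ?_ (abs_nonneg _) ((norm_nonneg _).trans (hM x hx))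
    exact (ContinuousLinearMap.le_opNorm _ _).trans
      (mul_le_mul_of_nonneg_right (norm_fderiv_le_of_lip hg x) (norm_nonneg _))

/-- integration by parts for vector fields -/
theorem ibpV {Y : E d → E d} {g : E d → ℝ} {C : ℝ≥0} (hY : ContDiff ℝ 1 Y)
    (hg : LipschitzWith C g) (hgc : HasCompactSupport g) :
    ∫ x, fderiv ℝ g x (Y x) = - ∫ x, g x * dv Y x := by
  have hYi : ∀ i, ContDiff ℝ 1 (fun x => Y x i) := fun i => contDiff_euclidean.1 hY i
  have hfd : ∀ i x, fderiv ℝ (fun x => Y x i) x (bv i) = (fderiv ℝ Y x (bv i)) i := by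
    intro i x
    have h1 : HasFDerivAt (fun x => Y x i)
        ((EuclideanSpace.proj i : E d →L[ℝ] ℝ).comp (fderiv ℝ Y x)) x :=
      (EuclideanSpace.proj i : E d →L[ℝ] ℝ).hasFDerivAt.comp x
        (hY.differentiable (by norm_num) x).hasFDerivAt
    rw [h1.fderiv]; rfl
  have e1 : ∀ x, fderiv ℝ g x (Y x) = ∑ i, Y x i * fderiv ℝ g x (bv i) := by
    intro x
    conv_lhs => rw [← sum_bv (Y x), map_sum]
    simp [smul_eq_mul]
  simp_rw [e1]
  rw [integral_finsetSum _ (fun i _ => integrable_fderiv_mul (hYi i).continuous hg hgc _)]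
  simp_rw [fun i => ibp1 (hYi i) hg hgc (bv i), hfd, Finset.sum_neg_distrib, dv, Finset.mul_sum]
  rw [integral_finsetSum]
  · congr 1
    refine Finset.sum_congr rfl fun i _ => ?_
    congr 1; ext x; ring
  · intro i _
    have hc : Continuous fun x => g x * (fderiv ℝ Y x (bv i)) i := by
      refine hg.continuous.mul ?_
      have : Continuous fun x => fderiv ℝ (fun x => Y x i) x (bv i) :=
        ((hYi i).continuous_fderiv (by norm_num)).clm_apply continuous_const
      simpa [hfd] using this
    exact hc.integrable_of_hasCompactSupport hgc.mul_right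

end Crest.Agent.R097
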