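import Crest.Agent.R097.TEl2

/-!
# Row 97: leaves with affine response, real-number part

At a state the affine functions of a leaf take real values `B1, B2, B3, Y1, Y2` (scale `β`), the
matrix `S'` has entries `Sij / γ`, the congruence `P` and the weight `m` are unscaled.
`ALeaf.OK_of` turns the scaled inequalities (a), (b) of the checker into `Leaf.OK`.
-/

set_option autoImplicit false

namespace Crest.Agent.R097.TEl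

/-- values of an affine leaf at a state -/
structure ALeaf where
  /-- scale of `B, Y` -/
  bt : ℝ
  /-- scale of `S` -/
  gm : ℝ
  /-- response -/
  (B1 B2 B3 Y1 Y2 : ℝ)
  /-- multiplier matrix -/
  (S11 S12 S13 S21 S22 S23 : ℝ)
  /-- congruence -/
  (p11 p12 p13 p21 p22 p23 p31 p32 p33 : ℝ)
  /-- weight -/
  m : ℝ

namespace ALeaf

variable (c : ALeaf) (B : Base)

/-- the leaf with real entries -/
noncomputable def toLeaf : Leaf where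
  a0 := c.Y1 / c.bt - (c.S11 * c.B1 + c.S12 * c.B2 + c.S13 * c.B3) / (c.gm * c.bt)
  a1 := c.S11 / c.gm
  a2 := c.S12 / c.gm
  a3 := c.S13 / c.gm
  b0 := c.Y2 / c.bt - (c.S21 * c.B1 + c.S22 * c.B2 + c.S23 * c.B3) / (c.gm * c.bt)
  b1 := c.S21 / c.gm
  b2 := c.S22 / c.gm
  b3 := c.S23 / c.gm
  h1 := c.B1 / c.bt
  h2 := c.B2 / c.bt
  h3 := c.B3 / c.bt
  p11 := c.p11
  p12 := c.p12
  p13 := c.p13
  p21 := c.p21
  p22 := c.p22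
  p23 := c.p23
  p31 := c.p31
  p32 := c.p32
  p33 := c.p33
  m := c.m

/-- `β ∂₁` -/
def G1 : ℝ := c.bt * B.L1 + 2 * B.A11 * c.B1 + B.A12 * c.B2 + B.W1 * c.B3 + 2 * B.g * c.Y1
/-- `β ∂₂` -/
def G2 : ℝ := c.bt * B.L2 + B.A12 * c.B1 + B.W2 * c.B3 + 2 * B.g * c.Y2
/-- `β ∂₃` -/
def G3 : ℝ := c.bt * B.Lw + B.W1 * c.B1 + B.W2 * c.B2 + 2 * B.psi * c.B3
/-- first multiplier defect -/
def H1 : ℝ := 2 * B.g * c.B1 - 2 * B.k11 * c.Y1 - 2 * B.k12 * c.Y2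
/-- second multiplier defect -/
def H2 : ℝ := 2 * B.g * c.B2 - 2 * B.k12 * c.Y1 - 2 * B.k22 * c.Y2
/-- scaled cross entries -/
def E1 : ℝ := c.gm * c.G1 B + c.S11 * c.H1 B + c.S21 * c.H2 B
/-- scaled cross entries -/
def E2 : ℝ := c.gm * c.G2 B + c.S12 * c.H1 B + c.S22 * c.H2 B
/-- scaled cross entries -/
def E3 : ℝ := c.gm * c.G3 B + c.S13 * c.H1 B + c.S23 * c.H2 B
/-- scaled coefficient of `q s₀²` -/
def Dh : ℝ := 2 * c.bt ^ 2 * B.Ck + c.B1 * (c.bt * B.L1 + c.G1 B) + c.B2 * (c.bt * B.L2 + c.G2 B)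
  + c.B3 * (c.bt * B.Lw + c.G3 B) + c.Y1 * c.H1 B + c.Y2 * c.H2 B
/-- scaled `l` -/
def l1 : ℝ := c.p11 * c.E1 B + c.p21 * c.E2 B + c.p31 * c.E3 B
/-- scaled `l` -/
def l2 : ℝ := c.p12 * c.E1 B + c.p22 * c.E2 B + c.p32 * c.E3 B
/-- scaled `l` -/
def l3 : ℝ := c.p13 * c.E1 B + c.p23 * c.E2 B + c.p33 * c.E3 B
/-- scaled `2R` -/
def R11 : ℝ := 2 * c.gm ^ 2 * B.A11 + 4 * c.gm * B.g * c.S11
  - 2 * (c.S11 ^ 2 * B.k11 + 2 * c.S11 * c.S21 * B.k12 + c.S21 ^ 2 * B.k22)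
/-- scaled `2R` -/
def R22 : ℝ := 4 * c.gm * B.g * c.S22
  - 2 * (c.S12 ^ 2 * B.k11 + 2 * c.S12 * c.S22 * B.k12 + c.S22 ^ 2 * B.k22)
/-- scaled `2R` -/
def R33 : ℝ := 2 * c.gm ^ 2 * B.psi
  - 2 * (c.S13 ^ 2 * B.k11 + 2 * c.S13 * c.S23 * B.k12 + c.S23 ^ 2 * B.k22)
/-- scaled `2R` -/
def R12 : ℝ := c.gm ^ 2 * B.A12 + 2 * c.gm * B.g * (c.S12 + c.S21)
  - 2 * (c.S11 * c.S12 * B.k11 + (c.S11 * c.S22 + c.S21 * c.S12) * B.k12 + c.S21 * c.S22 * B.k22)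
/-- scaled `2R` -/
def R13 : ℝ := c.gm ^ 2 * B.W1 + 2 * c.gm * B.g * c.S13
  - 2 * (c.S11 * c.S13 * B.k11 + (c.S11 * c.S23 + c.S21 * c.S13) * B.k12 + c.S21 * c.S23 * B.k22)
/-- scaled `2R` -/
def R23 : ℝ := c.gm ^ 2 * B.W2 + 2 * c.gm * B.g * c.S23
  - 2 * (c.S12 * c.S13 * B.k11 + (c.S12 * c.S23 + c.S22 * c.S13) * B.k12 + c.S22 * c.S23 * B.k22)

/-- bilinear form of the scaled `2R` -/
def bil (x1 x2 x3 y1 y2 y3 : ℝ) : ℝ :=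
  x1 * (c.R11 B * y1 + c.R12 B * y2 + c.R13 B * y3)
    + x2 * (c.R12 B * y1 + c.R22 B * y2 + c.R23 B * y3)
    + x3 * (c.R13 B * y1 + c.R23 B * y2 + c.R33 B * y3)

/-- scaled entries of `2 Pᵀ R P` -/
def q11 : ℝ := c.bil B c.p11 c.p21 c.p31 c.p11 c.p21 c.p31
/-- entry -/
def q22 : ℝ := c.bil B c.p12 c.p22 c.p32 c.p12 c.p22 c.p32
/-- entry -/
def q33 : ℝ := c.bil B c.p13 c.p23 c.p33 c.p13 c.p23 c.p33
/-- entry -/
def q12 : ℝ := c.bil B c.p11 c.p21 c.p31 c.p12 c.p22 c.p32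
/-- entry -/
def q13 : ℝ := c.bil B c.p11 c.p21 c.p31 c.p13 c.p23 c.p33
/-- entry -/
def q23 : ℝ := c.bil B c.p12 c.p22 c.p32 c.p13 c.p23 c.p33

/-- determinant of the congruence -/
def det : ℝ := c.p11 * (c.p22 * c.p33 - c.p23 * c.p32) - c.p12 * (c.p21 * c.p33 - c.p23 * c.p31)
  + c.p13 * (c.p21 * c.p32 - c.p22 * c.p31)

variable {c B}

theorem r11_eq (hg : c.gm ≠ 0) : c.R11 B = c.gm ^ 2 * c.toLeaf.r11 B := by
  simp only [R11, Leaf.r11, Leaf.SKS, toLeaf]; field_simp; ring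
theorem r22_eq (hg : c.gm ≠ 0) : c.R22 B = c.gm ^ 2 * c.toLeaf.r22 B := by
  simp only [R22, Leaf.r22, Leaf.SKS, toLeaf]; field_simp; ring
theorem r33_eq (hg : c.gm ≠ 0) : c.R33 B = c.gm ^ 2 * c.toLeaf.r33 B := by
  simp only [R33, Leaf.r33, Leaf.SKS, toLeaf]; field_simp; ring
theorem r12_eq (hg : c.gm ≠ 0) : c.R12 B = c.gm ^ 2 * c.toLeaf.r12 B := by
  simp only [R12, Leaf.r12, Leaf.SKS, toLeaf]; field_simp
theorem r13_eq (hg : c.gm ≠ 0) : c.R13 B = c.gm ^ 2 * c.toLeaf.r13 B := by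
  simp only [R13, Leaf.r13, Leaf.SKS, toLeaf]; field_simp
theorem r23_eq (hg : c.gm ≠ 0) : c.R23 B = c.gm ^ 2 * c.toLeaf.r23 B := by
  simp only [R23, Leaf.r23, Leaf.SKS, toLeaf]; field_simp

theorem f1_eq (hg : c.gm ≠ 0) (hb : c.bt ≠ 0) : c.E1 B = c.gm * c.bt * c.toLeaf.f1 B := by
  simp only [E1, G1, H1, H2, Leaf.f1, Leaf.e1, Leaf.Rh1, Leaf.r11, Leaf.r12, Leaf.r13, Leaf.SKS,
    toLeaf]
  field_simp
  ring
theorem f2_eq (hg : c.gm ≠ 0) (hb : c.bt ≠ 0) : c.E2 B = c.gm * c.bt * c.toLeaf.f2 B := by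
  simp only [E2, G2, H1, H2, Leaf.f2, Leaf.e2, Leaf.Rh2, Leaf.r12, Leaf.r22, Leaf.r23, Leaf.SKS,
    toLeaf]
  field_simp
  ring
theorem f3_eq (hg : c.gm ≠ 0) (hb : c.bt ≠ 0) : c.E3 B = c.gm * c.bt * c.toLeaf.f3 B := by
  simp only [E3, G3, H1, H2, Leaf.f3, Leaf.e3, Leaf.Rh3, Leaf.r13, Leaf.r23, Leaf.r33, Leaf.SKS,
    toLeaf]
  field_simp
  ring

theorem D_eq (hg : c.gm ≠ 0) (hb : c.bt ≠ 0) : c.Dh B = c.bt ^ 2 * c.toLeaf.D' B := by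
  simp only [Dh, G1, G2, G3, H1, H2, Leaf.D', Leaf.D, Leaf.f1, Leaf.f2, Leaf.f3, Leaf.e1, Leaf.e2,
    Leaf.e3, Leaf.Rh1, Leaf.Rh2, Leaf.Rh3, Leaf.r11, Leaf.r12, Leaf.r13, Leaf.r22, Leaf.r23,
    Leaf.r33, Leaf.SKS, toLeaf]
  field_simp
  ring

theorem l1_eq (hg : c.gm ≠ 0) (hb : c.bt ≠ 0) : c.l1 B = c.gm * c.bt * c.toLeaf.l1 B := by
  simp only [l1, f1_eq hg hb, f2_eq hg hb, f3_eq hg hb, Leaf.l1, toLeaf]; ring
theorem l2_eq (hg : c.gm ≠ 0) (hb : c.bt ≠ 0) : c.l2 B = c.gm * c.bt * c.toLeaf.l2 B := by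
  simp only [l2, f1_eq hg hb, f2_eq hg hb, f3_eq hg hb, Leaf.l2, toLeaf]; ring
theorem l3_eq (hg : c.gm ≠ 0) (hb : c.bt ≠ 0) : c.l3 B = c.gm * c.bt * c.toLeaf.l3 B := by
  simp only [l3, f1_eq hg hb, f2_eq hg hb, f3_eq hg hb, Leaf.l3, toLeaf]; ring

theorem bil_eq (hg : c.gm ≠ 0) (x1 x2 x3 y1 y2 y3 : ℝ) :
    c.bil B x1 x2 x3 y1 y2 y3 = c.gm ^ 2 * c.toLeaf.bil B x1 x2 x3 y1 y2 y3 := by
  simp only [bil, Leaf.bil, r11_eq hg, r22_eq hg, r33_eq hg, r12_eq hg, r13_eq hg, r23_eq hg]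
  ring

/-- MAIN LEMMA: the scaled inequalities of the checker give `Leaf.OK`.
`an > 0` is the integer factor of `q` (`qh = an * q`), `sl ≥ 0` collects the domain multipliers. -/
theorem OK_of {q q1 an qh sl : ℝ} (hbt : 0 < c.bt) (hgm : 0 < c.gm) (hm : 0 < c.m) (han : 0 < an)
    (hdet : c.det ≠ 0) (hqh : qh = an * q) (hq1 : q ≤ q1) (hsl : 0 ≤ sl)
    (ha : an * c.bt * (|c.l1 B| + |c.l2 B| + |c.l3 B|) + sl
      ≤ c.m * c.gm * (2 * c.bt ^ 2 * an * B.C0 + qh * c.Dh B))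
    (hb1 : q1 * c.m * c.gm * |c.l1 B| + c.bt * (|c.q12 B| + |c.q13 B|) ≤ c.bt * c.q11 B)
    (hb2 : q1 * c.m * c.gm * |c.l2 B| + c.bt * (|c.q12 B| + |c.q23 B|) ≤ c.bt * c.q22 B)
    (hb3 : q1 * c.m * c.gm * |c.l3 B| + c.bt * (|c.q13 B| + |c.q23 B|) ≤ c.bt * c.q33 B) :
    c.toLeaf.OK B q := by
  have hg := hgm.ne'
  have hb := hbt.ne'
  have hgb : 0 < c.gm * c.bt := mul_pos hgm hbt
  have hg2 : 0 < c.gm ^ 2 := by positivity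
  have el1 : |c.l1 B| = c.gm * c.bt * |c.toLeaf.l1 B| := by
    rw [l1_eq hg hb, abs_mul, abs_of_pos hgb]
  have el2 : |c.l2 B| = c.gm * c.bt * |c.toLeaf.l2 B| := by
    rw [l2_eq hg hb, abs_mul, abs_of_pos hgb]
  have el3 : |c.l3 B| = c.gm * c.bt * |c.toLeaf.l3 B| := by
    rw [l3_eq hg hb, abs_mul, abs_of_pos hgb]
  have e11 : c.q11 B = c.gm ^ 2 * c.toLeaf.q11 B := bil_eq hg _ _ _ _ _ _
  have e22 : c.q22 B = c.gm ^ 2 * c.toLeaf.q22 B := bil_eq hg _ _ _ _ _ _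
  have e33 : c.q33 B = c.gm ^ 2 * c.toLeaf.q33 B := bil_eq hg _ _ _ _ _ _
  have e12 : |c.q12 B| = c.gm ^ 2 * |c.toLeaf.q12 B| := by
    rw [show c.q12 B = c.gm ^ 2 * c.toLeaf.q12 B from bil_eq hg _ _ _ _ _ _, abs_mul,
      abs_of_pos hg2]
  have e13 : |c.q13 B| = c.gm ^ 2 * |c.toLeaf.q13 B| := by
    rw [show c.q13 B = c.gm ^ 2 * c.toLeaf.q13 B from bil_eq hg _ _ _ _ _ _, abs_mul,
      abs_of_pos hg2]
  have e23 : |c.q23 B| = c.gm ^ 2 * |c.toLeaf.q23 B| := by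
    rw [show c.q23 B = c.gm ^ 2 * c.toLeaf.q23 B from bil_eq hg _ _ _ _ _ _, abs_mul,
      abs_of_pos hg2]
  have row : ∀ {l a b d : ℝ}, 0 ≤ l →
      q1 * c.m * c.gm * (c.gm * c.bt * l) + c.bt * (c.gm ^ 2 * a + c.gm ^ 2 * b)
        ≤ c.bt * (c.gm ^ 2 * d) → q * c.m * l + a + b ≤ d := by
    intro l a b d hl h
    have h1 : q * c.m * l ≤ q1 * c.m * l :=
      mul_le_mul_of_nonneg_right (mul_le_mul_of_nonneg_right hq1 hm.le) hl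
    have hK : 0 < c.bt * c.gm ^ 2 := by positivity
    have h2 : (c.bt * c.gm ^ 2) * (q1 * c.m * l + a + b) ≤ (c.bt * c.gm ^ 2) * d := by nlinarith
    have h3 := le_of_mul_le_mul_left h2 hK
    linarith
  refine ⟨hm, hdet, ?_, ?_, ?_, ?_⟩
  · rw [el1, el2, el3, D_eq hg hb, hqh] at ha
    have hK : 0 < an * (c.gm * c.bt ^ 2) := by positivity
    have h2 : (an * (c.gm * c.bt ^ 2)) * (|c.toLeaf.l1 B| + |c.toLeaf.l2 B| + |c.toLeaf.l3 B|)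
        ≤ (an * (c.gm * c.bt ^ 2)) * (c.toLeaf.m * (2 * B.C0 + q * c.toLeaf.D' B)) := by
      have hmm : c.toLeaf.m = c.m := rfl
      rw [hmm]
      nlinarith
    exact le_of_mul_le_mul_left h2 hK
  · rw [el1, e12, e13, e11] at hb1
    exact row (abs_nonneg _) hb1
  · rw [el2, e12, e23, e22] at hb2
    exact row (abs_nonneg _) hb2
  · rw [el3, e13, e23, e33] at hb3
    exact row (abs_nonneg _) hb3

/-- the same, existential form -/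
theorem exists_OK {q q1 an qh sl : ℝ} (hbt : 0 < c.bt) (hgm : 0 < c.gm) (hm : 0 < c.m)
    (han : 0 < an) (hdet : c.det ≠ 0) (hqh : qh = an * q) (hq1 : q ≤ q1) (hsl : 0 ≤ sl)
    (ha : an * c.bt * (|c.l1 B| + |c.l2 B| + |c.l3 B|) + sl
      ≤ c.m * c.gm * (2 * c.bt ^ 2 * an * B.C0 + qh * c.Dh B))
    (hb1 : q1 * c.m * c.gm * |c.l1 B| + c.bt * (|c.q12 B| + |c.q13 B|) ≤ c.bt * c.q11 B)
    (hb2 : q1 * c.m * c.gm * |c.l2 B| + c.bt * (|c.q12 B| + |c.q23 B|) ≤ c.bt * c.q22 B)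
    (hb3 : q1 * c.m * c.gm * |c.l3 B| + c.bt * (|c.q13 B| + |c.q23 B|) ≤ c.bt * c.q33 B) :
    ∃ L : Leaf, L.OK B q :=
  ⟨c.toLeaf, OK_of hbt hgm hm han hdet hqh hq1 hsl ha hb1 hb2 hb3⟩

end ALeaf

end Crest.Agent.R097.TEl
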