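import Crest.Agent.R097.KP1

/-!
# Row 97, KBA checker: evaluation of the base polynomials in the kernel

Nested sparse polynomials; the variables 0, 1, 2 are handled by products with tables, the two
outer variables 3, 4 by small coefficient lists and shifts.
-/

set_option autoImplicit false

namespace Crest.Agent.R097.KA

open MvPolynomial Crest.Agent.R097.CQ

/-- terms in the variable 0 -/
abbrev NL0 := List (ℕ × ℤ)
/-- terms in the variables 1, 0 -/
abbrev NL1 := List (ℕ × NL0)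
/-- terms in the variables 2, 1, 0 -/
abbrev NL2 := List (ℕ × NL1)
/-- terms in the variables 3, ..., 0 -/
abbrev NL3 := List (ℕ × NL2)
/-- nested polynomial: outermost exponent belongs to the variable 4 -/
abbrev NP := List (ℕ × NL3)

/-! ## flat form -/

/-- concatenation -/
def fmp {α β : Type} (F : α → List β) (l : List α) : List β :=
  List.rec (motive := fun _ => List β) [] (fun x _ ih => List.append (F x) ih) l

/-- monomials -/
def flat0 (e1 e2 e3 e4 : ℕ) (l : NL0) : SP := fmp (fun x => [(x.2, [x.1, e1, e2, e3, e4])]) l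
def flat1 (e2 e3 e4 : ℕ) (l : NL1) : SP := fmp (fun x => flat0 x.1 e2 e3 e4 x.2) l
def flat2 (e3 e4 : ℕ) (l : NL2) : SP := fmp (fun x => flat1 x.1 e3 e4 x.2) l
def flat3 (e4 : ℕ) (l : NL3) : SP := fmp (fun x => flat2 x.1 e4 x.2) l
/-- the sparse polynomial -/
def flat (N : NP) : SP := fmp (fun x => flat3 x.1 x.2) N

/-! ## kernel functions -/

/-- factor of one variable -/
def FN (a b D d f T e : ℕ) : ℕ :=
  Nat.mul (Nat.mul (Nat.pow (Nat.add a (Nat.mul b T)) e) (Nat.pow D (Nat.sub d e)))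
    (Nat.pow (Nat.add 1 T) (Nat.sub f e))

/-- innermost sum -/
def ev0 (F : ℕ → ℕ) (l : NL0) : ℕ × ℕ :=
  List.rec (motive := fun _ => ℕ × ℕ) (0, 0)
    (fun x _ ih => Int.casesOn (motive := fun _ => ℕ × ℕ) x.2
      (fun k => (Nat.add ih.1 (Nat.mul k (F x.1)), ih.2))
      (fun k => (ih.1, Nat.add ih.2 (Nat.mul (Nat.succ k) (F x.1))))) l

/-- sum with table products -/
def evM {β : Type} (F : ℕ → ℕ) (G : β → ℕ × ℕ) (l : List (ℕ × β)) : ℕ × ℕ :=
  List.rec (motive := fun _ => ℕ × ℕ) (0, 0)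
    (fun x _ ih => (Nat.add ih.1 (Nat.mul (F x.1) (G x.2).1), Nat.add ih.2 (Nat.mul (F x.1) (G x.2).2))) l

/-- product of a coefficient list with `u + v X` -/
def lmC (u v : ℕ) (l : List ℕ) : ℕ → List ℕ :=
  List.rec (motive := fun _ => ℕ → List ℕ) (fun prev => [Nat.mul v prev])
    (fun x _ ih prev => Nat.add (Nat.mul u x) (Nat.mul v prev) :: ih x) l

/-- iteration -/
def lmI (u v n : ℕ) (l : List ℕ) : List ℕ :=
  Nat.rec (motive := fun _ => List ℕ) l (fun _ ih => lmC u v ih 0) n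

/-- coefficients of `(a + b X)^e D^(d-e) (1+X)^(f-e)` -/
def cfl (a b D d f e : ℕ) : List ℕ := lmI 1 1 (Nat.sub f e) (lmI a b e [Nat.pow D (Nat.sub d e)])

/-- head, tail -/
def hd0 (l : List ℕ) : ℕ := List.rec (motive := fun _ => ℕ) 0 (fun x _ _ => x) l
def tl0 (l : List ℕ) : List ℕ := List.rec (motive := fun _ => List ℕ) [] (fun _ l' _ => l') l

/-- sum of the heads times the numbers -/
def hdS (rows : List (List ℕ × ℕ)) : ℕ :=
  List.rec (motive := fun _ => ℕ) 0 (fun x _ ih => Nat.add ih (Nat.mul (hd0 x.1) x.2)) rows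
/-- tails -/
def tlR (rows : List (List ℕ × ℕ)) : List (List ℕ × ℕ) :=
  List.rec (motive := fun _ => List (List ℕ × ℕ)) [] (fun x _ ih => (tl0 x.1, x.2) :: ih) rows

/-- join -/
def jk (sh n : ℕ) : List (List ℕ × ℕ) → ℕ :=
  Nat.rec (motive := fun _ => List (List ℕ × ℕ) → ℕ) (fun _ => 0)
    (fun _ ih rows => Nat.add (hdS rows) (Nat.shiftLeft (ih (tlR rows)) sh)) n

/-- rows of an outer variable -/
def rws {β : Type} (C : ℕ → List ℕ) (G : β → ℕ) (l : List (ℕ × β)) : List (List ℕ × ℕ) :=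
  List.rec (motive := fun _ => List (List ℕ × ℕ)) [] (fun x _ ih => (C x.1, G x.2) :: ih) l

/-- sum over an outer variable -/
def evS {β : Type} (C : ℕ → List ℕ) (sh n : ℕ) (G : β → ℕ × ℕ) (l : List (ℕ × β)) : ℕ × ℕ :=
  (jk sh n (rws C (fun y => (G y).1) l), jk sh n (rws C (fun y => (G y).2) l))

/-- positive and negative part of the packed polynomial -/
def evalNP (w : ℕ) (σ a b D d f : ℕ → ℕ) (N : NP) : ℕ × ℕ :=
  evS (cfl (a 4) (b 4) (D 4) (d 4) (f 4)) (Nat.mul w (σ 4)) (Nat.succ (f 4))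
    (fun l3 => evS (cfl (a 3) (b 3) (D 3) (d 3) (f 3)) (Nat.mul w (σ 3)) (Nat.succ (f 3))
      (fun l2 => evM (FN (a 2) (b 2) (D 2) (d 2) (f 2) (Nat.pow 2 (Nat.mul w (σ 2))))
        (fun l1 => evM (FN (a 1) (b 1) (D 1) (d 1) (f 1) (Nat.pow 2 (Nat.mul w (σ 1))))
          (fun l0 => ev0 (FN (a 0) (b 0) (D 0) (d 0) (f 0) (Nat.pow 2 (Nat.mul w (σ 0)))) l0)
          l1) l2) l3) N

/-- the exponents of the outer variables fit -/
def okL {β : Type} (m : ℕ) (G : β → Bool) (l : List (ℕ × β)) : Bool :=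
  List.rec (motive := fun _ => Bool) true (fun x _ ih => (Nat.ble x.1 m && G x.2) && ih) l

/-- static check -/
def okNP (f : ℕ → ℕ) (N : NP) : Bool := okL (f 4) (fun l3 => okL (f 3) (fun _ => true) l3) N

/-! ## values -/

/-- value of a coefficient list -/
def vl (T : ℤ) : List ℕ → ℤ
  | [] => 0
  | x :: l => x + T * vl T l

theorem lmC_cons (u v x : ℕ) (l : List ℕ) (p : ℕ) :
    lmC u v (x :: l) p = (u * x + v * p) :: lmC u v l x := rfl

theorem vl_lmC (T : ℤ) (u v : ℕ) (l : List ℕ) (p : ℕ) :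
    vl T (lmC u v l p) = v * p + (u + v * T) * vl T l := by
  induction l generalizing p with
  | nil => change (((v * p : ℕ) : ℤ)) + T * 0 = _; simp [vl]
  | cons x l ih =>
    rw [lmC_cons, vl, ih, vl]; push_cast; ring

theorem len_lmC (u v : ℕ) (l : List ℕ) (p : ℕ) : (lmC u v l p).length = l.length + 1 := by
  induction l generalizing p with
  | nil => rfl
  | cons x l ih => rw [lmC_cons, List.length_cons, ih]; simp

theorem vl_lmI (T : ℤ) (u v n : ℕ) (l : List ℕ) :
    vl T (lmI u v n l) = (u + v * T) ^ n * vl T l := by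
  induction n with
  | zero => simp [lmI]
  | succ n ih =>
    change vl T (lmC u v (lmI u v n l) 0) = _
    rw [vl_lmC, ih, pow_succ]; push_cast; ring

theorem len_lmI (u v n : ℕ) (l : List ℕ) : (lmI u v n l).length = l.length + n := by
  induction n with
  | zero => rfl
  | succ n ih =>
    change (lmC u v (lmI u v n l) 0).length = _
    rw [len_lmC, ih]; ring

theorem vl_cfl (T : ℤ) (a b D d f e : ℕ) :
    vl T (cfl a b D d f e) = (a + b * T) ^ e * D ^ (d - e) * (1 + T) ^ (f - e) := by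
  unfold cfl
  rw [vl_lmI, vl_lmI]
  change ((1 : ℕ) + ((1 : ℕ) : ℤ) * T) ^ (f - e) * ((a + b * T) ^ e * (((D ^ (d - e) : ℕ) : ℤ) + T * 0)) = _
  push_cast; ring

theorem len_cfl (a b D d f e : ℕ) (h : e ≤ f) : (cfl a b D d f e).length = f + 1 := by
  unfold cfl
  rw [len_lmI, len_lmI]
  change 1 + e + (f - e) = _
  omega

/-- sum of the rows -/
def sR (T : ℤ) : List (List ℕ × ℕ) → ℤ
  | [] => 0
  | x :: l => vl T x.1 * x.2 + sR T l

theorem sR_step (T : ℤ) (rows : List (List ℕ × ℕ)) : sR T rows = hdS rows + T * sR T (tlR rows) := by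
  induction rows with
  | nil => simp [sR, hdS, tlR]
  | cons x l ih =>
    obtain ⟨c, y⟩ := x
    have e1 : ((hdS ((c, y) :: l) : ℕ) : ℤ) = hdS l + hd0 c * y := by
      change ((hdS l + hd0 c * y : ℕ) : ℤ) = _
      push_cast; rfl
    have e2 : tlR ((c, y) :: l) = (tl0 c, y) :: tlR l := rfl
    have e3 : vl T c = hd0 c + T * vl T (tl0 c) := by
      cases c with
      | nil => simp [vl, hd0, tl0]
      | cons z c => rfl
    simp only [sR]
    rw [e1, e2, ih, e3]
    simp only [sR]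
    ring

theorem jk_eq (sh n : ℕ) (rows : List (List ℕ × ℕ)) (h : ∀ x ∈ rows, x.1.length ≤ n) :
    ((jk sh n rows : ℕ) : ℤ) = sR (2 ^ sh) rows := by
  induction n generalizing rows with
  | zero =>
    change ((0 : ℕ) : ℤ) = _
    induction rows with
    | nil => simp [sR]
    | cons x l ih =>
      have h1 := h x (by simp)
      have h2 : x.1 = [] := List.length_eq_zero_iff.mp (by omega)
      simp only [sR]
      rw [h2, ← ih (fun y hy => h y (by simp [hy]))]
      simp [vl]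
  | succ n ih =>
    change ((hdS rows + (jk sh n (tlR rows)) <<< sh : ℕ) : ℤ) = _
    rw [sR_step, Nat.shiftLeft_eq]
    push_cast
    rw [ih]
    · ring
    · intro x hx
      clear ih
      induction rows with
      | nil => simp [tlR] at hx
      | cons y l ih2 =>
        have e2 : tlR (y :: l) = (tl0 y.1, y.2) :: tlR l := rfl
        rw [e2] at hx
        rcases List.mem_cons.mp hx with h1 | h1
        · rw [h1]
          have h3 := h y (by simp)
          cases hy : y.1 with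
          | nil => simp [tl0]
          | cons z c =>
            rw [hy] at h3
            change c.length ≤ n
            simpa using h3
        · exact ih2 (fun z hz => h z (by simp [hz])) h1

/-- value of a pair -/
def vp (x : ℕ × ℕ) : ℤ := (x.1 : ℤ) - x.2

/-- nested sum -/
def nsum {β : Type} (F : ℕ → ℤ) (G : β → ℤ) : List (ℕ × β) → ℤ
  | [] => 0
  | x :: l => F x.1 * G x.2 + nsum F G l

theorem vp_ev0 (F : ℕ → ℕ) (l : NL0) : vp (ev0 F l) = nsum (fun e => (F e : ℤ)) (fun c => c) l := by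
  induction l with
  | nil => rfl
  | cons x l ih =>
    obtain ⟨e, z⟩ := x
    simp only [nsum]
    rw [← ih]
    cases z with
    | ofNat k =>
      change (((ev0 F l).1 + k * F e : ℕ) : ℤ) - (ev0 F l).2 = _
      unfold vp
      push_cast; simp only [Int.ofNat_eq_natCast]; ring
    | negSucc k =>
      change ((ev0 F l).1 : ℤ) - (((ev0 F l).2 + (k + 1) * F e : ℕ) : ℤ) = _
      unfold vp
      rw [Int.negSucc_eq]; push_cast; ring

theorem vp_evM {β : Type} (F : ℕ → ℕ) (G : β → ℕ × ℕ) (l : List (ℕ × β)) :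
    vp (evM F G l) = nsum (fun e => (F e : ℤ)) (fun y => vp (G y)) l := by
  induction l with
  | nil => rfl
  | cons x l ih =>
    simp only [nsum]
    rw [← ih]
    change (((evM F G l).1 + F x.1 * (G x.2).1 : ℕ) : ℤ) - (((evM F G l).2 + F x.1 * (G x.2).2 : ℕ) : ℤ) = _
    unfold vp
    push_cast; ring

theorem sR_rws {β : Type} (T : ℤ) (C : ℕ → List ℕ) (G : β → ℕ) (l : List (ℕ × β)) :
    sR T (rws C G l) = nsum (fun e => vl T (C e)) (fun y => (G y : ℤ)) l := by
  induction l with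
  | nil => rfl
  | cons x l ih =>
    have e1 : rws C G (x :: l) = (C x.1, G x.2) :: rws C G l := rfl
    rw [e1]
    simp only [sR, nsum, ih]

theorem nsum_sub {β : Type} (F : ℕ → ℤ) (G H : β → ℤ) (l : List (ℕ × β)) :
    nsum F (fun y => G y - H y) l = nsum F G l - nsum F H l := by
  induction l with
  | nil => simp [nsum]
  | cons x l ih => simp only [nsum, ih]; ring

theorem vp_evS {β : Type} (a b D d f sh : ℕ) (G : β → ℕ × ℕ) (l : List (ℕ × β))
    (h : ∀ x ∈ l, x.1 ≤ f) :
    vp (evS (cfl a b D d f) sh (Nat.succ f) G l) =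
      nsum (fun e => (a + b * 2 ^ sh) ^ e * D ^ (d - e) * (1 + 2 ^ sh) ^ (f - e)) (fun y => vp (G y)) l := by
  have hl : ∀ (H : β → ℕ), ∀ x ∈ rws (cfl a b D d f) H l, x.1.length ≤ Nat.succ f := by
    intro H x hx
    induction l with
    | nil => simp [rws] at hx
    | cons y l ih =>
      have e1 : rws (cfl a b D d f) H (y :: l) = (cfl a b D d f y.1, H y.2) :: rws (cfl a b D d f) H l := rfl
      rw [e1] at hx
      rcases List.mem_cons.mp hx with h1 | h1
      · rw [h1]
        change (cfl a b D d f y.1).length ≤ _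
        rw [len_cfl _ _ _ _ _ _ (h y (by simp))]
      · exact ih (fun z hz => h z (by simp [hz])) h1
  change ((jk sh (Nat.succ f) (rws (cfl a b D d f) (fun y => (G y).1) l) : ℕ) : ℤ) -
    ((jk sh (Nat.succ f) (rws (cfl a b D d f) (fun y => (G y).2) l) : ℕ) : ℤ) = _
  rw [jk_eq _ _ _ (hl _), jk_eq _ _ _ (hl _), sR_rws, sR_rws, ← nsum_sub]
  simp only [vl_cfl]
  rfl

theorem FN_cast (a b D d f T e : ℕ) :
    ((FN a b D d f T e : ℕ) : ℤ) = (a + b * T) ^ e * D ^ (d - e) * (1 + T) ^ (f - e) := by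
  change (((a + b * T) ^ e * D ^ (d - e) * (1 + T) ^ (f - e) : ℕ) : ℤ) = _
  push_cast; rfl

/-! ## the polynomial -/

theorem hom_append (a b D d f : ℕ → ℕ) (p q : SP) :
    hom a b D d f (p ++ q) = hom a b D d f p + hom a b D d f q := by
  induction p with
  | nil => simp [hom]
  | cons m p ih => simp only [List.cons_append, hom, ih]; ring

theorem eval_fmp {β : Type} (T : ℕ → ℤ) (a b D d f : ℕ → ℕ) (F : β → SP) (l : List β) :
    eval T (hom a b D d f (fmp F l)) = (l.map fun x => eval T (hom a b D d f (F x))).sum := by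
  induction l with
  | nil => simp [fmp, hom]
  | cons x l ih =>
    have : fmp F (x :: l) = F x ++ fmp F l := rfl
    rw [this, hom_append, map_add, ih, List.map_cons, List.sum_cons]

theorem nsum_eq {β : Type} (F : ℕ → ℤ) (G : β → ℤ) (l : List (ℕ × β)) :
    nsum F G l = (l.map fun x => F x.1 * G x.2).sum := by
  induction l with
  | nil => rfl
  | cons x l ih => simp only [nsum, ih, List.map_cons, List.sum_cons]

theorem sum_map_mul {β : Type} (c : ℤ) (H : β → ℤ) (l : List β) :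
    (l.map fun x => c * H x).sum = c * (l.map H).sum := by
  induction l with
  | nil => simp
  | cons x l ih => simp only [List.map_cons, List.sum_cons, ih]; ring

theorem eval_fac (T : ℕ → ℤ) (a b D d f e i : ℕ) :
    eval T (fac a b D d f e i) = (a + b * T i) ^ e * D ^ (d - e) * (1 + T i) ^ (f - e) := by
  unfold fac
  simp only [map_mul, map_pow, map_add, eval_C, eval_X]
  ring

theorem eval_homM (T : ℕ → ℤ) (a b D d f : ℕ → ℕ) (e0 e1 e2 e3 e4 : ℕ) :
    eval T (homM a b D d f [e0, e1, e2, e3, e4]) =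
      ((a 0 + b 0 * T 0) ^ e0 * D 0 ^ (d 0 - e0) * (1 + T 0) ^ (f 0 - e0)) *
      ((a 1 + b 1 * T 1) ^ e1 * D 1 ^ (d 1 - e1) * (1 + T 1) ^ (f 1 - e1)) *
      ((a 2 + b 2 * T 2) ^ e2 * D 2 ^ (d 2 - e2) * (1 + T 2) ^ (f 2 - e2)) *
      ((a 3 + b 3 * T 3) ^ e3 * D 3 ^ (d 3 - e3) * (1 + T 3) ^ (f 3 - e3)) *
      ((a 4 + b 4 * T 4) ^ e4 * D 4 ^ (d 4 - e4) * (1 + T 4) ^ (f 4 - e4)) := by
  unfold homM
  simp only [map_mul, eval_fac, List.getD_cons_zero, List.getD_cons_succ]

theorem okL_spec {β : Type} {m : ℕ} {G : β → Bool} {l : List (ℕ × β)} (h : okL m G l = true) :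
    ∀ x ∈ l, x.1 ≤ m ∧ G x.2 = true := by
  induction l with
  | nil => simp
  | cons y l ih =>
    have h' : ((Nat.ble y.1 m && G y.2) && okL m G l) = true := h
    simp only [Bool.and_eq_true, Nat.ble_eq] at h'
    intro x hx
    rcases List.mem_cons.mp hx with h1 | h1
    · rw [h1]; exact h'.1
    · exact ih h'.2 x h1

/-- **the evaluation is correct** -/
theorem evalNP_eq (w : ℕ) (σ a b D d f : ℕ → ℕ) (N : NP) (hok : okNP f N = true) :
    ((evalNP w σ a b D d f N).1 : ℤ) - (evalNP w σ a b D d f N).2 =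
      eval (fun i => (2 : ℤ) ^ (w * σ i)) (hom a b D d f (flat N)) := by
  have hok4 := okL_spec hok
  change vp (evalNP w σ a b D d f N) = _
  unfold evalNP
  rw [vp_evS _ _ _ _ _ _ _ _ (fun x hx => (hok4 x hx).1), nsum_eq]
  unfold flat
  rw [eval_fmp]
  congr 1
  refine List.map_congr_left fun x4 hx4 => ?_
  have hok3 := okL_spec (hok4 x4 hx4).2
  rw [vp_evS _ _ _ _ _ _ _ _ (fun x hx => (hok3 x hx).1), nsum_eq]
  unfold flat3
  rw [eval_fmp, ← sum_map_mul]
  congr 1
  refine List.map_congr_left fun x3 _ => ?_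
  rw [vp_evM, nsum_eq]
  unfold flat2
  rw [eval_fmp, ← sum_map_mul, ← sum_map_mul]
  congr 1
  refine List.map_congr_left fun x2 _ => ?_
  rw [vp_evM, nsum_eq]
  unfold flat1
  rw [eval_fmp, ← sum_map_mul, ← sum_map_mul, ← sum_map_mul]
  congr 1
  refine List.map_congr_left fun x1 _ => ?_
  rw [vp_ev0, nsum_eq]
  unfold flat0
  rw [eval_fmp, ← sum_map_mul, ← sum_map_mul, ← sum_map_mul, ← sum_map_mul]
  congr 1
  refine List.map_congr_left fun x0 _ => ?_
  simp only [hom, map_mul, eval_C, add_zero]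
  rw [eval_homM, FN_cast, FN_cast, FN_cast]
  have e2 : ((Nat.pow 2 (Nat.mul w (σ 2)) : ℕ) : ℤ) = 2 ^ (w * σ 2) := by
    change ((2 ^ (w * σ 2) : ℕ) : ℤ) = _; push_cast; rfl
  have e1 : ((Nat.pow 2 (Nat.mul w (σ 1)) : ℕ) : ℤ) = 2 ^ (w * σ 1) := by
    change ((2 ^ (w * σ 1) : ℕ) : ℤ) = _; push_cast; rfl
  have e0 : ((Nat.pow 2 (Nat.mul w (σ 0)) : ℕ) : ℤ) = 2 ^ (w * σ 0) := by
    change ((2 ^ (w * σ 0) : ℕ) : ℤ) = _; push_cast; rfl
  have e3 : Nat.mul w (σ 3) = w * σ 3 := rfl
  have e4 : Nat.mul w (σ 4) = w * σ 4 := rfl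
  rw [e0, e1, e2, e3, e4]
  ring

end Crest.Agent.R097.KA
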