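import Crest.Agent.R097.SC7

/-!
# Row 97: (PJ) of `NCert` from the cover of chart `S` by leaves for `Q < 1` (helper141)
-/

set_option autoImplicit false
open scoped BigOperators

namespace Crest.Agent.R097.CQ

open Crest.Agent.R097.CP

/-- cover of chart `S` for `Q < 1` -/
def CoverS' (P : Par) (D : Dat) : Prop :=
  ∀ x p s Q v : ℝ, DomS P.n P.A0 x p s Q v → Q < 1 → ∃ (B' : TEl.Base) (L : TEl.Leaf),
    SRel s (nbS P D x p s Q v) B' ∧ L.OK B' (Q - v ^ 2 * ((1 - s ^ 2) / P.A0))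

/-- (PJ) at the states with `Q < 1` -/
theorem pj_lt_one {P : Par} (hn : nOK P.n) (D : Dat) (h3 : D.p3 = [])
    (hg : ∀ (l : Fin P.n → ℝ) (y : Fin 4 → ℝ), NAdm P.A0 l y → 0 ≤ D.g.ev y)
    (hS : CoverS' P D)
    (l : Fin P.n → ℝ) (y : Fin 4 → ℝ) (h : NAdm P.A0 l y) (hQ : y 2 < 1) (k : Fin P.n) (s0 w : ℝ)
    (t : Fin P.n → ℝ) (ht : ∑ i, t i = 0) :
    0 ≤ TEl.Fb (D.nb P.n P.A0 P.Lam (l k) 0 (∑ i, l i ^ 4) y) (Real.sqrt (qn P.A0 y)) s0
      (∑ i, l i * t i) (∑ i, l i ^ 2 * t i) w (D.g.ev y * TEl.G3 k t) := by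
  have hy : (![y 0, y 1, y 2, y 3] : Fin 4 → ℝ) = y := by
    ext i; fin_cases i <;> rfl
  set s := Real.sqrt (1 - y 0) with hsdef
  have hpos : 0 < 1 - y 0 := by linarith [h.z1]
  have hs : 0 < s := Real.sqrt_pos.2 hpos
  have hs2 : s ^ 2 = 1 - y 0 := Real.sq_sqrt hpos.le
  obtain ⟨B', L, hrel, hL⟩ := hS (l k / s) (y 1 / s ^ 3) s (y 2) (y 3)
    (domS_of_nadm hn h k hs hs2) hQ
  have ex : s * (l k / s) = l k := by field_simp
  have ep : s ^ 3 * (y 1 / s ^ 3) = y 1 := by field_simp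
  have e0 : 1 - s ^ 2 = y 0 := by linarith
  unfold nbS at hrel
  rw [ex, ep, e0, hy, hs2, nb_P4 _ _ _ D h3 _ _ 0 (∑ i, l i ^ 4)] at hrel
  rw [Fb_p4 _ _ _ _ _ 0 (p4up P.n (l k) (1 - y 0) (y 1)), Fb_srel hs hrel]
  have eq1 : Real.sqrt (qn P.A0 y) ^ 2 = y 2 - y 3 ^ 2 * ((1 - s ^ 2) / P.A0) := by
    have hq : 0 ≤ qn P.A0 y := h.q0
    rw [Real.sq_sqrt hq, e0]
    rfl
  -- the scaled eigenvalues
  have ec : s ^ 3 ≠ 0 := by positivity
  have hsum2 : TEl.ps (fun i => l i / s) 2 = 1 := by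
    unfold TEl.ps
    simp_rw [div_pow]
    rw [← Finset.sum_div, h.sq, ← hs2]
    field_simp
  have hsum3 : TEl.ps (fun i => l i / s) 3 = y 1 / s ^ 3 := by
    unfold TEl.ps
    simp_rw [div_pow]
    rw [← Finset.sum_div, h.cu]
  have hsum4 : TEl.ps (fun i => l i / s) 4 ≤ p4up P.n (l k / s) 1 (y 1 / s ^ 3) := by
    unfold TEl.ps
    have := p4_le hn (fun i => l i / s) k (by rw [← Finset.sum_div, h.tr, zero_div])
    have e2 : ∑ i, (l i / s) ^ 2 = 1 := hsum2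
    have e3 : ∑ i, (l i / s) ^ 3 = y 1 / s ^ 3 := hsum3
    rw [e2, e3] at this
    exact this
  have hg' : B'.g = D.g.ev y := hrel.g
  have ek11 : B'.k11 = B'.g * TEl.K11 P.n (l k / s) (TEl.ps (fun i => l i / s) 2) := by
    have h1 := hrel.k11
    have h2 : s ^ 2 * B'.k11 = s ^ 2 * (B'.g * TEl.K11 P.n (l k / s) 1) := by
      rw [← h1, hg']
      show D.g.ev y * TEl.K11 P.n (l k) (1 - y 0) = _
      unfold TEl.K11
      rw [← hs2]
      field_simp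
    rw [hsum2]
    exact mul_left_cancel₀ (by positivity) h2
  have ek12 : B'.k12 = B'.g * TEl.K12 P.n (l k / s) (TEl.ps (fun i => l i / s) 2)
      (TEl.ps (fun i => l i / s) 3) := by
    have h1 := hrel.k12
    have h2 : s ^ 3 * B'.k12 = s ^ 3 * (B'.g * TEl.K12 P.n (l k / s) 1 (y 1 / s ^ 3)) := by
      rw [← h1, hg']
      show D.g.ev y * TEl.K12 P.n (l k) (1 - y 0) (y 1) = _
      unfold TEl.K12
      rw [← hs2]
      field_simp
    rw [hsum2, hsum3]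
    exact mul_left_cancel₀ (by positivity) h2
  have ek22 : B'.k22 = B'.g * TEl.K22 P.n (l k / s) (TEl.ps (fun i => l i / s) 2)
      (p4up P.n (l k / s) 1 (y 1 / s ^ 3)) := by
    have h1 := hrel.k22
    have hp : p4up P.n (l k) (1 - y 0) (y 1) = s ^ 4 * p4up P.n (l k / s) 1 (y 1 / s ^ 3) := by
      rw [← p4up_scale, ex, ep, mul_one, hs2]
    have h2 : s ^ 4 * B'.k22 = s ^ 4 * (B'.g * TEl.K22 P.n (l k / s) 1
        (p4up P.n (l k / s) 1 (y 1 / s ^ 3))) := by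
      rw [← h1, hg']
      show D.g.ev y * TEl.K22 P.n (l k) (1 - y 0) (p4up P.n (l k) (1 - y 0) (y 1)) = _
      rw [hp]
      unfold TEl.K22
      rw [← hs2]
      field_simp
    rw [hsum2]
    exact mul_left_cancel₀ (by positivity) h2
  have hL' : L.OK B' (Real.sqrt (qn P.A0 y) ^ 2) := by rw [eq1]; exact hL
  have fin := TEl.block_nonneg (n := P.n) k t (fun i => l i / s) ht
    (by rw [← Finset.sum_div, h.tr, zero_div]) hL' (by rw [hg']; exact hg l y h) hsum4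
    ek11 ek12 ek22 (s * s0) (s * w)
  have eX : (∑ i, l i * t i) / s = ∑ i, l i / s * t i := by
    rw [Finset.sum_div]; exact Finset.sum_congr rfl fun i _ => by ring
  have eY : (∑ i, l i ^ 2 * t i) / s ^ 2 = ∑ i, (l i / s) ^ 2 * t i := by
    rw [Finset.sum_div]; exact Finset.sum_congr rfl fun i _ => by ring
  rw [eX, eY, ← hg']
  exact fin

/-- continuity of the block form in `Q` at `v = 0` -/
lemma continuous_FbQ (n : ℕ) (A0 Lam : ℝ) (D : Dat) (ξ P4 a c s0 X Y w G : ℝ) :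
    Continuous fun Q : ℝ => TEl.Fb (D.nb n A0 Lam ξ 0 P4 ![a, c, Q, 0])
      (Real.sqrt (qn A0 ![a, c, Q, 0])) s0 X Y w (D.g.ev ![a, c, Q, 0] * G) := by
  have hv : Continuous fun Q : ℝ => (![a, c, Q, 0] : Fin 4 → ℝ) := by
    refine continuous_pi fun i => ?_
    fin_cases i
    · exact continuous_const
    · exact continuous_const
    · exact continuous_id
    · exact continuous_const
  have hp : ∀ p : Pol, Continuous fun Q : ℝ => p.ev ![a, c, Q, 0] := fun p => p.continuous_ev.comp hv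
  have he : ∀ (e : ℤ) (p : Pol), Continuous fun Q : ℝ => eul e p ![a, c, Q, 0] := by
    intro e p
    unfold eul
    exact ((((continuous_const.mul (hp p)).sub ((continuous_const.mul continuous_const).mul
      (hp _))).sub ((continuous_const.mul continuous_const).mul (hp _))).add
      (continuous_const.mul (hp _)))
  have hq : Continuous fun Q : ℝ => Real.sqrt (qn A0 ![a, c, Q, 0]) := by
    refine Real.continuous_sqrt.comp ?_
    unfold qn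
    have : (fun Q : ℝ => (![a, c, Q, 0] : Fin 4 → ℝ) 2 - (![a, c, Q, 0] : Fin 4 → ℝ) 3 ^ 2 *
      ((![a, c, Q, 0] : Fin 4 → ℝ) 0 / A0)) = fun Q => Q := by
      funext Q; simp
    rw [this]; exact continuous_id
  simp only [TEl.Fb, Dat.nb]
  have hp' : ∀ p : Pol, Continuous fun Q : ℝ => p.ev ![a, c, Q, 0] := hp
  have c0 : Continuous fun Q : ℝ => (![a, c, Q, 0] : Fin 4 → ℝ) 0 := continuous_const
  have c1 : Continuous fun Q : ℝ => (![a, c, Q, 0] : Fin 4 → ℝ) 1 := continuous_const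
  have c3 : Continuous fun Q : ℝ => (![a, c, Q, 0] : Fin 4 → ℝ) 3 := continuous_const
  fun_prop (disch := assumption)

/-- **(PJ) from the cover of chart `S` for `Q < 1`** -/
theorem pj_of_coverS' {P : Par} (hn : nOK P.n) (D : Dat) (h3 : D.p3 = [])
    (hg : ∀ (l : Fin P.n → ℝ) (y : Fin 4 → ℝ), NAdm P.A0 l y → 0 ≤ D.g.ev y)
    (hS : CoverS' P D)
    (l : Fin P.n → ℝ) (y : Fin 4 → ℝ) (h : NAdm P.A0 l y) (k : Fin P.n) (s0 w : ℝ)
    (t : Fin P.n → ℝ) (ht : ∑ i, t i = 0) :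
    0 ≤ TEl.Fb (D.nb P.n P.A0 P.Lam (l k) 0 (∑ i, l i ^ 4) y) (Real.sqrt (qn P.A0 y)) s0
      (∑ i, l i * t i) (∑ i, l i ^ 2 * t i) w (D.g.ev y * TEl.G3 k t) := by
  rcases lt_or_eq_of_le h.q1 with hQ | hQ
  · exact pj_lt_one hn D h3 hg hS l y h hQ k s0 w t ht
  · -- `Q = 1`, hence `v = 0`
    have hpos : 0 < 1 - y 0 := by linarith [h.z1]
    have hv : y 3 = 0 := by
      have h1 := h.ap
      rw [hQ] at h1
      norm_num at h1
      have h2 : y 3 ^ 2 * (1 - y 0) = 0 :=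
        le_antisymm h1 (mul_nonneg (sq_nonneg _) hpos.le)
      rcases mul_eq_zero.1 h2 with h4 | h4
      · exact pow_eq_zero_iff (two_ne_zero) |>.1 h4
      · exact absurd h4 hpos.ne'
    have hy : y = ![y 0, y 1, 1, 0] := by
      ext i; fin_cases i
      · rfl
      · rfl
      · exact hQ
      · exact hv
    have hc := continuous_FbQ P.n P.A0 P.Lam D (l k) (∑ i, l i ^ 4) (y 0) (y 1) s0
      (∑ i, l i * t i) (∑ i, l i ^ 2 * t i) w (TEl.G3 k t)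
    have key : ∀ Q ∈ Set.Ioo (0 : ℝ) 1, 0 ≤ TEl.Fb (D.nb P.n P.A0 P.Lam (l k) 0 (∑ i, l i ^ 4)
        ![y 0, y 1, Q, 0]) (Real.sqrt (qn P.A0 ![y 0, y 1, Q, 0])) s0
        (∑ i, l i * t i) (∑ i, l i ^ 2 * t i) w (D.g.ev ![y 0, y 1, Q, 0] * TEl.G3 k t) := by
      intro Q hQ'
      have hN : NAdm P.A0 l ![y 0, y 1, Q, 0] := by
        refine ⟨h.tr, h.sq, h.cu, h.z0, h.z1, le_rfl, ?_, hQ'.2.le, ?_⟩
        · show 0 ≤ Q - (0 : ℝ) ^ 2 * (y 0 / P.A0)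
          have := hQ'.1
          norm_num
          exact this.le
        · show (0 : ℝ) ^ 2 * (1 - y 0) ≤ (P.n : ℝ) / (2 * (P.n + 2)) * (1 - Q ^ 2)
          have h1 : 0 ≤ 1 - Q ^ 2 := by nlinarith [hQ'.1, hQ'.2]
          have h2 : (0 : ℝ) ≤ (P.n : ℝ) / (2 * (P.n + 2)) := by positivity
          have h4 := mul_nonneg h2 h1
          norm_num
          exact h4
      exact pj_lt_one hn D h3 hg hS l _ hN hQ'.2 k s0 w t ht
    rw [hy]
    refine ge_of_tendsto ((hc.tendsto 1).mono_left (nhdsWithin_le_nhds (s := Set.Iio 1))) ?_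
    filter_upwards [Ioo_mem_nhdsLT (zero_lt_one (α := ℝ))] with Q hQ'
    exact key Q hQ'

end Crest.Agent.R097.CQ

namespace Crest.Agent.R097.SC

open CP

/-- **`NCert` from the scalar parts and the cover of chart `S` for `Q < 1`** (factored data) -/
theorem ncert_ofQ {P : CQ.Par} {A B A' B' g p1 p2 : Pol} (hn : CQ.nOK P.n) (han : 0 < P.an)
    (had : 0 < P.ad) (hld : 0 < P.ld) (hlam : (P.n - 1) ^ 2 * P.ld < 4 * P.ln)
    (hZ : ∀ (l : Fin P.n → ℝ) (y : Fin 4 → ℝ), NAdm P.A0 l y → 0 < Pol.ev (oneSub A ++ B) y)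
    (hg : ∀ (l : Fin P.n → ℝ) (y : Fin 4 → ℝ), NAdm P.A0 l y → 0 ≤ Pol.ev g y)
    (hBJ : ∀ (l : Fin P.n → ℝ) (y : Fin 4 → ℝ), NAdm P.A0 l y → y 2 = 1 → y 3 = 0 →
      ∀ (k : Fin P.n) (h : ℝ), 0 ≤ h → l k = -h →
      0 ≤ h * Pol.ev (oneSub A ++ B) y + Pol.ev (oneSub A' ++ B') y - h * Pol.ev p1 y
        + h ^ 2 * Pol.ev p2 y - h ^ 3 * Pol.ev [] y - Pol.ev g y * (2 * h * (1 - y 0) + y 1))
    (hB : ∀ m ∈ B, 1 ≤ m.j) (hB' : ∀ m ∈ B', 1 ≤ m.j)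
    (hS : CQ.CoverS' P ⟨g, oneSub A' ++ B', p1, p2, [], oneSub A ++ B⟩) :
    NCert P.n P.A0 P.Lam ⟨g, oneSub A' ++ B', p1, p2, [], oneSub A ++ B⟩ := by
  have h1 : (0 : ℝ) < P.an := by exact_mod_cast han
  have h2 : (0 : ℝ) < P.ad := by exact_mod_cast had
  have h3 : (0 : ℝ) < P.ld := by exact_mod_cast hld
  refine ⟨div_pos h1 h2, ?_, hZ, hg, ?_, hBJ, fun Q v => ev_van hB Q v, fun Q v => ev_van hB' Q v⟩
  · have hn1 : 1 ≤ P.n := by rcases hn with h | h | h <;> omega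
    have h4 : (((P.n - 1 : ℕ) : ℝ)) ^ 2 * P.ld < 4 * P.ln := by exact_mod_cast hlam
    rw [Nat.cast_sub hn1, Nat.cast_one] at h4
    unfold CQ.Par.Lam
    rw [lt_div_iff₀ h3]
    linarith
  · intro l y h k s0 w t ht
    exact CQ.pj_of_coverS' hn _ rfl hg hS l y h k s0 w t ht

/-- **`NCert` from the scalar parts and the cover of chart `S` for `Q < 1`**, general data -/
theorem ncert_ofQ' {P : CQ.Par} {D : Dat} {A B A' B' g p1 p2 : Pol} (hn : CQ.nOK P.n)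
    (han : 0 < P.an) (had : 0 < P.ad) (hld : 0 < P.ld) (hlam : (P.n - 1) ^ 2 * P.ld < 4 * P.ln)
    (h3 : D.p3 = [])
    (eZ : nf D.Z = nf (oneSub A ++ B)) (e0 : nf D.p0 = nf (oneSub A' ++ B')) (eg : nf D.g = nf g)
    (e1 : nf D.p1 = nf p1) (e2 : nf D.p2 = nf p2)
    (hZ : ∀ (l : Fin P.n → ℝ) (y : Fin 4 → ℝ), NAdm P.A0 l y → 0 < Pol.ev (oneSub A ++ B) y)
    (hg : ∀ (l : Fin P.n → ℝ) (y : Fin 4 → ℝ), NAdm P.A0 l y → 0 ≤ Pol.ev g y)
    (hBJ : ∀ (l : Fin P.n → ℝ) (y : Fin 4 → ℝ), NAdm P.A0 l y → y 2 = 1 → y 3 = 0 →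
      ∀ (k : Fin P.n) (h : ℝ), 0 ≤ h → l k = -h →
      0 ≤ h * Pol.ev (oneSub A ++ B) y + Pol.ev (oneSub A' ++ B') y - h * Pol.ev p1 y
        + h ^ 2 * Pol.ev p2 y - h ^ 3 * Pol.ev [] y - Pol.ev g y * (2 * h * (1 - y 0) + y 1))
    (hB : ∀ m ∈ B, 1 ≤ m.j) (hB' : ∀ m ∈ B', 1 ≤ m.j)
    (hS : CQ.CoverS' P D) : NCert P.n P.A0 P.Lam D := by
  have h1 : (0 : ℝ) < P.an := by exact_mod_cast han
  have h2 : (0 : ℝ) < P.ad := by exact_mod_cast had
  have h4 : (0 : ℝ) < P.ld := by exact_mod_cast hld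
  have hg' : ∀ (l : Fin P.n → ℝ) (y : Fin 4 → ℝ), NAdm P.A0 l y → 0 ≤ D.g.ev y := by
    intro l y h
    rw [ev_eq_of_nf eg]; exact hg l y h
  refine ⟨div_pos h1 h2, ?_, ?_, hg', ?_, ?_, ?_, ?_⟩
  · have hn1 : 1 ≤ P.n := by rcases hn with h | h | h <;> omega
    have h4' : (((P.n - 1 : ℕ) : ℝ)) ^ 2 * P.ld < 4 * P.ln := by exact_mod_cast hlam
    rw [Nat.cast_sub hn1, Nat.cast_one] at h4'
    unfold CQ.Par.Lam
    rw [lt_div_iff₀ h4]
    linarith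
  · intro l y h
    rw [ev_eq_of_nf eZ]; exact hZ l y h
  · intro l y h k s0 w t ht
    exact CQ.pj_of_coverS' hn D h3 hg' hS l y h k s0 w t ht
  · intro l y h hy2 hy3 k r hr hk
    rw [ev_eq_of_nf eZ, ev_eq_of_nf e0, ev_eq_of_nf eg, ev_eq_of_nf e1, ev_eq_of_nf e2, h3]
    exact hBJ l y h hy2 hy3 k r hr hk
  · intro Q v
    rw [ev_eq_of_nf eZ]; exact ev_van hB Q v
  · intro Q v
    rw [ev_eq_of_nf e0]; exact ev_van hB' Q v

end Crest.Agent.R097.SC
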