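import Crest.Agent.R097.CQ4

/-!
# Row 97: dyadic boxes, glue of the subdivision tree, the four sign charts (helper169)
-/

set_option autoImplicit false
open scoped BigOperators

namespace Crest.Agent.R097.KA

open Crest.Agent.R097.CP Crest.Agent.R097.CQ

/-- dyadic half open boxes `∏ [k_i / 2^r_i, (k_i + 1) / 2^r_i)` -/
structure Bx where
  r0 : ℕ
  k0 : ℕ
  r1 : ℕ
  k1 : ℕ
  r2 : ℕ
  k2 : ℕ
  r3 : ℕ
  k3 : ℕ
  r4 : ℕ
  k4 : ℕ

/-- membership in a dyadic half open interval -/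
def inD (r k : ℕ) (x : ℝ) : Prop := (k : ℝ) / 2 ^ r ≤ x ∧ x < ((k : ℝ) + 1) / 2 ^ r

/-- membership in a box -/
structure inBx (b : Bx) (t : ℕ → ℝ) : Prop where
  h0 : inD b.r0 b.k0 (t 0)
  h1 : inD b.r1 b.k1 (t 1)
  h2 : inD b.r2 b.k2 (t 2)
  h3 : inD b.r3 b.k3 (t 3)
  h4 : inD b.r4 b.k4 (t 4)

/-- the assertion on a box -/
def Good (Φ : (ℕ → ℝ) → Prop) (b : Bx) : Prop := ∀ t, inBx b t → Φ t

theorem inD_split {r k : ℕ} {x : ℝ} (h : inD r k x) :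
    inD (r + 1) (2 * k) x ∨ inD (r + 1) (2 * k + 1) x := by
  obtain ⟨h1, h2⟩ := h
  have hp : (0 : ℝ) < 2 ^ r := by positivity
  have hp1 : (0 : ℝ) < 2 ^ (r + 1) := by positivity
  rw [div_le_iff₀ hp] at h1
  rw [lt_div_iff₀ hp] at h2
  have e : (2 : ℝ) ^ (r + 1) = 2 ^ r * 2 := pow_succ _ _
  rcases lt_or_ge (x * 2 ^ (r + 1)) (2 * k + 1) with h | h
  · left
    refine ⟨?_, ?_⟩
    · rw [div_le_iff₀ hp1, e]; push_cast; nlinarith
    · rw [lt_div_iff₀ hp1]; push_cast; linarith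
  · right
    refine ⟨?_, ?_⟩
    · rw [div_le_iff₀ hp1]; push_cast; linarith
    · rw [lt_div_iff₀ hp1, e]; push_cast; nlinarith

section nodes

variable {Φ : (ℕ → ℝ) → Prop} {r0 k0 r1 k1 r2 k2 r3 k3 r4 k4 : ℕ}

theorem Good.n0 (hl : Good Φ ⟨r0 + 1, 2 * k0, r1, k1, r2, k2, r3, k3, r4, k4⟩)
    (hr : Good Φ ⟨r0 + 1, 2 * k0 + 1, r1, k1, r2, k2, r3, k3, r4, k4⟩) :
    Good Φ ⟨r0, k0, r1, k1, r2, k2, r3, k3, r4, k4⟩ := by
  intro t h
  rcases inD_split h.h0 with h' | h'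
  · exact hl t ⟨h', h.h1, h.h2, h.h3, h.h4⟩
  · exact hr t ⟨h', h.h1, h.h2, h.h3, h.h4⟩

theorem Good.n1 (hl : Good Φ ⟨r0, k0, r1 + 1, 2 * k1, r2, k2, r3, k3, r4, k4⟩)
    (hr : Good Φ ⟨r0, k0, r1 + 1, 2 * k1 + 1, r2, k2, r3, k3, r4, k4⟩) :
    Good Φ ⟨r0, k0, r1, k1, r2, k2, r3, k3, r4, k4⟩ := by
  intro t h
  rcases inD_split h.h1 with h' | h'
  · exact hl t ⟨h.h0, h', h.h2, h.h3, h.h4⟩
  · exact hr t ⟨h.h0, h', h.h2, h.h3, h.h4⟩

theorem Good.n2 (hl : Good Φ ⟨r0, k0, r1, k1, r2 + 1, 2 * k2, r3, k3, r4, k4⟩)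
    (hr : Good Φ ⟨r0, k0, r1, k1, r2 + 1, 2 * k2 + 1, r3, k3, r4, k4⟩) :
    Good Φ ⟨r0, k0, r1, k1, r2, k2, r3, k3, r4, k4⟩ := by
  intro t h
  rcases inD_split h.h2 with h' | h'
  · exact hl t ⟨h.h0, h.h1, h', h.h3, h.h4⟩
  · exact hr t ⟨h.h0, h.h1, h', h.h3, h.h4⟩

theorem Good.n3 (hl : Good Φ ⟨r0, k0, r1, k1, r2, k2, r3 + 1, 2 * k3, r4, k4⟩)
    (hr : Good Φ ⟨r0, k0, r1, k1, r2, k2, r3 + 1, 2 * k3 + 1, r4, k4⟩) :
    Good Φ ⟨r0, k0, r1, k1, r2, k2, r3, k3, r4, k4⟩ := by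
  intro t h
  rcases inD_split h.h3 with h' | h'
  · exact hl t ⟨h.h0, h.h1, h.h2, h', h.h4⟩
  · exact hr t ⟨h.h0, h.h1, h.h2, h', h.h4⟩

theorem Good.n4 (hl : Good Φ ⟨r0, k0, r1, k1, r2, k2, r3, k3, r4 + 1, 2 * k4⟩)
    (hr : Good Φ ⟨r0, k0, r1, k1, r2, k2, r3, k3, r4 + 1, 2 * k4 + 1⟩) :
    Good Φ ⟨r0, k0, r1, k1, r2, k2, r3, k3, r4, k4⟩ := by
  intro t h
  rcases inD_split h.h4 with h' | h'
  · exact hl t ⟨h.h0, h.h1, h.h2, h.h3, h'⟩
  · exact hr t ⟨h.h0, h.h1, h.h2, h.h3, h'⟩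

end nodes

/-- the root box `[0,1)^5` -/
abbrev rt : Bx := ⟨0, 0, 0, 0, 0, 0, 0, 0, 0, 0⟩

theorem inD_zero {x : ℝ} (h0 : 0 ≤ x) (h1 : x < 1) : inD 0 0 x := by
  refine ⟨by simpa using h0, by simpa using h1⟩

/-- the assertion at the point `t` of the chart `(sx, sp)` -/
def Phi (P : Par) (D : Dat) (sx sp : ℝ) (t : ℕ → ℝ) : Prop :=
  DomS P.n P.A0 (sx * t 0) (sp * t 1) (t 2) (t 3) (2 * t 4) →
    ∃ (B' : TEl.Base) (L : TEl.Leaf),
      SRel (t 2) (nbS P D (sx * t 0) (sp * t 1) (t 2) (t 3) (2 * t 4)) B' ∧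
        L.OK B' (t 3 - (2 * t 4) ^ 2 * ((1 - (t 2) ^ 2) / P.A0))

/-- cover of chart S by leaves for `Q < 1` -/
def CoverS1 (P : Par) (D : Dat) : Prop :=
  ∀ x p s Q v : ℝ, DomS P.n P.A0 x p s Q v → Q < 1 → ∃ (B' : TEl.Base) (L : TEl.Leaf),
    SRel s (nbS P D x p s Q v) B' ∧ L.OK B' (Q - v ^ 2 * ((1 - s ^ 2) / P.A0))

/-- outside of the domain nothing has to be shown -/
theorem Good.of_not_dom {P : Par} {D : Dat} {sx sp : ℝ} {b : Bx}
    (h : ∀ t, inBx b t → ¬ DomS P.n P.A0 (sx * t 0) (sp * t 1) (t 2) (t 3) (2 * t 4)) :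
    Good (Phi P D sx sp) b := fun t ht hd => absurd hd (h t ht)

lemma domS_x {n : ℕ} (hn : nOK n) {A0 x p s Q v : ℝ} (h : DomS n A0 x p s Q v) :
    x ^ 2 ≤ 4 / 5 := by
  have h1 := h.rn
  unfold rr at h1
  rcases hn with rfl | rfl | rfl <;> norm_num at h1 <;> linarith

lemma p_lt_aux {y k r c : ℝ} (hk : k ^ 2 ≤ (c * r) ^ 2) (hc : 0 ≤ c * r)
    (h1 : c * r + y < 1) (h2 : c * r - y < 1) : |k + y| < 1 := by
  have hk' := abs_le_of_sq_le_sq' hk hc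
  rw [abs_lt]
  constructor <;> linarith [hk'.1, hk'.2]

lemma domS_p {n : ℕ} (hn : nOK n) {A0 x p s Q v : ℝ} (h : DomS n A0 x p s Q v) :
    |p| < 1 := by
  have h1 := h.rn
  have h2 := h.reg
  rcases hn with rfl | rfl | rfl
  · -- n = 3
    unfold rr k3 at *
    norm_num at h1 h2
    have hk : p - x ^ 3 + 3 * x / 2 * (1 - x ^ 2) - 2 * x ^ 3 / 4 = 0 := by
      have : (p - x ^ 3 + 3 * x / 2 * (1 - x ^ 2) - 2 * x ^ 3 / 4) ^ 2 ≤ 0 := by
        nlinarith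
      exact pow_eq_zero_iff (two_ne_zero) |>.1 (le_antisymm this (sq_nonneg _))
    have hp : p = 3 * x ^ 3 - 3 / 2 * x := by linarith
    rw [hp, abs_lt]
    have hx : x ^ 2 ≤ 2 / 3 := by linarith
    constructor
    · nlinarith [sq_nonneg (x - 1 / 2), sq_nonneg (x + 1 / 2), sq_nonneg x,
        mul_nonneg (sub_nonneg.2 hx) (sq_nonneg (x + 1)), mul_nonneg (sub_nonneg.2 hx) (sq_nonneg (x - 1))]
    · nlinarith [sq_nonneg (x - 1 / 2), sq_nonneg (x + 1 / 2), sq_nonneg x,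
        mul_nonneg (sub_nonneg.2 hx) (sq_nonneg (x + 1)), mul_nonneg (sub_nonneg.2 hx) (sq_nonneg (x - 1))]
  · -- n = 4
    unfold rr k3 at *
    norm_num at h1 h2
    have hx : x ^ 2 ≤ 3 / 4 := by linarith
    set r := 1 - 4 / 3 * x ^ 2 with hr
    have hr0 : 0 ≤ r := by rw [hr]; linarith
    have hr1 : r ≤ 1 := by rw [hr]; nlinarith [sq_nonneg x]
    set k := p - x ^ 3 + x * (1 - x ^ 2) - 2 * x ^ 3 / 9 with hkd
    have hk : k ^ 2 ≤ (1 / 2 * r) ^ 2 := by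
      have : r ^ 3 ≤ r ^ 2 := by nlinarith [sq_nonneg r]
      nlinarith
    have hp : p = k + (20 / 9 * x ^ 3 - x) := by rw [hkd]; ring
    rw [hp]
    refine p_lt_aux hk (by linarith) ?_ ?_
    · rcases le_total 0 x with h0 | h0
      · nlinarith [mul_nonneg h0 (sub_nonneg.2 hx), sq_nonneg (x - 1 / 2)]
      · nlinarith [mul_nonneg (neg_nonneg.2 h0) (sub_nonneg.2 hx), sq_nonneg (x + 1 / 2),
          mul_nonneg (neg_nonneg.2 h0) (sq_nonneg x)]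
    · rcases le_total 0 x with h0 | h0
      · nlinarith [mul_nonneg h0 (sub_nonneg.2 hx), sq_nonneg (x - 1 / 2),
          mul_nonneg h0 (sq_nonneg x)]
      · nlinarith [mul_nonneg (neg_nonneg.2 h0) (sub_nonneg.2 hx), sq_nonneg (x + 1 / 2)]
  · -- n = 5
    unfold rr k3 at *
    norm_num at h1 h2
    have hx : x ^ 2 ≤ 4 / 5 := by linarith
    set r := 1 - 5 / 4 * x ^ 2 with hr
    have hr0 : 0 ≤ r := by rw [hr]; linarith
    have hr1 : r ≤ 1 := by rw [hr]; nlinarith [sq_nonneg x]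
    set k := p - x ^ 3 + 3 * x / 4 * (1 - x ^ 2) - 2 * x ^ 3 / 16 with hkd
    have hk : k ^ 2 ≤ (3 / 5 * r) ^ 2 := by
      have : r ^ 3 ≤ r ^ 2 := by nlinarith [sq_nonneg r]
      nlinarith
    have hp : p = k + (15 / 8 * x ^ 3 - 3 / 4 * x) := by rw [hkd]; ring
    rw [hp]
    refine p_lt_aux hk (by linarith) ?_ ?_
    · rcases le_total 0 x with h0 | h0
      · nlinarith [mul_nonneg h0 (sub_nonneg.2 hx), sq_nonneg (x - 1 / 2)]
      · nlinarith [mul_nonneg (neg_nonneg.2 h0) (sub_nonneg.2 hx), sq_nonneg (x + 1 / 2),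
          mul_nonneg (neg_nonneg.2 h0) (sq_nonneg x)]
    · rcases le_total 0 x with h0 | h0
      · nlinarith [mul_nonneg h0 (sub_nonneg.2 hx), sq_nonneg (x - 1 / 2),
          mul_nonneg h0 (sq_nonneg x)]
      · nlinarith [mul_nonneg (neg_nonneg.2 h0) (sub_nonneg.2 hx), sq_nonneg (x + 1 / 2)]

lemma domS_v {n : ℕ} (hn : nOK n) {A0 x p s Q v : ℝ} (hA : 0 < A0) (hA3 : A0 ≤ 3)
    (h : DomS n A0 x p s Q v) : v < 2 := by
  have h1 := h.ap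
  have h2 := h.q0
  have h3 : (n : ℝ) / (2 * (n + 2)) ≤ 1 / 2 := by
    rcases hn with rfl | rfl | rfl <;> norm_num
  have h4 : 0 ≤ (n : ℝ) / (2 * (n + 2)) := by positivity
  have h5 : (n : ℝ) / (2 * (n + 2)) * (1 - Q ^ 2) ≤ 1 / 2 := by
    nlinarith [sq_nonneg Q]
  have h6 : v ^ 2 * (1 - s ^ 2) ≤ 3 := by
    have e : v ^ 2 * ((1 - s ^ 2) / A0) = v ^ 2 * (1 - s ^ 2) / A0 := by ring
    rw [e] at h2
    have : v ^ 2 * (1 - s ^ 2) / A0 ≤ 1 := by linarith [h.q1]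
    rw [div_le_iff₀ hA] at this
    linarith
  have h7 : v ^ 2 < 2 ^ 2 := by nlinarith
  exact lt_of_pow_lt_pow_left₀ 2 (by norm_num) h7

lemma domS_Q {n : ℕ} {A0 x p s Q v : ℝ} (hA : 0 < A0) (h : DomS n A0 x p s Q v) : 0 ≤ Q := by
  have h2 := h.q0
  have h3 : 0 ≤ 1 - s ^ 2 := by nlinarith [h.s0, h.s1]
  have : 0 ≤ v ^ 2 * ((1 - s ^ 2) / A0) := by positivity
  linarith

/-- **the four charts cover** -/
theorem coverS1_of_charts {P : Par} {D : Dat} (hn : nOK P.n) (hA : 0 < P.A0) (hA3 : P.A0 ≤ 3)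
    (hpp : Good (Phi P D 1 1) rt) (hpm : Good (Phi P D 1 (-1)) rt)
    (hmp : Good (Phi P D (-1) 1) rt) (hmm : Good (Phi P D (-1) (-1)) rt) : CoverS1 P D := by
  intro x p s Q v h hQ
  have hx : |x| < 1 := by
    have := domS_x hn h
    rw [abs_lt]
    constructor <;> nlinarith
  have hp := domS_p hn h
  have hv := domS_v hn hA hA3 h
  have hQ0 := domS_Q hA h
  -- the point
  have key : ∀ sx sp : ℝ, sx * |x| = x → sp * |p| = p → Good (Phi P D sx sp) rt →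
      ∃ (B' : TEl.Base) (L : TEl.Leaf),
        SRel s (nbS P D x p s Q v) B' ∧ L.OK B' (Q - v ^ 2 * ((1 - s ^ 2) / P.A0)) := by
    intro sx sp ex ep hG
    set t : ℕ → ℝ := fun i => if i = 0 then |x| else if i = 1 then |p| else if i = 2 then s
      else if i = 3 then Q else v / 2 with ht
    have t0 : t 0 = |x| := by simp [ht]
    have t1 : t 1 = |p| := by simp [ht]
    have t2 : t 2 = s := by simp [ht]
    have t3 : t 3 = Q := by simp [ht]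
    have t4 : t 4 = v / 2 := by simp [ht]
    have hin : inBx rt t := by
      refine ⟨?_, ?_, ?_, ?_, ?_⟩
      · rw [t0]; exact inD_zero (abs_nonneg _) hx
      · rw [t1]; exact inD_zero (abs_nonneg _) hp
      · rw [t2]; exact inD_zero h.s0.le h.s1
      · rw [t3]; exact inD_zero hQ0 hQ
      · rw [t4]; exact inD_zero (by linarith [h.v0]) (by linarith)
    have := hG t hin
    unfold Phi at this
    rw [t0, t1, t2, t3, t4, ex, ep] at this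
    rw [show 2 * (v / 2) = v by ring] at this
    exact this h
  rcases le_total 0 x with h0 | h0 <;> rcases le_total 0 p with h1 | h1
  · exact key 1 1 (by rw [abs_of_nonneg h0, one_mul]) (by rw [abs_of_nonneg h1, one_mul]) hpp
  · exact key 1 (-1) (by rw [abs_of_nonneg h0, one_mul]) (by rw [abs_of_nonpos h1]; ring) hpm
  · exact key (-1) 1 (by rw [abs_of_nonpos h0]; ring) (by rw [abs_of_nonneg h1, one_mul]) hmp
  · exact key (-1) (-1) (by rw [abs_of_nonpos h0]; ring) (by rw [abs_of_nonpos h1]; ring) hmm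

end Crest.Agent.R097.KA
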