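import Crest.Agent.R097.KA0
import Crest.Agent.R097.CQ1
import Crest.Agent.Tools.KB

/-!
# Row 97, KBA checker: polynomial semantics (helper351)
-/

set_option autoImplicit false

namespace Crest.Agent.R097.KA

open MvPolynomial Crest.Agent.R097.CQ Crest.Agent.KB

/-- a function of the five indices -/
def fn5 {α : Type} (a0 a1 a2 a3 a4 : α) : ℕ → α
  | 0 => a0
  | 1 => a1
  | 2 => a2
  | 3 => a3
  | _ => a4

/-- clamp to `{0,…,4}` -/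
def cl : ℕ → ℕ
  | 0 => 0
  | 1 => 1
  | 2 => 2
  | 3 => 3
  | _ => 4

lemma cl_lt (i : ℕ) : cl i < 5 := by
  unfold cl; split <;> norm_num

/-- one variable factor -/
noncomputable def fac (a b D d f e i : ℕ) : MvPolynomial ℕ ℤ :=
  (C (a : ℤ) + C (b : ℤ) * X i) ^ e * C ((D : ℤ) ^ (d - e)) * (C (1 : ℤ) + C (1 : ℤ) * X i) ^ (f - e)

/-- homogenised monomial -/
noncomputable def homM (a b D d f : ℕ → ℕ) (e : List ℕ) : MvPolynomial ℕ ℤ :=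
  fac (a 0) (b 0) (D 0) (d 0) (f 0) (e.getD 0 0) 0 * fac (a 1) (b 1) (D 1) (d 1) (f 1) (e.getD 1 0) 1 *
    fac (a 2) (b 2) (D 2) (d 2) (f 2) (e.getD 2 0) 2 * fac (a 3) (b 3) (D 3) (d 3) (f 3) (e.getD 3 0) 3 *
    fac (a 4) (b 4) (D 4) (d 4) (f 4) (e.getD 4 0) 4

/-- homogenised polynomial on a box: `x_i = (a_i + b_i T_i)/(D_i (1+T_i))`, degree `d`, elevated to `f` -/
noncomputable def hom (a b D d f : ℕ → ℕ) : SP → MvPolynomial ℕ ℤ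
  | [] => 0
  | m :: p => C m.1 * homM a b D d f m.2 + hom a b D d f p

/-- exponents of a polynomial are at most `d` -/
def expOK (d : ℕ → ℕ) (p : SP) : Bool :=
  p.all fun m => Nat.ble m.2.length 5 && (Nat.ble (m.2.getD 0 0) (d 0) && (Nat.ble (m.2.getD 1 0) (d 1) &&
    (Nat.ble (m.2.getD 2 0) (d 2) && (Nat.ble (m.2.getD 3 0) (d 3) && Nat.ble (m.2.getD 4 0) (d 4)))))

lemma expOK_cons {d : ℕ → ℕ} {m : ℤ × List ℕ} {p : SP} (h : expOK d (m :: p) = true) :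
    (m.2.length ≤ 5 ∧ m.2.getD 0 0 ≤ d 0 ∧ m.2.getD 1 0 ≤ d 1 ∧ m.2.getD 2 0 ≤ d 2 ∧
      m.2.getD 3 0 ≤ d 3 ∧ m.2.getD 4 0 ≤ d 4) ∧ expOK d p = true := by
  simp only [expOK, List.all_cons, Bool.and_eq_true, Nat.ble_eq] at h ⊢
  tauto

/-! ### degrees -/

lemma degreeOf_fac (a b D d f e i j : ℕ) (h : e ≤ f) :
    degreeOf j (fac a b D d f e i) ≤ if j = i then f else 0 := by
  unfold fac
  refine (degreeOf_mul_le _ _ _).trans ?_
  refine (Nat.add_le_add (degreeOf_mul_le _ _ _) le_rfl).trans ?_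
  have h1 := degreeOf_lin j i (a : ℤ) (b : ℤ) e
  have h2 := degreeOf_lin j i (1 : ℤ) (1 : ℤ) (f - e)
  have h3 : degreeOf j (C ((D : ℤ) ^ (d - e)) : MvPolynomial ℕ ℤ) = 0 := degreeOf_C _ _
  rw [h3]
  split_ifs at h1 h2 ⊢ with hj
  · omega
  · omega

lemma degreeOf_homM (a b D d f : ℕ → ℕ) (e : List ℕ) (j : ℕ) (h0 : e.getD 0 0 ≤ f 0)
    (h1 : e.getD 1 0 ≤ f 1) (h2 : e.getD 2 0 ≤ f 2) (h3 : e.getD 3 0 ≤ f 3) (h4 : e.getD 4 0 ≤ f 4) :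
    degreeOf j (homM a b D d f e) ≤ (if j < 5 then f j else 0) := by
  unfold homM
  have k0 := degreeOf_fac (a 0) (b 0) (D 0) (d 0) (f 0) (e.getD 0 0) 0 j h0
  have k1 := degreeOf_fac (a 1) (b 1) (D 1) (d 1) (f 1) (e.getD 1 0) 1 j h1
  have k2 := degreeOf_fac (a 2) (b 2) (D 2) (d 2) (f 2) (e.getD 2 0) 2 j h2
  have k3 := degreeOf_fac (a 3) (b 3) (D 3) (d 3) (f 3) (e.getD 3 0) 3 j h3
  have k4 := degreeOf_fac (a 4) (b 4) (D 4) (d 4) (f 4) (e.getD 4 0) 4 j h4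
  refine (degreeOf_mul_le _ _ _).trans ?_
  refine (Nat.add_le_add ((degreeOf_mul_le _ _ _).trans (Nat.add_le_add ((degreeOf_mul_le _ _ _).trans
    (Nat.add_le_add (degreeOf_mul_le _ _ _) le_rfl)) le_rfl)) le_rfl).trans ?_
  rcases Nat.lt_or_ge j 5 with hj | hj
  · rw [if_pos hj]
    interval_cases j <;> simp only [reduceIte, OfNat.ofNat_ne_zero, OfNat.zero_ne_ofNat, OfNat.one_ne_ofNat,
      OfNat.ofNat_ne_one, one_ne_zero, zero_ne_one, Nat.reduceEqDiff] at k0 k1 k2 k3 k4 <;> omega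
  · rw [if_neg (by omega)]
    rw [if_neg (by omega)] at k0 k1 k2 k3 k4
    omega

lemma degreeOf_hom (a b D d f : ℕ → ℕ) (hdf : ∀ i < 5, d i ≤ f i) (j : ℕ) :
    ∀ p : SP, expOK d p = true → degreeOf j (hom a b D d f p) ≤ (if j < 5 then f j else 0)
  | [], _ => by simp [hom]
  | m :: p, h => by
    obtain ⟨⟨_, h0, h1, h2, h3, h4⟩, hp⟩ := expOK_cons h
    have ih := degreeOf_hom a b D d f hdf j p hp
    rw [hom]
    refine (degreeOf_add_le _ _ _).trans (max_le ?_ ih)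
    refine (degreeOf_C_mul_le _ _ _).trans ?_
    exact degreeOf_homM a b D d f m.2 j (h0.trans (hdf 0 (by norm_num))) (h1.trans (hdf 1 (by norm_num)))
      (h2.trans (hdf 2 (by norm_num))) (h3.trans (hdf 3 (by norm_num))) (h4.trans (hdf 4 (by norm_num)))

/-! ### norms -/

lemma maj_lin (u v : ℕ) (i : ℕ) : Maj (C (u : ℤ) + C (v : ℤ) * X i) ((u + v : ℕ) : ℤ) := by
  refine Maj.mono ((Maj.C (u : ℤ)).add ((Maj.C (v : ℤ)).mul (Maj.X i))) ?_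
  push_cast
  rw [mul_one, abs_of_nonneg (by positivity), abs_of_nonneg (by positivity)]

lemma maj_fac (a b D d f e i : ℕ) (hab : a + b ≤ 2 * D) (h1 : e ≤ d) (h2 : d ≤ f) :
    Maj (fac a b D d f e i) ((D ^ d * 2 ^ f : ℕ) : ℤ) := by
  unfold fac
  have k1 : Maj ((C (a : ℤ) + C (b : ℤ) * X i : MvPolynomial ℕ ℤ) ^ e) (((2 * D : ℕ) : ℤ) ^ e) :=
    Maj.pow (Maj.mono (maj_lin a b i) (by exact_mod_cast hab)) e
  have k2 : Maj (C ((D : ℤ) ^ (d - e)) : MvPolynomial ℕ ℤ) ((D : ℤ) ^ (d - e)) := by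
    have := Maj.C ((D : ℤ) ^ (d - e))
    rwa [abs_of_nonneg (by positivity)] at this
  have k3 : Maj ((C (1 : ℤ) + C (1 : ℤ) * X i : MvPolynomial ℕ ℤ) ^ (f - e)) ((2 : ℤ) ^ (f - e)) := by
    have := maj_lin 1 1 i
    exact Maj.pow (by simpa using this) _
  refine Maj.mono ((k1.mul k2).mul k3) (le_of_eq ?_)
  push_cast
  have e1 : (D : ℤ) ^ d = D ^ e * D ^ (d - e) := by rw [← pow_add]; congr 1; omega
  have e2 : (2 : ℤ) ^ f = 2 ^ e * 2 ^ (f - e) := by rw [← pow_add]; congr 1; omega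
  rw [e1, e2, mul_pow]
  ring

/-- the common factor of the norms -/
def nfac (D d f : ℕ → ℕ) : ℕ :=
  D 0 ^ d 0 * 2 ^ f 0 * (D 1 ^ d 1 * 2 ^ f 1) * (D 2 ^ d 2 * 2 ^ f 2) * (D 3 ^ d 3 * 2 ^ f 3) *
    (D 4 ^ d 4 * 2 ^ f 4)

/-- sum of the absolute values of the coefficients -/
def csum : SP → ℕ
  | [] => 0
  | m :: p => m.1.natAbs + csum p

lemma maj_homM (a b D d f : ℕ → ℕ) (hab : ∀ i < 5, a i + b i ≤ 2 * D i) (hdf : ∀ i < 5, d i ≤ f i)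
    (e : List ℕ) (h0 : e.getD 0 0 ≤ d 0)
    (h1 : e.getD 1 0 ≤ d 1) (h2 : e.getD 2 0 ≤ d 2) (h3 : e.getD 3 0 ≤ d 3) (h4 : e.getD 4 0 ≤ d 4) :
    Maj (homM a b D d f e) (nfac D d f : ℤ) := by
  unfold homM nfac
  push_cast
  have k0 := maj_fac (a 0) (b 0) (D 0) (d 0) (f 0) (e.getD 0 0) 0 (hab 0 (by norm_num)) h0 (hdf 0 (by norm_num))
  have k1 := maj_fac (a 1) (b 1) (D 1) (d 1) (f 1) (e.getD 1 0) 1 (hab 1 (by norm_num)) h1 (hdf 1 (by norm_num))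
  have k2 := maj_fac (a 2) (b 2) (D 2) (d 2) (f 2) (e.getD 2 0) 2 (hab 2 (by norm_num)) h2 (hdf 2 (by norm_num))
  have k3 := maj_fac (a 3) (b 3) (D 3) (d 3) (f 3) (e.getD 3 0) 3 (hab 3 (by norm_num)) h3 (hdf 3 (by norm_num))
  have k4 := maj_fac (a 4) (b 4) (D 4) (d 4) (f 4) (e.getD 4 0) 4 (hab 4 (by norm_num)) h4 (hdf 4 (by norm_num))
  push_cast at k0 k1 k2 k3 k4
  exact (((k0.mul k1).mul k2).mul k3).mul k4

lemma maj_hom (a b D d f : ℕ → ℕ) (hab : ∀ i < 5, a i + b i ≤ 2 * D i) (hdf : ∀ i < 5, d i ≤ f i) :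
    ∀ p : SP, expOK d p = true → Maj (hom a b D d f p) ((csum p * nfac D d f : ℕ) : ℤ)
  | [], _ => by
    have := Maj.C 0
    simpa [hom, csum] using this
  | m :: p, h => by
    obtain ⟨⟨_, h0, h1, h2, h3, h4⟩, hp⟩ := expOK_cons h
    have ih := maj_hom a b D d f hab hdf p hp
    rw [hom, csum]
    refine Maj.mono (((Maj.C m.1).mul (maj_homM a b D d f hab hdf m.2 h0 h1 h2 h3 h4)).add ih) ?_
    push_cast
    rw [add_mul]

/-! ### real values -/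

lemma eval₂_fac (a b D d f e i : ℕ) (t : ℕ → ℝ) (x : ℝ) (hx : (a : ℝ) + b * t i = x * (D * (1 + t i)))
    (h1 : e ≤ d) (h2 : d ≤ f) :
    eval₂ (Int.castRingHom ℝ) t (fac a b D d f e i) = x ^ e * ((D : ℝ) ^ d * (1 + t i) ^ f) := by
  unfold fac
  simp only [eval₂_mul, eval₂_pow, eval₂_add, eval₂_C, eval₂_X, Int.coe_castRingHom]
  push_cast
  rw [hx]
  have e1 : (D : ℝ) ^ d = D ^ e * D ^ (d - e) := by rw [← pow_add]; congr 1; omega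
  have e2 : (1 + t i) ^ f = (1 + t i) ^ e * (1 + t i) ^ (f - e) := by rw [← pow_add]; congr 1; omega
  rw [e1, e2, mul_pow, mul_pow, one_mul]
  ring

/-- the positive factor of the real values -/
noncomputable def rfac (D d f : ℕ → ℕ) (t : ℕ → ℝ) : ℝ :=
  (D 0 : ℝ) ^ d 0 * (1 + t 0) ^ f 0 * ((D 1 : ℝ) ^ d 1 * (1 + t 1) ^ f 1) *
    ((D 2 : ℝ) ^ d 2 * (1 + t 2) ^ f 2) * ((D 3 : ℝ) ^ d 3 * (1 + t 3) ^ f 3) *
    ((D 4 : ℝ) ^ d 4 * (1 + t 4) ^ f 4)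

lemma mon_eq (x : ℕ → ℝ) (e : List ℕ) (h : e.length ≤ 5) :
    mon x 0 e = x 0 ^ e.getD 0 0 * x 1 ^ e.getD 1 0 * x 2 ^ e.getD 2 0 * x 3 ^ e.getD 3 0 *
      x 4 ^ e.getD 4 0 := by
  rcases e with _ | ⟨e0, _ | ⟨e1, _ | ⟨e2, _ | ⟨e3, _ | ⟨e4, _ | ⟨e5, e⟩⟩⟩⟩⟩⟩
  all_goals first
    | (simp only [List.length_cons] at h; omega)
    | (simp [mon]; try ring)

lemma eval₂_hom (a b D d f : ℕ → ℕ) (t x : ℕ → ℝ)
    (hx : ∀ i < 5, (a i : ℝ) + b i * t i = x i * (D i * (1 + t i))) (hdf : ∀ i < 5, d i ≤ f i) :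
    ∀ p : SP, expOK d p = true → eval₂ (Int.castRingHom ℝ) t (hom a b D d f p)
      = rfac D d f t * ev x p
  | [], _ => by simp [hom, ev]
  | m :: p, h => by
    obtain ⟨⟨hl, h0, h1, h2, h3, h4⟩, hp⟩ := expOK_cons h
    have ih := eval₂_hom a b D d f t x hx hdf p hp
    rw [hom, ev, eval₂_add, ih, eval₂_mul, eval₂_C, mon_eq x m.2 hl]
    unfold homM
    simp only [eval₂_mul]
    rw [eval₂_fac _ _ _ _ _ _ _ t (x 0) (hx 0 (by norm_num)) h0 (hdf 0 (by norm_num)),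
      eval₂_fac _ _ _ _ _ _ _ t (x 1) (hx 1 (by norm_num)) h1 (hdf 1 (by norm_num)),
      eval₂_fac _ _ _ _ _ _ _ t (x 2) (hx 2 (by norm_num)) h2 (hdf 2 (by norm_num)),
      eval₂_fac _ _ _ _ _ _ _ t (x 3) (hx 3 (by norm_num)) h3 (hdf 3 (by norm_num)),
      eval₂_fac _ _ _ _ _ _ _ t (x 4) (hx 4 (by norm_num)) h4 (hdf 4 (by norm_num))]
    unfold rfac
    simp only [Int.coe_castRingHom]
    ring

end Crest.Agent.R097.KA
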