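import Crest.Agent.R097.KP1
import Crest.Agent.R097.KA1

/-!
# Row 97, KBA checker: the five interpretations of the rows, and the real inequality (helper351)
-/

set_option autoImplicit false

namespace Crest.Agent.R097.KA

open MvPolynomial Crest.Agent.R097.CQ Crest.Agent.KB

/-- polynomials -/
noncomputable def OM : Ops (MvPolynomial ℕ ℤ) where
  zero := 0
  add := fun P Q => P + Q
  smul := fun a P => C a * P
  mulT := fun i P => X (cl i) * P

/-- packed pairs: value `z.1 - z.2` -/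
def OZ (w : ℕ) (σ : ℕ → ℕ) : Ops (ℕ × ℕ) where
  zero := (0, 0)
  add := fun x y => (Nat.add x.1 y.1, Nat.add x.2 y.2)
  smul := fun a x => match a with
    | .ofNat k => (Nat.mul k x.1, Nat.mul k x.2)
    | .negSucc k => (Nat.mul (Nat.succ k) x.2, Nat.mul (Nat.succ k) x.1)
  mulT := fun i x => (Nat.shiftLeft x.1 (Nat.mul w (σ (cl i))), Nat.shiftLeft x.2 (Nat.mul w (σ (cl i))))

/-- norms -/
def ON : Ops ℕ where
  zero := 0
  add := fun x y => Nat.add x y
  smul := fun a x => Nat.mul a.natAbs x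
  mulT := fun _ x => x

/-- degree in the variable `j` -/
def OD (j : ℕ) : Ops ℕ where
  zero := 0
  add := fun x y => if Nat.ble x y then y else x
  smul := fun _ x => x
  mulT := fun i x => if Nat.beq (cl i) j then Nat.succ x else x

/-- real values -/
noncomputable def OR (t : ℕ → ℝ) : Ops ℝ where
  zero := 0
  add := fun x y => x + y
  smul := fun a x => (a : ℝ) * x
  mulT := fun i x => t (cl i) * x

/-- packed value -/
def RZ (w : ℕ) (σ : ℕ → ℕ) (P : MvPolynomial ℕ ℤ) (z : ℕ × ℕ) : Prop :=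
  eval (fun i => (2 : ℤ) ^ (w * σ i)) P = (z.1 : ℤ) - z.2

lemma relZ (w : ℕ) (σ : ℕ → ℕ) : ORel OM (OZ w σ) (RZ w σ) where
  zero := by simp [RZ, OM, OZ]
  add := by
    intro x y x' y' h1 h2
    show eval _ (x + y) = ((x'.1 + y'.1 : ℕ) : ℤ) - ((x'.2 + y'.2 : ℕ) : ℤ)
    unfold RZ at h1 h2
    rw [map_add, h1, h2]; push_cast; ring
  smul := by
    intro a x x' h1
    unfold RZ at h1
    cases a with
    | ofNat k =>
      show eval _ (C _ * x) = ((k * x'.1 : ℕ) : ℤ) - ((k * x'.2 : ℕ) : ℤ)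
      rw [map_mul, eval_C, h1, Int.ofNat_eq_natCast]; push_cast; ring
    | negSucc k =>
      show eval _ (C _ * x) = (((k + 1) * x'.2 : ℕ) : ℤ) - (((k + 1) * x'.1 : ℕ) : ℤ)
      rw [map_mul, eval_C, h1, Int.negSucc_eq]; push_cast; ring
  mulT := by
    intro i x x' h1
    unfold RZ at h1
    show eval _ (X (cl i) * x) = ((x'.1 <<< (w * σ (cl i)) : ℕ) : ℤ) - ((x'.2 <<< (w * σ (cl i)) : ℕ) : ℤ)
    rw [map_mul, eval_X, h1, Nat.shiftLeft_eq, Nat.shiftLeft_eq]; push_cast; ring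

lemma relN : ORel OM ON (fun P n => Maj P (n : ℤ)) where
  zero := by
    have := Maj.C 0
    simpa [OM, ON] using this
  add := by
    intro x y x' y' h1 h2
    show Maj (x + y) ((x' + y' : ℕ) : ℤ)
    push_cast
    exact h1.add h2
  smul := by
    intro a x x' h1
    show Maj (C a * x) ((a.natAbs * x' : ℕ) : ℤ)
    push_cast
    exact (Maj.C a).mul h1
  mulT := by
    intro i x x' h1
    show Maj (X (cl i) * x) (x' : ℤ)
    have := (Maj.X (cl i)).mul h1
    rwa [one_mul] at this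

lemma relD (j : ℕ) : ORel OM (OD j) (fun P n => degreeOf j P ≤ n) where
  zero := by simp [OM, OD]
  add := by
    intro x y x' y' h1 h2
    show degreeOf j (x + y) ≤ if Nat.ble x' y' = true then y' else x'
    refine (degreeOf_add_le _ _ _).trans ?_
    split_ifs with h
    · rw [Nat.ble_eq] at h; exact max_le (h1.trans h) h2
    · rw [Nat.ble_eq, not_le] at h; exact max_le h1 (h2.trans h.le)
  smul := by
    intro a x x' h1
    exact (degreeOf_C_mul_le _ _ _).trans h1
  mulT := by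
    intro i x x' h1
    show degreeOf j (X (cl i) * x) ≤ if Nat.beq (cl i) j = true then Nat.succ x' else x'
    refine (degreeOf_mul_le _ _ _).trans ?_
    rw [degreeOf_X]
    by_cases h : cl i = j
    · have h2 : Nat.beq (cl i) j = true := by simp [h]
      rw [if_pos h2, if_pos h.symm]
      omega
    · have h2 : ¬ Nat.beq (cl i) j = true := by simpa using h
      rw [if_neg h2, if_neg (Ne.symm h)]
      omega

lemma relR (t : ℕ → ℝ) : ORel OM (OR t) (fun P r => eval₂ (Int.castRingHom ℝ) t P = r) where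
  zero := by simp [OM, OR]
  add := by
    intro x y x' y' h1 h2
    show eval₂ _ _ (x + y) = x' + y'
    rw [eval₂_add, h1, h2]
  smul := by
    intro a x x' h1
    show eval₂ _ _ (C a * x) = (a : ℝ) * x'
    rw [eval₂_mul, eval₂_C, h1]; rfl
  mulT := by
    intro i x x' h1
    show eval₂ _ _ (X (cl i) * x) = t (cl i) * x'
    rw [eval₂_mul, eval₂_X, h1]

lemma forall₂_ex {α β : Type} {R : α → β → Prop} {l : List α} {l' : List β} (h : List.Forall₂ R l l')
    {p : β → Prop} (hp : ∀ z ∈ l', p z) : ∀ x ∈ l, ∃ z, R x z ∧ p z := by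
  induction h with
  | nil => intro x hx; simp at hx
  | cons h1 _ ih =>
    intro x hx
    rcases List.mem_cons.1 hx with rfl | hx
    · exact ⟨_, h1, hp _ List.mem_cons_self⟩
    · exact ih (fun z hz => hp z (List.mem_cons_of_mem _ hz)) x hx

lemma forall₂_ex' {α β : Type} {R : α → β → Prop} {l : List α} {l' : List β} (h : List.Forall₂ R l l')
    {p : α → Prop} (hp : ∀ z ∈ l, p z) : ∀ x ∈ l', ∃ z, R z x ∧ p z := by
  induction h with
  | nil => intro x hx; simp at hx
  | cons h1 _ ih =>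
    intro x hx
    rcases List.mem_cons.1 hx with rfl | hx
    · exact ⟨_, h1, hp _ List.mem_cons_self⟩
    · exact ih (fun z hz => hp z (List.mem_cons_of_mem _ hz)) x hx

/-- the sign test of a packed number -/
def dig (H : ℕ) (z : ℕ × ℕ) : Bool := Nat.beq (Nat.land (Nat.sub (Nat.add z.1 H) z.2) H) H

/-- the packed polynomial has non-negative coefficients -/
lemma coeff_nonneg_of_dig {w : ℕ} (hw : 0 < w) {Xs : ℕ → ℕ} {P : MvPolynomial ℕ ℤ} {z : ℕ × ℕ}
    (hz : RZ w (sg Xs) P z) {N : ℕ} (hN : Maj P (N : ℤ)) (hNw : N < 2 ^ (w - 1))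
    (hdeg : ∀ i, i < 5 → degreeOf i P < Xs i) (hvar : ∀ i, 5 ≤ i → degreeOf i P = 0)
    (hc : dig (Hm w (sg Xs 5)) z = true) : ∀ m, 0 ≤ coeff m P := by
  have hH : 0 < Hm w (sg Xs 5) := by
    rcases Nat.eq_zero_or_pos (sg Xs 5) with h | h
    · exfalso
      have h1 : ∀ i, i < 5 → 0 < Xs i := fun i hi => lt_of_le_of_lt (Nat.zero_le _) (hdeg i hi)
      have h2 : 0 < sg Xs 5 := Finset.prod_pos fun i hi => h1 i (Finset.mem_range.1 hi)
      omega
    · rw [Hm_eq w _ hw]
      refine Finset.sum_pos (fun i _ => by positivity) ⟨0, Finset.mem_range.2 h⟩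
  refine coeff_nonneg_of_land w hw 5 Xs P hdeg hvar (fun m => lt_of_le_of_lt (hN.bound m) (by exact_mod_cast hNw)) ?_
  have hz' : eval (fun i => (2 : ℤ) ^ (w * sg Xs i)) P = (z.1 : ℤ) - z.2 := hz
  rw [hz']
  simp only [dig, Nat.beq_eq] at hc
  have hle : z.2 ≤ z.1 + Hm w (sg Xs 5) := by
    by_contra hcon
    have h0 : Nat.sub (Nat.add z.1 (Hm w (sg Xs 5))) z.2 = 0 := Nat.sub_eq_zero_of_le (by
      have := not_le.1 hcon
      exact this.le)
    rw [h0] at hc
    have h1 : Nat.land 0 (Hm w (sg Xs 5)) = 0 := Nat.zero_and _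
    omega
  have e1 : ((z.1 : ℤ) - z.2 + (Hm w (sg Xs 5) : ℤ)).toNat = Nat.sub (Nat.add z.1 (Hm w (sg Xs 5))) z.2 := by
    show _ = z.1 + Hm w (sg Xs 5) - z.2
    omega
  rw [e1]
  exact hc

/-! ### real values of the rows -/

section real
variable (t : ℕ → ℝ)

/-- `∏ (1 + t_i)` -/
noncomputable def om : ℝ := (1 + t 0) * (1 + t 1) * (1 + t 2) * (1 + t 3) * (1 + t 4)

lemma up_real (i : ℕ) (x : ℝ) : up (OR t) i x = (1 + t (cl i)) * x := by
  simp only [up, OR]; ring

lemma lin_real (a b : ℤ) (i : ℕ) (x : ℝ) : lin (OR t) a b i x = (a + b * t (cl i)) * x := by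
  simp only [lin, OR]; ring

lemma ones_real (x : ℝ) : ones (OR t) x = om t * x := by
  simp only [ones, up_real, cl, om]; ring

lemma c2_real (a b : ℤ) (x y : ℝ) : c2 (OR t) a x b y = a * x + b * y := rfl
lemma c3_real (a b c : ℤ) (x y z : ℝ) : c3 (OR t) a x b y c z = a * x + b * y + c * z := rfl

/-- real value of an affine function -/
noncomputable def Aff.val (f : Aff) (lam : ℕ → ℝ) : ℝ :=
  f.f0 + f.f1 * lam 0 + f.f2 * lam 1 + f.f3 * lam 2 + f.f4 * lam 3 + f.f5 * lam 4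

/-- linear functional on terms -/
noncomputable def tsum (sel : Aff → ℤ) (l : Tms ℝ) : ℝ :=
  (l.map fun x => ((x.1 * sel x.2.1 : ℤ) : ℝ) * x.2.2).sum

lemma acc0_real (l : Tms ℝ) (B : ℝ) : acc0 (OR t) l B = B + tsum Aff.f0 l := by
  induction l with
  | nil => simp [acc0, tsum]
  | cons x l ih =>
    simp only [acc0, List.foldr_cons] at ih ⊢
    rw [ih]
    simp only [OR, tsum, List.map_cons, List.sum_cons]
    ring

lemma accT_real (sel : Aff → ℤ) (i : ℕ) (l : Tms ℝ) (B : ℝ) :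
    accT (OR t) sel i l B = B + t (cl i) * tsum sel l := by
  induction l with
  | nil => simp [accT, tsum]
  | cons x l ih =>
    simp only [accT, List.foldr_cons] at ih ⊢
    rw [ih]
    simp only [OR, tsum, List.map_cons, List.sum_cons]
    ring

lemma tsum_upT (sel : Aff → ℤ) (i : ℕ) (l : Tms ℝ) :
    tsum sel (upT (OR t) i l) = (1 + t (cl i)) * tsum sel l := by
  induction l with
  | nil => simp [upT, tsum]
  | cons x l ih =>
    simp only [upT, tsum, List.map_cons, List.sum_cons] at ih ⊢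
    rw [ih, up_real]
    ring

lemma affSum_real (lam : ℕ → ℝ) (hl : ∀ i < 5, t i = lam i * (1 + t i)) (l : Tms ℝ) (B0 : ℝ) :
    affSum (OR t) l B0 = om t * (B0 + (l.map fun x => (x.1 : ℝ) * x.2.1.val lam * x.2.2).sum) := by
  have h0 := hl 0 (by norm_num)
  have h1 := hl 1 (by norm_num)
  have h2 := hl 2 (by norm_num)
  have h3 := hl 3 (by norm_num)
  have h4 := hl 4 (by norm_num)
  have key : affSum (OR t) l B0 = om t * B0 + (om t * tsum Aff.f0 l
      + t 0 * ((1 + t 1) * (1 + t 2) * (1 + t 3) * (1 + t 4)) * tsum Aff.f1 l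
      + t 1 * ((1 + t 0) * (1 + t 2) * (1 + t 3) * (1 + t 4)) * tsum Aff.f2 l
      + t 2 * ((1 + t 0) * (1 + t 1) * (1 + t 3) * (1 + t 4)) * tsum Aff.f3 l
      + t 3 * ((1 + t 0) * (1 + t 1) * (1 + t 2) * (1 + t 4)) * tsum Aff.f4 l
      + t 4 * ((1 + t 0) * (1 + t 1) * (1 + t 2) * (1 + t 3)) * tsum Aff.f5 l) := by
    simp only [affSum, affStep, accT_real, up_real, tsum_upT, acc0_real, cl, om]
    ring
  have key2 : om t * tsum Aff.f0 l
      + t 0 * ((1 + t 1) * (1 + t 2) * (1 + t 3) * (1 + t 4)) * tsum Aff.f1 l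
      + t 1 * ((1 + t 0) * (1 + t 2) * (1 + t 3) * (1 + t 4)) * tsum Aff.f2 l
      + t 2 * ((1 + t 0) * (1 + t 1) * (1 + t 3) * (1 + t 4)) * tsum Aff.f3 l
      + t 3 * ((1 + t 0) * (1 + t 1) * (1 + t 2) * (1 + t 4)) * tsum Aff.f4 l
      + t 4 * ((1 + t 0) * (1 + t 1) * (1 + t 2) * (1 + t 3)) * tsum Aff.f5 l
      = om t * (l.map fun x => (x.1 : ℝ) * x.2.1.val lam * x.2.2).sum := by
    clear key
    induction l with
    | nil => simp [tsum]
    | cons x l ih =>
      have hs : ∀ sel : Aff → ℤ, tsum sel (x :: l) = ((x.1 * sel x.2.1 : ℤ) : ℝ) * x.2.2 + tsum sel l :=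
        fun sel => by simp [tsum]
      simp only [List.map_cons, List.sum_cons, hs]
      generalize hS : (List.map (fun x => (x.1 : ℝ) * x.2.1.val lam * x.2.2) l).sum = S at ih
      simp only [Aff.val, om] at ih ⊢
      push_cast
      linear_combination ih + ((x.1 : ℝ) * x.2.1.f1 * x.2.2 * ((1 + t 1) * (1 + t 2) * (1 + t 3) * (1 + t 4))) * h0
        + ((x.1 : ℝ) * x.2.1.f2 * x.2.2 * ((1 + t 0) * (1 + t 2) * (1 + t 3) * (1 + t 4))) * h1
        + ((x.1 : ℝ) * x.2.1.f3 * x.2.2 * ((1 + t 0) * (1 + t 1) * (1 + t 3) * (1 + t 4))) * h2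
        + ((x.1 : ℝ) * x.2.1.f4 * x.2.2 * ((1 + t 0) * (1 + t 1) * (1 + t 2) * (1 + t 4))) * h3
        + ((x.1 : ℝ) * x.2.1.f5 * x.2.2 * ((1 + t 0) * (1 + t 1) * (1 + t 2) * (1 + t 3))) * h4
  rw [key, key2]
  ring

lemma signs_real {X a b c : ℝ} (h : ∀ r ∈ signs (OR t) X a b c, 0 ≤ r) : |a| + |b| + |c| ≤ X := by
  simp only [signs, OR, List.mem_cons, List.not_mem_nil, or_false, forall_eq_or_imp, forall_eq] at h
  obtain ⟨h1, h2, h3, h4, h5, h6, h7, h8⟩ := h
  push_cast at h1 h2 h3 h4 h5 h6 h7 h8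
  rcases abs_cases a with ⟨ha, _⟩ | ⟨ha, _⟩ <;> rcases abs_cases b with ⟨hb, _⟩ | ⟨hb, _⟩ <;>
    rcases abs_cases c with ⟨hc, _⟩ | ⟨hc, _⟩ <;> rw [ha, hb, hc] <;> linarith

end real

end Crest.Agent.R097.KA
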