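import Crest.Agent.R097.KP2

/-!
# Row 97, KBA checker: the tests give a leaf at every state of the box (helper351)
-/

set_option autoImplicit false
set_option linter.unusedSimpArgs false

namespace Crest.Agent.R097.KA

open Crest.Agent.R097.CQ

section real
variable (t : ℕ → ℝ)

lemma OR_zero : (OR t).zero = 0 := rfl
lemma OR_add (x y : ℝ) : (OR t).add x y = x + y := rfl
lemma OR_smul (a : ℤ) (x : ℝ) : (OR t).smul a x = a * x := rfl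
lemma OR_mulT (i : ℕ) (x : ℝ) : (OR t).mulT i x = t (cl i) * x := rfl

/-- the real base of the rows: `ρ` times the base quantities -/
structure RB (t : ℕ → ℝ) (ρ θ : ℝ) (B : TEl.Base) (b : BaseA ℝ) : Prop where
  L1 : b.L1 = ρ * B.L1
  L2 : b.L2 = ρ * B.L2
  Lw : b.Lw = ρ * B.Lw
  A11 : b.A11 = ρ * B.A11
  A12 : b.A12 = ρ * B.A12
  W1 : b.W1 = ρ * B.W1
  W2 : b.W2 = ρ * B.W2
  psi : b.psi = ρ * B.psi
  g : b.g = ρ * B.g
  K11 : b.K11 = ρ * B.k11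
  K12 : b.K12 = ρ * B.k12
  K22 : b.K22 = ρ * B.k22
  Ck : b.Ck = ρ * om t ^ 2 * B.Ck
  C0 : b.C0 = ρ * om t ^ 2 * θ * B.C0
  G1 : 0 ≤ b.G1
  G2 : 0 ≤ b.G2
  G3 : 0 ≤ b.G3
  G4 : 0 ≤ b.G4
  F1 : 0 ≤ b.F1
  F2 : 0 ≤ b.F2
  F3 : 0 ≤ b.F3
  F4 : 0 ≤ b.F4

/-- the leaf with the values of the affine functions -/
noncomputable def aleaf (β2 γ2 : ℤ) (c : Lf) (lam : ℕ → ℝ) : TEl.ALeaf where
  bt := β2
  gm := γ2
  B1 := c.B1.val lam
  B2 := c.B2.val lam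
  B3 := c.B3.val lam
  Y1 := c.Y1.val lam
  Y2 := c.Y2.val lam
  S11 := c.S11
  S12 := c.S12
  S13 := c.S13
  S21 := c.S21
  S22 := c.S22
  S23 := c.S23
  p11 := c.P11
  p12 := c.P12
  p13 := c.P13
  p21 := c.P21
  p22 := c.P22
  p23 := c.P23
  p31 := c.P31
  p32 := c.P32
  p33 := c.P33
  m := c.m

variable {t} {ρ θ : ℝ} {B : TEl.Base} {b : BaseA ℝ} (hb : RB t ρ θ B b)
  {lam : ℕ → ℝ} (hl : ∀ i < 5, t i = lam i * (1 + t i)) (β2 γ2 : ℤ) (c : Lf)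
include hb hl

lemma g5_real1 : (g5 (OR t) β2 b c).G1 = om t * ρ * (aleaf β2 γ2 c lam).G1 B := by
  simp only [g5]
  rw [affSum_real t lam hl]
  simp only [List.map_cons, List.map_nil, List.sum_cons, List.sum_nil, OR_zero, OR_add, OR_smul, OR_mulT, hb.L1, hb.A11, hb.A12,
    hb.W1, hb.g, TEl.ALeaf.G1, aleaf]
  push_cast
  ring

lemma g5_real2 : (g5 (OR t) β2 b c).G2 = om t * ρ * (aleaf β2 γ2 c lam).G2 B := by
  simp only [g5]
  rw [affSum_real t lam hl]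
  simp only [List.map_cons, List.map_nil, List.sum_cons, List.sum_nil, OR_zero, OR_add, OR_smul, OR_mulT, hb.L2, hb.A12,
    hb.W2, hb.g, TEl.ALeaf.G2, aleaf]
  push_cast
  ring

lemma g5_real3 : (g5 (OR t) β2 b c).G3 = om t * ρ * (aleaf β2 γ2 c lam).G3 B := by
  simp only [g5]
  rw [affSum_real t lam hl]
  simp only [List.map_cons, List.map_nil, List.sum_cons, List.sum_nil, OR_zero, OR_add, OR_smul, OR_mulT, hb.Lw, hb.W1,
    hb.W2, hb.psi, TEl.ALeaf.G3, aleaf]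
  push_cast
  ring

lemma g5_realH1 : (g5 (OR t) β2 b c).H1 = om t * ρ * (aleaf β2 γ2 c lam).H1 B := by
  simp only [g5]
  rw [affSum_real t lam hl]
  simp only [List.map_cons, List.map_nil, List.sum_cons, List.sum_nil, OR_zero, OR_add, OR_smul, OR_mulT, hb.g, hb.K11,
    hb.K12, TEl.ALeaf.H1, aleaf]
  push_cast
  ring

lemma g5_realH2 : (g5 (OR t) β2 b c).H2 = om t * ρ * (aleaf β2 γ2 c lam).H2 B := by
  simp only [g5]
  rw [affSum_real t lam hl]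
  simp only [List.map_cons, List.map_nil, List.sum_cons, List.sum_nil, OR_zero, OR_add, OR_smul, OR_mulT, hb.g, hb.K22,
    hb.K12, TEl.ALeaf.H2, aleaf]
  push_cast
  ring

lemma dd_real : dd (OR t) β2 b c (g5 (OR t) β2 b c) = om t ^ 2 * ρ *
    ((aleaf β2 γ2 c lam).Dh B - 2 * (β2 : ℝ) ^ 2 * B.Ck) := by
  simp only [dd]
  rw [affSum_real t lam hl]
  simp only [List.map_cons, List.map_nil, List.sum_cons, List.sum_nil, ones_real,
    g5_real1 hb hl β2 γ2 c, g5_real2 hb hl β2 γ2 c, g5_real3 hb hl β2 γ2 c, g5_realH1 hb hl β2 γ2 c,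
    g5_realH2 hb hl β2 γ2 c, OR_zero, OR_add, OR_smul, OR_mulT, hb.L1, hb.L2, hb.Lw, TEl.ALeaf.Dh]
  simp only [aleaf]
  push_cast
  ring

lemma ej_real1 : ej (OR t) γ2 (g5 (OR t) β2 b c).G1 (g5 (OR t) β2 b c).H1 (g5 (OR t) β2 b c).H2 c.S11 c.S21
    = om t * ρ * (aleaf β2 γ2 c lam).E1 B := by
  rw [ej, c3_real, g5_real1 hb hl β2 γ2 c, g5_realH1 hb hl β2 γ2 c, g5_realH2 hb hl β2 γ2 c]
  simp only [TEl.ALeaf.E1]
  simp only [aleaf]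
  ring

lemma ej_real2 : ej (OR t) γ2 (g5 (OR t) β2 b c).G2 (g5 (OR t) β2 b c).H1 (g5 (OR t) β2 b c).H2 c.S12 c.S22
    = om t * ρ * (aleaf β2 γ2 c lam).E2 B := by
  rw [ej, c3_real, g5_real2 hb hl β2 γ2 c, g5_realH1 hb hl β2 γ2 c, g5_realH2 hb hl β2 γ2 c]
  simp only [TEl.ALeaf.E2]
  simp only [aleaf]
  ring

lemma ej_real3 : ej (OR t) γ2 (g5 (OR t) β2 b c).G3 (g5 (OR t) β2 b c).H1 (g5 (OR t) β2 b c).H2 c.S13 c.S23
    = om t * ρ * (aleaf β2 γ2 c lam).E3 B := by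
  rw [ej, c3_real, g5_real3 hb hl β2 γ2 c, g5_realH1 hb hl β2 γ2 c, g5_realH2 hb hl β2 γ2 c]
  simp only [TEl.ALeaf.E3]
  simp only [aleaf]
  ring

omit hl in
lemma rbil_real (x1 x2 x3 y1 y2 y3 : ℤ) : rbil (OR t) (r9 (OR t) γ2 b c) x1 x2 x3 y1 y2 y3
    = ρ * (aleaf β2 γ2 c lam).bil B x1 x2 x3 y1 y2 y3 := by
  simp only [rbil, r9, sks, c3_real, c2_real, TEl.ALeaf.bil, TEl.ALeaf.R11, TEl.ALeaf.R12,
    TEl.ALeaf.R13, TEl.ALeaf.R22, TEl.ALeaf.R23, TEl.ALeaf.R33]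
  simp only [OR_add, OR_smul, hb.A11, hb.A12, hb.W1, hb.W2, hb.psi, hb.g, hb.K11, hb.K12, hb.K22, aleaf]
  push_cast
  ring

omit hb hl in
lemma bup_real (x : ℝ) : bup (OR t) x = (1 + t 0) * (om t * x) := by
  simp only [bup, up_real, ones_real, cl]

omit hb hl in
lemma gcomb_real (m1 m2 m3 m4 : ℤ) (g1 g2 g3 g4 : ℝ) :
    gcomb (OR t) m1 m2 m3 m4 g1 g2 g3 g4 = -(m1 * g1 + m2 * g2 + m3 * g3 + m4 * g4) := by
  simp only [gcomb, c2_real, OR_add]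
  push_cast
  ring

omit hb hl in
lemma mulq_real (k : BoxC) {s Q v' : ℝ} (hs : (k.as : ℝ) + k.bs * t 2 = s * (k.Ds * (1 + t 2)))
    (hQ : (k.aQ : ℝ) + k.bQ * t 3 = Q * (k.DQ * (1 + t 3)))
    (hv : (k.av : ℝ) + k.bv * t 4 = v' * (k.Dv * (1 + t 4))) (x : ℝ) :
    mulq (OR t) k x = (k.an * Q - 4 * k.ad * v' ^ 2 * (1 - s ^ 2)) *
      ((k.Ds * (1 + t 2)) ^ 2 * (k.DQ * (1 + t 3)) * (k.Dv * (1 + t 4)) ^ 2) * x := by
  simp only [mulq, lin_real, cl]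
  simp only [OR_add, OR_smul]
  push_cast
  have e1 : ((k.an : ℝ) * k.aQ + k.an * k.bQ * t 3) = k.an * (Q * (k.DQ * (1 + t 3))) := by
    rw [← hQ]; ring
  have e2 : ((k.Ds : ℝ) - k.as + (k.Ds - k.bs) * t 2) = (1 - s) * (k.Ds * (1 + t 2)) := by
    linear_combination -hs
  have e3 : ((k.Ds : ℝ) + k.as + (k.Ds + k.bs) * t 2) = (1 + s) * (k.Ds * (1 + t 2)) := by
    linear_combination hs
  rw [e1, e2, e3, hv]
  ring

omit hb hl in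
lemma elq_real (k : BoxC) (x : ℝ) : elq (OR t) k x =
    ((k.Ds * (1 + t 2)) ^ 2 * (k.DQ * (1 + t 3)) * (k.Dv * (1 + t 4)) ^ 2) * x := by
  simp only [elq, up_real, cl]
  simp only [OR_add, OR_smul]
  push_cast
  ring

end real

lemma abs_of_eq {x y K : ℝ} (h : x = K * y) (hK : 0 < K) : |x| = K * |y| := by
  rw [h, abs_mul, abs_of_pos hK]

lemma row_a {K u l11 l12 l13 l1 l2 l3 X R r : ℝ} (hK : 0 < K) (hu : 0 < u) (h1 : l11 = K * u * l1)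
    (h2 : l12 = K * u * l2) (h3 : l13 = K * u * l3) (hX : X = K * R) (hr : 0 ≤ r)
    (h : |l11| + |l12| + |l13| ≤ X + -r) : u * (|l1| + |l2| + |l3|) + 0 ≤ R := by
  have hKu : 0 < K * u := by positivity
  rw [abs_of_eq h1 hKu, abs_of_eq h2 hKu, abs_of_eq h3 hKu, hX] at h
  have h6 : K * (u * (|l1| + |l2| + |l3|) + 0) ≤ K * R := by nlinarith
  exact le_of_mul_le_mul_left h6 hK

lemma row_b {z q1n q1d bt l11 l12 l13 K m g l a b d r1 : ℝ} (hz : 0 < z) (hq1d : 0 < q1d) (hmg : 0 ≤ m * g)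
    (hK : K = z * q1d) (hr : 0 ≤ r1)
    (h1 : l11 = q1n * (z * (m * g) * l)) (h2 : l12 = K * (bt * a)) (h3 : l13 = K * (bt * b)) (hbt : 0 < bt)
    (h : |l11| + |l12| + |l13| ≤ K * (bt * d) + -r1) :
    q1n / q1d * m * g * |l| + bt * (|a| + |b|) ≤ bt * d := by
  have hKp : 0 < K := by rw [hK]; positivity
  have e2 : |l12| = K * (bt * |a|) := by
    rw [h2, abs_mul, abs_of_pos hKp, abs_mul, abs_of_pos hbt]
  have e3 : |l13| = K * (bt * |b|) := by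
    rw [h3, abs_mul, abs_of_pos hKp, abs_mul, abs_of_pos hbt]
  have e1 : K * (q1n / q1d * m * g * |l|) ≤ |l11| := by
    have h4 : |z * (m * g) * l| = z * (m * g) * |l| := by
      rw [abs_mul, abs_of_nonneg (by positivity)]
    have h5 : K * (q1n / q1d * m * g * |l|) = q1n * (z * (m * g) * |l|) := by
      rw [hK]; field_simp
    rw [h5, h1, abs_mul, h4]
    exact mul_le_mul_of_nonneg_right (le_abs_self _) (by positivity)
  have h6 : K * (q1n / q1d * m * g * |l| + bt * (|a| + |b|)) ≤ K * (bt * d) := by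
    rw [e2, e3] at h
    nlinarith
  exact le_of_mul_le_mul_left h6 hKp

set_option maxHeartbeats 1000000 in
/-- **the tests give a leaf** -/
theorem ok_of_tests {t lam : ℕ → ℝ} (hl : ∀ i < 5, t i = lam i * (1 + t i)) (h1 : ∀ i < 5, 0 < 1 + t i)
    {β2 γ2 q1n q1d : ℤ} (hβ : 0 < β2) (hγ : 0 < γ2) (hq1d : 0 < q1d) {k : BoxC} (han : 0 < k.an)
    (hDs : 0 < k.Ds) (hDQ : 0 < k.DQ) (hDv : 0 < k.Dv)
    {s Q v' : ℝ} (hs : (k.as : ℝ) + k.bs * t 2 = s * (k.Ds * (1 + t 2)))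
    (hQ : (k.aQ : ℝ) + k.bQ * t 3 = Q * (k.DQ * (1 + t 3)))
    (hv : (k.av : ℝ) + k.bv * t 4 = v' * (k.Dv * (1 + t 4)))
    {ρ : ℝ} (hρ : 0 < ρ) {B : TEl.Base} {b : BaseA ℝ}
    (hb : RB t ρ ((k.Ds * (1 + t 2)) ^ 2 * (k.DQ * (1 + t 3)) * (k.Dv * (1 + t 4)) ^ 2) B b)
    {c : Lf} (hm : 0 < c.m)
    (hdet : c.P11 * (c.P22 * c.P33 - c.P23 * c.P32) - c.P12 * (c.P21 * c.P33 - c.P23 * c.P31)
      + c.P13 * (c.P21 * c.P32 - c.P22 * c.P31) ≠ 0)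
    (hmu : 0 ≤ c.mu1 ∧ 0 ≤ c.mu2 ∧ 0 ≤ c.mu3 ∧ 0 ≤ c.mu4)
    (hn1 : 0 ≤ c.n11 ∧ 0 ≤ c.n12 ∧ 0 ≤ c.n13 ∧ 0 ≤ c.n14)
    (hn2 : 0 ≤ c.n21 ∧ 0 ≤ c.n22 ∧ 0 ≤ c.n23 ∧ 0 ≤ c.n24)
    (hn3 : 0 ≤ c.n31 ∧ 0 ≤ c.n32 ∧ 0 ≤ c.n33 ∧ 0 ≤ c.n34)
    {q : ℝ} (hq : k.an * q = k.an * Q - 4 * k.ad * v' ^ 2 * (1 - s ^ 2)) (hqq : q * q1d ≤ q1n)
    (hT : ∀ r ∈ tests (OR t) β2 γ2 q1n q1d k b c, 0 ≤ r) : ∃ L : TEl.Leaf, L.OK B q := by
  set A := aleaf β2 γ2 c lam with hA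
  set θ : ℝ := (k.Ds * (1 + t 2)) ^ 2 * (k.DQ * (1 + t 3)) * (k.Dv * (1 + t 4)) ^ 2 with hθ
  have hβ' : (0 : ℝ) < β2 := by exact_mod_cast hβ
  have hγ' : (0 : ℝ) < γ2 := by exact_mod_cast hγ
  have hq1d' : (0 : ℝ) < q1d := by exact_mod_cast hq1d
  have han' : (0 : ℝ) < k.an := by exact_mod_cast han
  have hm' : (0 : ℝ) < c.m := by exact_mod_cast hm
  have hθpos : 0 < θ := by
    have h2 := h1 2 (by norm_num)
    have h3 := h1 3 (by norm_num)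
    have h4 := h1 4 (by norm_num)
    have : (0 : ℝ) < k.Ds := by exact_mod_cast hDs
    have : (0 : ℝ) < k.DQ := by exact_mod_cast hDQ
    have : (0 : ℝ) < k.Dv := by exact_mod_cast hDv
    positivity
  have hω : 0 < om t := by
    have h0 := h1 0 (by norm_num)
    have h1' := h1 1 (by norm_num)
    have h2 := h1 2 (by norm_num)
    have h3 := h1 3 (by norm_num)
    have h4 := h1 4 (by norm_num)
    unfold om
    positivity
  simp only [tests, List.forall_mem_append] at hT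
  obtain ⟨ha, hb1, hb2, hb3⟩ := hT
  have ha := signs_real t ha
  have hb1 := signs_real t hb1
  have hb2 := signs_real t hb2
  have hb3 := signs_real t hb3
  rw [ej_real1 hb hl β2 γ2 c, ej_real2 hb hl β2 γ2 c, ej_real3 hb hl β2 γ2 c] at ha hb1 hb2 hb3
  rw [dd_real hb hl β2 γ2 c] at ha
  simp only [rbil_real hb β2 γ2 c (lam := lam), bup_real, gcomb_real, up_real, ones_real, c3_real,
    mulq_real k hs hQ hv, elq_real, OR_add, OR_smul] at ha hb1 hb2 hb3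
  rw [← hA, ← hθ] at ha
  rw [← hA] at hb1 hb2 hb3
  have h0 := h1 0 (by norm_num)
  have hL1 : A.l1 B = c.P11 * A.E1 B + c.P21 * A.E2 B + c.P31 * A.E3 B := rfl
  have hL2 : A.l2 B = c.P12 * A.E1 B + c.P22 * A.E2 B + c.P32 * A.E3 B := rfl
  have hL3 : A.l3 B = c.P13 * A.E1 B + c.P23 * A.E2 B + c.P33 * A.E3 B := rfl
  have hz : 0 < (1 + t 0) * om t * ρ := by positivity
  have hmg : (0 : ℝ) ≤ c.m * γ2 := by positivity
  have nn : ∀ {m1 m2 m3 m4 : ℤ} {g1 g2 g3 g4 : ℝ}, (0 ≤ m1 ∧ 0 ≤ m2 ∧ 0 ≤ m3 ∧ 0 ≤ m4) → 0 ≤ g1 →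
      0 ≤ g2 → 0 ≤ g3 → 0 ≤ g4 → (0 : ℝ) ≤ m1 * g1 + m2 * g2 + m3 * g3 + m4 * g4 := by
    intro m1 m2 m3 m4 g1 g2 g3 g4 hmm k1 k2 k3 k4
    obtain ⟨a1, a2, a3, a4⟩ := hmm
    have a1' : (0 : ℝ) ≤ m1 := by exact_mod_cast a1
    have a2' : (0 : ℝ) ≤ m2 := by exact_mod_cast a2
    have a3' : (0 : ℝ) ≤ m3 := by exact_mod_cast a3
    have a4' : (0 : ℝ) ≤ m4 := by exact_mod_cast a4
    positivity
  have hnA := nn hmu hb.G1 hb.G2 hb.G3 hb.G4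
  have hn1' := nn hn1 hb.F1 hb.F2 hb.F3 hb.F4
  have hn2' := nn hn2 hb.F1 hb.F2 hb.F3 hb.F4
  have hn3' := nn hn3 hb.F1 hb.F2 hb.F3 hb.F4
  have eb : A.bt = β2 := rfl
  have eg : A.gm = γ2 := rfl
  have em : A.m = c.m := rfl
  refine TEl.ALeaf.exists_OK (c := A) (q := q) (q1 := q1n / q1d) (an := k.an) (qh := k.an * q) (sl := 0)
    hβ' hγ' hm' han' ?_ rfl ?_ le_rfl ?_ ?_ ?_ ?_
  · intro h
    apply hdet
    have : (((c.P11 * (c.P22 * c.P33 - c.P23 * c.P32) - c.P12 * (c.P21 * c.P33 - c.P23 * c.P31)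
      + c.P13 * (c.P21 * c.P32 - c.P22 * c.P31) : ℤ)) : ℝ) = 0 := by
      push_cast
      exact h
    exact_mod_cast this
  · rw [le_div_iff₀ hq1d']; exact hqq
  · refine row_a (K := ρ * om t ^ 2 * θ) (u := k.an * A.bt) (by positivity) (mul_pos han' hβ') ?_ ?_ ?_ ?_ hnA ha
    · rw [hL1]; simp only [hA, aleaf]; push_cast; ring
    · rw [hL2]; simp only [hA, aleaf]; push_cast; ring
    · rw [hL3]; simp only [hA, aleaf]; push_cast; ring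
    · rw [← hq, hb.C0, hb.Ck]
      rw [eb, eg, em]
      push_cast
      ring
  · refine row_b (z := (1 + t 0) * om t * ρ) (K := (1 + t 0) * om t * ρ * q1d) hz hq1d' hmg rfl hn1'
      ?_ ?_ ?_ hβ' (d := A.q11 B) (a := A.q12 B) (b := A.q13 B) ?_
      (l11 := ↑(q1n * c.m * γ2) * ((1 + t (cl 0)) *
              (↑c.P11 * (om t * ρ * A.E1 B) + ↑c.P21 * (om t * ρ * A.E2 B) + ↑c.P31 * (om t * ρ * A.E3 B))))
      (l12 := ↑(β2 * q1d) * ((1 + t 0) * (om t * (ρ * A.q12 B))))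
      (l13 := ↑(β2 * q1d) * ((1 + t 0) * (om t * (ρ * A.q13 B))))
    · rw [hL1]; simp only [cl, eb, eg, em]; push_cast; ring
    · rw [eb]; push_cast; ring
    · rw [eb]; push_cast; ring
    · refine hb1.trans (le_of_eq ?_)
      have e1 : A.q11 B = A.bil B ↑c.P11 ↑c.P21 ↑c.P31 ↑c.P11 ↑c.P21 ↑c.P31 := rfl
      rw [e1, eb]; push_cast; ring
  · refine row_b (z := (1 + t 0) * om t * ρ) (K := (1 + t 0) * om t * ρ * q1d) hz hq1d' hmg rfl hn2'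
      ?_ ?_ ?_ hβ' (d := A.q22 B) (a := A.q12 B) (b := A.q23 B) ?_
      (l11 := ↑(q1n * c.m * γ2) * ((1 + t (cl 0)) *
              (↑c.P12 * (om t * ρ * A.E1 B) + ↑c.P22 * (om t * ρ * A.E2 B) + ↑c.P32 * (om t * ρ * A.E3 B))))
      (l12 := ↑(β2 * q1d) * ((1 + t 0) * (om t * (ρ * A.q12 B))))
      (l13 := ↑(β2 * q1d) * ((1 + t 0) * (om t * (ρ * A.q23 B))))
    · rw [hL2]; simp only [cl, eb, eg, em]; push_cast; ring
    · rw [eb]; push_cast; ring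
    · rw [eb]; push_cast; ring
    · refine hb2.trans (le_of_eq ?_)
      have e1 : A.q22 B = A.bil B ↑c.P12 ↑c.P22 ↑c.P32 ↑c.P12 ↑c.P22 ↑c.P32 := rfl
      rw [e1, eb]; push_cast; ring
  · refine row_b (z := (1 + t 0) * om t * ρ) (K := (1 + t 0) * om t * ρ * q1d) hz hq1d' hmg rfl hn3'
      ?_ ?_ ?_ hβ' (d := A.q33 B) (a := A.q13 B) (b := A.q23 B) ?_
      (l11 := ↑(q1n * c.m * γ2) * ((1 + t (cl 0)) *
              (↑c.P13 * (om t * ρ * A.E1 B) + ↑c.P23 * (om t * ρ * A.E2 B) + ↑c.P33 * (om t * ρ * A.E3 B))))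
      (l12 := ↑(β2 * q1d) * ((1 + t 0) * (om t * (ρ * A.q13 B))))
      (l13 := ↑(β2 * q1d) * ((1 + t 0) * (om t * (ρ * A.q23 B))))
    · rw [hL3]; simp only [cl, eb, eg, em]; push_cast; ring
    · rw [eb]; push_cast; ring
    · rw [eb]; push_cast; ring
    · refine hb3.trans (le_of_eq ?_)
      have e1 : A.q33 B = A.bil B ↑c.P13 ↑c.P23 ↑c.P33 ↑c.P13 ↑c.P23 ↑c.P33 := rfl
      rw [e1, eb]; push_cast; ring

end Crest.Agent.R097.KA
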