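import Crest.Agent.R097.KP4

/-!
# Row 97, KBA checker: boxes outside of the domain (helper351)
-/

set_option autoImplicit false

namespace Crest.Agent.R097.KA

open MvPolynomial Crest.Agent.R097.CP Crest.Agent.R097.CQ Crest.Agent.KB

/-- the constraint `j` at its own degree -/
def DS.gF (S : DS) (j : ℕ) : Fld :=
  match j with
  | 1 => ⟨dG1, dG1, S.X.G1, S.N.G1⟩
  | 2 => ⟨dG2, dG2, S.X.G2, S.N.G2⟩
  | 3 => ⟨dG3, dG3, S.X.G3, S.N.G3⟩
  | _ => ⟨dG4, dG4, S.X.G4, S.N.G4⟩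

/-- strides -/
def Fld.σ (x : Fld) : ℕ → ℕ := fn5 1 (x.f 0 + 1) ((x.f 0 + 1) * (x.f 1 + 1))
  ((x.f 0 + 1) * (x.f 1 + 1) * (x.f 2 + 1)) ((x.f 0 + 1) * (x.f 1 + 1) * (x.f 2 + 1) * (x.f 3 + 1))

def Fld.K (x : Fld) : ℕ := (x.f 0 + 1) * (x.f 1 + 1) * (x.f 2 + 1) * (x.f 3 + 1) * (x.f 4 + 1)

def Fld.Xs (x : Fld) : ℕ → ℕ := fn5 (x.f 0 + 1) (x.f 1 + 1) (x.f 2 + 1) (x.f 3 + 1) (x.f 4 + 1)

lemma Fld.σ_eq (x : Fld) (i : ℕ) (hi : i < 5) : x.σ i = sg x.Xs i := by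
  unfold sg
  interval_cases i <;>
    simp only [Fld.σ, Fld.Xs, fn5, Finset.prod_range_succ, Finset.prod_range_zero, one_mul]

lemma Fld.K_eq (x : Fld) : x.K = sg x.Xs 5 := by
  unfold sg
  simp only [Fld.K, Fld.Xs, fn5, Finset.prod_range_succ, Finset.prod_range_zero, one_mul]

/-- `-G - 1` has non-negative coefficients on the box -/
def Fld.neg (x : Fld) (b : Bx) (w : ℕ) : Bool :=
  x.ok && (Nat.blt (Nat.add (Nat.mul x.M (nfac (bxD b) x.d x.f)) 1) (2 ^ (w - 1)) &&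
    dig (Hm w x.K) ((evalNP w x.σ (bxa b) (bxb b) (bxD b) x.d x.f x.N).2,
      Nat.add (evalNP w x.σ (bxa b) (bxb b) (bxD b) x.d x.f x.N).1 1))

/-- **the check of a box outside of the domain** (constraint `j`) -/
def DS.outCheck (S : DS) (b : Bx) (w j : ℕ) : Bool :=
  (Nat.blt 0 w && bxOK b) && (S.gF j).neg b w

lemma neg_sound {x : Fld} {b : Bx} {w : ℕ} (hw : 0 < w) (hb : bxOK b = true) (h : x.neg b w = true)
    {t : ℕ → ℝ} (ht : inBx b t) : ev t (flat x.N) < 0 := by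
  simp only [Fld.neg, Bool.and_eq_true, Nat.blt_eq] at h
  obtain ⟨hok, hn, hd⟩ := h
  obtain ⟨h1, h2, h3, h4⟩ := fld_ok hok
  set p : MvPolynomial ℕ ℤ := hom (bxa b) (bxb b) (bxD b) x.d x.f (flat x.N) with hp
  set q : MvPolynomial ℕ ℤ := C (-1) * p + C (-1) with hq
  have e1 := evalNP_eq w (sg x.Xs) (bxa b) (bxb b) (bxD b) x.d x.f x.N h2
  rw [evalNP_congr w (x.σ_eq)] at hd
  have hz : RZ w (sg x.Xs) q ((evalNP w (sg x.Xs) (bxa b) (bxb b) (bxD b) x.d x.f x.N).2,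
      Nat.add (evalNP w (sg x.Xs) (bxa b) (bxb b) (bxD b) x.d x.f x.N).1 1) := by
    unfold RZ
    rw [hq, map_add, map_mul, eval_C, hp, ← e1]
    show _ = (((evalNP w (sg x.Xs) (bxa b) (bxb b) (bxD b) x.d x.f x.N).2 : ℕ) : ℤ)
      - (((evalNP w (sg x.Xs) (bxa b) (bxb b) (bxD b) x.d x.f x.N).1 + 1 : ℕ) : ℤ)
    push_cast
    ring
  have hm : Maj p ((x.M * nfac (bxD b) x.d x.f : ℕ) : ℤ) := by
    refine Maj.mono (maj_hom _ _ _ _ _ (bxOK_spec hb) h4 _ h1) ?_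
    exact_mod_cast Nat.mul_le_mul_right _ h3
  have hM : Maj q ((x.M * nfac (bxD b) x.d x.f + 1 : ℕ) : ℤ) := by
    refine Maj.mono (((Maj.C (-1)).mul hm).add (Maj.C (-1))) (le_of_eq ?_)
    push_cast
    simp
  have hdp : ∀ j, degreeOf j p ≤ if j < 5 then x.f j else 0 := fun j =>
    degreeOf_hom (bxa b) (bxb b) (bxD b) x.d x.f h4 j _ h1
  have hdq : ∀ j, degreeOf j q ≤ if j < 5 then x.f j else 0 := by
    intro j
    rw [hq]
    refine (degreeOf_add_le _ _ _).trans (max_le ((degreeOf_C_mul_le _ _ _).trans (hdp j)) ?_)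
    rw [degreeOf_C]
    exact Nat.zero_le _
  have hc := coeff_nonneg_of_dig hw hz hM hn (fun i hi => by
      have := hdq i
      rw [if_pos hi] at this
      interval_cases i <;> simp only [Fld.Xs, fn5] <;> omega)
    (fun i hi => by
      have := hdq i
      rw [if_neg (by omega)] at this
      exact Nat.le_zero.1 this) (by rw [← x.K_eq]; exact hd)
  have hT0 : ∀ i, 0 ≤ Tb b t i := fun i => (Tb_spec ht i).1
  have h5 := eval₂_nonneg_of_coeff q hc (Tb b t) hT0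
  have h6 := eval₂_hom (bxa b) (bxb b) (bxD b) x.d x.f (Tb b t) t (Tb_x ht) h4 _ h1
  rw [hq, eval₂_add, eval₂_mul, eval₂_C, hp, h6] at h5
  have h7 := rfac_pos' b x.d x.f hT0
  by_contra hcon
  have h8 : 0 ≤ rfac (bxD b) x.d x.f (Tb b t) * ev t (flat x.N) := mul_nonneg h7.le (not_lt.1 hcon)
  simp only [Int.coe_castRingHom] at h5
  push_cast at h5
  linarith

/-- **soundness of the check of a box outside of the domain** -/
theorem out_sound {S : DS} {P : Par} {D : Dat} {sx sp : ℝ} (hS : DSok S P D sx sp) {b : Bx} {w j : ℕ}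
    (h : S.outCheck b w j = true) : Good (Phi P D sx sp) b := by
  refine Good.of_not_dom fun t ht hd => ?_
  simp only [DS.outCheck, Bool.and_eq_true, Nat.blt_eq] at h
  obtain ⟨⟨hw, hb⟩, hn⟩ := h
  have h1 := neg_sound hw hb hn ht
  obtain ⟨g1, g2, g3, g4⟩ := hS.gs t hd
  unfold DS.gF at h1
  split at h1
  · exact absurd g1 (not_le.2 h1)
  · exact absurd g2 (not_le.2 h1)
  · exact absurd g3 (not_le.2 h1)
  · exact absurd g4 (not_le.2 h1)

end Crest.Agent.R097.KA
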