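import Crest.Agent.R097.KP2

/-!
# Row 97, KBA checker: sign-magnitude packed numbers (helper141)

Drop-in replacement of the packed pairs `OZ`: one big number per operation.
`(false, m)` is `m`, `(true, m)` is `-m`.
-/

set_option autoImplicit false

namespace Crest.Agent.R097.KA

open MvPolynomial Crest.Agent.R097.CQ Crest.Agent.KB

/-- selection (kernel friendly) -/
def bsel {α : Type} (b : Bool) (x y : α) : α := Bool.rec (motive := fun _ => α) y x b

/-- `x - y` -/
def subS (x y : ℕ) : Bool × ℕ := bsel (Nat.ble y x) (false, Nat.sub x y) (true, Nat.sub y x)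

/-- sum -/
def addS (x y : Bool × ℕ) : Bool × ℕ :=
  bsel (Nat.beq y.2 0) x (bsel (Nat.beq x.2 0) y
    (bsel x.1 (bsel y.1 (true, Nat.add x.2 y.2) (subS y.2 x.2))
      (bsel y.1 (subS x.2 y.2) (false, Nat.add x.2 y.2))))

/-- integer multiple -/
def smulS (a : ℤ) (x : Bool × ℕ) : Bool × ℕ :=
  Int.casesOn (motive := fun _ => Bool × ℕ) a
    (fun k => bsel (Nat.beq k 0) (false, 0) (x.1, Nat.mul k x.2))
    (fun k => (bsel x.1 false true, Nat.mul (Nat.succ k) x.2))

/-- signed packed numbers -/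
def OS (w : ℕ) (σ : ℕ → ℕ) : Ops (Bool × ℕ) where
  zero := (false, 0)
  add := addS
  smul := smulS
  mulT := fun i x => (x.1, Nat.shiftLeft x.2 (Nat.mul w (σ (cl i))))

/-- value -/
def vS (z : Bool × ℕ) : ℤ := bsel z.1 (-(z.2 : ℤ)) (z.2 : ℤ)

/-- packed value -/
def RS (w : ℕ) (σ : ℕ → ℕ) (P : MvPolynomial ℕ ℤ) (z : Bool × ℕ) : Prop :=
  eval (fun i => (2 : ℤ) ^ (w * σ i)) P = vS z

lemma bsel_true {α : Type} (x y : α) : bsel true x y = x := rfl
lemma bsel_false {α : Type} (x y : α) : bsel false x y = y := rfl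

lemma vS_subS (x y : ℕ) : vS (subS x y) = (x : ℤ) - y := by
  unfold subS
  cases h : Nat.ble y x with
  | true =>
    have h' : y ≤ x := Nat.ble_eq.mp h
    rw [bsel_true]
    show ((x - y : ℕ) : ℤ) = _
    omega
  | false =>
    have h' : ¬ y ≤ x := by
      intro hc
      rw [Nat.ble_eq.mpr hc] at h
      exact absurd h (by simp)
    rw [bsel_false]
    show -((y - x : ℕ) : ℤ) = _
    omega

lemma vS_addS (x y : Bool × ℕ) : vS (addS x y) = vS x + vS y := by
  obtain ⟨a, x⟩ := x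
  obtain ⟨b, y⟩ := y
  unfold addS
  cases hy : Nat.beq y 0 with
  | true =>
    have : y = 0 := Nat.eq_of_beq_eq_true hy
    subst this
    show vS (a, x) = vS (a, x) + vS (b, 0)
    cases b <;> simp [vS, bsel]
  | false =>
    cases hx : Nat.beq x 0 with
    | true =>
      have : x = 0 := Nat.eq_of_beq_eq_true hx
      subst this
      show vS (b, y) = vS (a, 0) + vS (b, y)
      cases a <;> simp [vS, bsel]
    | false =>
      simp only [bsel_false]
      cases a <;> cases b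
      · show ((x + y : ℕ) : ℤ) = (x : ℤ) + y
        push_cast; rfl
      · show vS (subS x y) = (x : ℤ) + -(y : ℤ)
        rw [vS_subS]; ring
      · show vS (subS y x) = -(x : ℤ) + (y : ℤ)
        rw [vS_subS]; ring
      · show -((x + y : ℕ) : ℤ) = -(x : ℤ) + -(y : ℤ)
        push_cast; ring

lemma vS_smulS (a : ℤ) (x : Bool × ℕ) : vS (smulS a x) = a * vS x := by
  obtain ⟨b, x⟩ := x
  cases a with
  | ofNat k =>
    show vS (bsel (Nat.beq k 0) (false, 0) (b, k * x)) = _
    cases hk : Nat.beq k 0 with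
    | true =>
      have : k = 0 := Nat.eq_of_beq_eq_true hk
      subst this
      simp [vS, bsel]
    | false =>
      rw [bsel_false]
      cases b
      · show ((k * x : ℕ) : ℤ) = _ * (x : ℤ)
        push_cast; rfl
      · show -((k * x : ℕ) : ℤ) = _ * -(x : ℤ)
        push_cast; simp only [Int.ofNat_eq_natCast]; ring
  | negSucc k =>
    cases b
    · show -(((k + 1) * x : ℕ) : ℤ) = _ * (x : ℤ)
      rw [Int.negSucc_eq]; push_cast; ring
    · show (((k + 1) * x : ℕ) : ℤ) = _ * -(x : ℤ)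
      rw [Int.negSucc_eq]; push_cast; ring

lemma relS (w : ℕ) (σ : ℕ → ℕ) : ORel OM (OS w σ) (RS w σ) where
  zero := by simp [RS, OM, OS, vS, bsel]
  add := by
    intro x y x' y' h1 h2
    show eval _ (x + y) = vS (addS x' y')
    unfold RS at h1 h2
    rw [map_add, h1, h2, vS_addS]
  smul := by
    intro a x x' h1
    unfold RS at h1
    show eval _ (C _ * x) = vS (smulS a x')
    rw [map_mul, eval_C, h1, vS_smulS]
  mulT := by
    intro i x x' h1
    unfold RS at h1
    show eval _ (X (cl i) * x) = vS (x'.1, x'.2 <<< (w * σ (cl i)))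
    rw [map_mul, eval_X, h1]
    obtain ⟨b, m⟩ := x'
    cases b
    · show _ * (m : ℤ) = ((m <<< (w * σ (cl i)) : ℕ) : ℤ)
      rw [Nat.shiftLeft_eq]; push_cast; ring
    · show _ * -(m : ℤ) = -((m <<< (w * σ (cl i)) : ℕ) : ℤ)
      rw [Nat.shiftLeft_eq]; push_cast; ring

/-- conversion of a pair -/
def toS (z : ℕ × ℕ) : Bool × ℕ := subS z.1 z.2

lemma RS_toS {w : ℕ} {σ : ℕ → ℕ} {P : MvPolynomial ℕ ℤ} {z : ℕ × ℕ} (h : RZ w σ P z) : RS w σ P (toS z) := by
  unfold RS RZ at *
  rw [h]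
  exact (vS_subS _ _).symm

/-- the sign test of a packed number -/
def digS (H : ℕ) (z : Bool × ℕ) : Bool :=
  Nat.beq (Nat.land (bsel z.1 (Nat.sub H z.2) (Nat.add z.2 H)) H) H

lemma dig_of_digS {H : ℕ} {z : Bool × ℕ} (h : digS H z = true) :
    ∃ z' : ℕ × ℕ, (z'.1 : ℤ) - z'.2 = vS z ∧ dig H z' = true := by
  obtain ⟨b, m⟩ := z
  cases b
  · refine ⟨(m, 0), by simp [vS, bsel], ?_⟩
    exact h
  · refine ⟨(0, m), by simp [vS, bsel], ?_⟩
    have h' : Nat.beq (Nat.land (Nat.sub H m) H) H = true := h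
    show Nat.beq (Nat.land (Nat.sub (Nat.add 0 H) m) H) H = true
    rw [show Nat.add 0 H = H from Nat.zero_add H]
    exact h'

/-- the packed polynomial has non-negative coefficients -/
lemma coeff_nonneg_of_digS {w : ℕ} (hw : 0 < w) {Xs : ℕ → ℕ} {P : MvPolynomial ℕ ℤ} {z : Bool × ℕ}
    (hz : RS w (sg Xs) P z) {N : ℕ} (hN : Maj P (N : ℤ)) (hNw : N < 2 ^ (w - 1))
    (hdeg : ∀ i, i < 5 → degreeOf i P < Xs i) (hvar : ∀ i, 5 ≤ i → degreeOf i P = 0)
    (hc : digS (Hm w (sg Xs 5)) z = true) : ∀ m, 0 ≤ coeff m P := by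
  obtain ⟨z', h1, h2⟩ := dig_of_digS hc
  refine coeff_nonneg_of_dig hw (z := z') ?_ hN hNw hdeg hvar h2
  unfold RS at hz
  unfold RZ
  rw [h1]
  exact hz

end Crest.Agent.R097.KA
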