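import Crest.Agent.R097.KP4
import Crest.Agent.R097.KS

/-!
# Row 97, KBA checker: leaf theorem with sign-magnitude numbers and a pluggable base (helper141)
-/

set_option autoImplicit false

namespace Crest.Agent.R097.KA

open MvPolynomial Crest.Agent.R097.CP Crest.Agent.R097.CQ Crest.Agent.KB

/-- the polynomials of the rows -/
noncomputable def DS.rowsM (S : DS) (b : Bx) (c : Lf) : List (MvPolynomial ℕ ℤ) :=
  tests OM 1024 256 (q1n (boxC S.an S.ad b)) (q1d (boxC S.an S.ad b)) (boxC S.an S.ad b) (S.bM b) c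

theorem reals_of_coeffs {S : DS} (hst : S.static = true) {b : Bx}
    {c : Lf} (hco : ∀ p ∈ S.rowsM b c, ∀ m, 0 ≤ coeff m p) {T t : ℕ → ℝ} (hT : ∀ i, 0 ≤ T i)
    (hx : ∀ i < 5, (bxa b i : ℝ) + bxb b i * T i = t i * (bxD b i * (1 + T i))) :
    ∀ r ∈ tests (OR T) 1024 256 (q1n (boxC S.an S.ad b)) (q1d (boxC S.an S.ad b)) (boxC S.an S.ad b)
      (S.bR b T t) c, 0 ≤ r := by
  intro r hr
  have FR := rel_tests (relR T) 1024 256 (q1n (boxC S.an S.ad b)) (q1d (boxC S.an S.ad b))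
    (boxC S.an S.ad b) (b := S.bM b) (b' := S.bR b T t) (brel_map fun x hx' => by
      obtain ⟨h1, _, _, h4⟩ := fld_ok (static_fld hst hx')
      exact eval₂_hom _ _ _ _ _ T t hx h4 _ h1) c
  obtain ⟨p, h1, h2⟩ := forall₂_ex' FR (p := fun p => ∀ m, 0 ≤ coeff m p) hco r hr
  rw [← h1]
  exact eval₂_nonneg_of_coeff p h2 T hT

/-- **leaf from non-negative coefficients of the rows** -/
theorem good_of_coeffs {S : DS} {P : Par} {D : Dat} {sx sp : ℝ} (hS : DSok S P D sx sp) {b : Bx}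
    {c : Lf} (hbx : bxOK b = true) (hc : c.ok = true)
    (hco : ∀ p ∈ S.rowsM b c, ∀ m, 0 ≤ coeff m p) : Good (Phi P D sx sp) b := by
  intro t ht hd
  have hT0 : ∀ i, 0 ≤ Tb b t i := fun i => (Tb_spec ht i).1
  have hx := Tb_x ht
  have hr := reals_of_coeffs hS.st hco hT0 hx
  obtain ⟨B', hB', hev⟩ := hS.base
  obtain ⟨B'', h1, h2⟩ := BS_ev hS.pars D hB' (fn5 (sx * t 0) (sp * t 1) (t 2) (t 3) (2 * t 4))
  have hev' := (hev t).trans h1
  obtain ⟨g1, g2, g3, g4⟩ := hS.gs t hd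
  have rp : ∀ d f : ℕ → ℕ, 0 < rfac (bxD b) d f (Tb b t) := fun d f => rfac_pos' b d f hT0
  have han : (0 : ℝ) < S.an := by rw [hS.an]; exact_mod_cast hS.pars.an
  have han' : (S.an : ℝ) = P.an := by rw [hS.an]
  have had' : (S.ad : ℝ) = P.ad := by rw [hS.ad]
  have had : (0 : ℝ) < P.ad := by exact_mod_cast hS.pars.ad
  have hRB : RB (Tb b t) (rfac (bxD b) S.d S.d (Tb b t))
      (((boxC S.an S.ad b).Ds * (1 + Tb b t 2)) ^ 2 * ((boxC S.an S.ad b).DQ * (1 + Tb b t 3)) *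
        ((boxC S.an S.ad b).Dv * (1 + Tb b t 4)) ^ 2) (bsc P.kap B'') (S.bR b (Tb b t) t) := by
    have eS : (((boxC S.an S.ad b).Ds : ℤ) : ℝ) = bxD b 2 := by simp [boxC, bxD, fn5]
    have eQ : (((boxC S.an S.ad b).DQ : ℤ) : ℝ) = bxD b 3 := by simp [boxC, bxD, fn5]
    have eV : (((boxC S.an S.ad b).Dv : ℤ) : ℝ) = bxD b 4 := by simp [boxC, bxD, fn5]
    rw [← hev', eS, eQ, eV]
    constructor
    · rfl
    · rfl
    · rfl
    · rfl
    · rfl
    · rfl
    · rfl
    · rfl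
    · rfl
    · rfl
    · rfl
    · rfl
    · rw [← rfac_d2]; rfl
    · rw [← rfac_dC]; rfl
    · exact mul_nonneg (rp _ _).le g1
    · exact mul_nonneg (rp _ _).le g2
    · exact mul_nonneg (rp _ _).le g3
    · exact mul_nonneg (rp _ _).le g4
    · exact mul_nonneg (rp _ _).le g1
    · exact mul_nonneg (rp _ _).le g2
    · exact mul_nonneg (rp _ _).le g3
    · exact mul_nonneg (rp _ _).le g4
  obtain ⟨hm, hdet, hmu, hn1, hn2, hn3⟩ := c.ok_spec hc
  have hqe : (S.an : ℝ) * (t 3 - (2 * t 4) ^ 2 * ((1 - (t 2) ^ 2) / P.A0))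
      = S.an * t 3 - 4 * S.ad * t 4 ^ 2 * (1 - t 2 ^ 2) := by
    rw [Par.A0, han', had']
    rw [han'] at han
    field_simp
    ring
  have kan : (((boxC S.an S.ad b).an : ℤ) : ℝ) = S.an := by simp [boxC]
  have kad : (((boxC S.an S.ad b).ad : ℤ) : ℝ) = S.ad := by simp [boxC]
  have hs0 : 0 ≤ t 2 := hd.s0.le
  have hqq := q_le (an := S.an) (ad := S.ad) ht hs0 hbx hqe
  obtain ⟨L, hL⟩ := ok_of_tests (lam := lmb b t) (t := Tb b t) (β2 := 1024) (γ2 := 256)
    (q1n := q1n (boxC S.an S.ad b)) (q1d := q1d (boxC S.an S.ad b)) (k := boxC S.an S.ad b)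
    (s := t 2) (Q := t 3) (v' := t 4)
    (q := t 3 - (2 * t 4) ^ 2 * ((1 - (t 2) ^ 2) / P.A0)) (c := c)
    (fun i _ => (Tb_spec ht i).2.1) (fun i _ => by have := hT0 i; linarith) (by norm_num) (by norm_num)
    (by
      have : (0 : ℝ) < (q1d (boxC S.an S.ad b) : ℝ) := by
        simp only [q1d, boxC, Int.ofNat_eq_natCast]
        push_cast
        positivity
      exact_mod_cast this)
    (by have : (0 : ℝ) < ((boxC S.an S.ad b).an : ℤ) := by rw [kan]; exact han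
        exact_mod_cast this)
    (by simp [boxC]) (by simp [boxC]) (by simp [boxC])
    (by have := hx 2 (by norm_num)
        simpa [boxC, bxa, bxb, bxD, fn5] using this)
    (by have := hx 3 (by norm_num)
        simpa [boxC, bxa, bxb, bxD, fn5] using this)
    (by have := hx 4 (by norm_num)
        simpa [boxC, bxa, bxb, bxD, fn5] using this)
    (rp S.d S.d) hRB hm hdet hmu hn1 hn2 hn3 (by rw [kan, kad]; exact hqe) hqq hr
  exact ⟨B'', L, h2, ok_of_bsc (kap_pos hS.pars) hL⟩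


/-- digit test, sign-magnitude numbers, base `bS` -/
def DS.chkS (S : DS) (b : Bx) (w : ℕ) (bS : BaseA (Bool × ℕ)) (c : Lf) : Bool :=
  (tests (OS w S.σ) 1024 256 (q1n (boxC S.an S.ad b)) (q1d (boxC S.an S.ad b)) (boxC S.an S.ad b)
    bS c).all (digS (Hm w S.K))

lemma OS_congr (w : ℕ) {σ σ' : ℕ → ℕ} (h : ∀ i < 5, σ i = σ' i) : OS w σ = OS w σ' := by
  unfold OS
  have : ∀ i, σ (cl i) = σ' (cl i) := fun i => h _ (cl_lt i)
  simp only [this]

/-- **non-negative coefficients** -/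
theorem coeffs_nonnegS {S : DS} (hst : S.static = true) {b : Bx} (hb : bxOK b = true) {w : ℕ} (hw : 0 < w)
    {bS : BaseA (Bool × ℕ)} (hbS : BRel (RS w (sg S.Xs)) (S.bM b) bS)
    {c : Lf} (hN : S.chkN b w c = true) (hZ : S.chkS b w bS c = true) :
    ∀ p ∈ S.rowsM b c, ∀ m, 0 ≤ coeff m p := by
  intro p hp
  have FZ := rel_tests (relS w (sg S.Xs)) 1024 256 (q1n (boxC S.an S.ad b)) (q1d (boxC S.an S.ad b))
    (boxC S.an S.ad b) (b := S.bM b) (b' := bS) hbS c
  rw [← OS_congr w (σ_eq S)] at FZ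
  have FN := rel_tests relN 1024 256 (q1n (boxC S.an S.ad b)) (q1d (boxC S.an S.ad b))
    (boxC S.an S.ad b) (b := S.bM b) (b' := S.bN b) (brel_map fun x hx => by
      obtain ⟨h1, _, h3, h4⟩ := fld_ok (static_fld hst hx)
      refine Maj.mono (maj_hom _ _ _ _ _ (bxOK_spec hb) h4 _ h1) ?_
      show ((csum (flat x.N) * nfac (bxD b) x.d x.f : ℕ) : ℤ) ≤ ((x.M * nfac (bxD b) x.d x.f : ℕ) : ℤ)
      exact_mod_cast Nat.mul_le_mul_right _ h3) c
  have FD : ∀ j < 5, List.Forall₂ (fun P n => degreeOf j P ≤ n) (tests OM 1024 256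
      (q1n (boxC S.an S.ad b)) (q1d (boxC S.an S.ad b)) (boxC S.an S.ad b) (S.bM b) c)
      (tests (OD j) 1024 256 (q1n (boxC S.an S.ad b)) (q1d (boxC S.an S.ad b)) (boxC S.an S.ad b)
        (S.mapB fun x => x.f j) c) := fun j hj =>
    rel_tests (relD j) 1024 256 (q1n (boxC S.an S.ad b)) (q1d (boxC S.an S.ad b))
      (boxC S.an S.ad b) (b := S.bM b) (b' := S.mapB fun x => x.f j) (brel_map fun x hx => by
      obtain ⟨h1, _, _, h4⟩ := fld_ok (static_fld hst hx)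
      have := degreeOf_hom (bxa b) (bxb b) (bxD b) x.d x.f h4 j _ h1
      rwa [if_pos hj] at this) c
  have FU := rel_tests relU 1024 256 (q1n (boxC S.an S.ad b)) (q1d (boxC S.an S.ad b))
    (boxC S.an S.ad b) (b := S.bM b) (b' := S.mapB fun _ => ()) (brel_map fun x hx => by
      obtain ⟨h1, _, _, h4⟩ := fld_ok (static_fld hst hx)
      intro j hj
      have := degreeOf_hom (bxa b) (bxb b) (bxD b) x.d x.f h4 j _ h1
      rw [if_neg (by omega)] at this
      exact Nat.le_zero.1 this) c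
  obtain ⟨z, hz, hdig⟩ := forall₂_ex FZ (p := fun z => digS (Hm w S.K) z = true)
    (fun z hz' => List.all_eq_true.1 hZ z hz') p hp
  obtain ⟨N, hNp, hNlt⟩ := forall₂_ex FN (p := fun n => Nat.blt n (2 ^ (w - 1)) = true)
    (fun z hz' => List.all_eq_true.1 hN z hz') p hp
  obtain ⟨_, hv, _⟩ := forall₂_ex FU (p := fun _ => True) (fun _ _ => trivial) p hp
  have hdeg : ∀ j < 5, degreeOf j p < S.Xs j := by
    intro j hj
    have hst' : S.degOK j = true := by
      simp only [DS.static, Bool.and_eq_true] at hst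
      obtain ⟨_, k0, k1, k2, k3, k4⟩ := hst
      interval_cases j
      · exact k0
      · exact k1
      · exact k2
      · exact k3
      · exact k4
    obtain ⟨n, h1, h2⟩ := forall₂_ex (FD j hj) (p := fun n => Nat.blt n (S.Xs j) = true) (fun z hz' => by
      rw [tests_OD j _ _ _ _ 0 0 0 0 _ bc0 _ _ lf0] at hz'
      exact List.all_eq_true.1 hst' z hz') p hp
    rw [Nat.blt_eq] at h2
    omega
  rw [K_eq] at hdig
  exact coeff_nonneg_of_digS hw hz hNp (by rwa [Nat.blt_eq] at hNlt) hdeg hv hdig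

/-- **leaf theorem with a pluggable base** -/
theorem good_of_base {S : DS} {P : Par} {D : Dat} {sx sp : ℝ} (hS : DSok S P D sx sp) {b : Bx} {w : ℕ}
    {c : Lf} {bS : BaseA (Bool × ℕ)} (hbS : BRel (RS w (sg S.Xs)) (S.bM b) bS)
    (h : ((Nat.blt 0 w && bxOK b) && (c.ok && (S.chkN b w c && S.chkS b w bS c))) = true) :
    Good (Phi P D sx sp) b := by
  simp only [Bool.and_eq_true, Nat.blt_eq] at h
  obtain ⟨⟨hw, hbx⟩, hc, hN, hZ⟩ := h
  exact good_of_coeffs hS hbx hc (coeffs_nonnegS hS.st hbx hw hbS hN hZ)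

/-- base from the pairs -/
def DS.bP (S : DS) (b : Bx) (w : ℕ) : BaseA (Bool × ℕ) :=
  S.mapB fun x => toS (evalNP w S.σ (bxa b) (bxb b) (bxD b) x.d x.f x.N)

theorem bP_rel {S : DS} (hst : S.static = true) (b : Bx) (w : ℕ) :
    BRel (RS w (sg S.Xs)) (S.bM b) (S.bP b w) :=
  brel_map fun x hx => by
    obtain ⟨_, h2, _, _⟩ := fld_ok (static_fld hst hx)
    refine RS_toS ?_
    unfold RZ
    rw [← evalNP_eq w _ _ _ _ _ _ _ h2, evalNP_congr w (σ_eq S)]

/-- **the check of a leaf (sign-magnitude)** -/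
def DS.leafCheckS (S : DS) (b : Bx) (w : ℕ) (c : Lf) : Bool :=
  (Nat.blt 0 w && bxOK b) && (c.ok && (S.chkN b w c && S.chkS b w (S.bP b w) c))

/-- **soundness of the check of a leaf** -/
theorem leaf_soundS {S : DS} {P : Par} {D : Dat} {sx sp : ℝ} (hS : DSok S P D sx sp) {b : Bx} {w : ℕ}
    {c : Lf} (h : S.leafCheckS b w c = true) : Good (Phi P D sx sp) b :=
  good_of_base hS (bP_rel hS.st b w) h

end Crest.Agent.R097.KA
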