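import Crest.Agent.R097.KP6
import Crest.Agent.R097.KS2

/-!
# Row 97, KBA checker: straight-line base and sign-magnitude rows (helper141)

`leafYS_sound`: same arguments as `leafY_sound`.
-/

set_option autoImplicit false

namespace Crest.Agent.R097.KA

open MvPolynomial Crest.Agent.R097.CP Crest.Agent.R097.CQ Crest.Agent.KB

/-- conversion of the base -/
def toSB (B : BaseA (ℕ × ℕ)) : BaseA (Bool × ℕ) where
  L1 := toS B.L1
  L2 := toS B.L2
  Lw := toS B.Lw
  A11 := toS B.A11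
  A12 := toS B.A12
  W1 := toS B.W1
  W2 := toS B.W2
  psi := toS B.psi
  g := toS B.g
  K11 := toS B.K11
  K12 := toS B.K12
  K22 := toS B.K22
  Ck := toS B.Ck
  C0 := toS B.C0
  G1 := toS B.G1
  G2 := toS B.G2
  G3 := toS B.G3
  G4 := toS B.G4
  F1 := toS B.F1
  F2 := toS B.F2
  F3 := toS B.F3
  F4 := toS B.F4

/-- **the check of a leaf** (straight-line base, sign-magnitude rows) -/
def DS.leafYS (S : DS) (bz : Bx → ℕ → BaseA (ℕ × ℕ)) (b : Bx) (w : ℕ) (c : Lf) : Bool :=
  (Nat.blt 0 w && bxOK b) && (c.ok && (S.chkN b w c && S.chkS b w (toSB (bz b w)) c))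

/-- **soundness** -/
theorem leafYS_sound {S : DS} {P : Par} {D : Dat} {sx sp : ℝ} (hS : DSok S P D sx sp)
    {bz : Bx → ℕ → BaseA (ℕ × ℕ)} (hz : ∀ b w, bz b w = S.bS b w) {b : Bx} {w : ℕ}
    {c : Lf} (h : S.leafYS bz b w c = true) : Good (Phi P D sx sp) b := by
  refine good_of_base hS (w := w) (c := c) (bS := toSB (bz b w)) ?_ h
  rw [hz, bS_eq]
  exact bP_rel hS.st b w

end Crest.Agent.R097.KA
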