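import Crest.Agent.R097.Harm

/-!
# Row 97: chain and product rules for the Laplacian
-/

set_option autoImplicit false
open MeasureTheory Metric Set Filter Topology Laplacian InnerProductSpace
open scoped RealInnerProductSpace NNReal ContDiff Gradient

namespace Crest.Agent.R097.Hm
noncomputable section
variable {d : ℕ}

lemma norm_fderiv_sq (q : E d → ℝ) (x : E d) :
    ‖fderiv ℝ q x‖ ^ 2 = ∑ i, (fderiv ℝ q x (bv i)) ^ 2 := by
  rw [← norm_gradient, EuclideanSpace.norm_sq_eq]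
  refine Finset.sum_congr rfl fun i _ => ?_
  rw [gradient_coord, Real.norm_eq_abs, sq_abs]

lemma differentiableAt_fderiv_apply {q : E d → ℝ} {x : E d} (hq : ContDiffAt ℝ 2 q x) (v : E d) :
    DifferentiableAt ℝ (fun y => fderiv ℝ q y v) x := by
  have h1 : ContDiffAt ℝ 1 (fderiv ℝ q) x := hq.fderiv_right (by norm_num)
  exact (h1.differentiableAt (by norm_num)).clm_apply (differentiableAt_const v)

/-- chain rule -/
theorem lap_comp {φ : ℝ → ℝ} {q : E d → ℝ} {x : E d} (hφ : ContDiffAt ℝ 2 φ (q x))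
    (hq : ContDiffAt ℝ 2 q x) :
    (Δ (fun y => φ (q y))) x
      = deriv (deriv φ) (q x) * ‖fderiv ℝ q x‖ ^ 2 + deriv φ (q x) * (Δ q) x := by
  have hc : ContDiffAt ℝ 2 (fun y => φ (q y)) x := hφ.comp x hq
  rw [laplacian_eq_sum hc, laplacian_eq_sum hq, norm_fderiv_sq, Finset.mul_sum, Finset.mul_sum,
    ← Finset.sum_add_distrib]
  refine Finset.sum_congr rfl fun i _ => ?_
  have hφe : ∀ᶠ y in 𝓝 x, ContDiffAt ℝ 2 φ (q y) :=
    hq.continuousAt.eventually (hφ.eventually (by simp))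
  have hqe : ∀ᶠ y in 𝓝 x, ContDiffAt ℝ 2 q y := hq.eventually (by simp)
  have h1 : (fun y => fderiv ℝ (fun y => φ (q y)) y (bv i)) =ᶠ[𝓝 x]
      fun y => deriv φ (q y) * fderiv ℝ q y (bv i) := by
    filter_upwards [hφe, hqe] with y h1 h2
    have h3 : HasFDerivAt (fun y => φ (q y)) (deriv φ (q y) • fderiv ℝ q y) y :=
      (h1.differentiableAt (by norm_num)).hasDerivAt.comp_hasFDerivAt y
        (h2.differentiableAt (by norm_num)).hasFDerivAt
    rw [h3.fderiv]
    simp
  rw [h1.fderiv_eq]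
  have h2 : HasDerivAt (deriv φ) (deriv (deriv φ) (q x)) (q x) := by
    have h3 : ContDiffAt ℝ 1 (deriv φ) (q x) := by
      have h4 : ContDiffAt ℝ 1 (fderiv ℝ φ) (q x) := hφ.fderiv_right (by norm_num)
      have h5 : deriv φ = fun t => fderiv ℝ φ t 1 := by
        ext t; rw [fderiv_apply_one_eq_deriv]
      rw [h5]
      exact h4.clm_apply contDiffAt_const
    exact (h3.differentiableAt (by norm_num)).hasDerivAt
  have h3 : HasFDerivAt (fun y => deriv φ (q y)) (deriv (deriv φ) (q x) • fderiv ℝ q x) x :=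
    h2.comp_hasFDerivAt x (hq.differentiableAt (by norm_num)).hasFDerivAt
  have h4 := h3.mul (differentiableAt_fderiv_apply hq (bv i)).hasFDerivAt
  have h5 : fderiv ℝ (fun y => deriv φ (q y) * fderiv ℝ q y (bv i)) x
      = deriv φ (q x) • fderiv ℝ (fun y => fderiv ℝ q y (bv i)) x
        + fderiv ℝ q x (bv i) • (deriv (deriv φ) (q x) • fderiv ℝ q x) := h4.fderiv
  rw [h5]
  simp only [_root_.add_apply, _root_.smul_apply, smul_eq_mul]
  ring

/-- product rule -/
theorem lap_mul {f g : E d → ℝ} {x : E d} (hf : ContDiffAt ℝ 2 f x) (hg : ContDiffAt ℝ 2 g x) :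
    (Δ (fun y => f y * g y)) x = (Δ f) x * g x
      + 2 * (∑ i, fderiv ℝ f x (bv i) * fderiv ℝ g x (bv i)) + f x * (Δ g) x := by
  have hc : ContDiffAt ℝ 2 (fun y => f y * g y) x := hf.mul hg
  rw [laplacian_eq_sum hc, laplacian_eq_sum hf, laplacian_eq_sum hg, Finset.mul_sum, Finset.mul_sum,
    Finset.sum_mul, ← Finset.sum_add_distrib, ← Finset.sum_add_distrib]
  refine Finset.sum_congr rfl fun i _ => ?_
  have hfe : ∀ᶠ y in 𝓝 x, ContDiffAt ℝ 2 f y := hf.eventually (by simp)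
  have hge : ∀ᶠ y in 𝓝 x, ContDiffAt ℝ 2 g y := hg.eventually (by simp)
  have h1 : (fun y => fderiv ℝ (fun y => f y * g y) y (bv i)) =ᶠ[𝓝 x]
      fun y => f y * fderiv ℝ g y (bv i) + g y * fderiv ℝ f y (bv i) := by
    filter_upwards [hfe, hge] with y h1 h2
    have h3 := (h1.differentiableAt (by norm_num)).hasFDerivAt.mul
      (h2.differentiableAt (by norm_num)).hasFDerivAt
    have h4 : fderiv ℝ (fun y => f y * g y) y = f y • fderiv ℝ g y + g y • fderiv ℝ f y := h3.fderiv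
    rw [h4]
    simp
  rw [h1.fderiv_eq]
  have hf1 := (hf.differentiableAt (by norm_num)).hasFDerivAt
  have hg1 := (hg.differentiableAt (by norm_num)).hasFDerivAt
  have h4 := (hf1.mul (differentiableAt_fderiv_apply hg (bv i)).hasFDerivAt).add
    (hg1.mul (differentiableAt_fderiv_apply hf (bv i)).hasFDerivAt)
  have h5 := h4.fderiv
  have h6 : fderiv ℝ (fun y => f y * fderiv ℝ g y (bv i) + g y * fderiv ℝ f y (bv i)) x
      = (f x • fderiv ℝ (fun y => fderiv ℝ g y (bv i)) x + fderiv ℝ g x (bv i) • fderiv ℝ f x)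
      + (g x • fderiv ℝ (fun y => fderiv ℝ f y (bv i)) x + fderiv ℝ f x (bv i) • fderiv ℝ g x) := h5
  rw [h6]
  simp only [_root_.add_apply, _root_.smul_apply, smul_eq_mul]
  ring

end
end Crest.Agent.R097.Hm
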