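import Crest.Agent.R097.RApri2

/-!
# Row 97: helper619's a priori inequality, conclusion
-/

set_option autoImplicit false
set_option synthInstance.maxHeartbeats 400000
open MeasureTheory Metric Set Filter Topology Laplacian InnerProductSpace
open scoped RealInnerProductSpace NNReal ContDiff Gradient

namespace Crest.Agent.R097
noncomputable section

namespace AP2

variable {d : ℕ}

/-! ### frames -/

section frames
variable {n : ℕ} {u : E (n + 1) → ℝ} {x : E (n + 1)}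

lemma ctrL_onb {ι : Type*} [Fintype ι] (e : OrthonormalBasis ι ℝ (E d)) (A : Bil d) (B : Tri d)
    (v : E d) : ctrL A B v = ∑ a, ∑ b, A (e a) (e b) * B v (e a) (e b) := by
  rw [ctrL_apply]
  have h1 : ∀ i, ∑ j, A (bv i) (bv j) * B v (bv i) (bv j) = ∑ b, A (bv i) (e b) * B v (bv i) (e b) :=
    fun i => sum_mul_onb e (A (bv i)) (B v (bv i))
  simp_rw [h1]
  rw [Finset.sum_comm]
  have h2 : ∀ b, ∑ i, A (bv i) (e b) * B v (bv i) (e b) = ∑ a, A (e a) (e b) * B v (e a) (e b) :=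
    fun b => sum_mul_onb e (A.flip (e b)) ((B v).flip (e b))
  simp_rw [h2]
  rw [Finset.sum_comm]

lemma hs3_onb {ι : Type*} [Fintype ι] (e : OrthonormalBasis ι ℝ (E d)) (B : Tri d) :
    hs3 B = ∑ a, ∑ b, ∑ c, B (e a) (e b) (e c) ^ 2 := by
  unfold hs3
  have h1 : ∀ k, ∑ i, ∑ j, (B (bv k) (bv i) (bv j)) ^ 2 = ∑ b, ∑ c, (B (bv k) (e b) (e c)) ^ 2 :=
    fun k => hs2_onb e (B (bv k))
  simp_rw [h1]
  have h2 : ∀ b c, ∑ k, (B (bv k) (e b) (e c)) ^ 2 = ∑ a, (B (e a) (e b) (e c)) ^ 2 := by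
    intro b c
    have := sum_mul_onb e ((B.flip (e b)).flip (e c)) ((B.flip (e b)).flip (e c))
    simpa only [← sq, ContinuousLinearMap.flip_apply] using this
  rw [Finset.sum_comm]
  have h3 : ∀ b, ∑ k, ∑ c, (B (bv k) (e b) (e c)) ^ 2 = ∑ c, ∑ a, (B (e a) (e b) (e c)) ^ 2 := by
    intro b
    rw [Finset.sum_comm]
    exact Finset.sum_congr rfl fun c _ => h2 b c
  simp_rw [h3]
  rw [Finset.sum_comm (f := fun a b => ∑ c, (B (e a) (e b) (e c)) ^ 2)]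
  refine Finset.sum_congr rfl fun b _ => ?_
  rw [Finset.sum_comm]

lemma D2g (F : Frame u x) (H : HC u) (hx : x ∈ Om u) (k : Fin n) :
    ‖x‖ * D2 u x (F.e k.succ) (∇ u x) = F.lam k * F.g k := by
  rw [H.symm2 hx, F.D2_succ, inner_gradient]
  rfl

lemma sumL (F : Frame u x) (H : HC u) (hx : x ∈ Om u) :
    ‖x‖ ^ 2 * ∑ i, (D2 u x (bv i) (∇ u x)) ^ 2 = ∑ k, F.lam k ^ 2 * F.g k ^ 2 := by
  have h1 := sum_mul_onb F.e ((D2 u x).flip (∇ u x)) ((D2 u x).flip (∇ u x))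
  simp only [← sq, ContinuousLinearMap.flip_apply] at h1
  rw [h1, Fin.sum_univ_succ, F.D2_zero' H hx, mul_add, Finset.mul_sum]
  have h2 : ∀ k : Fin n, ‖x‖ ^ 2 * (D2 u x (F.e k.succ) (∇ u x)) ^ 2 = F.lam k ^ 2 * F.g k ^ 2 := by
    intro k
    rw [← mul_pow, D2g F H hx, mul_pow]
  simp_rw [h2]
  simp

/-- the functional `M:T` in the frame -/
lemma ctr_e0 (F : Frame u x) (H : HC u) (hx : x ∈ Om u) :
    ‖x‖ * ctrL (D2 u x) (D3 u x) (F.e 0) = - hs2 (D2 u x) := by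
  have hn : ‖x‖ ≠ 0 := norm_ne_zero_iff.2 (H.ne_zero hx)
  rw [F.e0, map_smul, smul_eq_mul, ← mul_assoc, mul_inv_cancel₀ hn, one_mul, ctrL_apply,
    H.euler3 hx]
  unfold hs2
  rw [← Finset.sum_neg_distrib]
  refine Finset.sum_congr rfl fun i _ => ?_
  rw [← Finset.sum_neg_distrib]
  refine Finset.sum_congr rfl fun j _ => ?_
  simp only [_root_.neg_apply]
  ring

lemma ctr_es (F : Frame u x) (H : HC u) (hx : x ∈ Om u) (k : Fin n) :
    ‖x‖ ^ 3 * ctrL (D2 u x) (D3 u x) (F.e k.succ) = ∑ a, F.lam a * F.tau a a k := by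
  rw [ctrL_onb F.e]
  simp only [Fin.sum_univ_succ, F.D2_zero H hx, F.D2_zero' H hx, zero_mul, Finset.sum_const_zero,
    zero_add]
  rw [Finset.mul_sum]
  refine Finset.sum_congr rfl fun a _ => ?_
  rw [Finset.mul_sum]
  have h1 : ∀ b : Fin n, ‖x‖ ^ 3 * (D2 u x (F.e a.succ) (F.e b.succ)
      * D3 u x (F.e k.succ) (F.e a.succ) (F.e b.succ))
      = if a = b then F.lam b * (‖x‖ ^ 2 * D3 u x (F.e k.succ) (F.e a.succ) (F.e b.succ)) else 0 := by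
    intro b
    have : ‖x‖ ^ 3 * (D2 u x (F.e a.succ) (F.e b.succ)
      * D3 u x (F.e k.succ) (F.e a.succ) (F.e b.succ))
      = (‖x‖ * D2 u x (F.e a.succ) (F.e b.succ)) *
        (‖x‖ ^ 2 * D3 u x (F.e k.succ) (F.e a.succ) (F.e b.succ)) := by ring
    rw [this, F.D2_ss]
    split_ifs <;> simp
  simp_rw [h1]
  rw [Finset.sum_ite_eq Finset.univ a, if_pos (Finset.mem_univ _)]
  unfold Frame.tau
  rw [H.symm3a hx (F.e k.succ) (F.e a.succ) (F.e a.succ), H.symm3b hx (F.e a.succ) (F.e k.succ) (F.e a.succ)]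

lemma sum_ctr (F : Frame u x) (H : HC u) (hx : x ∈ Om u) :
    ‖x‖ ^ 3 * ∑ k, fderiv ℝ u x (bv k) * ctrL (D2 u x) (D3 u x) (bv k)
      = (∑ k, F.g k * ∑ a, F.lam a * F.tau a a k) - sN u x * ∑ i, F.lam i ^ 2 := by
  rw [sum_mul_onb F.e, Fin.sum_univ_succ, F.D1_zero H hx, F.sum_lam2 H hx, mul_add, Finset.mul_sum]
  have h1 : ∀ k : Fin n, ‖x‖ ^ 3 * (fderiv ℝ u x (F.e k.succ) * ctrL (D2 u x) (D3 u x) (F.e k.succ))
      = F.g k * ∑ a, F.lam a * F.tau a a k := by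
    intro k
    rw [← ctr_es F H hx k]
    unfold Frame.g
    ring
  simp_rw [h1]
  have h2 : ‖x‖ ^ 3 * (sN u x * ctrL (D2 u x) (D3 u x) (F.e 0))
      = - (sN u x * (‖x‖ ^ 2 * hs2 (D2 u x))) := by
    have := ctr_e0 F H hx
    calc ‖x‖ ^ 3 * (sN u x * ctrL (D2 u x) (D3 u x) (F.e 0))
        = ‖x‖ ^ 2 * sN u x * (‖x‖ * ctrL (D2 u x) (D3 u x) (F.e 0)) := by ring
      _ = _ := by rw [this]; ring
  rw [h2]
  ring

lemma hs3_frame (F : Frame u x) (H : HC u) (hx : x ∈ Om u) :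
    ‖x‖ ^ 4 * hs3 (D3 u x) = (∑ a, ∑ b, ∑ c, F.tau a b c ^ 2) + 3 * ∑ i, F.lam i ^ 2 := by
  have hn : ‖x‖ ≠ 0 := norm_ne_zero_iff.2 (H.ne_zero hx)
  have e0 : ∀ v w, ‖x‖ * D3 u x (F.e 0) v w = - D2 u x v w := by
    intro v w
    rw [F.e0, map_smul, H.euler3 hx]
    simp only [_root_.smul_apply, _root_.neg_apply, smul_eq_mul]
    field_simp
  have e1 : ∀ v w, D3 u x v (F.e 0) w = D3 u x (F.e 0) v w := fun v w => H.symm3a hx _ _ _
  have e2 : ∀ v w, D3 u x v w (F.e 0) = D3 u x (F.e 0) v w := fun v w => by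
    rw [H.symm3b hx, H.symm3a hx]
  have e3 : ∀ w, D3 u x (F.e 0) (F.e 0) w = 0 := by
    intro w
    have := e0 (F.e 0) w
    rw [F.D2_zero' H hx, neg_zero] at this
    exact (mul_eq_zero.mp this).resolve_left hn
  have e4 : ∀ w, D3 u x (F.e 0) w (F.e 0) = 0 := by
    intro w; rw [H.symm3b hx, e3]
  have e5 : ∀ w, D3 u x w (F.e 0) (F.e 0) = 0 := by
    intro w; rw [e1, e4]
  have hsum : hs3 (D3 u x) = (∑ a : Fin n, ∑ b : Fin n, ∑ c : Fin n,
      D3 u x (F.e a.succ) (F.e b.succ) (F.e c.succ) ^ 2)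
      + 3 * ∑ b : Fin n, ∑ c : Fin n, D3 u x (F.e 0) (F.e b.succ) (F.e c.succ) ^ 2 := by
    rw [hs3_onb F.e]
    simp only [Fin.sum_univ_succ, e3, e4, e1, e2, Finset.sum_add_distrib]
    simp only [ne_eq, OfNat.ofNat_ne_zero, not_false_eq_true, zero_pow, Finset.sum_const_zero,
      zero_add, add_zero]
    ring
  rw [hsum, mul_add]
  congr 1
  · rw [Finset.mul_sum]
    refine Finset.sum_congr rfl fun a _ => ?_
    rw [Finset.mul_sum]
    refine Finset.sum_congr rfl fun b _ => ?_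
    rw [Finset.mul_sum]
    refine Finset.sum_congr rfl fun c _ => ?_
    unfold Frame.tau
    ring
  · have h1 : ‖x‖ ^ 4 * (3 * ∑ b : Fin n, ∑ c : Fin n, D3 u x (F.e 0) (F.e b.succ) (F.e c.succ) ^ 2)
        = 3 * ∑ b : Fin n, ∑ c : Fin n, ‖x‖ ^ 4 * D3 u x (F.e 0) (F.e b.succ) (F.e c.succ) ^ 2 := by
      simp only [← Finset.mul_sum]
      ring
    rw [h1]
    congr 1
    refine Finset.sum_congr rfl fun b _ => ?_
    have h2 : ∀ c : Fin n, ‖x‖ ^ 4 * D3 u x (F.e 0) (F.e b.succ) (F.e c.succ) ^ 2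
        = if b = c then F.lam c ^ 2 else 0 := by
      intro c
      have : ‖x‖ ^ 4 * D3 u x (F.e 0) (F.e b.succ) (F.e c.succ) ^ 2
          = (‖x‖ * (‖x‖ * D3 u x (F.e 0) (F.e b.succ) (F.e c.succ))) ^ 2 := by ring
      rw [this, e0, mul_neg, F.D2_ss]
      split_ifs <;> simp
    simp_rw [h2]
    rw [Finset.sum_ite_eq Finset.univ b, if_pos (Finset.mem_univ _)]

/-- at a critical point of `Ph` with `D²u ≠ 0` the Laplacian of `Ph` is negative -/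
lemma lap_neg_crit (hn : 2 ≤ n) {c : ℝ} (hc : c = n / (n + 2)) (H : HC u) (hx : x ∈ Wn u)
    (hcr : fderiv ℝ (Ph u c) x = 0) : (Δ (Ph u c)) x < 0 := by
  have hxO : x ∈ Om u := hx.1
  obtain ⟨F⟩ := exists_frame H hxO
  have hx0 : x ≠ 0 := H.ne_zero hxO
  have hr : 0 < ‖x‖ := norm_pos_iff.2 hx0
  have hux : 0 < u x := hxO
  have hs : 0 < sN u x := by unfold sN; positivity
  have hus : u x = sN u x * ‖x‖ := by unfold sN; field_simp
  have hP2 := F.sum_lam2 H hxO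
  have hP : 0 < ∑ i, F.lam i ^ 2 := by
    rw [hP2]; exact mul_pos (by positivity) hx.2
  have hQ : (∑ i, F.g i ^ 2) + sN u x ^ 2 = Sq u x := by
    rw [F.sum_g2 H hxO, normsq_eq_sum]; rfl
  -- the gradient condition
  have hgr : ∀ k, sN u x ^ 2 * (∑ a, F.lam a * F.tau a a k)
      = -(c * ((∑ i, F.g i ^ 2) + sN u x ^ 2) * F.lam k + sN u x * ∑ i, F.lam i ^ 2) * F.g k := by
    intro k
    have h1 : fderiv ℝ (Ph u c) x (F.e k.succ) = 0 := by rw [hcr]; rfl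
    rw [fderiv_Ph H c hxO] at h1
    have h2 := ctr_es F H hxO k
    have h3 := D2g F H hxO k
    have h4 : fderiv ℝ u x (F.e k.succ) = F.g k := rfl
    rw [h4] at h1
    rw [← h2, hQ, hP2]
    have h5 : ‖x‖ * (-(2 * c * Sq u x * D2 u x (F.e k.succ) (∇ u x))
      - (2 * u x * F.g k * hs2 (D2 u x) + 2 * u x ^ 2 * ctrL (D2 u x) (D3 u x) (F.e k.succ))) = 0 := by
      rw [h1, mul_zero]
    rw [hus] at h5
    have h6 : -(2 * c * Sq u x * (‖x‖ * D2 u x (F.e k.succ) (∇ u x)))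
      - (2 * sN u x * ‖x‖ ^ 2 * F.g k * hs2 (D2 u x)
        + 2 * sN u x ^ 2 * (‖x‖ ^ 3 * ctrL (D2 u x) (D3 u x) (F.e k.succ))) = 0 := by
      rw [← h5]; ring
    rw [h3] at h6
    linarith
  have hkey := key619 hn F.lam F.g (sN u x) c F.tau hc hs (F.stf H hxO) (F.sum_lam H hxO) hP hgr
  -- the Laplacian
  have h7 : ‖x‖ ^ 2 * (Δ (Ph u c)) x = -(2 * c * ((∑ i, F.g i ^ 2) + sN u x ^ 2) * ∑ i, F.lam i ^ 2)
      - 4 * c * (∑ k, F.lam k ^ 2 * F.g k ^ 2)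
      - 2 * (∑ i, F.g i ^ 2) * (∑ i, F.lam i ^ 2)
      - 8 * sN u x * (∑ k, F.g k * ∑ a, F.lam a * F.tau a a k)
      - 2 * sN u x ^ 2 * (∑ a, ∑ b, ∑ c, F.tau a b c ^ 2) := by
    rw [lap_Ph H c hxO, ← sumL F H hxO]
    have h8 := sum_ctr F H hxO
    have h9 := hs3_frame F H hxO
    have h10 : ∑ k, F.g k * ∑ a, F.lam a * F.tau a a k
        = ‖x‖ ^ 3 * (∑ k, fderiv ℝ u x (bv k) * ctrL (D2 u x) (D3 u x) (bv k))
          + sN u x * ∑ i, F.lam i ^ 2 := by linarith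
    have h11 : ∑ a, ∑ b, ∑ c, F.tau a b c ^ 2 = ‖x‖ ^ 4 * hs3 (D3 u x) - 3 * ∑ i, F.lam i ^ 2 := by
      linarith
    rw [h10, h11, hQ, hP2]
    have h12 : ∑ i, F.g i ^ 2 = Sq u x - sN u x ^ 2 := by linarith
    rw [h12, hus]
    ring
  have h13 : ‖x‖ ^ 2 * (Δ (Ph u c)) x < 0 := by rw [h7]; exact hkey
  by_contra hcon
  push Not at hcon
  have := mul_nonneg (sq_nonneg ‖x‖) hcon
  linarith

end frames

lemma Ph_hom {u : E d → ℝ} (hh : Hom1 u) {c r : ℝ} (hr : 0 < r) (x : E d) :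
    Ph u c (r • x) = Ph u c x := by
  unfold Ph Sq
  rw [D1_hom hh hr, hh r hr, ← D2_hom hh hr x]
  have h1 : hs2 (r • D2 u (r • x)) = r ^ 2 * hs2 (D2 u (r • x)) := by
    unfold hs2
    rw [Finset.mul_sum]
    refine Finset.sum_congr rfl fun i _ => ?_
    rw [Finset.mul_sum]
    refine Finset.sum_congr rfl fun j _ => ?_
    simp only [_root_.smul_apply, smul_eq_mul]
    ring
  rw [h1]
  ring

lemma tendsto_Ph {u : E d → ℝ} (hcu : Continuous u) {c : ℝ} {y : E d} (hy : y ∈ frontier (Om u))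
    (hr : RegPt u y) : Tendsto (Ph u c) (𝓝[Om u] y) (𝓝 0) := by
  obtain ⟨e, A, B, hJ⟩ := hr
  have huy : u y = 0 := by
    have hop : IsOpen (Om u) := isOpen_lt continuous_const hcu
    have h1 : y ∉ Om u := by
      intro h
      rw [hop.frontier_eq] at hy
      exact hy.2 h
    have h2 : u y ≤ 0 := not_lt.mp h1
    have h3 : 0 ≤ u y := by
      have h4 : closure (Om u) ⊆ {x | 0 ≤ u x} :=
        closure_minimal (fun x hx => (show 0 < u x from hx).le) (isClosed_le continuous_const hcu)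
      exact h4 (frontier_subset_closure hy)
    linarith
  have h1 : Tendsto (Sq u) (𝓝[Om u] y) (𝓝 (∑ i, (innerSL ℝ e (bv i)) ^ 2)) := by
    apply tendsto_finsetSum
    intro i _
    exact (((ContinuousLinearMap.apply ℝ ℝ (bv i)).continuous.tendsto _).comp hJ.t1).pow 2
  have h2 : ∑ i : Fin d, (innerSL ℝ e (bv i)) ^ 2 = 1 := by
    rw [← normsq_eq_sum, innerSL_apply_norm, hJ.kk.norm_e, one_pow]
  rw [h2] at h1
  have h3 : Tendsto (fun x => hs2 (D2 u x)) (𝓝[Om u] y) (𝓝 (hs2 A)) :=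
    (contDiff_hs2.continuous.tendsto A).comp hJ.t2
  have h4 : Tendsto u (𝓝[Om u] y) (𝓝 0) := by
    have := (hcu.tendsto y).mono_left (nhdsWithin_le_nhds (s := Om u))
    rwa [huy] at this
  have h5 := ((tendsto_const_nhds (x := (1:ℝ))).sub (h1.mul h1)).const_mul (c / 2) |>.sub
    ((h4.pow 2).mul h3)
  have h6 : c / 2 * ((1:ℝ) - 1 * 1) - 0 ^ 2 * hs2 A = 0 := by ring
  rw [h6] at h5
  exact h5

end AP2

open AP2 in
/-- **helper619's a priori inequality** -/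
theorem apriori619 {n : ℕ} (hn : 2 ≤ n) {u : E (n + 1) → ℝ} (H : HC u)
    (hreg : ∀ y ∈ frontier (Om u), y ≠ 0 → RegPt u y)
    (hP : ∀ x ∈ Om u, ‖fderiv ℝ u x‖ ≤ 1) :
    ∀ x ∈ Om u, u x ^ 2 * hs2 (D2 u x) ≤ (n / (2 * (n + 2))) * (1 - ‖fderiv ℝ u x‖ ^ 4) := by
  intro x1 hx1
  set c : ℝ := n / (n + 2) with hc
  have hSq : ∀ x, Sq u x = ‖fderiv ℝ u x‖ ^ 2 := fun x => by rw [normsq_eq_sum]; rfl
  suffices h : 0 ≤ Ph u c x1 by
    unfold Ph at h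
    rw [hSq] at h
    have e1 : (n:ℝ) / (2 * (n + 2)) = c / 2 := by rw [hc]; field_simp
    rw [e1]
    have e2 : ‖fderiv ℝ u x1‖ ^ 4 = ‖fderiv ℝ u x1‖ ^ 2 * ‖fderiv ℝ u x1‖ ^ 2 := by ring
    rw [e2]
    linarith
  by_contra hcon
  push Not at hcon
  obtain ⟨x0, hx0, hneg, hmin⟩ := cone_min H.cont H.hh (G0 := Ph u c)
    (fun x hx => (cPh H c hx).continuousAt) (fun x r hr => Ph_hom H.hh hr x)
    (fun y hy hy0 => tendsto_Ph H.cont hy (hreg y hy hy0)) hx1 hcon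
  have hloc : IsLocalMin (Ph u c) x0 := by
    filter_upwards [H.isOpen.mem_nhds hx0] with y hy
    exact hmin y hy
  have hc0 : 0 < c := by rw [hc]; positivity
  -- `D²u ≠ 0` at the minimum
  have hW : x0 ∈ Wn u := by
    refine ⟨hx0, ?_⟩
    by_contra h
    have h1 : hs2 (D2 u x0) = 0 := le_antisymm (not_lt.mp h) (hs2_nonneg _)
    unfold Ph at hneg
    rw [h1, hSq] at hneg
    have h2 := hP x0 hx0
    have h3 := norm_nonneg (fderiv ℝ u x0)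
    have h4 : ‖fderiv ℝ u x0‖ ^ 2 ≤ 1 := by nlinarith
    have h5 : ‖fderiv ℝ u x0‖ ^ 2 * ‖fderiv ℝ u x0‖ ^ 2 ≤ 1 := by nlinarith [sq_nonneg ‖fderiv ℝ u x0‖]
    have h6 : 0 ≤ c / 2 * (1 - ‖fderiv ℝ u x0‖ ^ 2 * ‖fderiv ℝ u x0‖ ^ 2) :=
      mul_nonneg (by positivity) (by linarith)
    linarith
  have h1 := lap_neg_crit hn hc H hW hloc.fderiv_eq_zero
  have h2 := Crest.Agent.R077.laplacian_nonneg_of_isLocalMin (cPh H c hx0) hloc
  linarith

theorem apriori619_cone {n : ℕ} (hn : 2 ≤ n) {K : ℝ≥0} {u : E (n + 1) → ℝ} (hu : LM u K)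
    (hh : Hom1 u) (hreg : ∀ y ∈ frontier (Om u), y ≠ 0 → RegPt u y) :
    ∀ x ∈ Om u, u x ^ 2 * hs2 (D2 u x) ≤ (n / (2 * (n + 2))) * (1 - ‖fderiv ℝ u x‖ ^ 4) := by
  have hH : Harm u (Om u) := hu.harm
  exact apriori619 hn ⟨hu.lip.continuous, hH.1, hH.2, hh⟩ hreg
    (grad_le_one (by omega) hu hh hH hreg)

end
end Crest.Agent.R097
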