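import Crest.Agent.R097.SFlux

/-!
# Row 97, S-block: first order expansion of `|∇u|²` at regular free boundary points
-/

set_option autoImplicit false
open MeasureTheory Metric Set Filter Topology InnerProductSpace
open scoped RealInnerProductSpace NNReal ENNReal Gradient Laplacian

namespace Crest.Agent.R097

variable {d : ℕ}

lemma KK.A_apply {e : E d} {A : Bil d} {B : Tri d} (h : KK e A B) (v : E d) :
    A e v = A e e * ⟪e, v⟫_ℝ := by
  have h1 : A e (v - ⟪e, v⟫_ℝ • e) = 0 := by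
    refine h.eig _ ?_
    rw [inner_sub_right, inner_smul_right, real_inner_self_eq_norm_sq, h.norm_e]
    ring
  rw [map_sub, map_smul, smul_eq_mul] at h1
  linarith

lemma abs_bil_le {A : Bil d} {v w : E d} {a b c : ℝ} (hA : ‖A‖ ≤ a) (hv : ‖v‖ ≤ b) (hw : ‖w‖ ≤ c) :
    |A v w| ≤ a * b * c := by
  have h1 : ‖A v‖ ≤ a * b := (A.le_opNorm v).trans
    (mul_le_mul hA hv (norm_nonneg _) ((norm_nonneg _).trans hA))
  exact abs_clm_le h1 hw

/-- the gradient as a vector -/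
lemma grad_sub_norm (u : E d → ℝ) (x e : E d) : ‖∇ u x - e‖ = ‖fderiv ℝ u x - innerSL ℝ e‖ := by
  have h : toDual ℝ (E d) (∇ u x - e) = fderiv ℝ u x - innerSL ℝ e := by
    rw [map_sub]
    congr 1
    simp [gradient]
  rw [← h, LinearIsometryEquiv.norm_map]

lemma normsq_eq_sum (L : E d →L[ℝ] ℝ) : ‖L‖ ^ 2 = ∑ i, (L (bv i)) ^ 2 := by
  obtain ⟨v, hv⟩ : ∃ v : E d, ∀ w, ⟪v, w⟫_ℝ = L w :=
    ⟨(toDual ℝ (E d)).symm L, fun w => by simp⟩
  have h1 : ‖L‖ = ‖v‖ := by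
    have : L = toDual ℝ (E d) v := by ext w; simp [hv]
    rw [this]; simp
  rw [h1, EuclideanSpace.norm_sq_eq]
  refine Finset.sum_congr rfl fun i _ => ?_
  rw [← hv, inner_bv', Real.norm_eq_abs, sq_abs]

lemma apply_eq_sum (L : E d →L[ℝ] ℝ) (v : E d) : L v = ∑ i, v i * L (bv i) := by
  conv_lhs => rw [← sum_bv v, map_sum]
  simp [smul_eq_mul]

/-- the derivative of `|∇u|²` is `2 D²u(·, ∇u)` -/
lemma hasFDerivAt_normsq {u : E d → ℝ} {x : E d} (hu : ContDiffAt ℝ 2 u x) :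
    HasFDerivAt (fun y => ‖fderiv ℝ u y‖ ^ 2) ((2 : ℝ) • ((D2 u x).flip (∇ u x))) x := by
  have h3 : ContDiffAt ℝ 1 (fderiv ℝ u) x := hu.fderiv_right (by norm_num)
  have h4 : HasFDerivAt (fderiv ℝ u) (fderiv ℝ (fderiv ℝ u) x) x :=
    (h3.differentiableAt (by simp)).hasFDerivAt
  have h5 : ∀ i : Fin d, HasFDerivAt (fun y => (fderiv ℝ u y (bv i)) ^ 2)
      ((2 * (fderiv ℝ u x (bv i))) • ((D2 u x).flip (bv i))) x := by
    intro i
    have h6 : HasFDerivAt (fun y => fderiv ℝ u y (bv i)) ((D2 u x).flip (bv i)) x := by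
      have := h4.clm_apply (hasFDerivAt_const (bv i) x)
      refine this.congr_fderiv ?_
      ext v
      simp [D2]
    have h7 := h6.pow 2
    refine h7.congr_fderiv ?_
    ext v
    simp
  have h8 : HasFDerivAt (fun y => ∑ i, (fderiv ℝ u y (bv i)) ^ 2)
      (∑ i, (2 * (fderiv ℝ u x (bv i))) • ((D2 u x).flip (bv i))) x :=
    HasFDerivAt.fun_sum fun i _ => h5 i
  have e1 : (fun y => ‖fderiv ℝ u y‖ ^ 2) = fun y => ∑ i, (fderiv ℝ u y (bv i)) ^ 2 := by
    ext y; rw [normsq_eq_sum]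
  rw [e1]
  refine h8.congr_fderiv ?_
  ext v
  rw [smul_apply, ContinuousLinearMap.flip_apply, apply_eq_sum (D2 u x v) (∇ u x)]
  simp only [sum_apply, smul_apply, ContinuousLinearMap.flip_apply, smul_eq_mul,
    gradient_coord, Finset.mul_sum]
  refine Finset.sum_congr rfl fun i _ => ?_
  ring

/-- the size of the error in the expansion -/
lemma exp_algebra {e : E d} {A : Bil d} {B : Tri d} (h : KK e A B) {M : Bil d} {p v : E d} {δ : ℝ}
    (hδ0 : 0 ≤ δ) (hδ : δ ≤ 1) (hM : ‖M - A‖ ≤ δ) (hp : ‖p - e‖ ≤ δ) (hs : ∀ x y, M x y = M y x) :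
    |2 * M v p - 2 * A e e * ⟪p, v⟫_ℝ| ≤ δ * (4 * (1 + ‖A‖)) * ‖v‖ := by
  have hp2 : ‖p‖ ≤ 2 := by
    have := norm_le_norm_add_norm_sub' p e
    rw [h.norm_e] at this
    linarith
  have e1 : 2 * M v p - 2 * A e e * ⟪p, v⟫_ℝ
      = 2 * (M - A) p v + 2 * A (p - e) v - 2 * (A e e * ⟪p - e, v⟫_ℝ) := by
    rw [hs v p, sub_apply, sub_apply, map_sub, sub_apply, h.A_apply v, inner_sub_left]
    ring
  rw [e1]
  have h1 : |(M - A) p v| ≤ δ * 2 * ‖v‖ := abs_bil_le hM hp2 le_rfl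
  have h2 : |A (p - e) v| ≤ ‖A‖ * δ * ‖v‖ := abs_bil_le le_rfl hp le_rfl
  have h3 : |A e e| ≤ ‖A‖ := by
    have := abs_bil_le (A := A) (v := e) (w := e) le_rfl h.norm_e.le h.norm_e.le
    linarith
  have h4 : |⟪p - e, v⟫_ℝ| ≤ δ * ‖v‖ :=
    (abs_real_inner_le_norm _ _).trans (mul_le_mul_of_nonneg_right hp (norm_nonneg _))
  have h5 : |A e e * ⟪p - e, v⟫_ℝ| ≤ ‖A‖ * (δ * ‖v‖) := by
    rw [abs_mul]; exact mul_le_mul h3 h4 (abs_nonneg _) (norm_nonneg _)
  have h6 := abs_le.1 h1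
  have h7 := abs_le.1 h2
  have h8 := abs_le.1 h5
  rw [abs_le]
  constructor <;> nlinarith [norm_nonneg v, norm_nonneg A]

lemma exp_algebra2 {e : E d} {A : Bil d} {B : Tri d} (h : KK e A B) {M : Bil d} {p : E d} {δ : ℝ}
    (hδ0 : 0 ≤ δ) (hδ : δ ≤ 1) (hM : ‖M - A‖ ≤ δ) (hp : ‖p - e‖ ≤ δ) :
    |M p p - A e e| ≤ δ * (4 * (1 + ‖A‖)) := by
  have hp2 : ‖p‖ ≤ 2 := by
    have := norm_le_norm_add_norm_sub' p e
    rw [h.norm_e] at this
    linarith
  have e1 : M p p - A e e = (M - A) p p + A (p - e) p + A e (p - e) := by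
    rw [sub_apply, sub_apply, map_sub, sub_apply, map_sub]
    ring
  rw [e1]
  have h1 : |(M - A) p p| ≤ δ * 2 * 2 := abs_bil_le hM hp2 hp2
  have h2 : |A (p - e) p| ≤ ‖A‖ * δ * 2 := abs_bil_le le_rfl hp hp2
  have h3 : |A e (p - e)| ≤ ‖A‖ * 1 * δ := abs_bil_le le_rfl h.norm_e.le hp
  have h6 := abs_le.1 h1
  have h7 := abs_le.1 h2
  have h8 := abs_le.1 h3
  rw [abs_le]
  constructor <;> nlinarith [norm_nonneg A]

/-- the expansion `1 - |∇u|² = -2 u D²u(∇u,∇u) + o(u)` at a regular point all of whose neighbours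
on the free boundary are regular -/
theorem expand_near {u : E d → ℝ} {K : ℝ≥0} (hu : LM u K) (hsm : ContDiffOn ℝ (⊤ : ℕ∞) u (Om u))
    {U : Set (E d)} (hU : IsOpen U) (hreg : ∀ y ∈ U, y ∈ frontier (Om u) → RegPt u y)
    {y : E d} (hyU : y ∈ U) (hy : y ∈ frontier (Om u)) {ε : ℝ} (hε : 0 < ε) :
    ∀ᶠ x in 𝓝[Om u] y,
      |1 - ‖fderiv ℝ u x‖ ^ 2 + 2 * u x * D2 u x (∇ u x) (∇ u x)| ≤ ε * u x := by
  have hcu : Continuous u := hu.continuous
  have hO : IsOpen (Om u) := isOpen_Om hcu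
  obtain ⟨e, A, B, hj⟩ := hreg y hyU hy
  set κ : ℝ := 4 * (1 + ‖A‖) with hκ
  have hκ0 : 0 < κ := by have := norm_nonneg A; positivity
  set δ : ℝ := min (1 / 2) (ε / (4 * κ)) with hδdef
  have hδ0 : 0 < δ := lt_min (by norm_num) (by positivity)
  have hδ1 : δ ≤ 1 / 2 := min_le_left _ _
  have hδ2 : 4 * (δ * κ) ≤ ε := by
    have h1 : δ ≤ ε / (4 * κ) := min_le_right _ _
    rw [le_div_iff₀ (by positivity)] at h1
    linarith
  -- the good ball
  have h1 : ∀ᶠ x in 𝓝[Om u] y, ‖fderiv ℝ u x - innerSL ℝ e‖ < δ := by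
    have := hj.t1
    rw [tendsto_iff_norm_sub_tendsto_zero] at this
    exact this.eventually (gt_mem_nhds hδ0)
  have h2 : ∀ᶠ x in 𝓝[Om u] y, ‖D2 u x - A‖ < δ := by
    have := hj.t2
    rw [tendsto_iff_norm_sub_tendsto_zero] at this
    exact this.eventually (gt_mem_nhds hδ0)
  have h12 := h1.and h2
  rw [eventually_nhdsWithin_iff] at h12
  obtain ⟨r, hr, hball⟩ := Metric.eventually_nhds_iff_ball.1 (h12.and (hU.mem_nhds hyU))
  have hgood : ∀ x ∈ ball y r, x ∈ Om u → ‖∇ u x - e‖ ≤ δ ∧ ‖D2 u x - A‖ ≤ δ := by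
    intro x hx hxO
    have h3 := (hball x hx).1 hxO
    rw [grad_sub_norm]
    exact ⟨h3.1.le, h3.2.le⟩
  rw [eventually_nhdsWithin_iff]
  filter_upwards [ball_mem_nhds y (by positivity : (0 : ℝ) < r / 3)] with x hx hxO
  -- the nearest free boundary point
  have hyO : y ∉ Om u := by
    rw [frontier, hO.interior_eq] at hy; exact hy.2
  have hcl : IsClosed (Om u)ᶜ := hO.isClosed_compl
  obtain ⟨z, hzO, hz⟩ := hcl.exists_infDist_eq_dist ⟨y, hyO⟩ x
  set ρ : ℝ := dist x z with hρ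
  have hρy : ρ ≤ dist x y := by
    rw [← hz]; exact infDist_le_dist_of_mem hyO
  have hxz : x ≠ z := fun h => hzO (h ▸ hxO)
  have hρ0 : 0 < ρ := dist_pos.2 hxz
  have hxy : dist x y < r / 3 := hx
  have hBO : ball x ρ ⊆ Om u := by
    intro w hw
    by_contra h
    have h3 : infDist x (Om u)ᶜ ≤ dist x w := infDist_le_dist_of_mem h
    rw [hz] at h3
    have h4 : dist w x < ρ := hw
    rw [dist_comm] at h4
    linarith
  have hBy : ball x ρ ⊆ ball y r := by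
    intro w hw
    have h4 : dist w x < ρ := hw
    have := dist_triangle w x y
    show dist w y < r
    linarith
  have hzcl : z ∈ closure (ball x ρ) := by
    rw [closure_ball x hρ0.ne']
    show dist z x ≤ ρ
    rw [dist_comm]
  have hzf : z ∈ frontier (Om u) := by
    rw [frontier, hO.interior_eq]
    exact ⟨closure_mono hBO hzcl, hzO⟩
  have hzU : z ∈ U := by
    refine (hball z ?_).2
    show dist z y < r
    have h3 := dist_triangle z x y
    have h4 : dist z x = ρ := by rw [dist_comm]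
    linarith
  obtain ⟨e', A', B', hj'⟩ := hreg z hzU hzf
  -- the function `|∇u|² - 2 A(e,e) u` is almost constant on the ball
  have hC2 : ∀ w ∈ ball x ρ, ContDiffAt ℝ 2 u w := fun w hw =>
    (hsm.contDiffAt (hO.mem_nhds (hBO hw))).of_le two_le_smooth
  have hsymm : ∀ w ∈ ball x ρ, ∀ a b, D2 u w a b = D2 u w b a := by
    intro w hw a b
    have h3 : IsSymmSndFDerivAt ℝ u w := (hC2 w hw).isSymmSndFDerivAt (by simp)
    exact h3.eq a b
  have hud : ∀ w ∈ ball x ρ, HasFDerivAt u (fderiv ℝ u w) w := fun w hw =>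
    ((hC2 w hw).differentiableAt (by norm_num)).hasFDerivAt
  set Φ : E d → ℝ := fun w => ‖fderiv ℝ u w‖ ^ 2 - (2 * A e e) * u w with hΦ
  have hΦd : ∀ w ∈ ball x ρ, HasFDerivWithinAt Φ
      ((2 : ℝ) • ((D2 u w).flip (∇ u w)) - (2 * A e e) • fderiv ℝ u w) (ball x ρ) w := by
    intro w hw
    exact (((hasFDerivAt_normsq (hC2 w hw)).sub ((hud w hw).const_mul (2 * A e e)))).hasFDerivWithinAt
  have hΦb : ∀ w ∈ ball x ρ, ‖(2 : ℝ) • ((D2 u w).flip (∇ u w)) - (2 * A e e) • fderiv ℝ u w‖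
      ≤ δ * κ := by
    intro w hw
    refine ContinuousLinearMap.opNorm_le_bound _ (by positivity) fun v => ?_
    have h3 := hgood w (hBy hw) (hBO hw)
    have h4 := exp_algebra hj.kk (v := v) hδ0.le (hδ1.trans (by norm_num)) h3.2 h3.1 (hsymm w hw)
    rw [Real.norm_eq_abs]
    convert h4 using 2
    rw [sub_apply, smul_apply, smul_apply, ContinuousLinearMap.flip_apply, ← inner_gradient]
    simp only [smul_eq_mul]
  have hΦlip : ∀ w ∈ ball x ρ, |Φ x - Φ w| ≤ δ * κ * ρ := by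
    intro w hw
    have h3 := (convex_ball x ρ).norm_image_sub_le_of_norm_hasFDerivWithin_le hΦd hΦb hw
      (mem_ball_self hρ0)
    rw [Real.norm_eq_abs] at h3
    refine h3.trans (mul_le_mul_of_nonneg_left ?_ (by positivity))
    rw [← dist_eq_norm, dist_comm]
    exact le_of_lt hw
  have hne : (𝓝[ball x ρ] z).NeBot := mem_closure_iff_nhdsWithin_neBot.1 hzcl
  have hle : 𝓝[ball x ρ] z ≤ 𝓝[Om u] z := nhdsWithin_mono _ hBO
  have huz : u z = 0 := le_antisymm (not_lt.1 hzO) (hu.nonneg z)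
  have hΦz : Tendsto Φ (𝓝[ball x ρ] z) (𝓝 1) := by
    have h3 : Tendsto (fun w => ‖fderiv ℝ u w‖ ^ 2) (𝓝[ball x ρ] z) (𝓝 1) :=
      (hj'.norm_sq).mono_left hle
    have h4 : Tendsto u (𝓝[ball x ρ] z) (𝓝 0) := by
      have := (hcu.tendsto z).mono_left (nhdsWithin_le_nhds (s := ball x ρ))
      rwa [huz] at this
    have h5 := h3.sub (h4.const_mul (2 * A e e))
    simpa using h5
  have hmain : |Φ x - 1| ≤ δ * κ * ρ := by
    have h3 : Tendsto (fun w => |Φ x - Φ w|) (𝓝[ball x ρ] z) (𝓝 |Φ x - 1|) :=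
      (tendsto_const_nhds.sub hΦz).abs
    refine le_of_tendsto h3 ?_
    filter_upwards [self_mem_nhdsWithin] with w hw
    exact hΦlip w hw
  -- nondegeneracy
  have hnd : ρ ≤ 2 * u x := by
    have h3 : ∀ w ∈ ball x ρ, |(u x - ⟪e, x⟫_ℝ) - (u w - ⟪e, w⟫_ℝ)| ≤ δ * ‖x - w‖ := by
      intro w hw
      have h4 := (convex_ball x ρ).norm_image_sub_le_of_norm_hasFDerivWithin_le
        (f := fun w => u w - ⟪e, w⟫_ℝ) (f' := fun w => fderiv ℝ u w - innerSL ℝ e) (C := δ)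
        (fun w hw => ((hud w hw).sub ((innerSL ℝ e).hasFDerivAt (x := w))).hasFDerivWithinAt)
        (fun w hw => by rw [← grad_sub_norm]; exact (hgood w (hBy hw) (hBO hw)).1) hw
        (mem_ball_self hρ0)
      simpa [Real.norm_eq_abs] using h4
    have h4 : ∀ τ : ℝ, 0 < τ → τ < ρ → τ / 2 ≤ u x := by
      intro τ hτ hτρ
      have hw : x - τ • e ∈ ball x ρ := by
        rw [mem_ball, dist_eq_norm, sub_sub_cancel_left, norm_neg, norm_smul, hj.kk.norm_e,
          Real.norm_of_nonneg hτ.le, mul_one]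
        exact hτρ
      have h5 := h3 _ hw
      have h6 : ‖x - (x - τ • e)‖ = τ := by
        rw [sub_sub_cancel, norm_smul, hj.kk.norm_e, Real.norm_of_nonneg hτ.le, mul_one]
      have h7 : ⟪e, x - τ • e⟫_ℝ = ⟪e, x⟫_ℝ - τ := by
        rw [inner_sub_right, inner_smul_right, real_inner_self_eq_norm_sq, hj.kk.norm_e]; ring
      rw [h6, h7] at h5
      have h8 := (abs_le.1 h5).1
      have h9 := hu.nonneg (x - τ • e)
      nlinarith
    by_contra hcon
    have hcon' : 2 * u x < ρ := not_le.1 hcon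
    have hux : 0 < u x := hxO
    have h5 := h4 ((2 * u x + ρ) / 2) (by linarith) (by linarith)
    linarith
  have hlast := exp_algebra2 hj.kk hδ0.le (hδ1.trans (by norm_num))
    (hgood x (hBy (mem_ball_self hρ0)) hxO).2 (hgood x (hBy (mem_ball_self hρ0)) hxO).1
  have hux : 0 < u x := hxO
  have e1 : 1 - ‖fderiv ℝ u x‖ ^ 2 + 2 * u x * D2 u x (∇ u x) (∇ u x)
      = -(Φ x - 1) + 2 * u x * (D2 u x (∇ u x) (∇ u x) - A e e) := by
    simp only [hΦ]; ring
  rw [e1]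
  have h10 : |2 * u x * (D2 u x (∇ u x) (∇ u x) - A e e)| ≤ 2 * u x * (δ * κ) := by
    rw [abs_mul, abs_of_pos (by positivity : (0 : ℝ) < 2 * u x)]
    exact mul_le_mul_of_nonneg_left hlast (by positivity)
  have h11 : δ * κ * ρ ≤ δ * κ * (2 * u x) := mul_le_mul_of_nonneg_left hnd (by positivity)
  calc |-(Φ x - 1) + 2 * u x * (D2 u x (∇ u x) (∇ u x) - A e e)|
      ≤ |-(Φ x - 1)| + |2 * u x * (D2 u x (∇ u x) (∇ u x) - A e e)| := abs_add_le _ _
    _ ≤ δ * κ * (2 * u x) + 2 * u x * (δ * κ) := by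
        rw [abs_neg]; exact add_le_add (hmain.trans h11) h10
    _ = (4 * (δ * κ)) * u x := by ring
    _ ≤ ε * u x := mul_le_mul_of_nonneg_right hδ2 hux.le

end Crest.Agent.R097
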