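import Crest.Agent.R097.RFld0
import Crest.Agent.R097.SExp

/-!
# Row 97, reduction: the boundary condition of a certificate (node RBDRY)
-/

set_option autoImplicit false
set_option synthInstance.maxHeartbeats 400000
open MeasureTheory Metric Set Filter Topology InnerProductSpace
open scoped RealInnerProductSpace NNReal ENNReal Gradient Laplacian

namespace Crest.Agent.R097
namespace RB

variable {d : ℕ}

/-- the operator of a bilinear form -/
noncomputable def op (A : Bil d) : E d →L[ℝ] E d := ∑ i, (A (bv i)).smulRight (bv i)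

lemma inner_op (A : Bil d) (w v : E d) : ⟪w, op A v⟫_ℝ = A w v := by
  rw [bil_sum A w v]
  unfold op
  rw [sum_apply, inner_sum]
  refine Finset.sum_congr rfl fun i _ => ?_
  rw [ContinuousLinearMap.smulRight_apply, inner_smul_right, inner_bv']
  ring

lemma op_symm {A : Bil d} (hA : ∀ x y, A x y = A y x) : (op A).toLinearMap.IsSymmetric := by
  intro v w
  show ⟪op A v, w⟫_ℝ = ⟪v, op A w⟫_ℝ
  rw [real_inner_comm, inner_op, inner_op, hA]

lemma op_coord (A : Bil d) (v : E d) (i : Fin d) : (op A v) i = A (bv i) v := by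
  rw [← inner_bv i (op A v), inner_op]

/-- the bilinear form `(v, w) ↦ ⟪S v, T w⟫` -/
noncomputable def gram (S T : E d →L[ℝ] E d) : Bil d :=
  ((innerSL ℝ).comp S).flip.comp T |>.flip

lemma gram_apply (S T : E d →L[ℝ] E d) (v w : E d) : gram S T v w = ⟪S v, T w⟫_ℝ := rfl

lemma hs2_onb {ι : Type*} [Fintype ι] (e : OrthonormalBasis ι ℝ (E d)) {A : Bil d}
    (hA : ∀ x y, A x y = A y x) {l : ι → ℝ} (he : ∀ c, op A (e c) = l c • e c) :
    hs2 A = ∑ c, l c ^ 2 := by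
  have h := tr_onb e (gram (op A) (op A))
  have h1 : ∀ c, gram (op A) (op A) (e c) (e c) = l c ^ 2 := by
    intro c
    rw [gram_apply, he, inner_smul_left, inner_smul_right, real_inner_self_eq_norm_sq, e.norm_eq_one]
    simp; ring
  have h2 : ∀ i, gram (op A) (op A) (bv i) (bv i) = ∑ j, (A (bv i) (bv j)) ^ 2 := by
    intro i
    rw [gram_apply, inner_eq_sum]
    refine Finset.sum_congr rfl fun j _ => ?_
    rw [op_coord, hA (bv j) (bv i)]
    ring
  simp_rw [h1, h2] at h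
  rw [h]; rfl

lemma tr_onb' {ι : Type*} [Fintype ι] (e : OrthonormalBasis ι ℝ (E d)) {A : Bil d}
    {l : ι → ℝ} (he : ∀ c, op A (e c) = l c • e c) :
    ∑ i, A (bv i) (bv i) = ∑ c, l c := by
  rw [← tr_onb e A]
  refine Finset.sum_congr rfl fun c _ => ?_
  rw [← inner_op, he, inner_smul_right, real_inner_self_eq_norm_sq, e.norm_eq_one]
  simp

lemma tr3_onb {ι : Type*} [Fintype ι] (e : OrthonormalBasis ι ℝ (E d)) {A : Bil d}
    (hA : ∀ x y, A x y = A y x) {l : ι → ℝ} (he : ∀ c, op A (e c) = l c • e c) :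
    tr3 A = ∑ c, l c ^ 3 := by
  have h := tr_onb e (gram (op A) ((op A).comp (op A)))
  have h1 : ∀ c, gram (op A) ((op A).comp (op A)) (e c) (e c) = l c ^ 3 := by
    intro c
    rw [gram_apply, ContinuousLinearMap.comp_apply, he, map_smul, he, inner_smul_left,
      inner_smul_right, inner_smul_right, real_inner_self_eq_norm_sq, e.norm_eq_one]
    simp; ring
  have h2 : ∀ i, gram (op A) ((op A).comp (op A)) (bv i) (bv i)
      = ∑ j, ∑ k, A (bv i) (bv j) * A (bv j) (bv k) * A (bv k) (bv i) := by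
    intro i
    rw [gram_apply, ContinuousLinearMap.comp_apply, inner_eq_sum]
    refine Finset.sum_congr rfl fun j _ => ?_
    rw [op_coord, op_coord, hA (bv j) (op A (bv i)), bil_sum A (op A (bv i)) (bv j), Finset.mul_sum]
    refine Finset.sum_congr rfl fun k _ => ?_
    rw [op_coord, hA (bv j) (bv i), hA (bv k) (bv j)]
    ring
  simp_rw [h1, h2] at h
  rw [h]; rfl

/-- trace of a trilinear form against `A` -/
lemma ctr_onb {ι : Type*} [Fintype ι] (e : OrthonormalBasis ι ℝ (E d)) {A : Bil d}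
    (hA : ∀ x y, A x y = A y x) {l : ι → ℝ} (he : ∀ c, op A (e c) = l c • e c) (C : Bil d) :
    ∑ i, ∑ j, C (bv i) (bv j) * A (bv i) (bv j) = ∑ c, l c * C (e c) (e c) := by
  have h := tr_onb e ((C.flip.comp (op A)).flip)
  have h0 : ∀ v w, ((C.flip.comp (op A)).flip) v w = C v (op A w) := fun v w => rfl
  simp_rw [h0] at h
  have h1 : ∀ c, C (e c) (op A (e c)) = l c * C (e c) (e c) := by
    intro c; rw [he, map_smul, smul_eq_mul]
  have h2 : ∀ i, C (bv i) (op A (bv i)) = ∑ j, C (bv i) (bv j) * A (bv i) (bv j) := by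
    intro i
    rw [apply_eq_sum (C (bv i)) (op A (bv i))]
    refine Finset.sum_congr rfl fun j _ => ?_
    rw [op_coord, hA (bv j) (bv i)]
    ring
  simp_rw [h1, h2] at h
  exact h.symm

lemma op_eq_act {A : Bil d} (hA : ∀ x y, A x y = A y x) (v : E d) : op A v = act A v := by
  refine ext_inner_left ℝ fun w => ?_
  rw [inner_op]
  unfold act
  rw [inner_sum, bil_sum A w v]
  refine Finset.sum_congr rfl fun i _ => ?_
  rw [inner_smul_right, inner_bv', hA v (bv i)]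
  ring

/-- part (1) of RBDRY: the spectrum and the third derivatives at a regular boundary point -/
theorem bdry_alg {n : ℕ} {e : E (n + 1)} {A : Bil (n + 1)} {B : Tri (n + 1)} (h : KK e A B)
    {y : E (n + 1)} (hy : y ≠ 0) (hAy : ∀ v, A y v = 0) (hey : ⟪e, y⟫_ℝ = 0) :
    (∃ (lam : Fin n → ℝ) (k0 : Fin n), ∑ i, lam i = 0 ∧ lam k0 = ‖y‖ * A e e ∧
      ∑ i, lam i ^ 2 = ‖y‖ ^ 2 * hs2 A ∧ ∑ i, lam i ^ 3 = ‖y‖ ^ 3 * tr3 A) ∧
    ∑ i, ∑ j, B e (bv i) (bv j) * A (bv i) (bv j) = 2 * A e e * hs2 A - tr3 A := by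
  have hA : ∀ x y, A x y = A y x := h.stfA.symm
  have hyn : ‖y‖ ≠ 0 := norm_ne_zero_iff.mpr hy
  -- the dimension is at least two
  obtain ⟨m, rfl⟩ : ∃ m, n = m + 1 := by
    rcases n with _ | m
    · exfalso
      have h1 : ∀ v : E (0 + 1), v = ⟪v, bv 0⟫_ℝ • bv 0 := by
        intro v
        ext i
        have : i = 0 := by
          apply Fin.ext
          have := i.2
          simp only [Fin.val_zero]
          omega
        subst this
        rw [inner_bv']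
        simp [bv]
      have h2 : ⟪e, y⟫_ℝ = ⟪e, bv 0⟫_ℝ * ⟪y, bv 0⟫_ℝ := by
        conv_lhs => rw [h1 e, h1 y]
        rw [inner_smul_left, inner_smul_right, real_inner_self_eq_norm_sq, norm_bv]
        simp
      rw [hey] at h2
      rcases mul_eq_zero.mp h2.symm with h3 | h3
      · have : e = 0 := by rw [h1 e, h3, zero_smul]
        have h4 := h.norm_e
        rw [this, norm_zero] at h4
        exact zero_ne_one h4
      · exact hy (by rw [h1 y, h3, zero_smul])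
    · exact ⟨m, rfl⟩
  -- the eigenbasis
  set α : ℝ := A e e with hα
  have hTe : op A e = α • e := by
    refine ext_inner_left ℝ fun w => ?_
    rw [inner_op, hA, h.A_apply, inner_smul_right, real_inner_comm]
  obtain ⟨b, μ, hb0, hb1, hbk⟩ := eig_ext2 (V := E (m + 1 + 1)) (m := m) (by simp)
    (op A).toLinearMap (op_symm hA) (‖y‖⁻¹ • y) e
    (by rw [norm_smul, norm_inv, norm_norm, inv_mul_cancel₀ hyn]) h.norm_e
    (by rw [inner_smul_left, real_inner_comm, hey, mul_zero]) 0 α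
    (by
      show op A (‖y‖⁻¹ • y) = _
      have : op A y = 0 := by
        refine ext_inner_left ℝ fun w => ?_
        rw [inner_op, hA, hAy, inner_zero_right]
      rw [map_smul, this]; simp)
    hTe
  have hbk' : ∀ k : Fin m, op A (b k.succ.succ) = μ k • b k.succ.succ := hbk
  set l : Fin (m + 2) → ℝ := Fin.cons 0 (Fin.cons α μ) with hl
  have hl0 : l 0 = 0 := rfl
  have hl1 : l 1 = α := rfl
  have hlk : ∀ k : Fin m, l k.succ.succ = μ k := fun k => rfl
  have hbl : ∀ c, op A (b c) = l c • b c := by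
    intro c
    refine Fin.cases ?_ (fun c => ?_) c
    · rw [hb0, hl0, zero_smul, map_smul]
      have : op A y = 0 := by
        refine ext_inner_left ℝ fun w => ?_
        rw [inner_op, hA, hAy, inner_zero_right]
      rw [this, smul_zero]
    · refine Fin.cases ?_ (fun c => ?_) c
      · show op A (b 1) = l 1 • b 1
        rw [hb1, hl1]; exact hTe
      · rw [hlk]; exact hbk' c
  have hsum : ∀ f : Fin (m + 2) → ℝ, ∑ c, f c = f 0 + (f 1 + ∑ k : Fin m, f k.succ.succ) := by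
    intro f
    rw [Fin.sum_univ_succ, Fin.sum_univ_succ]
    rfl
  have htr : α + ∑ k, μ k = 0 := by
    have h1 := tr_onb' b hbl
    rw [h.stfA.tr, hsum] at h1
    simp only [hl0, hl1, hlk] at h1
    linarith
  have hhs : hs2 A = α ^ 2 + ∑ k, μ k ^ 2 := by
    rw [hs2_onb b hA hbl, hsum]
    simp only [hl0, hl1, hlk]
    ring
  have ht3 : tr3 A = α ^ 3 + ∑ k, μ k ^ 3 := by
    rw [tr3_onb b hA hbl, hsum]
    simp only [hl0, hl1, hlk]
    ring
  refine ⟨⟨Fin.cons (‖y‖ * α) (fun k => ‖y‖ * μ k), 0, ?_, rfl, ?_, ?_⟩, ?_⟩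
  · rw [Fin.sum_univ_succ]
    simp only [Fin.cons_zero, Fin.cons_succ]
    rw [← Finset.mul_sum, ← mul_add, htr, mul_zero]
  · rw [Fin.sum_univ_succ, hhs]
    simp only [Fin.cons_zero, Fin.cons_succ, mul_pow]
    rw [← Finset.mul_sum]
    ring
  · rw [Fin.sum_univ_succ, ht3]
    simp only [Fin.cons_zero, Fin.cons_succ, mul_pow]
    rw [← Finset.mul_sum]
    ring
  · -- third derivatives
    have hB : ∀ t, ⟪e, t⟫_ℝ = 0 → ∀ c, op A t = c • t → ‖t‖ = 1 → B e t t = α * c - c ^ 2 := by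
      intro t ht c hc hn
      have h1 := h.bdry t ht
      have h2 : A t t = c := by
        rw [← inner_op, hc, inner_smul_right, real_inner_self_eq_norm_sq, hn]; ring
      have h3 : ∑ i, (A t (bv i)) ^ 2 = c ^ 2 := by
        have h4 : ∑ i, (A t (bv i)) ^ 2 = ‖op A t‖ ^ 2 := by
          rw [EuclideanSpace.norm_sq_eq]
          refine Finset.sum_congr rfl fun i _ => ?_
          rw [op_coord, hA (bv i) t, Real.norm_eq_abs, sq_abs]
        rw [h4, hc, norm_smul, hn, mul_one, Real.norm_eq_abs, sq_abs]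
      rw [h2, h3] at h1
      rw [h.stfB.symm12 e t t, h.stfB.symm23 t e t]
      exact h1
    have horth : ∀ c, c ≠ 1 → ⟪e, b c⟫_ℝ = 0 := by
      intro c hc
      rw [← hb1]
      exact b.orthonormal.2 (Ne.symm hc)
    have hB0 : B e (b 0) (b 0) = 0 := by
      rw [hB (b 0) (horth 0 (by simp)) 0 (by rw [hbl 0, hl0]) (b.norm_eq_one 0)]
      ring
    have hBk : ∀ k : Fin m, B e (b k.succ.succ) (b k.succ.succ) = α * μ k - μ k ^ 2 := by
      intro k
      refine hB _ (horth _ ?_) _ (hbk' k) (b.norm_eq_one _)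
      intro h1
      have h2 : k.succ.succ = (0 : Fin (m + 1)).succ := h1
      exact Fin.succ_ne_zero _ (Fin.succ_injective _ h2)
    have htrB : B e e e + ∑ k : Fin m, (α * μ k - μ k ^ 2) = 0 := by
      have h1 := tr_onb b (B e)
      rw [h.stfB.tr, hsum, hB0, hb1] at h1
      simp_rw [hBk] at h1
      linarith
    rw [ctr_onb b hA hbl (B e), hsum]
    simp only [hl0, hl1, hlk, hb1, hBk]
    rw [hhs, ht3]
    have e1 : B e e e = α ^ 2 + ∑ k, μ k ^ 2 := by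
      rw [Finset.sum_sub_distrib, ← Finset.mul_sum] at htrB
      have : ∑ k, μ k = -α := by linarith
      rw [this] at htrB
      linarith
    have e2 : ∑ k : Fin m, μ k * (α * μ k - μ k ^ 2) = α * ∑ k, μ k ^ 2 - ∑ k, μ k ^ 3 := by
      rw [Finset.mul_sum, ← Finset.sum_sub_distrib]
      exact Finset.sum_congr rfl fun k _ => by ring
    rw [e1, e2]
    ring

lemma Ok_contAt {F : Coef} (h : F.Ok) {z : Fin 4 → ℝ} (hz : 0 < z 0) : ContinuousAt F.f z :=
  (h.has z hz).continuousAt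

lemma inner_TM (A : Bil d) (B : Tri d) (e : E d) :
    ⟪e, TM A B⟫_ℝ = ∑ i, ∑ j, B e (bv i) (bv j) * A (bv i) (bv j) := by
  unfold TM
  rw [inner_sum]
  have h1 : ∀ i j, B e (bv i) (bv j) = ∑ k, e k * B (bv k) (bv i) (bv j) := by
    intro i j
    conv_lhs => rw [← sum_bv e, map_sum]
    rw [sum_apply, sum_apply]
    refine Finset.sum_congr rfl fun k _ => ?_
    rw [map_smul]; rfl
  simp_rw [h1, Finset.sum_mul]
  have h2 : ∀ k, ⟪e, (∑ i, ∑ j, B (bv k) (bv i) (bv j) * A (bv i) (bv j)) • bv k⟫_ℝ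
      = ∑ i, ∑ j, e k * B (bv k) (bv i) (bv j) * A (bv i) (bv j) := by
    intro k
    rw [inner_smul_right, inner_bv', Finset.sum_mul]
    refine Finset.sum_congr rfl fun i _ => ?_
    rw [Finset.sum_mul]
    exact Finset.sum_congr rfl fun j _ => by ring
  simp_rw [h2]
  rw [Finset.sum_comm]
  refine Finset.sum_congr rfl fun i _ => ?_
  rw [Finset.sum_comm]

lemma tcl {α F G : Type*} [NormedAddCommGroup F] [NormedSpace ℝ F] [NormedAddCommGroup G]
    [NormedSpace ℝ G] {l : Filter α} {L : α → F →L[ℝ] G} {L0 : F →L[ℝ] G} {V : α → F} {v : F}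
    (hL : Tendsto L l (𝓝 L0)) (hV : Tendsto V l (𝓝 v)) : Tendsto (fun x => L x (V x)) l (𝓝 (L0 v)) :=
  (isBoundedBilinearMap_apply.continuous.tendsto (L0, v)).comp (hL.prodMk_nhds hV)

section limits
variable {l : Filter (E d)} {M : E d → Bil d} {T : E d → Tri d} {V : E d → E d} {A : Bil d}
  {B : Tri d} {v : E d}

lemma tendsto_bil (hM : Tendsto M l (𝓝 A)) (a b : E d) :
    Tendsto (fun x => M x a b) l (𝓝 (A a b)) :=
  tcl (tcl hM tendsto_const_nhds) tendsto_const_nhds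

lemma tendsto_tri (hT : Tendsto T l (𝓝 B)) (a b c : E d) :
    Tendsto (fun x => T x a b c) l (𝓝 (B a b c)) :=
  tcl (tcl (tcl hT tendsto_const_nhds) tendsto_const_nhds) tendsto_const_nhds

lemma tendsto_hs2 (hM : Tendsto M l (𝓝 A)) : Tendsto (fun x => hs2 (M x)) l (𝓝 (hs2 A)) :=
  tendsto_finsetSum _ fun _ _ => tendsto_finsetSum _ fun _ _ => (tendsto_bil hM _ _).pow 2

lemma tendsto_tr3 (hM : Tendsto M l (𝓝 A)) : Tendsto (fun x => tr3 (M x)) l (𝓝 (tr3 A)) :=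
  tendsto_finsetSum _ fun _ _ => tendsto_finsetSum _ fun _ _ => tendsto_finsetSum _ fun _ _ =>
    ((tendsto_bil hM _ _).mul (tendsto_bil hM _ _)).mul (tendsto_bil hM _ _)

lemma tendsto_act (hM : Tendsto M l (𝓝 A)) (hV : Tendsto V l (𝓝 v)) :
    Tendsto (fun x => act (M x) (V x)) l (𝓝 (act A v)) :=
  tendsto_finsetSum _ fun _ _ =>
    (tcl (tcl hM hV) tendsto_const_nhds).smul_const _

lemma tendsto_TM (hM : Tendsto M l (𝓝 A)) (hT : Tendsto T l (𝓝 B)) :
    Tendsto (fun x => TM (M x) (T x)) l (𝓝 (TM A B)) :=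
  tendsto_finsetSum _ fun _ _ => Tendsto.smul_const
    (tendsto_finsetSum _ fun _ _ => tendsto_finsetSum _ fun _ _ =>
      (tendsto_tri hT _ _ _).mul (tendsto_bil hM _ _)) _

end limits

/-- **node RBDRY** -/
theorem rbdry {n : ℕ} {C : CertData} {Lam : ℝ} (hC : Cert n C Lam) {u : E (n + 1) → ℝ} (H : HC u)
    {y : E (n + 1)} (hy : y ∈ frontier (Om u)) (hy0 : y ≠ 0) {e : E (n + 1)} {A : Bil (n + 1)}
    {B : Tri (n + 1)} (hJ : Jets u y e A B) (hAee : A e e ≤ 0) :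
    ∀ ε > 0, ∀ δ > 0, ∀ᶠ x in 𝓝[Om u] y, δ ≤ hs2 (D2 u x) →
      -ε ≤ fderiv ℝ u x (XC C u x - (wC C u x) ^ 2 • Zf u x) := by
  intro ε hε δ hδ
  have hyn : 0 < ‖y‖ := norm_pos_iff.mpr hy0
  have hA : ∀ x y, A x y = A y x := hJ.kk.stfA.symm
  have huy : u y = 0 := by
    have h1 : y ∉ Om u := by
      intro h
      rw [H.isOpen.frontier_eq] at hy
      exact hy.2 h
    have h2 : u y ≤ 0 := not_lt.mp h1
    have h3 : 0 ≤ u y := by
      have h4 : closure (Om u) ⊆ {x | 0 ≤ u x} :=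
        closure_minimal (fun x hx => (show 0 < u x from hx).le)
          (isClosed_le continuous_const H.cont)
      exact h4 (frontier_subset_closure hy)
    linarith
  have hne : (𝓝[Om u] y).NeBot := mem_closure_iff_nhdsWithin_neBot.mp (frontier_subset_closure hy)
  have tid : Tendsto (fun x : E (n + 1) => x) (𝓝[Om u] y) (𝓝 y) := nhdsWithin_le_nhds
  have tn : Tendsto (fun x : E (n + 1) => ‖x‖) (𝓝[Om u] y) (𝓝 ‖y‖) := tid.norm
  have tu : Tendsto u (𝓝[Om u] y) (𝓝 0) := by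
    have := (H.cont.tendsto y).mono_left (nhdsWithin_le_nhds (s := Om u))
    rwa [huy] at this
  have tg : Tendsto (fun x => ∇ u x) (𝓝[Om u] y) (𝓝 e) := by
    have h1 := ((toDual ℝ (E (n + 1))).symm.continuous.tendsto _).comp hJ.t1
    have h2 : (toDual ℝ (E (n + 1))).symm (innerSL ℝ e) = e := by
      apply (toDual ℝ (E (n + 1))).injective
      rw [LinearIsometryEquiv.apply_symm_apply]
      rfl
    rw [h2] at h1
    exact h1
  -- `A y = 0`, `⟨e, y⟩ = 0`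
  have hAy : ∀ v, A y v = 0 := by
    have h1 : Tendsto (fun x => D2 u x x) (𝓝[Om u] y) (𝓝 (A y)) := tcl hJ.t2 tid
    have h2 : Tendsto (fun x => D2 u x x) (𝓝[Om u] y) (𝓝 0) := by
      refine tendsto_const_nhds.congr' ?_
      filter_upwards [self_mem_nhdsWithin] with x hx
      rw [H.euler2 hx]
    have h3 := tendsto_nhds_unique h1 h2
    intro v
    rw [h3]; rfl
  have hey : ⟪e, y⟫_ℝ = 0 := by
    have h1 : Tendsto (fun x => fderiv ℝ u x x) (𝓝[Om u] y) (𝓝 (innerSL ℝ e y)) :=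
      tcl hJ.t1 tid
    have h2 : Tendsto (fun x => fderiv ℝ u x x) (𝓝[Om u] y) (𝓝 0) := by
      refine tu.congr' ?_
      filter_upwards [self_mem_nhdsWithin] with x hx
      rw [H.euler1 hx]
    exact tendsto_nhds_unique h1 h2
  by_cases hA0 : hs2 A = 0
  · have h1 := tendsto_hs2 hJ.t2
    rw [hA0] at h1
    filter_upwards [h1.eventually (Iio_mem_nhds hδ)] with x hx hx2
    exact absurd hx2 (not_le.mpr hx)
  have hA1 : 0 < hs2 A := lt_of_le_of_ne (hs2_nonneg A) (Ne.symm hA0)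
  set z : Fin 4 → ℝ := ![‖y‖ ^ 2 * hs2 A, ‖y‖ ^ 3 * tr3 A, 1, 0] with hz
  have hz0 : 0 < z 0 := by
    show 0 < ‖y‖ ^ 2 * hs2 A
    positivity
  have ts : Tendsto (fun x => u x / ‖x‖) (𝓝[Om u] y) (𝓝 0) := by
    have := tu.div tn hyn.ne'
    rwa [zero_div] at this
  have tz : Tendsto (zN u) (𝓝[Om u] y) (𝓝 z) := by
    rw [tendsto_pi_nhds]
    intro i
    fin_cases i
    · exact (tn.pow 2).mul (tendsto_hs2 hJ.t2)
    · exact (tn.pow 3).mul (tendsto_tr3 hJ.t2)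
    · show Tendsto (fun x => ‖∇ u x‖ ^ 2 - (u x / ‖x‖) ^ 2) (𝓝[Om u] y) (𝓝 1)
      have h1 := (tg.norm.pow 2).sub (ts.pow 2)
      rw [hJ.kk.norm_e] at h1
      simpa using h1
    · exact ts
  have tF : ∀ F : Coef, F.Ok → Tendsto (fun x => F.f (zN u x)) (𝓝[Om u] y) (𝓝 (F.f z)) :=
    fun F hF => (Ok_contAt hF hz0).tendsto.comp tz
  have tZf : Tendsto (Zf u) (𝓝[Om u] y) (𝓝 (act A e)) := tendsto_act hJ.t2 tg
  have tW : Tendsto (W1f u) (𝓝[Om u] y) (𝓝 (‖y‖ ^ 2 • TM A B + hs2 A • y)) :=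
    ((tn.pow 2).smul (tendsto_TM hJ.t2 hJ.t3)).add ((tendsto_hs2 hJ.t2).smul tid)
  have tG : Tendsto (gN u) (𝓝[Om u] y) (𝓝 e) := by
    have h1 : Tendsto (fun x => (u x / ‖x‖ ^ 2) • x) (𝓝[Om u] y) (𝓝 (((0:ℝ) / ‖y‖ ^ 2) • y)) :=
      (tu.div (tn.pow 2) (by positivity)).smul tid
    have h2 := tg.sub h1
    rw [zero_div, zero_smul, sub_zero] at h2
    exact h2
  have tX : Tendsto (XC C u) (𝓝[Om u] y) (𝓝 (C.ga.f z • (‖y‖ ^ 2 • TM A B + hs2 A • y)
      + (C.y0.f z * ‖y‖⁻¹) • e + C.y1.f z • act A e + (C.y2.f z * ‖y‖) • act A (act A e)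
      + (C.y3.f z * ‖y‖ ^ 2) • act A (act A (act A e)))) :=
    (((((tF _ hC.okga).smul tW).add (((tF _ hC.ok0).mul (tn.inv₀ hyn.ne')).smul tG)).add
      ((tF _ hC.ok1).smul tZf)).add (((tF _ hC.ok2).mul tn).smul (tendsto_act hJ.t2 tZf))).add
      (((tF _ hC.ok3).mul (tn.pow 2)).smul (tendsto_act hJ.t2 (tendsto_act hJ.t2 tZf)))
  have tw : Tendsto (fun x => (wC C u x) ^ 2) (𝓝[Om u] y) (𝓝 ((Real.sqrt (C.Z.f z)) ^ 2)) :=
    ((Real.continuous_sqrt.tendsto _).comp (tF _ hC.okZ)).pow 2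
  have tΦ := tcl hJ.t1 (tX.sub (tw.smul tZf))
  obtain ⟨⟨lam, k0, hl0, hlk, hl2, hl3⟩, hBA⟩ := bdry_alg hJ.kk hy0 hAy hey
  set α : ℝ := A e e with hα
  set W : ℝ := (Real.sqrt (C.Z.f z)) ^ 2 with hW
  have hWZ : C.Z.f z ≤ W := by
    rw [hW]
    rcases le_total 0 (C.Z.f z) with h | h
    · rw [Real.sq_sqrt h]
    · exact h.trans (sq_nonneg _)
  have hact : act A e = α • e := by
    rw [← op_eq_act hA]
    refine ext_inner_left ℝ fun w => ?_
    rw [inner_op, hA, hJ.kk.A_apply, inner_smul_right, real_inner_comm]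
  have hee : ⟪e, e⟫_ℝ = 1 := by rw [real_inner_self_eq_norm_sq, hJ.kk.norm_e]; norm_num
  have hact2 : act A (act A e) = α ^ 2 • e := by
    rw [hact, ← op_eq_act hA, map_smul, op_eq_act hA, hact, smul_smul]
    ring_nf
  have hact3 : act A (act A (act A e)) = α ^ 3 • e := by
    rw [hact2, ← op_eq_act hA, map_smul, op_eq_act hA, hact, smul_smul]
    ring_nf
  have hval : innerSL ℝ e (C.ga.f z • (‖y‖ ^ 2 • TM A B + hs2 A • y)
      + (C.y0.f z * ‖y‖⁻¹) • e + C.y1.f z • act A e + (C.y2.f z * ‖y‖) • act A (act A e)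
      + (C.y3.f z * ‖y‖ ^ 2) • act A (act A (act A e)) - W • act A e)
      = C.ga.f z * (‖y‖ ^ 2 * (2 * α * hs2 A - tr3 A)) + C.y0.f z * ‖y‖⁻¹ + C.y1.f z * α
        + C.y2.f z * ‖y‖ * α ^ 2 + C.y3.f z * ‖y‖ ^ 2 * α ^ 3 - W * α := by
    rw [hact3, hact2, hact, innerSL_apply_apply]
    simp only [inner_add_right, inner_sub_right, inner_smul_right, hee, hey, inner_TM, hBA]
    ring
  have hBJ := hC.BJ lam k0 (-(‖y‖ * α)) hl0 (by rw [hl2]; positivity)
    (by nlinarith) (by rw [hlk]; ring)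
  rw [hl2, hl3] at hBJ
  have hzz : (![‖y‖ ^ 2 * hs2 A, ‖y‖ ^ 3 * tr3 A, 1, 0] : Fin 4 → ℝ) = z := rfl
  rw [hzz] at hBJ
  have hL : 0 ≤ C.ga.f z * (‖y‖ ^ 2 * (2 * α * hs2 A - tr3 A)) + C.y0.f z * ‖y‖⁻¹ + C.y1.f z * α
        + C.y2.f z * ‖y‖ * α ^ 2 + C.y3.f z * ‖y‖ ^ 2 * α ^ 3 - W * α := by
    have h1 : 0 ≤ ‖y‖ * (C.ga.f z * (‖y‖ ^ 2 * (2 * α * hs2 A - tr3 A)) + C.y0.f z * ‖y‖⁻¹
        + C.y1.f z * α + C.y2.f z * ‖y‖ * α ^ 2 + C.y3.f z * ‖y‖ ^ 2 * α ^ 3 - W * α) := by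
      have h2 : ‖y‖ * (C.ga.f z * (‖y‖ ^ 2 * (2 * α * hs2 A - tr3 A)) + C.y0.f z * ‖y‖⁻¹
          + C.y1.f z * α + C.y2.f z * ‖y‖ * α ^ 2 + C.y3.f z * ‖y‖ ^ 2 * α ^ 3 - W * α)
          = (-(‖y‖ * α) * C.Z.f z + C.y0.f z - -(‖y‖ * α) * C.y1.f z
            + (-(‖y‖ * α)) ^ 2 * C.y2.f z - (-(‖y‖ * α)) ^ 3 * C.y3.f z
            - C.ga.f z * (2 * -(‖y‖ * α) * (‖y‖ ^ 2 * hs2 A)
            + ‖y‖ ^ 3 * tr3 A)) + (-(‖y‖ * α)) * (W - C.Z.f z) := by
        field_simp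
        ring
      rw [h2]
      have h3 : 0 ≤ (-(‖y‖ * α)) * (W - C.Z.f z) :=
        mul_nonneg (by nlinarith) (by linarith)
      linarith
    exact nonneg_of_mul_nonneg_right h1 hyn
  rw [hval] at tΦ
  have h5 := tΦ.eventually (Ioi_mem_nhds (show C.ga.f z * (‖y‖ ^ 2 * (2 * α * hs2 A - tr3 A))
      + C.y0.f z * ‖y‖⁻¹ + C.y1.f z * α + C.y2.f z * ‖y‖ * α ^ 2
      + C.y3.f z * ‖y‖ ^ 2 * α ^ 3 - W * α - ε
      < C.ga.f z * (‖y‖ ^ 2 * (2 * α * hs2 A - tr3 A))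
      + C.y0.f z * ‖y‖⁻¹ + C.y1.f z * α + C.y2.f z * ‖y‖ * α ^ 2
      + C.y3.f z * ‖y‖ ^ 2 * α ^ 3 - W * α by linarith))
  filter_upwards [h5] with x hx _
  have hx' : C.ga.f z * (‖y‖ ^ 2 * (2 * α * hs2 A - tr3 A))
      + C.y0.f z * ‖y‖⁻¹ + C.y1.f z * α + C.y2.f z * ‖y‖ * α ^ 2
      + C.y3.f z * ‖y‖ ^ 2 * α ^ 3 - W * α - ε
      < fderiv ℝ u x (XC C u x - (wC C u x) ^ 2 • Zf u x) := hx
  linarith

end RB
end Crest.Agent.R097
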