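import Crest.Agent.R097.Red4

/-!
# Row 97, reduction: the integrated inequality in the limit `ε → 0`
-/

set_option autoImplicit false
open MeasureTheory Metric Set Filter Topology InnerProductSpace
open scoped RealInnerProductSpace NNReal ENNReal Gradient Laplacian

namespace Crest.Agent.R097

variable {d : ℕ} {u w : E d → ℝ} {X : E d → E d} {Lam : ℝ} {Ef : ℝ → ℝ} {R ε : ℝ}

/-- a function continuous on an open set, bounded there and vanishing outside a compact set -/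
lemma integrableOn_of_bdd_supp {f : E d → ℝ} {O S : Set (E d)} (hO : IsOpen O) (hS : IsCompact S)
    (hf : ContinuousOn f O) (h0 : ∀ x ∈ O, x ∉ S → f x = 0) {C : ℝ} (hC : ∀ x ∈ O, |f x| ≤ C) :
    IntegrableOn f O := by
  have h1 : Integrable (S.indicator fun _ => C) (volume.restrict O) := by
    refine Integrable.mono_measure ?_ Measure.restrict_le_self
    rw [integrable_indicator_iff hS.measurableSet]
    exact integrableOn_const hS.measure_lt_top.ne
  refine h1.mono' (hf.aestronglyMeasurable hO.measurableSet) ?_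
  rw [ae_restrict_iff' hO.measurableSet]
  refine Eventually.of_forall fun x hx => ?_
  by_cases hxS : x ∈ S
  · rw [indicator_of_mem hxS]; exact hC x hx
  · rw [indicator_of_notMem hxS, h0 x hx hxS]; simp

/-- the limit density -/
noncomputable def gg (w : E d → ℝ) (Ef : ℝ → ℝ) (Lam : ℝ) (x : E d) : ℝ :=
  w x ^ 2 * (‖(deriv Ef (Real.log ‖x‖) / ‖x‖ ^ 2) • x‖ ^ 2 - Lam * Ef (Real.log ‖x‖) ^ 2 / ‖x‖ ^ 2)

lemma measurableSet_WS (H : RedHyp u w X Lam) (a b : ℝ) : MeasurableSet (Wn u ∩ Ann d a b) :=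
  H.isOpen_Wn.measurableSet.inter (measurableSet_Ann a b)

lemma radial_cont (hE : ContDiff ℝ 1 Ef) {x : E d} (hx : x ≠ 0) :
    ContinuousAt (fun x : E d => Ef (Real.log ‖x‖)) x ∧
    ContinuousAt (fun x : E d => deriv Ef (Real.log ‖x‖)) x := by
  have h : ContinuousAt (fun x : E d => Real.log ‖x‖) x :=
    continuous_norm.continuousAt.log (norm_ne_zero_iff.2 hx)
  exact ⟨(hE.continuous.continuousAt).comp h,
    ((hE.continuous_deriv le_rfl).continuousAt).comp h⟩

lemma gg_cont (H : RedHyp u w X Lam) (hE : ContDiff ℝ 1 Ef) : ContinuousOn (gg w Ef Lam) (Wn u) := by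
  intro x hx
  refine ContinuousAt.continuousWithinAt ?_
  have hx0 := H.ne_zero hx.1
  obtain ⟨h1, h2⟩ := radial_cont hE hx0
  have h3 : ContinuousAt w x := (w_diff H hx).continuousAt
  have hn : ‖x‖ ^ 2 ≠ 0 := pow_ne_zero 2 (norm_ne_zero_iff.2 hx0)
  have h4 : ContinuousAt (fun x : E d => ‖x‖ ^ 2) x := (continuous_norm.pow 2).continuousAt
  unfold gg
  exact (h3.pow 2).mul ((((h2.div h4 hn).smul continuousAt_id).norm.pow 2).sub
    ((continuousAt_const.mul (h1.pow 2)).div h4 hn))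

lemma gg_bound (H : RedHyp u w X Lam) (hE : ContDiff ℝ 1 Ef) (hR : ∀ s, R < |s| → Ef s = 0) :
    ∃ C : ℝ, 0 ≤ C ∧ ∀ x ∈ Wn u ∩ Ann d (Real.exp (-R)) (Real.exp R), |gg w Ef Lam x| ≤ C := by
  set a := Real.exp (-R) with ha
  set b := Real.exp R with hb
  have ha0 : 0 < a := Real.exp_pos _
  obtain ⟨C2, h2⟩ := H.wbd a b ha0
  obtain ⟨B, hB, hBb⟩ := exists_Ef_bound hE hR
  refine ⟨(max C2 0) ^ 2 * ((B / a) ^ 2 + |Lam| * B ^ 2 / a ^ 2), by positivity, fun x hx => ?_⟩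
  have hw0 : 0 ≤ w x := (H.wpos x hx.1).le
  have hw1 : w x ≤ max C2 0 := (h2 x hx.1 hx.2).trans (le_max_left _ _)
  have hxa : a ≤ ‖x‖ := hx.2.1
  have hxn : 0 < ‖x‖ := ha0.trans_le hxa
  have hE1 := (hBb (Real.log ‖x‖)).1
  have hE2 := (hBb (Real.log ‖x‖)).2
  unfold gg
  rw [abs_mul, abs_pow, abs_of_nonneg hw0]
  have e1 : ‖(deriv Ef (Real.log ‖x‖) / ‖x‖ ^ 2) • x‖ ≤ B / a := by
    rw [norm_smul, Real.norm_eq_abs, abs_div, abs_of_nonneg (sq_nonneg ‖x‖)]
    have e1 : |deriv Ef (Real.log ‖x‖)| / ‖x‖ ^ 2 * ‖x‖ = |deriv Ef (Real.log ‖x‖)| / ‖x‖ := by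
      field_simp
    rw [e1]; gcongr
  have e2 : |Lam * Ef (Real.log ‖x‖) ^ 2 / ‖x‖ ^ 2| ≤ |Lam| * B ^ 2 / a ^ 2 := by
    rw [abs_div, abs_mul, abs_pow, abs_of_nonneg (sq_nonneg ‖x‖)]
    gcongr
  refine mul_le_mul (by gcongr) ((abs_sub _ _).trans (add_le_add ?_ e2)) (abs_nonneg _)
    (by positivity)
  rw [abs_of_nonneg (sq_nonneg _)]
  gcongr

lemma integrableOn_of_bdd' {f : E d → ℝ} {A : Set (E d)} (hA : MeasurableSet A)
    (hfin : volume A ≠ ⊤) (hf : ContinuousOn f A) {C : ℝ} (hC : ∀ x ∈ A, |f x| ≤ C) :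
    IntegrableOn f A := by
  have h1 : Integrable (fun _ : E d => C) (volume.restrict A) := integrableOn_const hfin
  refine h1.mono' (hf.aestronglyMeasurable hA) ?_
  rw [ae_restrict_iff' hA]
  exact Eventually.of_forall fun x hx => hC x hx

lemma WS_fin (u : E d → ℝ) (a b : ℝ) : volume (Wn u ∩ Ann d a b) ≠ ⊤ :=
  ((measure_mono inter_subset_right).trans_lt (isCompact_Ann (d := d) _ _).measure_lt_top).ne

lemma gg_integrable (H : RedHyp u w X Lam) (hE : ContDiff ℝ 1 Ef) (hR : ∀ s, R < |s| → Ef s = 0) :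
    IntegrableOn (gg w Ef Lam) (Wn u ∩ Ann d (Real.exp (-R)) (Real.exp R)) := by
  obtain ⟨C, hC0, hC⟩ := gg_bound H hE hR
  exact integrableOn_of_bdd' (measurableSet_WS H _ _) (WS_fin _ _ _)
    ((gg_cont H hE).mono inter_subset_left) hC

lemma small_set (H : RedHyp u w X Lam) (a b η : ℝ) :
    MeasurableSet ({y | hs2 (D2 u y) ≤ η} ∩ (Wn u ∩ Ann d a b)) := by
  have c3 : ContinuousOn (fun x => hs2 (D2 u x)) (Om u) :=
    (smooth_m H.isOpen_Om H.sm).continuousOn
  have : {y | hs2 (D2 u y) ≤ η} ∩ (Wn u ∩ Ann d a b) =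
      (Wn u ∩ Ann d a b) \ (Om u ∩ (fun x => hs2 (D2 u x)) ⁻¹' Ioi η) := by
    ext x
    constructor
    · rintro ⟨h1, h2⟩
      refine ⟨h2, fun h3 => ?_⟩
      have h4 : η < hs2 (D2 u x) := h3.2
      have h5 : hs2 (D2 u x) ≤ η := h1
      linarith
    · rintro ⟨h1, h2⟩
      refine ⟨?_, h1⟩
      by_contra h3
      have h5 : ¬ hs2 (D2 u x) ≤ η := h3
      exact h2 ⟨h1.1.1, show η < hs2 (D2 u x) from not_le.1 h5⟩
  rw [this]
  exact (measurableSet_WS H a b).diff (c3.isOpen_inter_preimage H.isOpen_Om isOpen_Ioi).measurableSet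

lemma small_ind (H : RedHyp u w X Lam) (a b η : ℝ) {f : E d → ℝ}
    (hf : IntegrableOn f (Wn u ∩ Ann d a b)) :
    IntegrableOn ({y | hs2 (D2 u y) ≤ η}.indicator f) (Wn u ∩ Ann d a b) := by
  have j3 : IntegrableOn (({y | hs2 (D2 u y) ≤ η} ∩ (Wn u ∩ Ann d a b)).indicator f)
      (Wn u ∩ Ann d a b) := hf.indicator (small_set H a b η)
  refine j3.congr_fun ?_ (measurableSet_WS H a b)
  intro x hx
  by_cases hxm : x ∈ {y | hs2 (D2 u y) ≤ η}
  · rw [indicator_of_mem hxm,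
      indicator_of_mem (show x ∈ {y | hs2 (D2 u y) ≤ η} ∩ (Wn u ∩ Ann d a b) from ⟨hxm, hx⟩)]
  · rw [indicator_of_notMem hxm, indicator_of_notMem (fun h => hxm h.1)]

/-- the integrated inequality for fixed `ε` -/
theorem red_eps (H : RedHyp u w X Lam) (hE : ContDiff ℝ 1 Ef) (hE0 : ∀ s, 0 ≤ Ef s)
    (hR : ∀ s, R < |s| → Ef s = 0) {e : E d → ℝ}
    (hei : IntegrableOn e (Wn u ∩ Ann d (Real.exp (-R)) (Real.exp R)))
    (he : ∀ x ∈ Wn u, x ∈ Ann d (Real.exp (-R)) (Real.exp R) →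
      w x ^ 2 * ‖D3 u x‖ ^ 2 ≤ e x * hs2 (D2 u x) ∧
      w x * ‖fderiv ℝ w x‖ * ‖D3 u x‖ ≤ e x * Real.sqrt (hs2 (D2 u x)) ∧
      ‖X x‖ * ‖D3 u x‖ ≤ e x * Real.sqrt (hs2 (D2 u x)) ∧
      w x ^ 2 * ‖D3 u x‖ ≤ e x * Real.sqrt (hs2 (D2 u x))) :
    ∃ K : ℝ, 0 ≤ K ∧ ∀ ε : ℝ, 0 < ε →
      0 ≤ ∫ x in Wn u ∩ Ann d (Real.exp (-R)) (Real.exp R),
        (chi u ε x ^ 2 * gg w Ef Lam x +
          ({y | hs2 (D2 u y) ≤ 2 * ε}.indicator (fun y => K * |e y|) x)) := by
  set a := Real.exp (-R) with ha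
  set b := Real.exp R with hb
  have ha0 : 0 < a := Real.exp_pos _
  set S := Ann d a b with hSdef
  obtain ⟨Cc, hCc, hχb⟩ := exists_chi_bound d
  obtain ⟨B0, hB0, hBb0⟩ := exists_Ef_bound hE hR
  set B := B0 + B0 / a with hBdef
  have hBB : B0 ≤ B := by rw [hBdef]; have : 0 ≤ B0 / a := by positivity
                          linarith
  have hBB' : B0 / a ≤ B := by rw [hBdef]; linarith
  set K := B ^ 2 * (6 * Cc + Cc ^ 2) with hK
  have hK0 : 0 ≤ K := by positivity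
  refine ⟨K, hK0, fun ε hε => ?_⟩
  have hOm := H.isOpen_Om
  have hWn := H.isOpen_Wn
  obtain ⟨C, hC⟩ := exists_bounds H hE hR hε
  have hφC := phi_contDiffOn H hE hε
  have hFC := FF_contDiffOn H hE hε
  obtain ⟨C1, hC1⟩ := H.bd a b ha0
  -- zero off the annulus, for derivatives
  have hzS : ∀ x, x ∉ S → phi u w Ef ε x = 0 ∧ fderiv ℝ (phi u w Ef ε) x = 0 ∧
      dv (FF u w X Ef ε) x = 0 := by
    intro x hx
    obtain ⟨o1, o2⟩ := ev_out (ε := ε) H hR hx
    have o1' : phi u w Ef ε =ᶠ[𝓝 x] fun _ => 0 := o1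
    exact ⟨o1.self_of_nhds, by rw [o1'.fderiv_eq]; simp, dv_zero_of_eventually o2⟩
  have hzm : ∀ x ∈ Om u, hs2 (D2 u x) < ε → phi u w Ef ε x = 0 ∧
      fderiv ℝ (phi u w Ef ε) x = 0 ∧ dv (FF u w X Ef ε) x = 0 := by
    intro x hx hm
    have hk := ev_small (Ef := Ef) H hε hx hm
    have o1 : phi u w Ef ε =ᶠ[𝓝 x] fun _ => 0 := hk.mono fun y hy => phi_zero_of_kk hy
    have o2 : FF u w X Ef ε =ᶠ[𝓝 x] fun _ => 0 := hk.mono fun y hy => FF_zero_of_kk hy
    exact ⟨o1.self_of_nhds, by rw [o1.fderiv_eq]; simp, dv_zero_of_eventually o2⟩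
  -- flux and stability
  have hfl := H.flux a b ha0 (FF u w X Ef ε) hFC (fun x hx => FF_zero_out H hR hx)
    ⟨C, fun x hx => ⟨(hC x hx).2.2.2.1, (hC x hx).2.2.2.2⟩⟩ (by
      intro y hy hyS ε' hε'
      have hy0 : y ≠ 0 := by
        rintro rfl
        have : a ≤ ‖(0 : E d)‖ := hyS.1
        rw [norm_zero] at this; linarith
      have h1 := H.bdry y hy hy0 (ε' / (B0 ^ 2 + 1)) (by positivity) ε hε
      have hnear : ∀ᶠ x in 𝓝[Om u] y, x ∈ Om u := eventually_mem_nhdsWithin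
      filter_upwards [h1, hnear] with x hx hxO
      by_cases hxW : x ∈ Wn u
      · by_cases hm : hs2 (D2 u x) ≤ ε
        · rw [FF_zero_of_kk (kk_zero_small hε hm), map_zero]; linarith
        · have h2 := hx (le_of_lt (not_le.1 hm))
          rw [FF_of_mem hxW, map_smul, smul_eq_mul]
          have h3 : (kk u Ef ε x) ^ 2 ≤ B0 ^ 2 := by
            unfold kk
            rw [mul_pow, ← sq_abs (Ef _)]
            have g1 := (hBb0 (Real.log ‖x‖)).1
            have g2 := chi_nonneg u ε x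
            have g3 := chi_le_one u ε x
            calc |Ef (Real.log ‖x‖)| ^ 2 * chi u ε x ^ 2 ≤ B0 ^ 2 * 1 ^ 2 := by gcongr
              _ = B0 ^ 2 := by ring
          have h4 : (kk u Ef ε x) ^ 2 * (-(ε' / (B0 ^ 2 + 1))) ≤
              (kk u Ef ε x) ^ 2 * fderiv ℝ u x (X x - w x ^ 2 • Zf u x) :=
            mul_le_mul_of_nonneg_left h2 (sq_nonneg _)
          refine le_trans ?_ h4
          have h5 : (kk u Ef ε x) ^ 2 * (ε' / (B0 ^ 2 + 1)) ≤ ε' := by
            rw [← mul_div_assoc, div_le_iff₀ (by positivity)]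
            nlinarith
          linarith
      · rw [FF_of_notMem hxW, map_zero]; linarith)
  have hst := H.stab a b ha0 (phi u w Ef ε) hφC (by
      intro x
      by_cases hx : x ∈ Wn u
      · rw [phi_of_mem hx]
        exact mul_nonneg (mul_nonneg (hE0 _) (chi_nonneg _ _ _)) (H.wpos x hx).le
      · rw [phi_of_notMem hx]) (fun x hx => (hzS x hx).1)
    ⟨C, fun x hx => ⟨(hC x hx).1, (hC x hx).2.2.1⟩⟩
  -- integrability on Om
  have hScomp : IsCompact S := isCompact_Ann a b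
  have c1 : ContinuousOn (fderiv ℝ (phi u w Ef ε)) (Om u) := hφC.continuousOn_fderiv_of_isOpen hOm le_rfl
  have c2 : ContinuousOn (phi u w Ef ε) (Om u) := hφC.continuousOn
  have c3 : ContinuousOn (fun x => hs2 (D2 u x)) (Om u) := (smooth_m hOm H.sm).continuousOn
  have c4 : ContinuousOn (Zf u) (Om u) := H.contDiffOn_Z.continuousOn
  have i1 : IntegrableOn (fun x => ‖fderiv ℝ (phi u w Ef ε) x‖ ^ 2) (Om u) := by
    refine integrableOn_of_bdd_supp hOm hScomp (c1.norm.pow 2) ?_ (C := C ^ 2) ?_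
    · intro x _ hxS
      rw [(hzS x hxS).2.1]; simp
    · intro x hx
      rw [abs_of_nonneg (sq_nonneg _)]
      exact pow_le_pow_left₀ (norm_nonneg _) (hC x hx).2.2.1 2
  have i2 : IntegrableOn (fun x => phi u w Ef ε x ^ 2 * hs2 (D2 u x) +
      2 * phi u w Ef ε x * fderiv ℝ (phi u w Ef ε) x (Zf u x)) (Om u) := by
    refine integrableOn_of_bdd_supp hOm hScomp (((c2.pow 2).mul c3).add
      ((continuousOn_const.mul c2).mul (c1.clm_apply c4))) ?_
      (C := C ^ 2 * max C1 0 + 2 * C * (C * max C1 0)) ?_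
    · intro x _ hxS
      rw [(hzS x hxS).1]; simp
    · intro x hx
      have hC0 : 0 ≤ C := (abs_nonneg _).trans (hC x hx).2.1
      by_cases hxS : x ∈ S
      · obtain ⟨b1, b2, b3⟩ := hC1 x hx hxS
        have b1' := b1.trans (le_max_left C1 0)
        have b3' := b3.trans (le_max_left C1 0)
        refine (abs_add_le _ _).trans (add_le_add ?_ ?_)
        · rw [abs_mul, abs_pow, abs_of_nonneg (hs2_nonneg _)]
          have := (hC x hx).2.1
          have hm0 := hs2_nonneg (D2 u x)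
          gcongr
        · rw [abs_mul, abs_mul, abs_two]
          have g1 := (hC x hx).2.1
          have g2 : |fderiv ℝ (phi u w Ef ε) x (Zf u x)| ≤ C * max C1 0 :=
            ((fderiv ℝ (phi u w Ef ε) x).le_opNorm _).trans
              (mul_le_mul (hC x hx).2.2.1 b3' (norm_nonneg _) hC0)
          gcongr
      · rw [(hzS x hxS).1]; simp; positivity
  have i3 : IntegrableOn (fun x => dv (FF u w X Ef ε) x) (Om u) := by
    refine integrableOn_of_bdd_supp hOm hScomp (continuousOn_dv hOm hFC) ?_ (C := C) ?_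
    · intro x _ hxS; exact (hzS x hxS).2.2
    · intro x hx; exact (hC x hx).2.2.2.2
  have hmain : 0 ≤ ∫ x in Om u, (‖fderiv ℝ (phi u w Ef ε) x‖ ^ 2 -
      (phi u w Ef ε x ^ 2 * hs2 (D2 u x) +
        2 * phi u w Ef ε x * fderiv ℝ (phi u w Ef ε) x (Zf u x)) - dv (FF u w X Ef ε) x) := by
    have i12 : IntegrableOn (fun x => ‖fderiv ℝ (phi u w Ef ε) x‖ ^ 2 -
      (phi u w Ef ε x ^ 2 * hs2 (D2 u x) +
        2 * phi u w Ef ε x * fderiv ℝ (phi u w Ef ε) x (Zf u x))) (Om u) := i1.sub i2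
    rw [integral_sub i12 i3, integral_sub i1 i2]
    linarith
  have hres : ∫ x in Om u, (‖fderiv ℝ (phi u w Ef ε) x‖ ^ 2 -
      (phi u w Ef ε x ^ 2 * hs2 (D2 u x) +
        2 * phi u w Ef ε x * fderiv ℝ (phi u w Ef ε) x (Zf u x)) - dv (FF u w X Ef ε) x) =
      ∫ x in Wn u ∩ S, (‖fderiv ℝ (phi u w Ef ε) x‖ ^ 2 -
      (phi u w Ef ε x ^ 2 * hs2 (D2 u x) +
        2 * phi u w Ef ε x * fderiv ℝ (phi u w Ef ε) x (Zf u x)) - dv (FF u w X Ef ε) x) := by
    refine setIntegral_eq_of_subset_of_forall_diff_eq_zero hOm.measurableSet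
      (inter_subset_left.trans (Wn_sub_Om u)) ?_
    rintro x ⟨hxO, hxn⟩
    by_cases hxS : x ∈ S
    · have hm : hs2 (D2 u x) < ε := by
        by_contra hcon
        exact hxn ⟨⟨hxO, hε.trans_le (not_lt.1 hcon)⟩, hxS⟩
      obtain ⟨z1, z2, z3⟩ := hzm x hxO hm
      rw [z1, z2, z3]; simp
    · obtain ⟨z1, z2, z3⟩ := hzS x hxS
      rw [z1, z2, z3]; simp
  rw [hres] at hmain
  refine hmain.trans ?_
  have hWSm : MeasurableSet (Wn u ∩ S) := measurableSet_WS H a b
  have c5 : ContinuousOn (chi u ε) (Wn u ∩ S) :=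
    (contDiffOn_chi hOm H.sm ε).continuousOn.mono (inter_subset_left.trans (Wn_sub_Om u))
  refine setIntegral_mono_on ?_ ?_ hWSm ?_
  · exact ((i1.sub i2).sub i3).mono_set (inter_subset_left.trans (Wn_sub_Om u))
  · have j1 : IntegrableOn (fun x => chi u ε x ^ 2 * gg w Ef Lam x) (Wn u ∩ S) := by
      obtain ⟨Cg, hCg0, hCg⟩ := gg_bound H hE hR
      refine integrableOn_of_bdd' hWSm (WS_fin _ _ _)
        ((c5.pow 2).mul ((gg_cont H hE).mono inter_subset_left)) (C := Cg) ?_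
      intro x hx
      rw [abs_mul, abs_pow, abs_of_nonneg (chi_nonneg _ _ _)]
      have g1 := chi_nonneg u ε x
      have g2 := chi_le_one u ε x
      calc chi u ε x ^ 2 * |gg w Ef Lam x| ≤ 1 ^ 2 * Cg := by
            gcongr; exact hCg x hx
        _ = Cg := by ring
    exact j1.add (small_ind H a b (2 * ε) ((hei.abs).const_mul K))
  · rintro x ⟨hxW, hxS⟩
    have key := pointwise_Wn (ε := ε) H hE hxW
    refine key.trans ?_
    refine add_le_add (le_of_eq rfl) ?_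
    have hxn : 0 < ‖x‖ := ha0.trans_le hxS.1
    obtain ⟨e1, e2, e3, e4⟩ := he x hxW hxS
    have hs : 0 < Real.sqrt (hs2 (D2 u x)) := Real.sqrt_pos.2 hxW.2
    have hs' : Real.sqrt (hs2 (D2 u x)) ^ 2 = hs2 (D2 u x) := Real.sq_sqrt hxW.2.le
    by_cases hm : hs2 (D2 u x) ≤ 2 * ε
    · rw [indicator_of_mem (show x ∈ {y | hs2 (D2 u y) ≤ 2 * ε} from hm)]
      have hcb := (hχb u ε hε x (H.diffD2 hxW.1) hxW.2).1
      have he0 : e x ≤ |e x| := le_abs_self _
      have hcn : ‖(deriv Ef (Real.log ‖x‖) / ‖x‖ ^ 2) • x‖ ≤ B := by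
        rw [norm_smul, Real.norm_eq_abs, abs_div, abs_of_nonneg (sq_nonneg ‖x‖)]
        have e1 : |deriv Ef (Real.log ‖x‖)| / ‖x‖ ^ 2 * ‖x‖ = |deriv Ef (Real.log ‖x‖)| / ‖x‖ := by
          field_simp
        rw [e1]
        refine le_trans ?_ hBB'
        have g2 := (hBb0 (Real.log ‖x‖)).2
        have g3 := hxS.1
        gcongr
      have hrem := remainder_le (a := ∇ w x) (b := ∇ (chi u ε) x)
        (c := (deriv Ef (Real.log ‖x‖) / ‖x‖ ^ 2) • x) (Xx := X x) (w0 := w x)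
        (E0 := Ef (Real.log ‖x‖)) (χ0 := chi u ε x) (Cc := Cc) (B := B) (T := ‖D3 u x‖)
        (s := Real.sqrt (hs2 (D2 u x))) (e := e x) (H.wpos x hxW).le
        (((hBb0 (Real.log ‖x‖)).1).trans hBB) (chi_nonneg _ _ _) (chi_le_one _ _ _) hcn hs
        (norm_nonneg _) hCc.le (by rw [norm_gradient]; exact hcb) (by rw [hs']; exact e1)
        (by rw [norm_gradient]; exact e2) e3 e4
      refine hrem.trans ?_
      exact mul_le_mul_of_nonneg_left he0 hK0
    · rw [indicator_of_notMem (show x ∉ {y | hs2 (D2 u y) ≤ 2 * ε} from hm)]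
      have hz := (hχb u ε hε x (H.diffD2 hxW.1) hxW.2).2 (not_le.1 hm)
      have hg : ∇ (chi u ε) x = 0 := by
        rw [← norm_eq_zero, norm_gradient, hz, norm_zero]
      rw [hg]; simp

/-- the integrated inequality -/
theorem red_limit (H : RedHyp u w X Lam) (hE : ContDiff ℝ 1 Ef) (hE0 : ∀ s, 0 ≤ Ef s)
    (hR : ∀ s, R < |s| → Ef s = 0) :
    0 ≤ ∫ x in Wn u ∩ Ann d (Real.exp (-R)) (Real.exp R), gg w Ef Lam x := by
  set a := Real.exp (-R) with ha
  set b := Real.exp R with hb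
  have ha0 : 0 < a := Real.exp_pos _
  obtain ⟨e, hei, he⟩ := H.energy a b ha0
  obtain ⟨K, hK0, hK⟩ := red_eps H hE hE0 hR hei he
  have hWSm : MeasurableSet (Wn u ∩ Ann d a b) := measurableSet_WS H a b
  set ε : ℕ → ℝ := fun n => 1 / ((n : ℝ) + 1) with hεdef
  have hεpos : ∀ n, 0 < ε n := fun n => by simp only [hεdef]; positivity
  have hεlim : Tendsto ε atTop (𝓝 0) := tendsto_one_div_add_atTop_nhds_zero_nat
  have hlim : Tendsto (fun n => ∫ x in Wn u ∩ Ann d a b, (chi u (ε n) x ^ 2 * gg w Ef Lam x +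
      ({y | hs2 (D2 u y) ≤ 2 * ε n}.indicator (fun y => K * |e y|) x))) atTop
      (𝓝 (∫ x in Wn u ∩ Ann d a b, gg w Ef Lam x)) := by
    refine tendsto_integral_of_dominated_convergence (fun x => |gg w Ef Lam x| + K * |e x|)
      ?_ ?_ ?_ ?_
    · intro n
      have c5 : ContinuousOn (chi u (ε n)) (Wn u ∩ Ann d a b) :=
        (contDiffOn_chi H.isOpen_Om H.sm (ε n)).continuousOn.mono
          (inter_subset_left.trans (Wn_sub_Om u))
      have c3 : ContinuousOn (fun x => hs2 (D2 u x)) (Om u) :=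
        (smooth_m H.isOpen_Om H.sm).continuousOn
      have j1 : AEStronglyMeasurable (fun x => chi u (ε n) x ^ 2 * gg w Ef Lam x)
          (volume.restrict (Wn u ∩ Ann d a b)) :=
        ((c5.pow 2).mul ((gg_cont H hE).mono inter_subset_left)).aestronglyMeasurable hWSm
      exact j1.add (small_ind H a b (2 * ε n) ((hei.abs).const_mul K)).aestronglyMeasurable
    · exact ((gg_integrable H hE hR).abs).add ((hei.abs).const_mul K)
    · intro n
      rw [ae_restrict_iff' hWSm]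
      refine Eventually.of_forall fun x hx => ?_
      rw [Real.norm_eq_abs]
      refine (abs_add_le _ _).trans (add_le_add ?_ ?_)
      · rw [abs_mul, abs_pow, abs_of_nonneg (chi_nonneg _ _ _)]
        have g1 := chi_nonneg u (ε n) x
        have g2 := chi_le_one u (ε n) x
        calc chi u (ε n) x ^ 2 * |gg w Ef Lam x| ≤ 1 ^ 2 * |gg w Ef Lam x| := by gcongr
          _ = _ := by ring
      · by_cases hxm : x ∈ {y | hs2 (D2 u y) ≤ 2 * ε n}
        · rw [indicator_of_mem hxm, abs_of_nonneg (by positivity)]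
        · rw [indicator_of_notMem hxm]; simp; positivity
    · rw [ae_restrict_iff' hWSm]
      refine Eventually.of_forall fun x hx => ?_
      have hm : 0 < hs2 (D2 u x) := hx.1.2
      have hev : ∀ᶠ n in atTop, 2 * ε n < hs2 (D2 u x) := by
        have h2 : Tendsto (fun n => 2 * ε n) atTop (𝓝 (2 * 0)) := hεlim.const_mul 2
        rw [mul_zero] at h2
        exact h2.eventually (Iio_mem_nhds hm)
      refine tendsto_const_nhds.congr' ?_
      filter_upwards [hev] with n hn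
      rw [chi_one (hεpos n) hn.le, indicator_of_notMem (show x ∉ {y | hs2 (D2 u y) ≤ 2 * ε n}
        from not_le.2 hn)]
      ring
  exact ge_of_tendsto' hlim fun n => hK (ε n) (hεpos n)

end Crest.Agent.R097
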