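import Crest.Agent.R097.Defs
import Crest.Agent.R097.Red5

/-!
# Row 97, reduction: homogeneity and the conclusion by scaling
-/

set_option autoImplicit false
open MeasureTheory Metric Set Filter Topology InnerProductSpace
open scoped RealInnerProductSpace NNReal ENNReal Gradient Laplacian Pointwise

set_option synthInstance.maxHeartbeats 400000

namespace Crest.Agent.R097

variable {d : ℕ} {u w : E d → ℝ} {X : E d → E d} {Lam : ℝ}

lemma fderiv_comp_smul_eq {F : Type*} [NormedAddCommGroup F] [NormedSpace ℝ F] {f : E d → F}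
    {t c : ℝ} (ht : 0 < t) (h : ∀ y, f (t • y) = c • f y) (x : E d) :
    fderiv ℝ f (t • x) = (t⁻¹ * c) • fderiv ℝ f x := by
  have h1 : fderiv ℝ (fun y => f (t • y)) x = t • fderiv ℝ f (t • x) := fderiv_comp_smul t
  have h2 : fderiv ℝ (fun y => f (t • y)) x = c • fderiv ℝ f x := by
    have : (fun y => f (t • y)) = fun y => c • f y := funext h
    rw [this]
    exact congrFun (fderiv_const_smul_field (𝕜 := ℝ) (f := f) c) x
  rw [h1] at h2
  rw [mul_smul, ← h2, smul_smul, inv_mul_cancel₀ ht.ne', one_smul]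

lemma hom_fderiv (hh : Hom1 u) {t : ℝ} (ht : 0 < t) (x : E d) :
    fderiv ℝ u (t • x) = fderiv ℝ u x := by
  rw [fderiv_comp_smul_eq ht (c := t) (fun y => by rw [hh t ht y, smul_eq_mul]) x,
    inv_mul_cancel₀ ht.ne', one_smul]

lemma hom_D2 (hh : Hom1 u) {t : ℝ} (ht : 0 < t) (x : E d) : D2 u (t • x) = t⁻¹ • D2 u x := by
  unfold D2
  rw [fderiv_comp_smul_eq ht (c := 1) (fun y => by rw [hom_fderiv hh ht, one_smul]) x, mul_one]

lemma hom_D3 (hh : Hom1 u) {t : ℝ} (ht : 0 < t) (x : E d) :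
    D3 u (t • x) = (t⁻¹ * t⁻¹) • D3 u x := by
  have h : ∀ y, D2 u (t • y) = t⁻¹ • D2 u y := hom_D2 hh ht
  show fderiv ℝ (D2 u) (t • x) = (t⁻¹ * t⁻¹) • fderiv ℝ (D2 u) x
  rw [fderiv_comp_smul_eq ht h x]

lemma hs2_smul (c : ℝ) (A : Bil d) : hs2 (c • A) = c ^ 2 * hs2 A := by
  unfold hs2
  simp_rw [Finset.mul_sum, smul_apply, smul_eq_mul, mul_pow]

lemma hom_m (hh : Hom1 u) {t : ℝ} (ht : 0 < t) (x : E d) :
    hs2 (D2 u (t • x)) = (t⁻¹) ^ 2 * hs2 (D2 u x) := by
  rw [hom_D2 hh ht, hs2_smul]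

lemma hom_Wn (hh : Hom1 u) {t : ℝ} (ht : 0 < t) {x : E d} : t • x ∈ Wn u ↔ x ∈ Wn u := by
  unfold Wn
  simp only [mem_ofPred_eq]
  rw [hh t ht, hom_m hh ht]
  have : 0 < (t⁻¹) ^ 2 := by positivity
  constructor
  · rintro ⟨h1, h2⟩
    exact ⟨(mul_pos_iff_of_pos_left ht).1 h1, (mul_pos_iff_of_pos_left this).1 h2⟩
  · rintro ⟨h1, h2⟩
    exact ⟨mul_pos ht h1, mul_pos this h2⟩

/-- half-open annulus in logarithmic coordinates -/
def LA (d : ℕ) (a b : ℝ) : Set (E d) := {x | Real.exp a ≤ ‖x‖ ∧ ‖x‖ < Real.exp b}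

lemma measurableSet_LA (a b : ℝ) : MeasurableSet (LA d a b) :=
  (isClosed_le continuous_const continuous_norm).measurableSet.inter
    (isOpen_lt continuous_norm continuous_const).measurableSet

lemma LA_sub_Ann (a b : ℝ) : LA d a b ⊆ Ann d (Real.exp a) (Real.exp b) :=
  fun _ hx => ⟨hx.1, hx.2.le⟩

/-- the scale invariant density -/
noncomputable def rho (w : E d → ℝ) (x : E d) : ℝ := w x ^ 2 * (‖x‖ ^ d)⁻¹

lemma rho_nonneg (x : E d) : 0 ≤ rho w x := by unfold rho; positivity

lemma rho_integrable (H : RedHyp u w X Lam) {a b : ℝ} (ha : 0 < a) :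
    IntegrableOn (rho w) (Wn u ∩ Ann d a b) := by
  obtain ⟨C, hC⟩ := H.wbd a b ha
  have hc : ContinuousOn (rho w) (Wn u ∩ Ann d a b) := by
    unfold rho
    refine ((H.wC.continuousOn.mono inter_subset_left).pow 2).mul
      (((continuous_norm.pow d).continuousOn).inv₀ fun x hx => ?_)
    exact pow_ne_zero d (norm_ne_zero_iff.2 (H.ne_zero hx.1.1))
  refine integrableOn_of_bdd' (measurableSet_WS H a b) (WS_fin _ _ _) hc
    (C := (max C 0) ^ 2 * (a ^ d)⁻¹) ?_
  intro x hx
  rw [abs_of_nonneg (rho_nonneg x)]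
  unfold rho
  have h1 : w x ≤ max C 0 := (hC x hx.1 hx.2).trans (le_max_left _ _)
  have h2 := (H.wpos x hx.1).le
  have h3 := hx.2.1
  gcongr

lemma rho_scale (H : RedHyp u w X Lam) (hh : Hom1 u)
    (hw : ∀ x ∈ Wn u, ∀ t : ℝ, 0 < t → w (t • x) = w x) (a b c : ℝ) :
    ∫ x in Wn u ∩ LA d (a + c) (b + c), rho w x = ∫ x in Wn u ∩ LA d a b, rho w x := by
  set t := Real.exp c with ht
  have ht0 : 0 < t := Real.exp_pos c
  have hset : t • (Wn u ∩ LA d a b) = Wn u ∩ LA d (a + c) (b + c) := by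
    ext x
    rw [mem_smul_set_iff_inv_smul_mem₀ ht0.ne']
    have ht1 : 0 < t⁻¹ := inv_pos.2 ht0
    constructor
    · rintro ⟨h1, h2, h3⟩
      refine ⟨(hom_Wn hh ht1).1 h1, ?_, ?_⟩
      · rw [norm_smul, Real.norm_of_nonneg ht1.le] at h2
        rw [Real.exp_add]
        have := mul_le_mul_of_nonneg_right h2 ht0.le
        calc Real.exp a * Real.exp c ≤ t⁻¹ * ‖x‖ * t := this
          _ = ‖x‖ := by field_simp
      · rw [norm_smul, Real.norm_of_nonneg ht1.le] at h3
        rw [Real.exp_add]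
        have := mul_lt_mul_of_pos_right h3 ht0
        calc ‖x‖ = t⁻¹ * ‖x‖ * t := by field_simp
          _ < Real.exp b * Real.exp c := this
    · rintro ⟨h1, h2, h3⟩
      refine ⟨(hom_Wn hh ht1).2 h1, ?_, ?_⟩
      · rw [norm_smul, Real.norm_of_nonneg ht1.le, inv_mul_eq_div, le_div_iff₀ ht0, ht,
          ← Real.exp_add]
        exact h2
      · rw [norm_smul, Real.norm_of_nonneg ht1.le, inv_mul_eq_div, div_lt_iff₀ ht0, ht,
          ← Real.exp_add]
        exact h3
  have h1 := Measure.setIntegral_comp_smul_of_pos (μ := (volume : Measure (E d))) (rho w)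
    (Wn u ∩ LA d a b) ht0
  rw [hset] at h1
  have h2 : ∫ x in Wn u ∩ LA d a b, rho w (t • x) =
      (t ^ d)⁻¹ * ∫ x in Wn u ∩ LA d a b, rho w x := by
    rw [← integral_const_mul]
    refine setIntegral_congr_fun (H.isOpen_Wn.measurableSet.inter (measurableSet_LA a b)) ?_
    intro x hx
    simp only [rho]
    rw [hw x hx.1 t ht0, norm_smul, Real.norm_of_nonneg ht0.le, mul_pow, mul_inv]
    ring
  rw [h2] at h1
  have h3 : Module.finrank ℝ (E d) = d := by simp
  rw [h3, smul_eq_mul] at h1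
  have h4 : (t ^ d)⁻¹ ≠ 0 := by positivity
  exact (mul_left_cancel₀ h4 h1).symm

lemma rho_union (H : RedHyp u w X Lam) {a b c : ℝ} (hab : a ≤ b) (hbc : b ≤ c) :
    ∫ x in Wn u ∩ LA d a c, rho w x =
      (∫ x in Wn u ∩ LA d a b, rho w x) + ∫ x in Wn u ∩ LA d b c, rho w x := by
  have hset : Wn u ∩ LA d a c = (Wn u ∩ LA d a b) ∪ (Wn u ∩ LA d b c) := by
    ext x
    constructor
    · rintro ⟨h1, h2, h3⟩
      rcases lt_or_ge ‖x‖ (Real.exp b) with h | h
      · exact Or.inl ⟨h1, h2, h⟩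
      · exact Or.inr ⟨h1, h, h3⟩
    · rintro (⟨h1, h2, h3⟩ | ⟨h1, h2, h3⟩)
      · exact ⟨h1, h2, h3.trans_le (Real.exp_le_exp.2 hbc)⟩
      · exact ⟨h1, (Real.exp_le_exp.2 hab).trans h2, h3⟩
  rw [hset, setIntegral_union]
  · rw [Set.disjoint_left]
    rintro x ⟨_, _, h3⟩ ⟨_, h2, _⟩
    linarith
  · exact H.isOpen_Wn.measurableSet.inter (measurableSet_LA b c)
  · exact (rho_integrable H (Real.exp_pos a)).mono_set (inter_subset_inter_right _ (LA_sub_Ann a b))
  · exact (rho_integrable H (Real.exp_pos b)).mono_set (inter_subset_inter_right _ (LA_sub_Ann b c))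

lemma rho_nat (H : RedHyp u w X Lam) (hh : Hom1 u)
    (hw : ∀ x ∈ Wn u, ∀ t : ℝ, 0 < t → w (t • x) = w x) (a : ℝ) (n : ℕ) :
    ∫ x in Wn u ∩ LA d a (a + n), rho w x = n * ∫ x in Wn u ∩ LA d 0 1, rho w x := by
  induction n with
  | zero =>
      have : LA d a (a + (0 : ℕ)) = ∅ := by
        ext x
        simp only [LA, mem_ofPred_eq, mem_empty_iff_false, iff_false, not_and, not_lt]
        intro h
        simpa using h
      rw [this]; simp
  | succ n ih =>
      have h1 : a + ((n + 1 : ℕ) : ℝ) = 1 + (a + n) := by push_cast; ring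
      rw [rho_union H (a := a) (b := a + n) (c := a + (n + 1 : ℕ)) (by
        have : (0:ℝ) ≤ n := Nat.cast_nonneg n
        linarith) (by push_cast; linarith), ih, h1]
      have h2 := rho_scale H hh hw 0 1 (a + n)
      rw [zero_add] at h2
      rw [h2]; push_cast; ring

/-- the profile `e^{-κ s} ζ_L(s)` -/
noncomputable def prof (κ L s : ℝ) : ℝ :=
  Real.exp (-(κ * s)) * (Real.smoothTransition (s + L + 1) * Real.smoothTransition (L + 1 - s))

lemma prof_contDiff (κ L : ℝ) : ContDiff ℝ 1 (prof κ L) := by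
  unfold prof
  have h : ContDiff ℝ 1 Real.smoothTransition := Real.smoothTransition.contDiff (n := 1)
  refine ContDiff.mul (by fun_prop) (ContDiff.mul (h.comp (by fun_prop)) (h.comp (by fun_prop)))

lemma prof_nonneg (κ L s : ℝ) : 0 ≤ prof κ L s := by
  unfold prof
  exact mul_nonneg (Real.exp_pos _).le (mul_nonneg (Real.smoothTransition.nonneg _)
    (Real.smoothTransition.nonneg _))

lemma prof_zero (κ L : ℝ) : ∀ s, L + 1 < |s| → prof κ L s = 0 := by
  intro s hs
  unfold prof
  rcases le_or_gt 0 s with h | h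
  · rw [abs_of_nonneg h] at hs
    rw [Real.smoothTransition.zero_of_nonpos (x := L + 1 - s) (by linarith)]; simp
  · rw [abs_of_neg h] at hs
    rw [Real.smoothTransition.zero_of_nonpos (x := s + L + 1) (by linarith)]; simp

lemma deriv_prof (κ L s : ℝ) : deriv (prof κ L) s = Real.exp (-(κ * s)) *
    ((deriv Real.smoothTransition (s + L + 1) * Real.smoothTransition (L + 1 - s) -
      Real.smoothTransition (s + L + 1) * deriv Real.smoothTransition (L + 1 - s)) -
      κ * (Real.smoothTransition (s + L + 1) * Real.smoothTransition (L + 1 - s))) := by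
  have hd : ∀ x, HasDerivAt Real.smoothTransition (deriv Real.smoothTransition x) x := fun x =>
    ((Real.smoothTransition.contDiff (n := 1)).differentiable (by simp) x).hasDerivAt
  have h1 : HasDerivAt (fun s => Real.smoothTransition (s + L + 1))
      (deriv Real.smoothTransition (s + L + 1)) s := by
    have := (hd (s + L + 1)).comp s (((hasDerivAt_id s).add_const L).add_const 1)
    rw [mul_one] at this
    exact this
  have h2 : HasDerivAt (fun s => Real.smoothTransition (L + 1 - s))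
      (-deriv Real.smoothTransition (L + 1 - s)) s := by
    have := (hd (L + 1 - s)).comp s ((hasDerivAt_id s).const_sub (L + 1))
    rw [mul_neg_one] at this
    exact this
  have h3 : HasDerivAt (fun s => Real.exp (-(κ * s))) (Real.exp (-(κ * s)) * (-κ)) s := by
    have h := ((hasDerivAt_id s).const_mul κ).neg.exp
    simpa using h
  have h4 : HasDerivAt (prof κ L) _ s := h3.mul (h1.mul h2)
  rw [h4.deriv]
  ring

set_option maxHeartbeats 2000000 in
/-- **Conclusion of the abstract reduction.** -/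
theorem red_conclusion (hd : 0 < d) (H : RedHyp u w X Lam) (hh : Hom1 u)
    (hw : ∀ x ∈ Wn u, ∀ t : ℝ, 0 < t → w (t • x) = w x)
    (hLam : (((d : ℝ) - 2) / 2) ^ 2 < Lam) : Wn u = ∅ := by
  by_contra hne
  obtain ⟨x0, hx0⟩ := nonempty_iff_ne_empty.2 hne
  set κ : ℝ := ((d : ℝ) - 2) / 2 with hκ
  set δ : ℝ := Lam - κ ^ 2 with hδ
  have hδ0 : 0 < δ := by rw [hδ]; linarith
  have hLam0 : 0 < Lam := lt_of_le_of_lt (sq_nonneg _) hLam
  obtain ⟨C0, hC0, hC⟩ := exists_smoothTransition_bound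
  set Cp : ℝ := (2 * C0 + |κ|) ^ 2 with hCp
  have hCp0 : 0 ≤ Cp := sq_nonneg _
  set I : ℝ := ∫ x in Wn u ∩ LA d 0 1, rho w x with hI
  -- positivity of I
  have hIpos : 0 < I := by
    have hm : MeasurableSet (Wn u ∩ LA d 0 1) :=
      H.isOpen_Wn.measurableSet.inter (measurableSet_LA 0 1)
    have hint : IntegrableOn (rho w) (Wn u ∩ LA d 0 1) :=
      (rho_integrable H (Real.exp_pos 0)).mono_set (inter_subset_inter_right _ (LA_sub_Ann 0 1))
    rw [hI, setIntegral_pos_iff_support_of_nonneg_ae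
      (Eventually.of_forall fun x => rho_nonneg x) hint]
    have hopen : IsOpen (Wn u ∩ {x : E d | 1 < ‖x‖ ∧ ‖x‖ < Real.exp 1}) :=
      H.isOpen_Wn.inter ((isOpen_lt continuous_const continuous_norm).inter
        (isOpen_lt continuous_norm continuous_const))
    have hsub : Wn u ∩ {x : E d | 1 < ‖x‖ ∧ ‖x‖ < Real.exp 1} ⊆
        Function.support (rho w) ∩ (Wn u ∩ LA d 0 1) := by
      rintro x ⟨h1, h2, h3⟩
      refine ⟨?_, h1, by rw [Real.exp_zero]; exact h2.le, h3⟩
      have hx : 0 < ‖x‖ := by linarith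
      have hwx := H.wpos x h1
      have : 0 < rho w x := by unfold rho; positivity
      exact this.ne'
    refine lt_of_lt_of_le ?_ (measure_mono hsub)
    refine hopen.measure_pos volume ?_
    have hn0 : 0 < ‖x0‖ := norm_pos_iff.2 (H.ne_zero hx0.1)
    refine ⟨(Real.exp (1 / 2) / ‖x0‖) • x0, (hom_Wn hh (by positivity)).2 hx0, ?_, ?_⟩
    · rw [norm_smul, Real.norm_of_nonneg (by positivity), div_mul_cancel₀ _ hn0.ne']
      exact Real.one_lt_exp_iff.2 (by norm_num)
    · rw [norm_smul, Real.norm_of_nonneg (by positivity), div_mul_cancel₀ _ hn0.ne']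
      exact Real.exp_lt_exp.2 (by norm_num)
  -- choose n
  obtain ⟨n, hn⟩ := exists_nat_gt (4 * Cp / δ)
  have hn0 : (0 : ℝ) ≤ n := Nat.cast_nonneg n
  set L : ℝ := (n : ℝ) with hL
  have key := red_limit H (prof_contDiff κ L) (prof_nonneg κ L) (prof_zero κ L) (R := L + 1)
  set S : Set (E d) := Ann d (Real.exp (-(L + 1))) (Real.exp (L + 1)) with hS
  -- the density
  have hdens : ∀ x ∈ Wn u ∩ S, gg w (prof κ L) Lam x ≤
      (LA d 0 L).indicator (fun x => -δ * rho w x) x +
      ((LA d L (L + 2)).indicator (fun x => Cp * rho w x) x +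
       (LA d (-(L + 1)) (-L + 1)).indicator (fun x => Cp * rho w x) x) := by
    rintro x ⟨hxW, hxS⟩
    have hxn : 0 < ‖x‖ := norm_pos_iff.2 (H.ne_zero hxW.1)
    set s := Real.log ‖x‖ with hs
    have hes : Real.exp s = ‖x‖ := Real.exp_log hxn
    set ζ := Real.smoothTransition (s + L + 1) * Real.smoothTransition (L + 1 - s) with hζ
    set ζ' := deriv Real.smoothTransition (s + L + 1) * Real.smoothTransition (L + 1 - s) -
      Real.smoothTransition (s + L + 1) * deriv Real.smoothTransition (L + 1 - s) with hζ'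
    have hg : gg w (prof κ L) Lam x = rho w x * ((ζ' - κ * ζ) ^ 2 - Lam * ζ ^ 2) := by
      unfold gg rho
      rw [norm_smul, deriv_prof]
      unfold prof
      rw [← hs, ← hζ, ← hζ', Real.norm_eq_abs, mul_pow, sq_abs, div_pow, mul_pow]
      have e1 : Real.exp (-(κ * s)) ^ 2 = ‖x‖ ^ 2 * (‖x‖ ^ d)⁻¹ := by
        have e2 : Real.exp (-(κ * s)) ^ 2 = Real.exp (2 * s - d * s) := by
          rw [← Real.exp_nat_mul]; congr 1; rw [hκ]; push_cast; ring
        rw [e2, Real.exp_sub]
        have e3 : Real.exp (2 * s) = ‖x‖ ^ 2 := by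
          rw [← hes, ← Real.exp_nat_mul]; norm_num
        have e4 : Real.exp (d * s) = ‖x‖ ^ d := by
          rw [← hes, ← Real.exp_nat_mul]
        rw [e3, e4]; rfl
      rw [mul_pow, e1]
      field_simp
    have hr := rho_nonneg (w := w) x
    have z1 := Real.smoothTransition.nonneg (s + L + 1)
    have z2 := Real.smoothTransition.le_one (s + L + 1)
    have z3 := Real.smoothTransition.nonneg (L + 1 - s)
    have z4 := Real.smoothTransition.le_one (L + 1 - s)
    have hζ0 : 0 ≤ ζ := mul_nonneg z1 z3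
    have hζ1 : ζ ≤ 1 := mul_le_one₀ z2 z3 z4
    have hζ'b : |ζ'| ≤ 2 * C0 := by
      rw [hζ']
      refine (abs_sub _ _).trans ?_
      rw [abs_mul, abs_mul, abs_of_nonneg z1, abs_of_nonneg z3]
      have a1 := hC (s + L + 1)
      have a2 := hC (L + 1 - s)
      nlinarith [abs_nonneg (deriv Real.smoothTransition (s + L + 1)),
        abs_nonneg (deriv Real.smoothTransition (L + 1 - s))]
    have hup : (ζ' - κ * ζ) ^ 2 - Lam * ζ ^ 2 ≤ Cp := by
      have a1 : |ζ' - κ * ζ| ≤ 2 * C0 + |κ| := by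
        refine (abs_sub _ _).trans (add_le_add hζ'b ?_)
        rw [abs_mul, abs_of_nonneg hζ0]
        nlinarith [abs_nonneg κ]
      have a2 : (ζ' - κ * ζ) ^ 2 ≤ Cp := by
        rw [hCp, ← sq_abs]
        exact pow_le_pow_left₀ (abs_nonneg _) a1 2
      nlinarith [mul_nonneg hLam0.le (sq_nonneg ζ)]
    have hinner : |s| < L → (ζ' - κ * ζ) ^ 2 - Lam * ζ ^ 2 = -δ := by
      intro h
      rw [abs_lt] at h
      have a1 : deriv Real.smoothTransition (s + L + 1) = 0 :=
        deriv_smoothTransition_eq_zero (Or.inr (by linarith))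
      have a2 : deriv Real.smoothTransition (L + 1 - s) = 0 :=
        deriv_smoothTransition_eq_zero (Or.inr (by linarith))
      have a3 : Real.smoothTransition (s + L + 1) = 1 :=
        Real.smoothTransition.one_of_one_le (by linarith)
      have a4 : Real.smoothTransition (L + 1 - s) = 1 :=
        Real.smoothTransition.one_of_one_le (by linarith)
      rw [hζ', hζ, a1, a2, a3, a4, hδ]; ring
    rw [hg]
    have hI1 : ∀ A B : ℝ, x ∈ LA d A B ↔ A ≤ s ∧ s < B := by
      intro A B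
      unfold LA
      rw [mem_ofPred_eq, ← hes, Real.exp_le_exp, Real.exp_lt_exp]
    have hsS : -(L + 1) ≤ s ∧ s ≤ L + 1 := by
      have h1 := hxS.1
      have h2 := hxS.2
      rw [← hes, Real.exp_le_exp] at h1 h2
      exact ⟨h1, h2⟩
    have hρC : 0 ≤ Cp * rho w x := by positivity
    by_cases h1 : |s| < L
    · rw [hinner h1]
      rw [abs_lt] at h1
      by_cases h2 : 0 ≤ s
      · rw [indicator_of_mem ((hI1 0 L).2 ⟨h2, h1.2⟩)]
        have a1 : 0 ≤ (LA d L (L + 2)).indicator (fun x => Cp * rho w x) x :=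
          indicator_nonneg (fun y _ => mul_nonneg hCp0 (rho_nonneg y)) x
        have a2 : 0 ≤ (LA d (-(L + 1)) (-L + 1)).indicator (fun x => Cp * rho w x) x :=
          indicator_nonneg (fun y _ => mul_nonneg hCp0 (rho_nonneg y)) x
        linarith
      · rw [indicator_of_notMem (fun h => h2 ((hI1 0 L).1 h).1)]
        have a1 : 0 ≤ (LA d L (L + 2)).indicator (fun x => Cp * rho w x) x :=
          indicator_nonneg (fun y _ => mul_nonneg hCp0 (rho_nonneg y)) x
        have a2 : 0 ≤ (LA d (-(L + 1)) (-L + 1)).indicator (fun x => Cp * rho w x) x :=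
          indicator_nonneg (fun y _ => mul_nonneg hCp0 (rho_nonneg y)) x
        nlinarith
    · have h1' : L ≤ |s| := not_lt.1 h1
      have hle : rho w x * ((ζ' - κ * ζ) ^ 2 - Lam * ζ ^ 2) ≤ Cp * rho w x := by
        rw [mul_comm Cp]; exact mul_le_mul_of_nonneg_left hup hr
      have hnot : x ∉ LA d 0 L := by
        intro h
        obtain ⟨g1, g2⟩ := (hI1 0 L).1 h
        rw [abs_of_nonneg g1] at h1'
        linarith
      rw [indicator_of_notMem hnot, zero_add]
      rcases le_or_gt 0 s with h2 | h2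
      · rw [abs_of_nonneg h2] at h1'
        rw [indicator_of_mem ((hI1 L (L + 2)).2 ⟨h1', by linarith [hsS.2]⟩)]
        have a2 : 0 ≤ (LA d (-(L + 1)) (-L + 1)).indicator (fun x => Cp * rho w x) x :=
          indicator_nonneg (fun y _ => mul_nonneg hCp0 (rho_nonneg y)) x
        linarith
      · rw [abs_of_neg h2] at h1'
        rw [indicator_of_mem ((hI1 (-(L + 1)) (-L + 1)).2 ⟨hsS.1, by linarith⟩)]
        have a1 : 0 ≤ (LA d L (L + 2)).indicator (fun x => Cp * rho w x) x :=
          indicator_nonneg (fun y _ => mul_nonneg hCp0 (rho_nonneg y)) x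
        linarith
  -- integrate
  have hWSm : MeasurableSet (Wn u ∩ S) := measurableSet_WS H _ _
  have hρS : IntegrableOn (rho w) (Wn u ∩ Ann d (Real.exp (-(L + 2))) (Real.exp (L + 2))) :=
    rho_integrable H (Real.exp_pos _)
  have hsubS : Wn u ∩ S ⊆ Wn u ∩ Ann d (Real.exp (-(L + 2))) (Real.exp (L + 2)) := by
    refine inter_subset_inter_right _ fun x hx => ⟨?_, ?_⟩
    · exact (Real.exp_le_exp.2 (by linarith)).trans hx.1
    · exact hx.2.trans (Real.exp_le_exp.2 (by linarith))
  have hρ1 : IntegrableOn (rho w) (Wn u ∩ S) := hρS.mono_set hsubS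
  have j1 : IntegrableOn ((LA d 0 L).indicator (fun x => -δ * rho w x)) (Wn u ∩ S) :=
    (hρ1.const_mul (-δ)).indicator (measurableSet_LA 0 L)
  have j2 : IntegrableOn ((LA d L (L + 2)).indicator (fun x => Cp * rho w x)) (Wn u ∩ S) :=
    (hρ1.const_mul Cp).indicator (measurableSet_LA L (L + 2))
  have j3 : IntegrableOn ((LA d (-(L + 1)) (-L + 1)).indicator (fun x => Cp * rho w x))
      (Wn u ∩ S) := (hρ1.const_mul Cp).indicator (measurableSet_LA _ _)
  have hle := setIntegral_mono_on (gg_integrable H (prof_contDiff κ L) (prof_zero κ L))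
    (j1.add (j2.add j3)) hWSm hdens
  have hadd : ∫ x in Wn u ∩ S, ((LA d 0 L).indicator (fun x => -δ * rho w x) x +
      ((LA d L (L + 2)).indicator (fun x => Cp * rho w x) x +
       (LA d (-(L + 1)) (-L + 1)).indicator (fun x => Cp * rho w x) x)) =
      (∫ x in Wn u ∩ S, (LA d 0 L).indicator (fun x => -δ * rho w x) x) +
      ((∫ x in Wn u ∩ S, (LA d L (L + 2)).indicator (fun x => Cp * rho w x) x) +
       ∫ x in Wn u ∩ S, (LA d (-(L + 1)) (-L + 1)).indicator (fun x => Cp * rho w x) x) := by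
    have j23 : IntegrableOn (fun x => (LA d L (L + 2)).indicator (fun x => Cp * rho w x) x +
       (LA d (-(L + 1)) (-L + 1)).indicator (fun x => Cp * rho w x) x) (Wn u ∩ S) := j2.add j3
    rw [integral_add j1 j23, integral_add j2 j3]
  have key' := key.trans (hle.trans (le_of_eq hadd))
  rw [setIntegral_indicator (measurableSet_LA _ _), setIntegral_indicator (measurableSet_LA _ _),
    setIntegral_indicator (measurableSet_LA _ _), integral_const_mul, integral_const_mul,
    integral_const_mul] at key'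
  have f1 : ∫ x in Wn u ∩ S ∩ LA d 0 L, rho w x = L * I := by
    have hset : Wn u ∩ S ∩ LA d 0 L = Wn u ∩ LA d 0 (0 + n) := by
      ext x
      constructor
      · rintro ⟨⟨h1, h2⟩, h3⟩
        exact ⟨h1, by rw [zero_add]; exact h3⟩
      · rintro ⟨h1, h2⟩
        rw [zero_add] at h2
        refine ⟨⟨h1, ?_, ?_⟩, h2⟩
        · exact (Real.exp_le_exp.2 (by linarith)).trans h2.1
        · exact h2.2.le.trans (Real.exp_le_exp.2 (by linarith))
    rw [hset, rho_nat H hh hw]
  have f2 : ∫ x in Wn u ∩ S ∩ LA d L (L + 2), rho w x ≤ 2 * I := by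
    have h1 : ∫ x in Wn u ∩ LA d L (L + 2), rho w x = 2 * I := by
      have := rho_nat H hh hw L 2
      simpa using this
    rw [← h1]
    refine setIntegral_mono_set ?_ (Eventually.of_forall fun x => rho_nonneg x)
      (LE.le.eventuallyLE ?_)
    · exact hρS.mono_set (inter_subset_inter_right _ fun x hx =>
        ⟨(Real.exp_le_exp.2 (by linarith)).trans hx.1, hx.2.le⟩)
    · rintro x ⟨⟨h1, h2⟩, h3⟩; exact ⟨h1, h3⟩
  have f3 : ∫ x in Wn u ∩ S ∩ LA d (-(L + 1)) (-L + 1), rho w x ≤ 2 * I := by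
    have h1 : ∫ x in Wn u ∩ LA d (-(L + 1)) (-L + 1), rho w x = 2 * I := by
      have := rho_nat H hh hw (-(L + 1)) 2
      have e : -(L + 1) + ((2 : ℕ) : ℝ) = -L + 1 := by push_cast; ring
      rw [e] at this
      simpa using this
    rw [← h1]
    refine setIntegral_mono_set ?_ (Eventually.of_forall fun x => rho_nonneg x)
      (LE.le.eventuallyLE ?_)
    · exact hρS.mono_set (inter_subset_inter_right _ fun x hx =>
        ⟨(Real.exp_le_exp.2 (by linarith)).trans hx.1,
          hx.2.le.trans (Real.exp_le_exp.2 (by linarith))⟩)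
    · rintro x ⟨⟨h1, h2⟩, h3⟩; exact ⟨h1, h3⟩
  rw [f1] at key'
  have g1 : Cp * (∫ x in Wn u ∩ S ∩ LA d L (L + 2), rho w x) ≤ Cp * (2 * I) :=
    mul_le_mul_of_nonneg_left f2 hCp0
  have g2 : Cp * (∫ x in Wn u ∩ S ∩ LA d (-(L + 1)) (-L + 1), rho w x) ≤ Cp * (2 * I) :=
    mul_le_mul_of_nonneg_left f3 hCp0
  have h5 : 4 * Cp < L * δ := (div_lt_iff₀ hδ0).1 hn
  nlinarith

end Crest.Agent.R097
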