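import Crest.Agent.R097.RFld0
import Crest.Agent.R097.Red6

/-!
# Row 97: the fields `wbd` and `energy` of `RedHyp` from the growth condition of a certificate
-/

set_option autoImplicit false
set_option synthInstance.maxHeartbeats 400000
open MeasureTheory Metric Set Filter Topology InnerProductSpace
open scoped RealInnerProductSpace NNReal ENNReal Gradient Laplacian

namespace Crest.Agent.R097

namespace REn

variable {d : ℕ}

lemma abs_le_hs (A : Bil d) (i j : Fin d) : |A (bv i) (bv j)| ≤ Real.sqrt (hs2 A) := by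
  apply Real.abs_le_sqrt
  unfold hs2
  calc (A (bv i) (bv j)) ^ 2 ≤ ∑ j, (A (bv i) (bv j)) ^ 2 :=
        Finset.single_le_sum (f := fun j => (A (bv i) (bv j)) ^ 2) (fun _ _ => sq_nonneg _)
          (Finset.mem_univ j)
    _ ≤ _ := Finset.single_le_sum (f := fun i => ∑ j, (A (bv i) (bv j)) ^ 2)
          (fun _ _ => Finset.sum_nonneg fun _ _ => sq_nonneg _) (Finset.mem_univ i)

lemma bil_le (A : Bil d) (v w : E d) :
    |A v w| ≤ (d : ℝ) * d * Real.sqrt (hs2 A) * ‖v‖ * ‖w‖ := by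
  have hv : A v w = ∑ i, ∑ j, v i * (w j * A (bv i) (bv j)) := by
    conv_lhs => rw [← sum_bv v]
    rw [map_sum, sum_apply]
    refine Finset.sum_congr rfl fun i _ => ?_
    rw [map_smul, smul_apply, smul_eq_mul]
    conv_lhs => rw [← sum_bv w]
    rw [map_sum, Finset.mul_sum]
    refine Finset.sum_congr rfl fun j _ => ?_
    rw [map_smul, smul_eq_mul]
  rw [hv]
  have hs := Real.sqrt_nonneg (hs2 A)
  have hn : ∀ (z : E d) (i : Fin d), |z i| ≤ ‖z‖ := fun z i => by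
    have := PiLp.norm_apply_le z i
    simpa using this
  calc |∑ i, ∑ j, v i * (w j * A (bv i) (bv j))|
      ≤ ∑ i, ∑ j, |v i * (w j * A (bv i) (bv j))| :=
        (Finset.abs_sum_le_sum_abs _ _).trans
          (Finset.sum_le_sum fun i _ => Finset.abs_sum_le_sum_abs _ _)
    _ ≤ ∑ _i : Fin d, ∑ _j : Fin d, ‖v‖ * (‖w‖ * Real.sqrt (hs2 A)) := by
        refine Finset.sum_le_sum fun i _ => Finset.sum_le_sum fun j _ => ?_
        rw [abs_mul, abs_mul]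
        have h1 := hn v i
        have h2 := hn w j
        have h3 := abs_le_hs A i j
        gcongr
    _ = _ := by
        simp only [Finset.sum_const, Finset.card_univ, Fintype.card_fin, nsmul_eq_mul]
        ring

lemma norm_bil_le (A : Bil d) : ‖A‖ ≤ (d : ℝ) * d * Real.sqrt (hs2 A) := by
  have hs := Real.sqrt_nonneg (hs2 A)
  refine ContinuousLinearMap.opNorm_le_bound₂ _ (by positivity) fun v w => ?_
  exact bil_le A v w

lemma norm_sum_bv_le {f : Fin d → ℝ} {c : ℝ} (h : ∀ i, |f i| ≤ c) :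
    ‖∑ i, f i • (bv i : E d)‖ ≤ d * c := by
  calc ‖∑ i, f i • (bv i : E d)‖ ≤ ∑ i, ‖f i • (bv i : E d)‖ := norm_sum_le _ _
    _ ≤ ∑ _i : Fin d, c := by
        refine Finset.sum_le_sum fun i _ => ?_
        rw [norm_smul, norm_bv, mul_one, Real.norm_eq_abs]
        exact h i
    _ = d * c := by simp

lemma norm_act_le (A : Bil d) (v : E d) :
    ‖act A v‖ ≤ (d : ℝ) * (d * d * Real.sqrt (hs2 A) * ‖v‖) := by
  unfold act
  refine norm_sum_bv_le fun i => ?_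
  have := bil_le A v (bv i)
  rwa [norm_bv, mul_one] at this

lemma norm_TM_le (A : Bil d) (B : Tri d) :
    ‖TM A B‖ ≤ (d : ℝ) * (d * d * (‖B‖ * Real.sqrt (hs2 A))) := by
  unfold TM
  refine norm_sum_bv_le fun k => ?_
  calc |∑ i, ∑ j, B (bv k) (bv i) (bv j) * A (bv i) (bv j)|
      ≤ ∑ i, ∑ j, |B (bv k) (bv i) (bv j) * A (bv i) (bv j)| :=
        (Finset.abs_sum_le_sum_abs _ _).trans
          (Finset.sum_le_sum fun i _ => Finset.abs_sum_le_sum_abs _ _)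
    _ ≤ ∑ _i : Fin d, ∑ _j : Fin d, ‖B‖ * Real.sqrt (hs2 A) := by
        refine Finset.sum_le_sum fun i _ => Finset.sum_le_sum fun j _ => ?_
        rw [abs_mul]
        have h1 := tri_le B (bv k) i j
        rw [norm_bv, mul_one] at h1
        have h3 := abs_le_hs A i j
        gcongr
    _ = _ := by
        simp only [Finset.sum_const, Finset.card_univ, Fintype.card_fin, nsmul_eq_mul]
        ring

lemma abs_tr3_le (A : Bil d) : |tr3 A| ≤ (d : ℝ) ^ 3 * Real.sqrt (hs2 A) ^ 3 := by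
  unfold tr3
  calc |∑ i, ∑ j, ∑ k, A (bv i) (bv j) * A (bv j) (bv k) * A (bv k) (bv i)|
      ≤ ∑ i, ∑ j, ∑ k, |A (bv i) (bv j) * A (bv j) (bv k) * A (bv k) (bv i)| :=
        (Finset.abs_sum_le_sum_abs _ _).trans (Finset.sum_le_sum fun i _ =>
          (Finset.abs_sum_le_sum_abs _ _).trans (Finset.sum_le_sum fun j _ =>
            Finset.abs_sum_le_sum_abs _ _))
    _ ≤ ∑ _i : Fin d, ∑ _j : Fin d, ∑ _k : Fin d,
          Real.sqrt (hs2 A) * Real.sqrt (hs2 A) * Real.sqrt (hs2 A) := by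
        refine Finset.sum_le_sum fun i _ => Finset.sum_le_sum fun j _ =>
          Finset.sum_le_sum fun k _ => ?_
        rw [abs_mul, abs_mul]
        have h1 := abs_le_hs A i j
        have h2 := abs_le_hs A j k
        have h3 := abs_le_hs A k i
        gcongr
    _ = _ := by
        simp only [Finset.sum_const, Finset.card_univ, Fintype.card_fin, nsmul_eq_mul]
        ring

variable {u : E d → ℝ}

/-- derivative of `tr (D²u)³` -/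
lemma has_tr3 (H : HC u) {x : E d} (hx : x ∈ Om u) :
    ∃ L : E d →L[ℝ] ℝ, HasFDerivAt (fun y => tr3 (D2 u y)) L x ∧
      ‖L‖ ≤ 3 * (d : ℝ) ^ 3 * Real.sqrt (hs2 (D2 u x)) ^ 2 * ‖D3 u x‖ := by
  have h2 : ∀ i j : Fin d, HasFDerivAt (fun y => D2 u y (bv i) (bv j))
      (((D3 u x).flip (bv i)).flip (bv j)) x := fun i j => H.hasD2e hx _ _
  have h3 : HasFDerivAt (fun y => tr3 (D2 u y))
      (∑ i, ∑ j, ∑ k, ((D2 u x (bv i) (bv j) * D2 u x (bv j) (bv k)) •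
        (((D3 u x).flip (bv k)).flip (bv i)) + D2 u x (bv k) (bv i) •
        (D2 u x (bv i) (bv j) • (((D3 u x).flip (bv j)).flip (bv k)) +
          D2 u x (bv j) (bv k) • (((D3 u x).flip (bv i)).flip (bv j))))) x := by
    unfold tr3
    refine HasFDerivAt.fun_sum fun i _ => HasFDerivAt.fun_sum fun j _ =>
      HasFDerivAt.fun_sum fun k _ => ?_
    exact ((h2 i j).mul (h2 j k)).mul (h2 k i)
  refine ⟨_, h3, ?_⟩
  set μ := Real.sqrt (hs2 (D2 u x)) with hμ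
  have hμ0 : 0 ≤ μ := Real.sqrt_nonneg _
  have hb : ∀ i j : Fin d, ‖(((D3 u x).flip (bv i)).flip (bv j))‖ ≤ ‖D3 u x‖ := by
    intro i j
    refine ContinuousLinearMap.opNorm_le_bound _ (norm_nonneg _) fun v => ?_
    exact tri_le (D3 u x) v i j
  have hA : ∀ i j : Fin d, ‖D2 u x (bv i) (bv j)‖ ≤ μ := fun i j => abs_le_hs _ i j
  calc _ ≤ ∑ i : Fin d, ∑ j : Fin d, ∑ k : Fin d, ‖((D2 u x (bv i) (bv j) * D2 u x (bv j) (bv k)) •
        (((D3 u x).flip (bv k)).flip (bv i)) + D2 u x (bv k) (bv i) •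
        (D2 u x (bv i) (bv j) • (((D3 u x).flip (bv j)).flip (bv k)) +
          D2 u x (bv j) (bv k) • (((D3 u x).flip (bv i)).flip (bv j))))‖ :=
        (norm_sum_le _ _).trans (Finset.sum_le_sum fun i _ =>
          (norm_sum_le _ _).trans (Finset.sum_le_sum fun j _ => norm_sum_le _ _))
    _ ≤ ∑ _i : Fin d, ∑ _j : Fin d, ∑ _k : Fin d, (μ * μ * ‖D3 u x‖ + μ * (μ * ‖D3 u x‖ +
          μ * ‖D3 u x‖)) := by
        refine Finset.sum_le_sum fun i _ => Finset.sum_le_sum fun j _ =>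
          Finset.sum_le_sum fun k _ => ?_
        refine (norm_add_le _ _).trans (add_le_add ?_ ?_)
        · rw [norm_smul, norm_mul]
          have h1 := hA i j
          have h2 := hA j k
          have h3 := hb k i
          gcongr
        · rw [norm_smul]
          have h1 := hA k i
          refine mul_le_mul h1 ((norm_add_le _ _).trans (add_le_add ?_ ?_)) (norm_nonneg _) hμ0
          · rw [norm_smul]
            exact mul_le_mul (hA i j) (hb j k) (norm_nonneg _) hμ0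
          · rw [norm_smul]
            exact mul_le_mul (hA j k) (hb i j) (norm_nonneg _) hμ0
    _ = _ := by
        simp only [Finset.sum_const, Finset.card_univ, Fintype.card_fin, nsmul_eq_mul]
        ring

/-- derivative of `‖y‖ ^ 3` -/
lemma has_norm3 {x : E d} (hx : x ≠ 0) :
    HasFDerivAt (fun y : E d => ‖y‖ ^ 3) ((3 * ‖x‖) • innerSL ℝ x) x := by
  have hn : ‖x‖ ≠ 0 := norm_ne_zero_iff.2 hx
  have hn0 : 0 < ‖x‖ := norm_pos_iff.2 hx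
  have h1 : HasDerivAt (fun t : ℝ => Real.exp (3 * t)) (3 * ‖x‖ ^ 3) (Real.log ‖x‖) := by
    have : HasDerivAt (fun t : ℝ => Real.exp (3 * t)) (Real.exp (3 * Real.log ‖x‖) * (3 * 1))
        (Real.log ‖x‖) := ((hasDerivAt_id (Real.log ‖x‖)).const_mul (3 : ℝ)).exp
    have e : Real.exp (3 * Real.log ‖x‖) = ‖x‖ ^ 3 := by
      rw [mul_comm, Real.exp_mul, Real.exp_log hn0]; norm_cast
    rw [e] at this
    refine this.congr_deriv ?_
    ring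
  have h2 := hasFDerivAt_radial hx h1
  have h3 : (fun y : E d => ‖y‖ ^ 3) =ᶠ[𝓝 x] fun y => Real.exp (3 * Real.log ‖y‖) := by
    filter_upwards [isOpen_ne.mem_nhds hx] with y hy
    rw [mul_comm, Real.exp_mul, Real.exp_log (norm_pos_iff.2 hy)]; norm_cast
  refine (h2.congr_of_eventuallyEq h3).congr_fderiv ?_
  congr 1
  field_simp

/-- derivative of `‖y‖⁻¹` -/
lemma has_norm_inv {x : E d} (hx : x ≠ 0) :
    HasFDerivAt (fun y : E d => ‖y‖⁻¹) ((-(‖x‖ ^ 3)⁻¹) • innerSL ℝ x) x := by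
  have hn : ‖x‖ ≠ 0 := norm_ne_zero_iff.2 hx
  have hn0 : 0 < ‖x‖ := norm_pos_iff.2 hx
  have h1 : HasDerivAt (fun t : ℝ => Real.exp (-t)) (-(‖x‖⁻¹)) (Real.log ‖x‖) := by
    have : HasDerivAt (fun t : ℝ => Real.exp (-t)) (Real.exp (-Real.log ‖x‖) * (-1))
        (Real.log ‖x‖) := (hasDerivAt_id (Real.log ‖x‖)).neg.exp
    have e : Real.exp (-Real.log ‖x‖) = ‖x‖⁻¹ := by
      rw [Real.exp_neg, Real.exp_log hn0]
    rw [e] at this
    refine this.congr_deriv ?_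
    ring
  have h2 := hasFDerivAt_radial hx h1
  have h3 : (fun y : E d => ‖y‖⁻¹) =ᶠ[𝓝 x] fun y => Real.exp (-Real.log ‖y‖) := by
    filter_upwards [isOpen_ne.mem_nhds hx] with y hy
    rw [Real.exp_neg, Real.exp_log (norm_pos_iff.2 hy)]
  refine (h2.congr_of_eventuallyEq h3).congr_fderiv ?_
  congr 1
  field_simp

/-- derivatives of the four arguments, with bounds -/
lemma has_z (H : HC u) {x : E d} (hx : x ∈ Om u) {a b B μ : ℝ} (ha : 0 < a) (hax : a ≤ ‖x‖)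
    (hxb : ‖x‖ ≤ b) (hB : 1 ≤ B) (hμ : μ = Real.sqrt (hs2 (D2 u x))) (hμB : μ ≤ B)
    (hD : ‖D3 u x‖ ≤ B) (hP : ‖fderiv ℝ u x‖ ≤ 1) (hs0 : 0 ≤ sN u x) (hs1 : sN u x ≤ 1) :
    ∃ L : Fin 4 → (E d →L[ℝ] ℝ), (∀ i, HasFDerivAt (fun y => zN u y i) (L i) x) ∧
      ‖L 0‖ ≤ (2 * B * b + 2 * d * b ^ 2 * B) * μ ∧
      ‖L 1‖ ≤ (3 * b ^ 2 * d ^ 3 * B ^ 2 + 3 * b ^ 3 * d ^ 3 * B ^ 2) * μ ∧
      ‖L 2‖ ≤ 2 * d * (d * d * B) + 4 / a ∧ ‖L 3‖ ≤ 2 / a := by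
  have hx0 : x ≠ 0 := H.ne_zero hx
  have hn0 : 0 < ‖x‖ := norm_pos_iff.2 hx0
  have hb0 : 0 < b := hn0.trans_le hxb
  have hμ0 : 0 ≤ μ := by rw [hμ]; exact Real.sqrt_nonneg _
  have hm : hs2 (D2 u x) = μ ^ 2 := by rw [hμ, Real.sq_sqrt (hs2_nonneg _)]
  have hin : ‖(innerSL ℝ x : E d →L[ℝ] ℝ)‖ = ‖x‖ := by simp
  -- component 0
  have h0a : HasFDerivAt (fun y : E d => ‖y‖ ^ 2) (2 • (innerSL ℝ x)) x := by
    have := (hasStrictFDerivAt_norm_sq (F := E d) x).hasFDerivAt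
    simpa using this
  have hd2 : DifferentiableAt ℝ (D2 u) x := (H.hasD3 hx).differentiableAt
  have h0b : HasFDerivAt (fun y => hs2 (D2 u y)) (fderiv ℝ (fun y => hs2 (D2 u y)) x) x :=
    (((contDiff_hs2 (d := d)).differentiable (by simp)).differentiableAt.comp x hd2).hasFDerivAt
  have h0 : HasFDerivAt (fun y => zN u y 0)
      (‖x‖ ^ 2 • fderiv ℝ (fun y => hs2 (D2 u y)) x + hs2 (D2 u x) • (2 • (innerSL ℝ x))) x :=
    h0a.mul h0b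
  have n0 : ‖‖x‖ ^ 2 • fderiv ℝ (fun y => hs2 (D2 u y)) x +
      hs2 (D2 u x) • (2 • (innerSL ℝ x))‖ ≤ (2 * B * b + 2 * d * b ^ 2 * B) * μ := by
    have e1 := norm_fderiv_m_le hd2
    rw [← hμ] at e1
    have e2 : ‖‖x‖ ^ 2 • fderiv ℝ (fun y => hs2 (D2 u y)) x‖ ≤ b ^ 2 * (2 * d * μ * B) := by
      rw [norm_smul, norm_pow, norm_norm]
      have : ‖fderiv ℝ (fun y => hs2 (D2 u y)) x‖ ≤ 2 * d * μ * B := e1.trans (by gcongr)
      gcongr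
    have e3 : ‖hs2 (D2 u x) • ((2 : ℕ) • (innerSL ℝ x : E d →L[ℝ] ℝ))‖ ≤ μ * B * (2 * b) := by
      rw [norm_smul, hm, Real.norm_of_nonneg (by positivity)]
      have : ‖(2 : ℕ) • (innerSL ℝ x : E d →L[ℝ] ℝ)‖ ≤ 2 * b := by
        rw [← Nat.cast_smul_eq_nsmul ℝ, norm_smul, hin]
        simp only [Nat.cast_ofNat, Real.norm_ofNat]
        linarith
      have h2 : μ ^ 2 ≤ μ * B := by nlinarith
      gcongr
    calc _ ≤ _ := norm_add_le _ _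
      _ ≤ b ^ 2 * (2 * d * μ * B) + μ * B * (2 * b) := add_le_add e2 e3
      _ = _ := by ring
  -- component 1
  obtain ⟨L1, h1a, h1b⟩ := has_tr3 H hx
  rw [← hμ] at h1b
  have h1 : HasFDerivAt (fun y => zN u y 1)
      (‖x‖ ^ 3 • L1 + tr3 (D2 u x) • ((3 * ‖x‖) • innerSL ℝ x)) x := (has_norm3 hx0).mul h1a
  have n1 : ‖‖x‖ ^ 3 • L1 + tr3 (D2 u x) • ((3 * ‖x‖) • (innerSL ℝ x : E d →L[ℝ] ℝ))‖ ≤
      (3 * b ^ 2 * d ^ 3 * B ^ 2 + 3 * b ^ 3 * d ^ 3 * B ^ 2) * μ := by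
    have hμ2 : μ ^ 2 ≤ μ * B := by nlinarith
    have e2 : ‖‖x‖ ^ 3 • L1‖ ≤ b ^ 3 * (3 * d ^ 3 * (μ * B) * B) := by
      rw [norm_smul, norm_pow, norm_norm]
      have : ‖L1‖ ≤ 3 * d ^ 3 * (μ * B) * B := h1b.trans (by gcongr)
      gcongr
    have e3 : ‖tr3 (D2 u x) • ((3 * ‖x‖) • (innerSL ℝ x : E d →L[ℝ] ℝ))‖ ≤
        (d ^ 3 * (μ * B * B)) * (3 * b * b) := by
      rw [norm_smul, norm_smul, hin, Real.norm_eq_abs, Real.norm_of_nonneg (by positivity)]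
      have e4 := abs_tr3_le (D2 u x)
      rw [← hμ] at e4
      have e5 : μ ^ 3 ≤ μ * B * B := by
        calc μ ^ 3 = μ ^ 2 * μ := by ring
          _ ≤ (μ * B) * B := by gcongr
      have e6 : |tr3 (D2 u x)| ≤ d ^ 3 * (μ * B * B) := e4.trans (by gcongr)
      gcongr
    calc _ ≤ _ := norm_add_le _ _
      _ ≤ b ^ 3 * (3 * d ^ 3 * (μ * B) * B) + (d ^ 3 * (μ * B * B)) * (3 * b * b) :=
        add_le_add e2 e3
      _ = _ := by ring
  -- component 3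
  have h3 : HasFDerivAt (fun y => zN u y 3)
      (u x • ((-(‖x‖ ^ 3)⁻¹) • innerSL ℝ x) + ‖x‖⁻¹ • fderiv ℝ u x) x := by
    have : (fun y => zN u y 3) = fun y => u y * ‖y‖⁻¹ := by
      ext y
      simp [zN, sN, div_eq_mul_inv]
    rw [this]
    exact (H.hasD1 hx).mul (has_norm_inv hx0)
  have hux : u x = sN u x * ‖x‖ := by
    unfold sN; field_simp
  have n3 : ‖u x • ((-(‖x‖ ^ 3)⁻¹) • (innerSL ℝ x : E d →L[ℝ] ℝ)) + ‖x‖⁻¹ • fderiv ℝ u x‖ ≤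
      2 / a := by
    have e1 : ‖u x • ((-(‖x‖ ^ 3)⁻¹) • (innerSL ℝ x : E d →L[ℝ] ℝ))‖ ≤ 1 / a := by
      rw [norm_smul, norm_smul, hin, norm_neg, Real.norm_of_nonneg (by positivity : 0 ≤ (‖x‖ ^ 3)⁻¹),
        hux, norm_mul, norm_norm, Real.norm_of_nonneg hs0]
      have : sN u x * ‖x‖ * ((‖x‖ ^ 3)⁻¹ * ‖x‖) = sN u x * ‖x‖⁻¹ := by
        field_simp
      rw [this, one_div]
      calc sN u x * ‖x‖⁻¹ ≤ 1 * a⁻¹ := by gcongr
        _ = a⁻¹ := one_mul _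
    have e2 : ‖‖x‖⁻¹ • fderiv ℝ u x‖ ≤ 1 / a := by
      rw [norm_smul, Real.norm_of_nonneg (by positivity), one_div]
      calc ‖x‖⁻¹ * ‖fderiv ℝ u x‖ ≤ a⁻¹ * 1 := by gcongr
        _ = a⁻¹ := mul_one _
    calc _ ≤ _ := norm_add_le _ _
      _ ≤ 1 / a + 1 / a := add_le_add e1 e2
      _ = _ := by ring
  -- component 2
  have hbl : ∀ i : Fin d, ‖(D2 u x).flip (bv i)‖ ≤ d * d * B := by
    intro i
    refine ContinuousLinearMap.opNorm_le_bound _ (by positivity) fun v => ?_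
    have e1 := bil_le (D2 u x) v (bv i)
    rw [norm_bv, mul_one, ← hμ] at e1
    rw [ContinuousLinearMap.flip_apply, Real.norm_eq_abs]
    refine e1.trans ?_
    gcongr
  have h2a : HasFDerivAt (fun y => ∑ i, (fderiv ℝ u y (bv i)) ^ 2)
      (∑ i, (2 * fderiv ℝ u x (bv i)) • (D2 u x).flip (bv i)) x := by
    refine HasFDerivAt.fun_sum fun i _ => ?_
    have := (had_app1 (H.hasD2 hx) (bv i)).pow 2
    refine this.congr_fderiv ?_
    ext v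
    simp
  set L3 : E d →L[ℝ] ℝ := u x • ((-(‖x‖ ^ 3)⁻¹) • innerSL ℝ x) + ‖x‖⁻¹ • fderiv ℝ u x with hL3
  have h2b : HasFDerivAt (fun y => zN u y 3 ^ 2) ((2 * zN u x 3) • L3) x := by
    refine (h3.pow 2).congr_fderiv ?_
    ext v
    simp
  have e2 : (fun y => zN u y 2) = fun y => (∑ i, (fderiv ℝ u y (bv i)) ^ 2) - zN u y 3 ^ 2 := by
    ext y
    have : ‖∇ u y‖ ^ 2 = ∑ i, (fderiv ℝ u y (bv i)) ^ 2 := by
      rw [EuclideanSpace.norm_sq_eq]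
      refine Finset.sum_congr rfl fun i _ => ?_
      rw [gradient_coord, Real.norm_eq_abs, sq_abs]
    simp [zN, qN, sN, this]
  have h2 := h2a.sub h2b
  have h2' : HasFDerivAt (fun y => zN u y 2) ((∑ i, (2 * fderiv ℝ u x (bv i)) •
      (D2 u x).flip (bv i)) - (2 * zN u x 3) • L3) x := by
    rw [e2]; exact h2
  refine ⟨![‖x‖ ^ 2 • fderiv ℝ (fun y => hs2 (D2 u y)) x + hs2 (D2 u x) • (2 • (innerSL ℝ x)),
    ‖x‖ ^ 3 • L1 + tr3 (D2 u x) • ((3 * ‖x‖) • innerSL ℝ x),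
    (∑ i, (2 * fderiv ℝ u x (bv i)) • (D2 u x).flip (bv i)) - (2 * zN u x 3) • L3, L3],
    ?_, n0, n1, ?_, n3⟩
  · intro i
    fin_cases i
    · exact h0
    · exact h1
    · exact h2'
    · exact h3
  · show ‖(∑ i, (2 * fderiv ℝ u x (bv i)) • (D2 u x).flip (bv i)) - (2 * zN u x 3) • L3‖ ≤ _
    refine (norm_sub_le _ _).trans (add_le_add ?_ ?_)
    · calc ‖∑ i, (2 * fderiv ℝ u x (bv i)) • (D2 u x).flip (bv i)‖
          ≤ ∑ i, ‖(2 * fderiv ℝ u x (bv i)) • (D2 u x).flip (bv i)‖ := norm_sum_le _ _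
        _ ≤ ∑ _i : Fin d, 2 * (d * d * B) := by
            refine Finset.sum_le_sum fun i _ => ?_
            rw [norm_smul, norm_mul, Real.norm_ofNat]
            have e3 : ‖fderiv ℝ u x (bv i)‖ ≤ 1 := by
              have := (fderiv ℝ u x).le_opNorm (bv i)
              rw [norm_bv, mul_one] at this
              exact this.trans hP
            have e4 := hbl i
            calc 2 * ‖fderiv ℝ u x (bv i)‖ * ‖(D2 u x).flip (bv i)‖ ≤ 2 * 1 * (d * d * B) := by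
                  gcongr
              _ = _ := by ring
        _ = 2 * d * (d * d * B) := by
            simp only [Finset.sum_const, Finset.card_univ, Fintype.card_fin, nsmul_eq_mul]
            ring
    · rw [norm_smul, norm_mul, Real.norm_ofNat]
      have e5 : ‖zN u x 3‖ ≤ 1 := by
        show ‖sN u x‖ ≤ 1
        rw [Real.norm_of_nonneg hs0]; exact hs1
      calc 2 * ‖zN u x 3‖ * ‖L3‖ ≤ 2 * 1 * (2 / a) := by gcongr
        _ = 4 / a := by ring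

end REn

open REn

variable {n : ℕ} {u : E (n + 1) → ℝ} {C : CertData} {Lam : ℝ}

/-- growth at the points of the cone -/
lemma growth_x (hC : Cert n C Lam) (hGA : GrowthA n C)
    (hst : ∀ x ∈ Wn u, ∃ lam g : Fin n → ℝ, Adm lam g (sN u x) ∧ zN u x = zv lam g (sN u x))
    (R : ℝ) : ∃ K : ℝ, 0 ≤ K ∧ ∀ x ∈ Wn u, ‖x‖ ^ 2 * hs2 (D2 u x) ≤ R →
      0 < C.Z.f (zN u x) ∧ C.Z.f (zN u x) ≤ K * (‖x‖ * Real.sqrt (hs2 (D2 u x))) ^ 2 ∧
      |C.Z.d 0 (zN u x)| ≤ K ∧ |C.Z.d 1 (zN u x)| ≤ K ∧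
      |C.Z.d 2 (zN u x)| ≤ K * (‖x‖ * Real.sqrt (hs2 (D2 u x))) ∧
      |C.Z.d 3 (zN u x)| ≤ K * (‖x‖ * Real.sqrt (hs2 (D2 u x))) ∧
      |C.y0.f (zN u x)| ≤ K * (‖x‖ * Real.sqrt (hs2 (D2 u x))) ∧
      |C.ga.f (zN u x)| ≤ K ∧ |C.y1.f (zN u x)| ≤ K ∧ |C.y2.f (zN u x)| ≤ K ∧
      |C.y3.f (zN u x)| ≤ K := by
  obtain ⟨K, hK⟩ := hGA R
  refine ⟨max K 0, le_max_right _ _, fun x hx hR => ?_⟩
  obtain ⟨lam, g, hA, hz⟩ := hst x hx
  have h0 : ∑ i, lam i ^ 2 = ‖x‖ ^ 2 * hs2 (D2 u x) := by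
    have := congrFun hz 0
    simpa [zN, zv] using this.symm
  have h1 := hK lam g (sN u x) hA (by rw [h0]; exact hR)
  rw [← hz, h0] at h1
  have hs : Real.sqrt (‖x‖ ^ 2 * hs2 (D2 u x)) = ‖x‖ * Real.sqrt (hs2 (D2 u x)) := by
    rw [Real.sqrt_mul (by positivity), Real.sqrt_sq (norm_nonneg _)]
  rw [hs] at h1
  have hsq : ‖x‖ ^ 2 * hs2 (D2 u x) = (‖x‖ * Real.sqrt (hs2 (D2 u x))) ^ 2 := by
    rw [mul_pow, Real.sq_sqrt (hs2_nonneg _)]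
  rw [hsq] at h1
  have hp : 0 ≤ ‖x‖ * Real.sqrt (hs2 (D2 u x)) := by positivity
  have hKm : K ≤ max K 0 := le_max_left _ _
  obtain ⟨a1, a2, a3, a4, a5, a6, a7, a8, a9, a10⟩ := h1
  refine ⟨by rw [hz]; exact hC.Zpos lam g (sN u x) hA, a1.trans (by gcongr), a2.trans hKm,
    a3.trans hKm, a4.trans (by gcongr), a5.trans (by gcongr), a6.trans (by gcongr),
    a7.trans hKm, a8.trans hKm, a9.trans hKm, a10.trans hKm⟩

/-- the bound for the test function (field `wbd` of `RedHyp`) -/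
theorem red_wbd (hC : Cert n C Lam) (hGA : GrowthA n C)
    (hst : ∀ x ∈ Wn u, ∃ lam g : Fin n → ℝ, Adm lam g (sN u x) ∧ zN u x = zv lam g (sN u x))
    (hbd : ∀ a b : ℝ, 0 < a → ∃ B : ℝ, ∀ x ∈ Om u, x ∈ Ann (n + 1) a b →
      hs2 (D2 u x) ≤ B ∧ ‖D3 u x‖ ≤ B) :
    ∀ a b : ℝ, 0 < a → ∃ C' : ℝ, ∀ x ∈ Wn u, x ∈ Ann (n + 1) a b → wC C u x ≤ C' := by
  intro a b ha
  obtain ⟨B, hB⟩ := hbd a b ha
  obtain ⟨K, hK0, hK⟩ := growth_x hC hGA hst (b ^ 2 * B)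
  refine ⟨Real.sqrt (K * (b ^ 2 * B)), fun x hx hxA => ?_⟩
  have h1 := (hB x hx.1 hxA).1
  have hm := hs2_nonneg (D2 u x)
  have h2 : ‖x‖ ^ 2 * hs2 (D2 u x) ≤ b ^ 2 * B := by
    have := hxA.2
    gcongr
  have h3 := (hK x hx h2).2.1
  unfold wC
  refine Real.sqrt_le_sqrt (h3.trans ?_)
  rw [mul_pow, Real.sq_sqrt hm]
  gcongr

/-- pointwise bound of the gradient of the test function -/
lemma wgrad_le {d : ℕ} {u : E d → ℝ} (H : HC u) (okZ : C.Z.Ok) {x : E d} (hx : x ∈ Om u)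
    (hx2 : 0 < hs2 (D2 u x)) {a b B μ K : ℝ} (ha : 0 < a) (hax : a ≤ ‖x‖)
    (hxb : ‖x‖ ≤ b) (hB : 1 ≤ B) (hμ : μ = Real.sqrt (hs2 (D2 u x))) (hμB : μ ≤ B)
    (hD : ‖D3 u x‖ ≤ B) (hP : ‖fderiv ℝ u x‖ ≤ 1) (hs0 : 0 ≤ sN u x) (hs1 : sN u x ≤ 1)
    (hK : 0 ≤ K) (z0 : 0 < C.Z.f (zN u x)) (z2 : |C.Z.d 0 (zN u x)| ≤ K)
    (z3 : |C.Z.d 1 (zN u x)| ≤ K) (z4 : |C.Z.d 2 (zN u x)| ≤ K * (‖x‖ * μ))
    (z5 : |C.Z.d 3 (zN u x)| ≤ K * (‖x‖ * μ)) :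
    wC C u x * ‖fderiv ℝ (wC C u) x‖ ≤
      (K * (2 * B * b + 2 * d * b ^ 2 * B) +
      K * (3 * b ^ 2 * d ^ 3 * B ^ 2 + 3 * b ^ 3 * d ^ 3 * B ^ 2) +
      (K * b) * (2 * d * (d * d * B) + 4 / a) + (K * b) * (2 / a)) * μ := by
  have hn0 : 0 < ‖x‖ := norm_pos_iff.2 (H.ne_zero hx)
  have hb0 : 0 < b := hn0.trans_le hxb
  have hμ0 : 0 ≤ μ := by rw [hμ]; exact Real.sqrt_nonneg _
  obtain ⟨L, hL, n0, n1, n2, n3⟩ := has_z H hx ha hax hxb hB hμ hμB hD hP hs0 hs1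
  have hzf : HasFDerivAt (zN u) (ContinuousLinearMap.pi L) x := hasFDerivAt_pi.2 hL
  have hz00 : 0 < zN u x 0 := by
    show 0 < ‖x‖ ^ 2 * hs2 (D2 u x)
    positivity
  have hZ : HasFDerivAt (fun y => C.Z.f (zN u y)) (∑ i, C.Z.d i (zN u x) • L i) x := by
    have := (okZ.has (zN u x) hz00).comp x hzf
    refine this.congr_fderiv ?_
    ext v
    simp
  have hw : HasFDerivAt (wC C u) ((1 / (2 * Real.sqrt (C.Z.f (zN u x)))) •
      (∑ i, C.Z.d i (zN u x) • L i)) x := hZ.sqrt z0.ne'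
  rw [hw.fderiv, norm_smul]
  have hsq : 0 < Real.sqrt (C.Z.f (zN u x)) := Real.sqrt_pos.2 z0
  have e1 : wC C u x * (‖1 / (2 * Real.sqrt (C.Z.f (zN u x)))‖ * ‖∑ i, C.Z.d i (zN u x) • L i‖) =
      ‖∑ i, C.Z.d i (zN u x) • L i‖ / 2 := by
    rw [Real.norm_of_nonneg (by positivity)]
    unfold wC
    field_simp
  rw [e1]
  have e2 : ‖∑ i, C.Z.d i (zN u x) • L i‖ ≤ ∑ i, |C.Z.d i (zN u x)| * ‖L i‖ := by
    refine (norm_sum_le _ _).trans (Finset.sum_le_sum fun i _ => ?_)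
    rw [norm_smul, Real.norm_eq_abs]
  rw [Fin.sum_univ_four (fun i => |C.Z.d i (zN u x)| * ‖L i‖)] at e2
  have e3 : |C.Z.d 0 (zN u x)| * ‖L 0‖ ≤ K * ((2 * B * b + 2 * d * b ^ 2 * B) * μ) := by
    gcongr
  have e4 : |C.Z.d 1 (zN u x)| * ‖L 1‖ ≤
      K * ((3 * b ^ 2 * d ^ 3 * B ^ 2 + 3 * b ^ 3 * d ^ 3 * B ^ 2) * μ) := by
    gcongr
  have e5 : |C.Z.d 2 (zN u x)| * ‖L 2‖ ≤ (K * (b * μ)) * (2 * d * (d * d * B) + 4 / a) := by
    have : |C.Z.d 2 (zN u x)| ≤ K * (b * μ) := z4.trans (by gcongr)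
    gcongr
  have e6 : |C.Z.d 3 (zN u x)| * ‖L 3‖ ≤ (K * (b * μ)) * (2 / a) := by
    have : |C.Z.d 3 (zN u x)| ≤ K * (b * μ) := z5.trans (by gcongr)
    gcongr
  have e7 : 0 ≤ ‖∑ i, C.Z.d i (zN u x) • L i‖ := norm_nonneg _
  calc ‖∑ i, C.Z.d i (zN u x) • L i‖ / 2 ≤ ‖∑ i, C.Z.d i (zN u x) • L i‖ := by linarith
    _ ≤ _ := e2
    _ ≤ K * ((2 * B * b + 2 * d * b ^ 2 * B) * μ) +
        K * ((3 * b ^ 2 * d ^ 3 * B ^ 2 + 3 * b ^ 3 * d ^ 3 * B ^ 2) * μ) +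
        (K * (b * μ)) * (2 * d * (d * d * B) + 4 / a) + (K * (b * μ)) * (2 / a) :=
        add_le_add (add_le_add (add_le_add e3 e4) e5) e6
    _ = _ := by ring

/-- pointwise bound of the field -/
lemma field_le {d : ℕ} {u : E d → ℝ} (H : HC u) {x : E d} (hx : x ∈ Om u)
    {a b B μ K : ℝ} (ha : 0 < a) (hax : a ≤ ‖x‖)
    (hxb : ‖x‖ ≤ b) (hB : 1 ≤ B) (hμ : μ = Real.sqrt (hs2 (D2 u x))) (hμB : μ ≤ B)
    (hD : ‖D3 u x‖ ≤ B) (hP : ‖fderiv ℝ u x‖ ≤ 1) (hs0 : 0 ≤ sN u x) (hs1 : sN u x ≤ 1)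
    (hK : 0 ≤ K) (z6 : |C.y0.f (zN u x)| ≤ K * (‖x‖ * μ))
    (z7 : |C.ga.f (zN u x)| ≤ K) (z8 : |C.y1.f (zN u x)| ≤ K) (z9 : |C.y2.f (zN u x)| ≤ K)
    (z10 : |C.y3.f (zN u x)| ≤ K) :
    ‖XC C u x‖ ≤ (K * (b ^ 2 * (d * (d * d * B)) + B * b) + K * b * a⁻¹ * 2 +
      K * (d * (d * d)) + K * b * (d * (d * d * B * (d * (d * d)))) +
      K * b ^ 2 * (d * (d * d * B * (d * (d * d * B * (d * (d * d))))))) * μ := by
  have hn0 : 0 < ‖x‖ := norm_pos_iff.2 (H.ne_zero hx)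
  have hb0 : 0 < b := hn0.trans_le hxb
  have hμ0 : 0 ≤ μ := by rw [hμ]; exact Real.sqrt_nonneg _
  have hmμ : hs2 (D2 u x) = μ ^ 2 := by rw [hμ, Real.sq_sqrt (hs2_nonneg _)]
  have hg : ‖∇ u x‖ ≤ 1 := by rw [norm_gradient]; exact hP
  have hW : ‖W1f u x‖ ≤ (b ^ 2 * (d * (d * d * B)) + B * b) * μ := by
    have e1 := norm_TM_le (D2 u x) (D3 u x)
    rw [← hμ] at e1
    have e2 : ‖‖x‖ ^ 2 • TM (D2 u x) (D3 u x)‖ ≤ b ^ 2 * (d * (d * d * (B * μ))) := by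
      rw [norm_smul, norm_pow, norm_norm]
      have : ‖TM (D2 u x) (D3 u x)‖ ≤ d * (d * d * (B * μ)) := e1.trans (by gcongr)
      gcongr
    have e3 : ‖hs2 (D2 u x) • x‖ ≤ μ * B * b := by
      rw [norm_smul, hmμ, Real.norm_of_nonneg (by positivity)]
      have : μ ^ 2 ≤ μ * B := by nlinarith
      gcongr
    unfold W1f
    calc _ ≤ _ := norm_add_le _ _
      _ ≤ b ^ 2 * (d * (d * d * (B * μ))) + μ * B * b := add_le_add e2 e3
      _ = _ := by ring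
  have hG : ‖gN u x‖ ≤ 2 := by
    unfold gN
    have e1 : ‖(u x / ‖x‖ ^ 2) • x‖ ≤ 1 := by
      rw [norm_smul]
      have hux : 0 < u x := hx
      rw [Real.norm_of_nonneg (by positivity)]
      have : u x / ‖x‖ ^ 2 * ‖x‖ = sN u x := by
        unfold sN; field_simp
      rw [this]; exact hs1
    calc _ ≤ _ := norm_sub_le _ _
      _ ≤ 1 + 1 := add_le_add hg e1
      _ = 2 := by norm_num
  have hZf : ‖Zf u x‖ ≤ d * (d * d * μ) := by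
    unfold Zf
    have := norm_act_le (D2 u x) (∇ u x)
    rw [← hμ] at this
    calc _ ≤ _ := this
      _ ≤ d * (d * d * μ * 1) := by gcongr
      _ = _ := by ring
  have hZ2 : ‖act (D2 u x) (Zf u x)‖ ≤ d * (d * d * B * (d * (d * d * μ))) := by
    have := norm_act_le (D2 u x) (Zf u x)
    rw [← hμ] at this
    exact this.trans (by gcongr)
  have hZ3 : ‖act (D2 u x) (act (D2 u x) (Zf u x))‖ ≤
      d * (d * d * B * (d * (d * d * B * (d * (d * d * μ))))) := by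
    have := norm_act_le (D2 u x) (act (D2 u x) (Zf u x))
    rw [← hμ] at this
    exact this.trans (by gcongr)
  have t1 : ‖C.ga.f (zN u x) • W1f u x‖ ≤ K * ((b ^ 2 * (d * (d * d * B)) + B * b) * μ) := by
    rw [norm_smul, Real.norm_eq_abs]; gcongr
  have t2 : ‖(C.y0.f (zN u x) * ‖x‖⁻¹) • gN u x‖ ≤ K * (b * μ) * a⁻¹ * 2 := by
    rw [norm_smul, norm_mul, norm_inv, norm_norm, Real.norm_eq_abs]
    have : |C.y0.f (zN u x)| ≤ K * (b * μ) := z6.trans (by gcongr)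
    gcongr
  have t3 : ‖C.y1.f (zN u x) • Zf u x‖ ≤ K * (d * (d * d * μ)) := by
    rw [norm_smul, Real.norm_eq_abs]; gcongr
  have t4 : ‖(C.y2.f (zN u x) * ‖x‖) • act (D2 u x) (Zf u x)‖ ≤
      K * b * (d * (d * d * B * (d * (d * d * μ)))) := by
    rw [norm_smul, norm_mul, norm_norm, Real.norm_eq_abs]; gcongr
  have t5 : ‖(C.y3.f (zN u x) * ‖x‖ ^ 2) • act (D2 u x) (act (D2 u x) (Zf u x))‖ ≤
      K * b ^ 2 * (d * (d * d * B * (d * (d * d * B * (d * (d * d * μ)))))) := by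
    rw [norm_smul, norm_mul, norm_pow, norm_norm, Real.norm_eq_abs]; gcongr
  unfold XC
  calc _ ≤ ‖C.ga.f (zN u x) • W1f u x‖ + ‖(C.y0.f (zN u x) * ‖x‖⁻¹) • gN u x‖ +
        ‖C.y1.f (zN u x) • Zf u x‖ + ‖(C.y2.f (zN u x) * ‖x‖) • act (D2 u x) (Zf u x)‖ +
        ‖(C.y3.f (zN u x) * ‖x‖ ^ 2) • act (D2 u x) (act (D2 u x) (Zf u x))‖ :=
        (norm_add_le _ _).trans (add_le_add_left ((norm_add_le _ _).trans
          (add_le_add_left ((norm_add_le _ _).trans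
          (add_le_add_left (norm_add_le _ _) _)) _)) _)
    _ ≤ K * ((b ^ 2 * (d * (d * d * B)) + B * b) * μ) + K * (b * μ) * a⁻¹ * 2 +
        K * (d * (d * d * μ)) + K * b * (d * (d * d * B * (d * (d * d * μ)))) +
        K * b ^ 2 * (d * (d * d * B * (d * (d * d * B * (d * (d * d * μ)))))) :=
        add_le_add (add_le_add (add_le_add (add_le_add t1 t2) t3) t4) t5
    _ = _ := by ring

/-- the energy bounds (field `energy` of `RedHyp`) -/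
theorem red_energy (H : HC u) (hC : Cert n C Lam) (hGA : GrowthA n C)
    (hst : ∀ x ∈ Wn u, ∃ lam g : Fin n → ℝ, Adm lam g (sN u x) ∧ zN u x = zv lam g (sN u x))
    (hbd : ∀ a b : ℝ, 0 < a → ∃ B : ℝ, ∀ x ∈ Om u, x ∈ Ann (n + 1) a b →
      hs2 (D2 u x) ≤ B ∧ ‖D3 u x‖ ≤ B)
    (hP : ∀ x ∈ Om u, ‖fderiv ℝ u x‖ ≤ 1) :
    ∀ a b : ℝ, 0 < a → ∃ e : E (n + 1) → ℝ, IntegrableOn e (Wn u ∩ Ann (n + 1) a b) ∧
      ∀ x ∈ Wn u, x ∈ Ann (n + 1) a b →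
        wC C u x ^ 2 * ‖D3 u x‖ ^ 2 ≤ e x * hs2 (D2 u x) ∧
        wC C u x * ‖fderiv ℝ (wC C u) x‖ * ‖D3 u x‖ ≤ e x * Real.sqrt (hs2 (D2 u x)) ∧
        ‖XC C u x‖ * ‖D3 u x‖ ≤ e x * Real.sqrt (hs2 (D2 u x)) ∧
        wC C u x ^ 2 * ‖D3 u x‖ ≤ e x * Real.sqrt (hs2 (D2 u x)) := by
  intro a b ha
  rcases lt_or_ge b 0 with hb | hb
  · refine ⟨fun _ => 0, integrableOn_const (WS_fin _ _ _) (by simp), fun x _ hxA => ?_⟩
    exact absurd ((norm_nonneg _).trans hxA.2) (not_le.2 hb)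
  obtain ⟨B₀, hB₀⟩ := hbd a b ha
  obtain ⟨B, hB1, hBB⟩ : ∃ B : ℝ, 1 ≤ B ∧ B₀ ≤ B := ⟨max 1 B₀, le_max_left _ _, le_max_right _ _⟩
  have hB0 : 0 ≤ B := by linarith
  have hBsq : B ≤ B ^ 2 := by nlinarith
  obtain ⟨K, hK0, hK⟩ := growth_x hC hGA hst (b ^ 2 * B ^ 2)
  obtain ⟨D, hD⟩ : ∃ D : ℝ, D = ((n + 1 : ℕ) : ℝ) := ⟨_, rfl⟩
  have hD0 : 0 ≤ D := by rw [hD]; positivity
  obtain ⟨C0, hC0⟩ : ∃ C0 : ℝ, C0 = (K * (2 * B * b + 2 * D * b ^ 2 * B) +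
    K * (3 * b ^ 2 * D ^ 3 * B ^ 2 + 3 * b ^ 3 * D ^ 3 * B ^ 2) +
    (K * b) * (2 * D * (D * D * B) + 4 / a) + (K * b) * (2 / a)) := ⟨_, rfl⟩
  have hC00 : 0 ≤ C0 := by rw [hC0]; positivity
  obtain ⟨CX, hCX⟩ : ∃ CX : ℝ, CX = (K * (b ^ 2 * (D * (D * D * B)) + B * b) + K * b * a⁻¹ * 2 +
      K * (D * (D * D)) + K * b * (D * (D * D * B * (D * (D * D)))) +
      K * b ^ 2 * (D * (D * D * B * (D * (D * D * B * (D * (D * D))))))) := ⟨_, rfl⟩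
  have hCX0 : 0 ≤ CX := by rw [hCX]; positivity
  obtain ⟨e, h1e, h2e, h3e⟩ : ∃ e : ℝ, K * b ^ 2 * B ^ 2 ≤ e ∧ C0 * B ≤ e ∧ CX * B ≤ e := by
    refine ⟨K * b ^ 2 * B ^ 2 + C0 * B + CX * B, ?_, ?_, ?_⟩
    · have : 0 ≤ C0 * B := by positivity
      have : 0 ≤ CX * B := by positivity
      linarith
    · have : 0 ≤ K * b ^ 2 * B ^ 2 := by positivity
      have : 0 ≤ CX * B := by positivity
      linarith
    · have : 0 ≤ K * b ^ 2 * B ^ 2 := by positivity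
      have : 0 ≤ C0 * B := by positivity
      linarith
  refine ⟨fun _ => e, integrableOn_const (WS_fin _ _ _) (by simp), ?_⟩
  intro x hx hxA
  have hm := hs2_nonneg (D2 u x)
  obtain ⟨μ, hμ⟩ : ∃ μ : ℝ, μ = Real.sqrt (hs2 (D2 u x)) := ⟨_, rfl⟩
  have hμ0 : 0 ≤ μ := by rw [hμ]; exact Real.sqrt_nonneg _
  have hmμ : hs2 (D2 u x) = μ ^ 2 := by rw [hμ, Real.sq_sqrt hm]
  have hb1 := (hB₀ x hx.1 hxA).1
  have hb2 := (hB₀ x hx.1 hxA).2
  have hD3 : ‖D3 u x‖ ≤ B := hb2.trans hBB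
  have hμB : μ ≤ B := by
    rw [hμ]
    exact Real.sqrt_le_iff.2 ⟨hB0, hb1.trans (hBB.trans hBsq)⟩
  have hxb : ‖x‖ ≤ b := hxA.2
  obtain ⟨lam, g, hAdm, hz⟩ := hst x hx
  have hs0 : 0 ≤ sN u x := hAdm.s0
  have hs1 : sN u x ≤ 1 := by
    have h1 := hAdm.q1
    have h2 : 0 ≤ ∑ i, g i ^ 2 := Finset.sum_nonneg fun _ _ => sq_nonneg _
    nlinarith
  have hR : ‖x‖ ^ 2 * hs2 (D2 u x) ≤ b ^ 2 * B ^ 2 := by
    rw [hmμ]; gcongr
  obtain ⟨z0, z1, z2, z3, z4, z5, z6, z7, z8, z9, z10⟩ := hK x hx hR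
  rw [← hμ] at z1 z4 z5 z6
  rw [← hμ]
  have hw2 : wC C u x ^ 2 = C.Z.f (zN u x) := by
    unfold wC; rw [Real.sq_sqrt z0.le]
  have hw2' : wC C u x ^ 2 ≤ K * (b * μ) ^ 2 := by
    rw [hw2]; exact z1.trans (by gcongr)
  have g1 := wgrad_le H hC.okZ hx.1 hx.2 ha hxA.1 hxb hB1 hμ hμB hD3 (hP x hx.1) hs0 hs1 hK0
    z0 z2 z3 z4 z5
  have g2 := field_le H hx.1 ha hxA.1 hxb hB1 hμ hμB hD3 (hP x hx.1) hs0 hs1 hK0 z6 z7 z8 z9
    z10
  rw [← hD, ← hC0] at g1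
  rw [← hD, ← hCX] at g2
  refine ⟨?_, ?_, ?_, ?_⟩
  · calc wC C u x ^ 2 * ‖D3 u x‖ ^ 2 ≤ K * (b * μ) ^ 2 * B ^ 2 := by gcongr
      _ = K * b ^ 2 * B ^ 2 * μ ^ 2 := by ring
      _ ≤ e * μ ^ 2 := by gcongr
      _ = e * hs2 (D2 u x) := by rw [hmμ]
  · calc wC C u x * ‖fderiv ℝ (wC C u) x‖ * ‖D3 u x‖ ≤ C0 * μ * B := by gcongr
      _ = C0 * B * μ := by ring
      _ ≤ e * μ := by gcongr
  · calc ‖XC C u x‖ * ‖D3 u x‖ ≤ CX * μ * B := by gcongr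
      _ = CX * B * μ := by ring
      _ ≤ e * μ := by gcongr
  · calc wC C u x ^ 2 * ‖D3 u x‖ ≤ K * (b * μ) ^ 2 * B := by gcongr
      _ = K * b ^ 2 * (B * μ) * μ := by ring
      _ ≤ K * b ^ 2 * (B * B) * μ := by gcongr
      _ = K * b ^ 2 * B ^ 2 * μ := by ring
      _ ≤ e * μ := by gcongr

end Crest.Agent.R097
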