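import Crest.Agent.R097.RFld0

/-!
# Row 97: elementary norm bounds for `act`, `TM`, `gN`, `W1f`
-/

set_option autoImplicit false
set_option synthInstance.maxHeartbeats 400000
open MeasureTheory Metric Set Filter Topology InnerProductSpace
open scoped RealInnerProductSpace NNReal ENNReal Gradient Laplacian

namespace Crest.Agent.R097

variable {d : ℕ} {u : E d → ℝ} {C : CertData}

namespace RR

lemma abs_entry_le (A : Bil d) (i j : Fin d) : |A (bv i) (bv j)| ≤ Real.sqrt (hs2 A) := by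
  refine Real.abs_le_sqrt ?_
  unfold hs2
  refine le_trans ?_ (Finset.single_le_sum (f := fun i => ∑ j, (A (bv i) (bv j)) ^ 2)
    (fun i _ => Finset.sum_nonneg fun j _ => sq_nonneg _) (Finset.mem_univ i))
  exact Finset.single_le_sum (f := fun j => (A (bv i) (bv j)) ^ 2) (fun j _ => sq_nonneg _)
    (Finset.mem_univ j)

lemma norm_act_le (A : Bil d) (v : E d) : ‖act A v‖ ≤ Real.sqrt (hs2 A) * ‖v‖ := by
  have h0 : 0 ≤ Real.sqrt (hs2 A) * ‖v‖ := by positivity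
  refine abs_le_of_sq_le_sq' ?_ h0 |>.2
  have hm : 0 ≤ hs2 A := Finset.sum_nonneg fun i _ => Finset.sum_nonneg fun j _ => sq_nonneg _
  rw [mul_pow, Real.sq_sqrt hm]
  have e1 : ∀ i, (act A v) i = ∑ j, v j * A (bv j) (bv i) := by
    intro i
    have h1 : (act A v) i = A v (bv i) := by
      unfold act
      rw [← inner_bv, inner_sum]
      rw [Finset.sum_eq_single i]
      · rw [inner_smul_right, inner_bv]; simp [bv]
      · intro j _ hj
        rw [inner_smul_right, inner_bv]; simp [bv, hj.symm]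
      · simp
    rw [h1, bil_sum]
  rw [EuclideanSpace.norm_sq_eq]
  have e2 : ‖v‖ ^ 2 = ∑ j, v j ^ 2 := by
    rw [EuclideanSpace.norm_sq_eq]; simp [sq_abs]
  have e3 : ∀ i, ‖(act A v) i‖ ^ 2 ≤ ‖v‖ ^ 2 * ∑ j, A (bv j) (bv i) ^ 2 := by
    intro i
    rw [Real.norm_eq_abs, sq_abs, e1, e2]
    exact Finset.sum_mul_sq_le_sq_mul_sq _ _ _
  refine (Finset.sum_le_sum fun i _ => e3 i).trans (le_of_eq ?_)
  rw [← Finset.mul_sum, Finset.sum_comm, mul_comm]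
  rfl

lemma norm_TM_le (A : Bil d) (B : Tri d) :
    ‖TM A B‖ ≤ (d : ℝ) ^ 3 * (‖B‖ * Real.sqrt (hs2 A)) := by
  unfold TM
  have h1 : ∀ k : Fin d, ‖(∑ i, ∑ j, B (bv k) (bv i) (bv j) * A (bv i) (bv j)) • bv k‖ ≤
      (d : ℝ) ^ 2 * (‖B‖ * Real.sqrt (hs2 A)) := by
    intro k
    rw [norm_smul, norm_bv, mul_one, Real.norm_eq_abs]
    calc |∑ i, ∑ j, B (bv k) (bv i) (bv j) * A (bv i) (bv j)|
        ≤ ∑ i, ∑ j, |B (bv k) (bv i) (bv j) * A (bv i) (bv j)| :=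
          (Finset.abs_sum_le_sum_abs _ _).trans
            (Finset.sum_le_sum fun i _ => Finset.abs_sum_le_sum_abs _ _)
      _ ≤ ∑ i : Fin d, ∑ j : Fin d, ‖B‖ * Real.sqrt (hs2 A) := by
          refine Finset.sum_le_sum fun i _ => Finset.sum_le_sum fun j _ => ?_
          rw [abs_mul]
          have h2 := tri_le B (bv k) i j
          rw [norm_bv, mul_one] at h2
          exact mul_le_mul h2 (abs_entry_le A i j) (abs_nonneg _) (norm_nonneg _)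
      _ = _ := by simp; ring
  refine (norm_sum_le _ _).trans ((Finset.sum_le_sum fun k _ => h1 k).trans (le_of_eq ?_))
  simp; ring

lemma abs_u_le (H : HC u) {x : E d} (hx : x ∈ Om u) (hg : ‖fderiv ℝ u x‖ ≤ 1) : |u x| ≤ ‖x‖ := by
  rw [← H.euler1 hx]
  calc |fderiv ℝ u x x| ≤ ‖fderiv ℝ u x‖ * ‖x‖ := (fderiv ℝ u x).le_opNorm x
    _ ≤ 1 * ‖x‖ := by gcongr
    _ = ‖x‖ := one_mul _

lemma norm_gN_le (H : HC u) {x : E d} (hx : x ∈ Om u) (hg : ‖fderiv ℝ u x‖ ≤ 1) :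
    ‖gN u x‖ ≤ 2 := by
  unfold gN
  have h1 : ‖∇ u x‖ ≤ 1 := by
    unfold gradient; rw [LinearIsometryEquiv.norm_map]; exact hg
  have hn := norm_pos_iff.2 (H.ne_zero hx)
  have h2 : ‖(u x / ‖x‖ ^ 2) • x‖ ≤ 1 := by
    rw [norm_smul, Real.norm_eq_abs, abs_div, abs_of_nonneg (by positivity : (0:ℝ) ≤ ‖x‖ ^ 2),
      div_mul_eq_mul_div, div_le_one (by positivity)]
    nlinarith [abs_u_le H hx hg]
  calc ‖∇ u x - (u x / ‖x‖ ^ 2) • x‖ ≤ ‖∇ u x‖ + ‖(u x / ‖x‖ ^ 2) • x‖ := norm_sub_le _ _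
    _ ≤ 2 := by linarith

lemma norm_Zf_le {x : E d} (hg : ‖fderiv ℝ u x‖ ≤ 1) : ‖Zf u x‖ ≤ Real.sqrt (hs2 (D2 u x)) := by
  have h1 : ‖∇ u x‖ ≤ 1 := by
    unfold gradient; rw [LinearIsometryEquiv.norm_map]; exact hg
  refine (norm_act_le _ _).trans ?_
  have := Real.sqrt_nonneg (hs2 (D2 u x))
  nlinarith

lemma norm_W1f_le (x : E d) : ‖W1f u x‖ ≤
    ‖x‖ ^ 2 * ((d : ℝ) ^ 3 * (‖D3 u x‖ * Real.sqrt (hs2 (D2 u x)))) + hs2 (D2 u x) * ‖x‖ := by
  unfold W1f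
  refine (norm_add_le _ _).trans ?_
  rw [norm_smul, norm_smul, Real.norm_of_nonneg (by positivity : (0:ℝ) ≤ ‖x‖ ^ 2),
    Real.norm_of_nonneg (hs2_nonneg _)]
  have := norm_TM_le (D2 u x) (D3 u x)
  gcongr

lemma Frame_tau_le {n : ℕ} {u : E (n + 1) → ℝ} {x : E (n + 1)} (F : Frame u x) (a b c : Fin n) :
    |F.tau a b c| ≤ ‖x‖ ^ 2 * ‖D3 u x‖ := by
  unfold Frame.tau
  rw [abs_mul, abs_of_nonneg (by positivity : (0:ℝ) ≤ ‖x‖ ^ 2)]
  refine mul_le_mul_of_nonneg_left ?_ (by positivity)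
  have h1 := (D3 u x (F.e a.succ) (F.e b.succ)).le_opNorm (F.e c.succ)
  have h2 := (D3 u x (F.e a.succ)).le_opNorm (F.e b.succ)
  have h3 := (D3 u x).le_opNorm (F.e a.succ)
  rw [F.e.orthonormal.1, mul_one] at h1 h2 h3
  exact h1.trans (h2.trans h3)

end RR

end Crest.Agent.R097
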