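import Crest.Agent.R097.RReg
import Crest.Agent.R097.RNorm

/-!
# Row 97: bounds of the field and of the test function away from `D²u = 0` (`RedHyp.bdW`)
-/

set_option autoImplicit false
set_option synthInstance.maxHeartbeats 400000
open MeasureTheory Metric Set Filter Topology InnerProductSpace
open scoped RealInnerProductSpace NNReal ENNReal Gradient Laplacian

namespace Crest.Agent.R097

namespace RR

/-- states with third derivatives -/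
abbrev St (n : ℕ) := (Fin n → ℝ) × (Fin n → ℝ) × ℝ × (Fin n → Fin n → Fin n → ℝ)

/-- the compact set of states -/
def KS (n : ℕ) (δ R B : ℝ) : Set (St n) :=
  {p | (∑ i, p.1 i = 0 ∧ 0 ≤ p.2.2.1 ∧ (∑ i, p.2.1 i ^ 2) + p.2.2.1 ^ 2 ≤ 1 ∧
    p.2.2.1 ^ 2 * (∑ i, p.1 i ^ 2) ≤
      (n : ℝ) / (2 * (n + 2)) * (1 - ((∑ i, p.2.1 i ^ 2) + p.2.2.1 ^ 2) ^ 2)) ∧
    δ ≤ ∑ i, p.1 i ^ 2 ∧ ∑ i, p.1 i ^ 2 ≤ R ∧ ∀ a b c, |p.2.2.2 a b c| ≤ B}

lemma mem_KS {n : ℕ} {δ R B : ℝ} {lam g : Fin n → ℝ} {s : ℝ} {τ : Fin n → Fin n → Fin n → ℝ}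
    (h : Adm lam g s) (h1 : δ ≤ ∑ i, lam i ^ 2) (h2 : ∑ i, lam i ^ 2 ≤ R)
    (h3 : ∀ a b c, |τ a b c| ≤ B) : ((lam, g, s, τ) : St n) ∈ KS n δ R B :=
  ⟨⟨h.tr, h.s0, h.q1, h.ap⟩, h1, h2, h3⟩

lemma adm_KS {n : ℕ} {δ R B : ℝ} (hδ : 0 < δ) {p : St n} (hp : p ∈ KS n δ R B) :
    Adm p.1 p.2.1 p.2.2.1 :=
  ⟨hp.1.1, hδ.trans_le hp.2.1, hp.1.2.1, hp.1.2.2.1, hp.1.2.2.2⟩

lemma isClosed_KS (n : ℕ) (δ R B : ℝ) : IsClosed (KS n δ R B) := by
  have c1 : Continuous fun p : St n => ∑ i, p.1 i := by fun_prop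
  have c2 : Continuous fun p : St n => ∑ i, p.1 i ^ 2 := by fun_prop
  have c3 : Continuous fun p : St n => ∑ i, p.2.1 i ^ 2 := by fun_prop
  have c4 : Continuous fun p : St n => p.2.2.1 := by fun_prop
  have c5 : ∀ a b c, Continuous fun p : St n => |p.2.2.2 a b c| := by
    intro a b c; fun_prop
  unfold KS
  refine IsClosed.and (IsClosed.and (isClosed_eq c1 continuous_const)
    (IsClosed.and (isClosed_le continuous_const c4)
    (IsClosed.and (isClosed_le (c3.add (c4.pow 2)) continuous_const)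
    (isClosed_le ((c4.pow 2).mul c2)
      (continuous_const.mul (continuous_const.sub ((c3.add (c4.pow 2)).pow 2)))))))
    (IsClosed.and (isClosed_le continuous_const c2)
      (IsClosed.and (isClosed_le c2 continuous_const) ?_))
  simp only [Set.ofPred_forall]
  exact isClosed_iInter fun a => isClosed_iInter fun b => isClosed_iInter fun c =>
    isClosed_le (c5 a b c) continuous_const

lemma isCompact_KS (n : ℕ) (δ R B : ℝ) : IsCompact (KS n δ R B) := by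
  have hK : IsCompact ((Icc (fun _ => -Real.sqrt R) (fun _ => Real.sqrt R) : Set (Fin n → ℝ)) ×ˢ
      ((Icc (fun _ => -1) (fun _ => 1) : Set (Fin n → ℝ)) ×ˢ ((Icc (-1) 1 : Set ℝ) ×ˢ
        (Icc (fun _ _ _ => -B) (fun _ _ _ => B) : Set (Fin n → Fin n → Fin n → ℝ))))) :=
    isCompact_Icc.prod (isCompact_Icc.prod (isCompact_Icc.prod isCompact_Icc))
  refine hK.of_isClosed_subset (isClosed_KS n δ R B) ?_
  rintro ⟨lam, g, s, τ⟩ ⟨⟨h1, h2, h3, h4⟩, h5, h6, h7⟩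
  simp only at h1 h2 h3 h4 h5 h6 h7
  have hl : ∀ i, |lam i| ≤ Real.sqrt R := fun i => Real.abs_le_sqrt
    ((Finset.single_le_sum (f := fun i => lam i ^ 2) (fun i _ => sq_nonneg _)
      (Finset.mem_univ i)).trans h6)
  have hg : ∀ i, |g i| ≤ 1 := fun i => by
    have h8 := (Finset.single_le_sum (f := fun i => g i ^ 2) (fun i _ => sq_nonneg _)
      (Finset.mem_univ i))
    have h9 : g i ^ 2 ≤ 1 := by nlinarith [sq_nonneg s]
    exact abs_le_one_iff_mul_self_le_one.2 (by nlinarith)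
  have hs : |s| ≤ 1 := by
    have h8 : 0 ≤ ∑ i, g i ^ 2 := Finset.sum_nonneg fun i _ => sq_nonneg _
    exact abs_le_one_iff_mul_self_le_one.2 (by nlinarith)
  refine ⟨⟨fun i => (abs_le.1 (hl i)).1, fun i => (abs_le.1 (hl i)).2⟩,
    ⟨fun i => (abs_le.1 (hg i)).1, fun i => (abs_le.1 (hg i)).2⟩, abs_le.1 hs,
    ⟨fun a b c => (abs_le.1 (h7 a b c)).1, fun a b c => (abs_le.1 (h7 a b c)).2⟩⟩

lemma continuous_zv (n : ℕ) : Continuous fun p : St n => zv p.1 p.2.1 p.2.2.1 := by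
  refine continuous_pi fun i => ?_
  fin_cases i
  · show Continuous fun p : St n => ∑ i, p.1 i ^ 2
    fun_prop
  · show Continuous fun p : St n => ∑ i, p.1 i ^ 3
    fun_prop
  · show Continuous fun p : St n => ∑ i, p.2.1 i ^ 2
    fun_prop
  · show Continuous fun p : St n => p.2.2.1
    fun_prop

lemma zv_mem {n : ℕ} {δ R B : ℝ} (hδ : 0 < δ) {p : St n} (hp : p ∈ KS n δ R B) :
    zv p.1 p.2.1 p.2.2.1 ∈ {z : Fin 4 → ℝ | 0 < z 0} := hδ.trans_le hp.2.1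

lemma cont_f {n : ℕ} {δ R B : ℝ} (hδ : 0 < δ) {F : Coef} (hF : F.Ok) :
    ContinuousOn (fun p : St n => F.f (zv p.1 p.2.1 p.2.2.1)) (KS n δ R B) :=
  (Coef_contDiffOn hF).continuousOn.comp (continuous_zv n).continuousOn fun _ hp => zv_mem hδ hp

lemma cont_d {n : ℕ} {δ R B : ℝ} (hδ : 0 < δ) {F : Coef} (hF : F.Ok) (i : Fin 4) :
    ContinuousOn (fun p : St n => F.d i (zv p.1 p.2.1 p.2.2.1)) (KS n δ R B) :=
  (hF.cont i).comp (continuous_zv n).continuousOn fun _ hp => zv_mem hδ hp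

lemma cont_D {n : ℕ} {δ R B : ℝ} (hδ : 0 < δ) {F : Coef} (hF : F.Ok) (k : Fin n) :
    ContinuousOn (fun p : St n => F.D p.1 p.2.1 p.2.2.1 p.2.2.2 k) (KS n δ R B) := by
  unfold Coef.D
  have c1 : Continuous fun p : St n => 2 * ∑ a, p.1 a * p.2.2.2 a a k := by fun_prop
  have c2 : Continuous fun p : St n => 3 * ∑ a, p.1 a ^ 2 * p.2.2.2 a a k := by fun_prop
  have c3 : Continuous fun p : St n => 2 * (p.1 k - p.2.2.1) * p.2.1 k := by fun_prop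
  have c4 : Continuous fun p : St n => p.2.1 k := by fun_prop
  exact ((((cont_d hδ hF 0).mul c1.continuousOn).add ((cont_d hδ hF 1).mul c2.continuousOn)).add
    ((cont_d hδ hF 2).mul c3.continuousOn)).add ((cont_d hδ hF 3).mul c4.continuousOn)

lemma cont_divE {n : ℕ} {δ R B : ℝ} (hδ : 0 < δ) {C : CertData} {Lam : ℝ} (hC : Cert n C Lam) :
    ContinuousOn (fun p : St n => C.divE p.1 p.2.1 p.2.2.1 p.2.2.2) (KS n δ R B) := by
  unfold CertData.divE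
  have c1 : Continuous fun p : St n =>
      (n * (∑ i, p.1 i ^ 2) + ∑ a, ∑ b, ∑ c, p.2.2.2 a b c ^ 2 : ℝ) := by fun_prop
  have c2 : ∀ k, Continuous fun p : St n => ∑ a, p.1 a * p.2.2.2 a a k := by
    intro k; fun_prop
  have c3 : Continuous fun p : St n => -((n : ℝ) * p.2.2.1) := by fun_prop
  have c4 : ∀ k, Continuous fun p : St n => p.2.1 k := by intro k; fun_prop
  have c5 : Continuous fun p : St n => ∑ i, p.1 i ^ 2 := by fun_prop
  have c6 : ∀ k, Continuous fun p : St n => p.1 k * p.2.1 k := by intro k; fun_prop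
  have c7 : Continuous fun p : St n => (∑ k, p.2.1 k * ∑ a, p.1 a * p.2.2.2 a a k) +
      (∑ i, p.1 i ^ 3) - p.2.2.1 * ∑ i, p.1 i ^ 2 := by fun_prop
  have c8 : ∀ k, Continuous fun p : St n => p.1 k ^ 2 * p.2.1 k := by intro k; fun_prop
  have c9 : Continuous fun p : St n =>
      (∑ k, p.2.1 k * ∑ a, (p.1 a ^ 2 + p.1 a * p.1 k) * p.2.2.2 a a k) +
      (∑ i, p.1 i ^ 4) - p.2.2.1 * ∑ i, p.1 i ^ 3 := by fun_prop
  have c10 : ∀ k, Continuous fun p : St n => p.1 k ^ 3 * p.2.1 k := by intro k; fun_prop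
  refine (((((((cont_f hδ hC.okga).mul c1.continuousOn).add ?_).add
    (((cont_f hδ hC.ok0).mul c3.continuousOn).add ?_)).add
    (((cont_f hδ hC.ok1).mul c5.continuousOn).add ?_)).add
    (((cont_f hδ hC.ok2).mul c7.continuousOn).add ?_))).add
    (((cont_f hδ hC.ok3).mul c9.continuousOn).add ?_)
  · exact continuousOn_finsetSum _ fun k _ => (cont_D hδ hC.okga k).mul (c2 k).continuousOn
  · exact continuousOn_finsetSum _ fun k _ => (cont_D hδ hC.ok0 k).mul (c4 k).continuousOn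
  · exact continuousOn_finsetSum _ fun k _ => (cont_D hδ hC.ok1 k).mul (c6 k).continuousOn
  · exact continuousOn_finsetSum _ fun k _ => (cont_D hδ hC.ok2 k).mul (c8 k).continuousOn
  · exact continuousOn_finsetSum _ fun k _ => (cont_D hδ hC.ok3 k).mul (c10 k).continuousOn

lemma cont_gradE {n : ℕ} {δ R B : ℝ} (hδ : 0 < δ) {C : CertData} {Lam : ℝ} (hC : Cert n C Lam) :
    ContinuousOn (fun p : St n => (∑ k, C.Z.D p.1 p.2.1 p.2.2.1 p.2.2.2 k ^ 2) /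
      (4 * C.Z.f (zv p.1 p.2.1 p.2.2.1))) (KS n δ R B) := by
  refine ContinuousOn.div (continuousOn_finsetSum _ fun k _ => (cont_D hδ hC.okZ k).pow 2)
    (continuousOn_const.mul (cont_f hδ hC.okZ)) fun p hp => ?_
  have := hC.Zpos p.1 p.2.1 p.2.2.1 (adm_KS hδ hp)
  positivity

/-- **field `bdW` of `RedHyp`** -/
theorem bdW {n : ℕ} {u : E (n + 1) → ℝ} {C : CertData} {Lam : ℝ} (H : HC u) (hC : Cert n C Lam)
    (hA : Apr u)
    (hS : ∀ x ∈ Wn u, ∃ F : Frame u x, Adm F.lam F.g (sN u x) ∧ zN u x = zv F.lam F.g (sN u x) ∧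
      ∑ i, F.lam i ^ 2 = ‖x‖ ^ 2 * hs2 (D2 u x))
    (hbd : ∀ a b : ℝ, 0 < a → ∃ B : ℝ, ∀ x ∈ Om u, x ∈ Ann (n + 1) a b →
      hs2 (D2 u x) ≤ B ∧ ‖D3 u x‖ ≤ B)
    (hJ : ∀ x ∈ Wn u, ∀ F : Frame u x,
      dv (XC C u) x = (‖x‖ ^ 2)⁻¹ * C.divE F.lam F.g (sN u x) F.tau)
    (hG : ∀ x ∈ Wn u, ∀ F : Frame u x, ‖fderiv ℝ (wC C u) x‖ ^ 2 = (‖x‖ ^ 2)⁻¹ *
      ((∑ k, C.Z.D F.lam F.g (sN u x) F.tau k ^ 2) / (4 * C.Z.f (zv F.lam F.g (sN u x))))) :
    ∀ a b δ : ℝ, 0 < a → 0 < δ → ∃ K : ℝ, ∀ x ∈ Wn u, x ∈ Ann (n + 1) a b → δ ≤ hs2 (D2 u x) →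
      ‖fderiv ℝ (wC C u) x‖ ≤ K ∧ ‖XC C u x‖ ≤ K ∧ |dv (XC C u) x| ≤ K := by
  intro a b δ ha hδ
  obtain ⟨B, hB⟩ := hbd a b ha
  have hδ' : 0 < a ^ 2 * δ := by positivity
  set S := KS n (a ^ 2 * δ) (b ^ 2 * B) (b ^ 2 * B) with hSdef
  have hScpt : IsCompact S := isCompact_KS _ _ _ _
  obtain ⟨K1, hK1⟩ := hScpt.exists_bound_of_continuousOn (cont_divE hδ' hC)
  obtain ⟨K2, hK2⟩ := hScpt.exists_bound_of_continuousOn (cont_gradE hδ' hC)
  obtain ⟨K3, hK3⟩ := hScpt.exists_bound_of_continuousOn (cont_f hδ' hC.okga)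
  obtain ⟨K4, hK4⟩ := hScpt.exists_bound_of_continuousOn (cont_f hδ' hC.ok0)
  obtain ⟨K5, hK5⟩ := hScpt.exists_bound_of_continuousOn (cont_f hδ' hC.ok1)
  obtain ⟨K6, hK6⟩ := hScpt.exists_bound_of_continuousOn (cont_f hδ' hC.ok2)
  obtain ⟨K7, hK7⟩ := hScpt.exists_bound_of_continuousOn (cont_f hδ' hC.ok3)
  set W : ℝ := b ^ 2 * (((n + 1 : ℕ) : ℝ) ^ 3 * (B * Real.sqrt B)) + B * b with hW
  set KX : ℝ := K3 * W + K4 * a⁻¹ * 2 + K5 * Real.sqrt B + K6 * b * (Real.sqrt B * Real.sqrt B)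
    + K7 * b ^ 2 * (Real.sqrt B * (Real.sqrt B * Real.sqrt B)) with hKX
  refine ⟨max (Real.sqrt ((a ^ 2)⁻¹ * K2)) (max KX ((a ^ 2)⁻¹ * K1)), fun x hx hxA hxδ => ?_⟩
  have hxO := hx.1
  have hx0 := norm_pos_iff.2 (H.ne_zero hxO)
  obtain ⟨F, hF1, hF2, hF3⟩ := hS x hx
  obtain ⟨hB1, hB2⟩ := hB x hxO hxA
  have hB0 : 0 ≤ B := (norm_nonneg _).trans hB2
  have hxa : a ≤ ‖x‖ := hxA.1
  have hxb : ‖x‖ ≤ b := hxA.2
  have hb0 : 0 ≤ b := (norm_nonneg _).trans hxb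
  have hsq : ‖x‖ ^ 2 ≤ b ^ 2 := by gcongr
  have hsqa : a ^ 2 ≤ ‖x‖ ^ 2 := by gcongr
  have hinv : (‖x‖ ^ 2)⁻¹ ≤ (a ^ 2)⁻¹ := by gcongr
  have hmem : ((F.lam, F.g, sN u x, F.tau) : St n) ∈ S := by
    refine mem_KS hF1 ?_ ?_ fun i j k => (Frame_tau_le F i j k).trans ?_
    · rw [hF3]; gcongr
    · rw [hF3]; gcongr; exact hs2_nonneg _
    · gcongr
  have m1 := hK1 _ hmem
  have m2 := hK2 _ hmem
  have m3 := hK3 _ hmem
  have m4 := hK4 _ hmem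
  have m5 := hK5 _ hmem
  have m6 := hK6 _ hmem
  have m7 := hK7 _ hmem
  simp only [Real.norm_eq_abs] at m1 m2 m3 m4 m5 m6 m7
  rw [← hF2] at m3 m4 m5 m6 m7
  have hgr := hA.grad x hxO
  have hsqB : Real.sqrt (hs2 (D2 u x)) ≤ Real.sqrt B := Real.sqrt_le_sqrt hB1
  have p3 : 0 ≤ K3 := (abs_nonneg _).trans m3
  have p4 : 0 ≤ K4 := (abs_nonneg _).trans m4
  have p5 : 0 ≤ K5 := (abs_nonneg _).trans m5
  have p6 : 0 ≤ K6 := (abs_nonneg _).trans m6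
  have p7 : 0 ≤ K7 := (abs_nonneg _).trans m7
  refine ⟨le_max_of_le_left ?_, le_max_of_le_right (le_max_of_le_left ?_),
    le_max_of_le_right (le_max_of_le_right ?_)⟩
  · refine Real.le_sqrt_of_sq_le ?_
    rw [hG x hx F]
    have h0 : 0 ≤ (∑ k, C.Z.D F.lam F.g (sN u x) F.tau k ^ 2) /
        (4 * C.Z.f (zv F.lam F.g (sN u x))) := by
      have := hC.Zpos _ _ _ hF1
      positivity
    exact mul_le_mul hinv ((le_abs_self _).trans m2) h0 (by positivity)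
  · have q1 : ‖W1f u x‖ ≤ W := by
      refine (norm_W1f_le x).trans ?_
      rw [hW]
      have := hs2_nonneg (D2 u x)
      gcongr
    have q2 : ‖gN u x‖ ≤ 2 := norm_gN_le H hxO hgr
    have q3 : ‖Zf u x‖ ≤ Real.sqrt B := (norm_Zf_le hgr).trans hsqB
    have q4 : ‖act (D2 u x) (Zf u x)‖ ≤ Real.sqrt B * Real.sqrt B :=
      (norm_act_le _ _).trans (mul_le_mul hsqB q3 (norm_nonneg _) (Real.sqrt_nonneg _))
    have q6 : ‖act (D2 u x) (act (D2 u x) (Zf u x))‖ ≤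
        Real.sqrt B * (Real.sqrt B * Real.sqrt B) :=
      (norm_act_le _ _).trans (mul_le_mul hsqB q4 (norm_nonneg _) (Real.sqrt_nonneg _))
    have q5 : ‖x‖⁻¹ ≤ a⁻¹ := by gcongr
    unfold XC
    refine (norm_add_le _ _).trans (add_le_add ((norm_add_le _ _).trans (add_le_add
      ((norm_add_le _ _).trans (add_le_add ((norm_add_le _ _).trans (add_le_add ?_ ?_))
        ?_)) ?_)) ?_)
    · rw [norm_smul, Real.norm_eq_abs]
      exact mul_le_mul m3 q1 (norm_nonneg _) p3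
    · rw [norm_smul, Real.norm_eq_abs, abs_mul, abs_of_nonneg (by positivity : (0:ℝ) ≤ ‖x‖⁻¹)]
      gcongr
    · rw [norm_smul, Real.norm_eq_abs]
      exact mul_le_mul m5 q3 (norm_nonneg _) p5
    · rw [norm_smul, Real.norm_eq_abs, abs_mul, abs_norm]
      gcongr
    · rw [norm_smul, Real.norm_eq_abs, abs_mul, abs_pow, abs_norm]
      gcongr
  · rw [hJ x hx F, abs_mul, abs_of_nonneg (by positivity : (0:ℝ) ≤ (‖x‖ ^ 2)⁻¹)]
    exact mul_le_mul hinv m1 (abs_nonneg _) (by positivity)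

end RR

end Crest.Agent.R097
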