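import Crest.Agent.R097.RFld0

/-!
# Row 97, node [RSTATE] (helper430): the link state `(lam, g, s, τ)` of a frame is admissible
-/

set_option autoImplicit false
set_option synthInstance.maxHeartbeats 400000
open MeasureTheory Metric Set Filter Topology InnerProductSpace
open scoped RealInnerProductSpace NNReal ENNReal Gradient Laplacian Pointwise

namespace Crest.Agent.R097

section basis

variable {d : ℕ} {ι : Type*} [Fintype ι] (e : OrthonormalBasis ι ℝ (E d))

/-- scalar products of two functionals in an orthonormal basis -/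
lemma sum_mul_onb (L M : E d →L[ℝ] ℝ) : ∑ i, L (bv i) * M (bv i) = ∑ c, L (e c) * M (e c) :=
  (tr_onb e (L.smulRight M)).symm

lemma hs2_onb (A : Bil d) : hs2 A = ∑ a, ∑ b, A (e a) (e b) ^ 2 := by
  unfold hs2
  have h1 : ∀ i, ∑ j, (A (bv i) (bv j)) ^ 2 = ∑ b, A (bv i) (e b) ^ 2 := by
    intro i
    have := sum_mul_onb e (A (bv i)) (A (bv i))
    simpa only [← sq] using this
  simp_rw [h1]
  rw [Finset.sum_comm]
  have h2 : ∀ b, ∑ i, (A (bv i) (e b)) ^ 2 = ∑ a, A (e a) (e b) ^ 2 := by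
    intro b
    have := sum_mul_onb e (A.flip (e b)) (A.flip (e b))
    simpa only [← sq, ContinuousLinearMap.flip_apply] using this
  simp_rw [h2]
  rw [Finset.sum_comm]

lemma tr3_onb (A : Bil d) :
    tr3 A = ∑ a, ∑ b, ∑ c, A (e a) (e b) * A (e b) (e c) * A (e c) (e a) := by
  unfold tr3
  -- the index `k`
  have h1 : ∀ i j, ∑ k, A (bv i) (bv j) * A (bv j) (bv k) * A (bv k) (bv i) =
      ∑ c, A (bv i) (bv j) * A (bv j) (e c) * A (e c) (bv i) := by
    intro i j
    have := sum_mul_onb e (A (bv j)) (A.flip (bv i))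
    simp only [ContinuousLinearMap.flip_apply] at this
    simp only [mul_assoc, ← Finset.mul_sum]
    rw [this]
  simp_rw [h1]
  -- the index `j`
  have h2 : ∀ i, ∑ j, ∑ c, A (bv i) (bv j) * A (bv j) (e c) * A (e c) (bv i) =
      ∑ b, ∑ c, A (bv i) (e b) * A (e b) (e c) * A (e c) (bv i) := by
    intro i
    rw [Finset.sum_comm]
    conv_rhs => rw [Finset.sum_comm]
    refine Finset.sum_congr rfl fun c _ => ?_
    have := sum_mul_onb e (A (bv i)) (A.flip (e c))
    simp only [ContinuousLinearMap.flip_apply] at this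
    simp only [← Finset.sum_mul]
    rw [this]
  simp_rw [h2]
  rw [Finset.sum_comm]
  conv_rhs => rw [Finset.sum_comm]
  refine Finset.sum_congr rfl fun b _ => ?_
  rw [Finset.sum_comm]
  conv_rhs => rw [Finset.sum_comm]
  refine Finset.sum_congr rfl fun c _ => ?_
  have := sum_mul_onb e (A.flip (e b)) (A (e c))
  simp only [ContinuousLinearMap.flip_apply] at this
  have e1 : ∀ v : E d, A v (e b) * A (e b) (e c) * A (e c) v =
      A (e b) (e c) * (A v (e b) * A (e c) v) := fun v => by ring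
  simp only [e1, ← Finset.mul_sum]
  rw [this]

lemma normsq_onb (L : E d →L[ℝ] ℝ) : ‖L‖ ^ 2 = ∑ c, L (e c) ^ 2 := by
  set w := (toDual ℝ (E d)).symm L with hw
  have h1 : ‖L‖ = ‖w‖ := by rw [hw, LinearIsometryEquiv.norm_map]
  have h2 : ∀ v, L v = ⟪w, v⟫_ℝ := fun v => by rw [hw, toDual_symm_apply]
  rw [h1, ← e.sum_sq_norm_inner_left w]
  refine Finset.sum_congr rfl fun c _ => ?_
  rw [h2, Real.norm_eq_abs, sq_abs]

end basis

namespace Frame

variable {n : ℕ} {u : E (n + 1) → ℝ} {x : E (n + 1)}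

lemma D2_succ (F : Frame u x) (v : E (n + 1)) (k : Fin n) :
    ‖x‖ * D2 u x v (F.e k.succ) = F.lam k * ⟪v, F.e k.succ⟫_ℝ := by
  rw [← inner_Nop, F.eig k, inner_smul_right]

lemma D2_zero (F : Frame u x) (H : HC u) (hx : x ∈ Om u) (v : E (n + 1)) :
    D2 u x v (F.e 0) = 0 := by
  rw [F.e0, map_smul, H.euler2' hx, smul_zero]

lemma D2_zero' (F : Frame u x) (H : HC u) (hx : x ∈ Om u) (v : E (n + 1)) :
    D2 u x (F.e 0) v = 0 := by
  rw [H.symm2 hx, F.D2_zero H hx]

lemma D2_ss (F : Frame u x) (a b : Fin n) :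
    ‖x‖ * D2 u x (F.e a.succ) (F.e b.succ) = if a = b then F.lam b else 0 := by
  rw [F.D2_succ]
  have h := orthonormal_iff_ite.1 F.e.orthonormal a.succ b.succ
  rw [h]
  by_cases hab : a = b
  · subst hab; simp
  · rw [if_neg hab, if_neg (fun h' => hab (Fin.succ_injective _ h')), mul_zero]

lemma sum_lam (F : Frame u x) (H : HC u) (hx : x ∈ Om u) : ∑ i, F.lam i = 0 := by
  have h1 := tr_onb F.e (D2 u x)
  rw [H.tr2 hx, Fin.sum_univ_succ, F.D2_zero H hx, zero_add] at h1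
  have h2 : ∑ i, F.lam i = ‖x‖ * ∑ i : Fin n, D2 u x (F.e i.succ) (F.e i.succ) := by
    rw [Finset.mul_sum]
    exact Finset.sum_congr rfl fun i _ => by rw [F.D2_ss, if_pos rfl]
  rw [h2, h1, mul_zero]

lemma sum_lam2 (F : Frame u x) (H : HC u) (hx : x ∈ Om u) :
    ∑ i, F.lam i ^ 2 = ‖x‖ ^ 2 * hs2 (D2 u x) := by
  rw [hs2_onb F.e]
  simp only [Fin.sum_univ_succ, F.D2_zero H hx, F.D2_zero' H hx]
  simp only [ne_eq, OfNat.ofNat_ne_zero, not_false_eq_true, zero_pow, Finset.sum_const_zero,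
    zero_add, add_zero]
  rw [Finset.mul_sum]
  refine Finset.sum_congr rfl fun a _ => ?_
  rw [Finset.mul_sum]
  have : ∀ b, ‖x‖ ^ 2 * D2 u x (F.e a.succ) (F.e b.succ) ^ 2 =
      if a = b then F.lam b ^ 2 else 0 := by
    intro b
    rw [← mul_pow, F.D2_ss]
    split_ifs <;> simp
  simp_rw [this]
  rw [Finset.sum_ite_eq Finset.univ a, if_pos (Finset.mem_univ _)]

lemma sum_lam3 (F : Frame u x) (H : HC u) (hx : x ∈ Om u) :
    ∑ i, F.lam i ^ 3 = ‖x‖ ^ 3 * tr3 (D2 u x) := by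
  rw [tr3_onb F.e]
  simp only [Fin.sum_univ_succ, F.D2_zero H hx, F.D2_zero' H hx]
  simp only [mul_zero, zero_mul, Finset.sum_const_zero, zero_add, add_zero]
  rw [Finset.mul_sum]
  refine Finset.sum_congr rfl fun a _ => ?_
  rw [Finset.mul_sum]
  have : ∀ b, ‖x‖ ^ 3 * ∑ c : Fin n, D2 u x (F.e a.succ) (F.e b.succ) *
      D2 u x (F.e b.succ) (F.e c.succ) * D2 u x (F.e c.succ) (F.e a.succ) =
      if a = b then F.lam b ^ 3 else 0 := by
    intro b
    have e1 : ‖x‖ ^ 3 * ∑ c : Fin n, D2 u x (F.e a.succ) (F.e b.succ) *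
        D2 u x (F.e b.succ) (F.e c.succ) * D2 u x (F.e c.succ) (F.e a.succ) =
        ∑ c : Fin n, (‖x‖ * D2 u x (F.e a.succ) (F.e b.succ)) *
          (‖x‖ * D2 u x (F.e b.succ) (F.e c.succ)) *
          (‖x‖ * D2 u x (F.e c.succ) (F.e a.succ)) := by
      rw [Finset.mul_sum]
      exact Finset.sum_congr rfl fun c _ => by ring
    rw [e1]
    simp only [F.D2_ss]
    by_cases hab : a = b
    · subst hab
      rw [if_pos rfl, if_pos rfl]
      rw [Finset.sum_eq_single a]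
      · rw [if_pos rfl]; ring
      · intro c _ hc
        rw [if_neg (Ne.symm hc)]; ring
      · intro h; exact absurd (Finset.mem_univ _) h
    · rw [if_neg hab, if_neg hab]
      simp
  simp_rw [this]
  rw [Finset.sum_ite_eq Finset.univ a, if_pos (Finset.mem_univ _)]

lemma D1_zero (F : Frame u x) (H : HC u) (hx : x ∈ Om u) : fderiv ℝ u x (F.e 0) = sN u x := by
  rw [F.e0, map_smul, H.euler1 hx, smul_eq_mul, sN]
  ring

lemma sum_g2 (F : Frame u x) (H : HC u) (hx : x ∈ Om u) :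
    (∑ i, F.g i ^ 2) + sN u x ^ 2 = ‖fderiv ℝ u x‖ ^ 2 := by
  rw [normsq_onb F.e (fderiv ℝ u x), Fin.sum_univ_succ, F.D1_zero H hx, add_comm]
  rfl

lemma sum_g2' (F : Frame u x) (H : HC u) (hx : x ∈ Om u) : ∑ i, F.g i ^ 2 = qN u x := by
  have h := F.sum_g2 H hx
  unfold qN
  rw [norm_gradient, ← h]
  unfold sN
  ring

lemma zN_eq (F : Frame u x) (H : HC u) (hx : x ∈ Om u) : zN u x = zv F.lam F.g (sN u x) := by
  unfold zN zv
  rw [F.sum_lam2 H hx, F.sum_lam3 H hx, F.sum_g2' H hx]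

lemma stf (F : Frame u x) (H : HC u) (hx : x ∈ Om u) : STF F.tau := by
  refine ⟨fun a b c => ?_, fun a b c => ?_, fun k => ?_⟩
  · unfold tau; rw [H.symm3a hx]
  · unfold tau; rw [H.symm3b hx]
  · unfold tau
    rw [← Finset.mul_sum]
    have h1 : ∀ v w : E (n + 1), D3 u x v v w = D3 u x w v v := by
      intro v w
      rw [H.symm3b hx, H.symm3a hx]
    simp_rw [h1]
    have h2 := tr_onb F.e (D3 u x (F.e k.succ))
    rw [H.tr3 hx, Fin.sum_univ_succ] at h2
    have h3 : D3 u x (F.e k.succ) (F.e 0) (F.e 0) = 0 := by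
      rw [F.e0, map_smul, H.euler3b hx, map_smul, H.euler2' hx]
      simp
    rw [h3, zero_add] at h2
    rw [h2, mul_zero]

lemma adm (F : Frame u x) (H : HC u) (hA : Apr u) (hx : x ∈ Wn u) : Adm F.lam F.g (sN u x) := by
  have hxO : x ∈ Om u := hx.1
  have hx0 : x ≠ 0 := H.ne_zero hxO
  have hn : 0 < ‖x‖ := norm_pos_iff.2 hx0
  have hux : 0 < u x := hxO
  have hg := F.sum_g2 H hxO
  refine ⟨F.sum_lam H hxO, ?_, ?_, ?_, ?_⟩
  · rw [F.sum_lam2 H hxO]
    exact mul_pos (by positivity) hx.2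
  · unfold sN; positivity
  · rw [hg]
    have h1 := hA.grad x hxO
    have h2 := norm_nonneg (fderiv ℝ u x)
    nlinarith
  · have h1 := hA.ap x hxO
    have e1 : sN u x ^ 2 * ∑ i, F.lam i ^ 2 = u x ^ 2 * hs2 (D2 u x) := by
      rw [F.sum_lam2 H hxO]
      unfold sN
      field_simp
    have e2 : 1 - ((∑ i, F.g i ^ 2) + sN u x ^ 2) ^ 2 = 1 - ‖fderiv ℝ u x‖ ^ 4 := by
      rw [hg]; ring
    rw [e1, e2]
    refine h1.trans (le_of_eq ?_)
    congr 1
    push_cast
    congr 1 <;> ring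

end Frame

end Crest.Agent.R097
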