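import Crest.Agent.R097.RJ5
import Crest.Agent.R097.RReg
import Crest.Agent.R097.RBdry
import Crest.Agent.R097.RState
import Crest.Agent.R097.RApri3
import Crest.Agent.R097.SStab
import Crest.Agent.R097.REnergy
import Crest.Agent.R097.REnergyB
import Crest.Agent.R097.RReg2

/-!
# Row 97: certificate ⟹ flat (assembly of the reduction)
-/

set_option autoImplicit false
set_option synthInstance.maxHeartbeats 400000
open MeasureTheory Metric Set Filter Topology InnerProductSpace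
open scoped RealInnerProductSpace NNReal ENNReal Gradient Laplacian

namespace Crest.Agent.R097

variable {n : ℕ} {u : E (n + 1) → ℝ} {C : CertData} {Lam : ℝ}

/-- the cone data of a Lipschitz minimising cone -/
theorem hc_of_LM {d : ℕ} {K : ℝ≥0} {u : E d → ℝ} (hu : LM u K) (hh : Hom1 u) : HC u where
  cont := hu.lip.continuous
  sm := hu.harm.1
  ha := hu.harm.2
  hh := hh

theorem apr_of_LM {n : ℕ} (hn2 : 2 ≤ n) {K : ℝ≥0} {u : E (n + 1) → ℝ} (hu : LM u K)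
    (hh : Hom1 u) (hreg : ∀ y ∈ frontier (Om u), y ≠ 0 → RegPt u y) : Apr u where
  grad := grad_le_one (by omega) hu hh hu.harm hreg
  ap := by
    intro x hx
    refine (apriori619_cone hn2 hu hh hreg x hx).trans (le_of_eq ?_)
    congr 1
    push_cast
    congr 1 <;> ring

/-- the interior inequality -/
theorem int_of_cert (hC : Cert n C Lam) (H : HC u) (hA : Apr u) : ∀ x ∈ Wn u,
    ‖fderiv ℝ (wC C u) x‖ ^ 2 + Lam * wC C u x ^ 2 / ‖x‖ ^ 2 ≤ dv (XC C u) x := by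
  intro x hx
  obtain ⟨F⟩ := exists_frame H hx.1
  have hn : 0 < ‖x‖ := norm_pos_iff.2 (H.ne_zero hx.1)
  have hadm := F.adm H hA hx
  have hpos := hC.Zpos _ _ _ hadm
  obtain ⟨-, -, hg⟩ := F.grad_wC H hx hC.okZ hpos
  have hPJ := hC.PJ _ _ _ F.tau hadm (F.stf H hx.1)
  have hw : wC C u x ^ 2 = C.Z.f (zv F.lam F.g (sN u x)) := by
    unfold wC
    rw [F.jzN_eq H hx.1, Real.sq_sqrt hpos.le]
  rw [F.dv_XC H hx hC.okga hC.ok0 hC.ok1 hC.ok2 hC.ok3, hg, hw]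
  have h2 : (‖x‖ ^ 2)⁻¹ * ((∑ k, C.Z.D F.lam F.g (sN u x) F.tau k ^ 2) /
      (4 * C.Z.f (zv F.lam F.g (sN u x)))) + Lam * C.Z.f (zv F.lam F.g (sN u x)) / ‖x‖ ^ 2 =
      (‖x‖ ^ 2)⁻¹ * ((∑ k, C.Z.D F.lam F.g (sN u x) F.tau k ^ 2) /
      (4 * C.Z.f (zv F.lam F.g (sN u x))) + Lam * C.Z.f (zv F.lam F.g (sN u x))) := by
    field_simp
  rw [h2]
  exact mul_le_mul_of_nonneg_left hPJ (by positivity)

lemma Wn_zpos (hC : Cert n C Lam) (H : HC u) (hA : Apr u) : ∀ x ∈ Wn u, 0 < C.Z.f (zN u x) := by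
  intro x hx
  obtain ⟨F⟩ := exists_frame H hx.1
  rw [F.jzN_eq H hx.1]
  exact hC.Zpos _ _ _ (F.adm H hA hx)

/-- annuli avoid the vertex -/
lemma Ann_ne {d : ℕ} {a b : ℝ} (ha : 0 < a) {y : E d} (hy : y ∈ Ann d a b) : y ≠ 0 := by
  rintro rfl
  have : a ≤ ‖(0 : E d)‖ := hy.1
  rw [norm_zero] at this; linarith

lemma hs2_le_norm {d : ℕ} (A : Bil d) : hs2 A ≤ (d : ℝ) * (d * ‖A‖ ^ 2) := hs_le A

lemma norm_Zf_le {d : ℕ} (u : E d → ℝ) (x : E d) :
    ‖Zf u x‖ ≤ (d : ℝ) * (‖D2 u x‖ * ‖fderiv ℝ u x‖) := by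
  unfold Zf act
  refine (norm_sum_le _ _).trans ?_
  have h : ∀ i ∈ (Finset.univ : Finset (Fin d)),
      ‖(D2 u x (∇ u x) (bv i)) • bv i‖ ≤ ‖D2 u x‖ * ‖fderiv ℝ u x‖ := by
    intro i _
    rw [norm_smul, norm_bv, mul_one]
    have h1 := (D2 u x (∇ u x)).le_opNorm (bv i)
    have h2 := (D2 u x).le_opNorm (∇ u x)
    rw [norm_bv, mul_one] at h1
    rw [norm_gradient] at h2
    exact h1.trans h2
  refine (Finset.sum_le_sum h).trans ?_
  simp

/-- **certificate ⟹ flat**, given the three estimates `wbd`, `bdW`, `energy` -/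
theorem red_of_cert' (hn2 : 2 ≤ n) (hC : Cert n C Lam) {K : ℝ≥0} (hu : LM u K) (hh : Hom1 u)
    (hreg : ∀ y ∈ frontier (Om u), y ≠ 0 → RegPt u y)
    (hwbd : ∀ a b : ℝ, 0 < a → ∃ C' : ℝ, ∀ x ∈ Wn u, x ∈ Ann (n + 1) a b → wC C u x ≤ C')
    (hbdW : ∀ a b δ : ℝ, 0 < a → 0 < δ → ∃ C' : ℝ, ∀ x ∈ Wn u, x ∈ Ann (n + 1) a b →
      δ ≤ hs2 (D2 u x) → ‖fderiv ℝ (wC C u) x‖ ≤ C' ∧ ‖XC C u x‖ ≤ C' ∧ |dv (XC C u) x| ≤ C')
    (hen : ∀ a b : ℝ, 0 < a → ∃ e : E (n + 1) → ℝ, IntegrableOn e (Wn u ∩ Ann (n + 1) a b) ∧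
      ∀ x ∈ Wn u, x ∈ Ann (n + 1) a b →
        wC C u x ^ 2 * ‖D3 u x‖ ^ 2 ≤ e x * hs2 (D2 u x) ∧
        wC C u x * ‖fderiv ℝ (wC C u) x‖ * ‖D3 u x‖ ≤ e x * Real.sqrt (hs2 (D2 u x)) ∧
        ‖XC C u x‖ * ‖D3 u x‖ ≤ e x * Real.sqrt (hs2 (D2 u x)) ∧
        wC C u x ^ 2 * ‖D3 u x‖ ≤ e x * Real.sqrt (hs2 (D2 u x))) :
    ∀ x ∈ Om u, D2 u x = 0 := by
  have H : HC u := hc_of_LM hu hh
  have hd : 2 ≤ n + 1 := by omega
  have hA : Apr u := apr_of_LM hn2 hu hh hreg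
  have hpos := Wn_zpos hC H hA
  have hregA : ∀ a b : ℝ, 0 < a → ∀ y ∈ Ann (n + 1) a b, y ∈ frontier (Om u) → RegPt u y :=
    fun a b ha y hy hyf => hreg y hyf (Ann_ne ha hy)
  have hyp : RedHyp u (wC C u) (XC C u) Lam :=
    { cont := H.cont
      u0 := H.u0
      sm := H.sm
      bd := by
        intro a b ha
        obtain ⟨M2, h2⟩ := bdd_D2 H.cont H.sm (isCompact_Ann a b) (hregA a b ha)
        obtain ⟨M3, h3⟩ := bdd_D3 H.cont H.sm (isCompact_Ann a b) (hregA a b ha)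
        refine ⟨max (((n + 1 : ℕ) : ℝ) * ((n + 1 : ℕ) * (max M2 0) ^ 2))
          (max M3 (((n + 1 : ℕ) : ℝ) * (max M2 0 * 1))), fun x hx hxA => ⟨?_, ?_, ?_⟩⟩
        · refine le_trans ?_ (le_max_left _ _)
          refine (hs2_le_norm _).trans ?_
          have h5 : ‖D2 u x‖ ≤ max M2 0 := (h2 x hx hxA).trans (le_max_left _ _)
          gcongr
        · exact (h3 x hx hxA).trans ((le_max_left _ _).trans (le_max_right _ _))
        · refine le_trans ?_ ((le_max_right _ _).trans (le_max_right _ _))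
          refine (norm_Zf_le u x).trans ?_
          have h5 : ‖D2 u x‖ ≤ max M2 0 := (h2 x hx hxA).trans (le_max_left _ _)
          have h6 := hA.grad x hx
          gcongr
      divZ := fun x hx => dv_Zf H hx
      flux := by
        intro a b ha F hF hF0 hFb hb
        obtain ⟨C', hC'⟩ := hFb
        exact flux hu H.sm H.ha (isCompact_Ann a b) (hregA a b ha) hF hF0
          (fun x hx => (hC' x hx).1) (fun x hx => (hC' x hx).2)
          (fun y hyS hyf ε hε => hb y hyf hyS ε hε)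
      stab := by
        intro a b ha φ hφ h0 hφ0 hφb
        obtain ⟨C', hC'⟩ := hφb
        have h := stab hu H.sm H.ha (U := {x | x ≠ 0}) isOpen_ne
          (fun y hy hyf => hreg y hyf hy) (isCompact_Ann a b) (fun y hy => Ann_ne ha hy) hφ h0 hφ0
          (fun x hx => (hC' x hx).1) (fun x hx => (hC' x hx).2)
        refine le_trans (le_of_eq ?_) h
        refine setIntegral_congr_fun H.isOpen.measurableSet fun x hx => ?_
        have e1 : fderiv ℝ φ x (Zf u x) = D2 u x (∇ u x) (∇ φ x) := by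
          rw [← inner_gradient, Zf, inner_act]
        rw [e1]; rfl
      wC := RR.wC_contDiffOn H hC.okZ hpos
      wpos := fun x hx => Real.sqrt_pos.2 (hpos x hx)
      wrad := by
        intro x hx
        obtain ⟨F⟩ := exists_frame H hx.1
        exact (F.grad_wC H hx hC.okZ (hC.Zpos _ _ _ (F.adm H hA hx))).2.1
      XC := RR.XC_contDiffOn H hC.okga hC.ok0 hC.ok1 hC.ok2 hC.ok3
      Xtan := RR.XC_tan H
      int := int_of_cert hC H hA
      bdry := by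
        intro y hy hy0 ε hε δ hδ
        obtain ⟨e, A, B, hJ⟩ := hreg y hy hy0
        exact RB.rbdry hC H hy hy0 hJ (jets_Aee_nonpos hd hu hh hu.harm hreg hy hy0 hJ) ε hε δ hδ
      wbd := hwbd
      bdW := hbdW
      energy := hen }
  have hLam : ((((n + 1 : ℕ) : ℝ) - 2) / 2) ^ 2 < Lam := by
    have := hC.lam_gt
    push_cast
    have e : ((n : ℝ) + 1 - 2) / 2 = ((n : ℝ) - 1) / 2 := by ring
    rw [e]; exact this
  have hW := red_conclusion (Nat.succ_pos n) hyp hh (RR.wC_hom H) hLam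
  intro x hx
  have h0 : hs2 (D2 u x) = 0 := by
    by_contra hne
    have hpos' : 0 < hs2 (D2 u x) := lt_of_le_of_ne (hs2_nonneg _) (Ne.symm hne)
    have : x ∈ Wn u := ⟨hx, hpos'⟩
    rw [hW] at this
    exact this
  have h1 : ∀ i j : Fin (n + 1), D2 u x (bv i) (bv j) = 0 := by
    intro i j
    unfold hs2 at h0
    have h2 := (Finset.sum_eq_zero_iff_of_nonneg (fun i _ =>
      Finset.sum_nonneg fun j _ => sq_nonneg _)).1 h0 i (Finset.mem_univ i)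
    have h3 := (Finset.sum_eq_zero_iff_of_nonneg (fun j _ => sq_nonneg _)).1 h2 j
      (Finset.mem_univ j)
    exact pow_eq_zero_iff (two_ne_zero) |>.1 h3
  ext v w
  rw [bil_sum (D2 u x) v w]
  have h4 : ∀ i, D2 u x (bv i) w = 0 := by
    intro i
    conv_lhs => rw [← sum_bv w, map_sum]
    refine Finset.sum_eq_zero fun j _ => ?_
    rw [map_smul, h1, smul_zero]
  simp [h4]

/-- bounds on annuli from the regular points -/
lemma bd_ann (H : HC u) (hreg : ∀ y ∈ frontier (Om u), y ≠ 0 → RegPt u y) :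
    ∀ a b : ℝ, 0 < a → ∃ B : ℝ, ∀ x ∈ Om u, x ∈ Ann (n + 1) a b →
      hs2 (D2 u x) ≤ B ∧ ‖D3 u x‖ ≤ B := by
  intro a b ha
  have hregA : ∀ y ∈ Ann (n + 1) a b, y ∈ frontier (Om u) → RegPt u y :=
    fun y hy hyf => hreg y hyf (Ann_ne ha hy)
  obtain ⟨M2, h2⟩ := bdd_D2 H.cont H.sm (isCompact_Ann a b) hregA
  obtain ⟨M3, h3⟩ := bdd_D3 H.cont H.sm (isCompact_Ann a b) hregA
  refine ⟨max (((n + 1 : ℕ) : ℝ) * ((n + 1 : ℕ) * (max M2 0) ^ 2)) M3,
    fun x hx hxA => ⟨?_, ?_⟩⟩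
  · refine le_trans ?_ (le_max_left _ _)
    refine (hs2_le_norm _).trans ?_
    have h5 : ‖D2 u x‖ ≤ max M2 0 := (h2 x hx hxA).trans (le_max_left _ _)
    gcongr
  · exact (h3 x hx hxA).trans (le_max_right _ _)

/-- **certificate ⟹ flat** -/
theorem red_of_cert (hn2 : 2 ≤ n) (hC : Cert n C Lam) (K : ℝ≥0) (u : E (n + 1) → ℝ)
    (hu : LM u K) (hh : Hom1 u) (hreg : ∀ y ∈ frontier (Om u), y ≠ 0 → RegPt u y) :
    ∀ x ∈ Om u, D2 u x = 0 := by
  have H : HC u := hc_of_LM hu hh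
  have hA : Apr u := apr_of_LM hn2 hu hh hreg
  have hbd := bd_ann H hreg
  have hst : ∀ x ∈ Wn u, ∃ lam g : Fin n → ℝ, Adm lam g (sN u x) ∧
      zN u x = zv lam g (sN u x) := by
    intro x hx
    obtain ⟨F⟩ := exists_frame H hx.1
    exact ⟨F.lam, F.g, F.adm H hA hx, F.jzN_eq H hx.1⟩
  have hS : ∀ x ∈ Wn u, ∃ F : Frame u x, Adm F.lam F.g (sN u x) ∧
      zN u x = zv F.lam F.g (sN u x) ∧ ∑ i, F.lam i ^ 2 = ‖x‖ ^ 2 * hs2 (D2 u x) := by
    intro x hx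
    obtain ⟨F⟩ := exists_frame H hx.1
    refine ⟨F, F.adm H hA hx, F.jzN_eq H hx.1, ?_⟩
    have hn : ‖x‖ ≠ 0 := norm_ne_zero_iff.2 (H.ne_zero hx.1)
    rw [F.hs2_eq H hx.1]
    field_simp
  have hbdry := RR.bdW H hC hA hS hbd (fun x hx F => F.dv_XC H hx hC.okga hC.ok0 hC.ok1 hC.ok2 hC.ok3)
    (fun x hx F => (F.grad_wC H hx hC.okZ (hC.Zpos _ _ _ (F.adm H hA hx))).2.2)
  have hn1 : 1 ≤ n := by omega
  have hZp : ∀ x ∈ Wn u, 0 < C.Z.f (zN u x) := by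
    intro x hx
    obtain ⟨lam, g, hAd, hz⟩ := hst x hx
    rw [hz]; exact hC.Zpos _ _ _ hAd
  rcases hC.growth with hG | hG
  · exact red_of_cert' hn2 hC hu hh hreg (red_wbd hC hG hst hbd) hbdry
      (red_energy H hC hG hst hbd hA.grad)
  · exact red_of_cert' hn2 hC hu hh hreg (red_wbdB hn1 hG hst hbd) hbdry
      (red_energyB hn1 hu hreg H hC.okZ hZp hG hst hbd hA.grad)

end Crest.Agent.R097
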