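import Crest.Agent.R097.Final
import Crest.Agent.R097.RFin

/-!
# Row 97: final assembly II (linker: helper169)

`S0128_of_certs`: the statement of S0128 from stability certificates in the dimensions
`n = 2, 3, 4, 5`.
-/

set_option autoImplicit false
open MeasureTheory Metric Set Filter Topology
open scoped NNReal RealInnerProductSpace Gradient ContDiff Laplacian
open Crest.AnalysisR.PDE.OnePhase

namespace Crest.Agent.R097

/-- a certificate in dimension `n` gives the reduction in dimension `n + 1` -/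
theorem redStmt_of_cert {n : ℕ} (hn : 2 ≤ n) (h : ∃ (C : CertData) (Lam : ℝ), Cert n C Lam) :
    RedStmt (n + 1) := by
  obtain ⟨C, Lam, hC⟩ := h
  exact red_of_cert hn hC

/-- **S0128 from the four certificates** -/
theorem S0128_of_certs
    (h2 : ∃ (C : CertData) (Lam : ℝ), Cert 2 C Lam)
    (h3 : ∃ (C : CertData) (Lam : ℝ), Cert 3 C Lam)
    (h4 : ∃ (C : CertData) (Lam : ℝ), Cert 4 C Lam)
    (h5 : ∃ (C : CertData) (Lam : ℝ), Cert 5 C Lam)
    (d : ℕ) (hd1 : 1 ≤ d) (hd6 : d ≤ 6)
    (u : EuclideanSpace ℝ (Fin d) → ℝ) (G : EuclideanSpace ℝ (Fin d) → EuclideanSpace ℝ (Fin d))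
    (hmin : IsGlobalMinimizer u G) (hhom : IsOneHomogeneous u)
    (hne : ¬ (u =ᵐ[volume] 0)) :
    ∃ e : EuclideanSpace ℝ (Fin d), ‖e‖ = 1 ∧ u =ᵐ[volume] fun x => max (inner ℝ x e) 0 :=
  S0128_of_red (redStmt_of_cert (by norm_num) h2) (redStmt_of_cert (by norm_num) h3)
    (redStmt_of_cert (by norm_num) h4) (redStmt_of_cert (by norm_num) h5)
    d hd1 hd6 u G hmin hhom hne

end Crest.Agent.R097
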