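import Crest.Agent.R097.Link
import Crest.Agent.R097.Cert2
import Crest.Agent.R097.Cert3

/-!
# Row 97: final assembly III (linker: helper169)

`S0128_of_cert45`: only the certificates in dimension `n = 4` and `n = 5` are left.
-/

set_option autoImplicit false
open MeasureTheory Metric Set Filter Topology
open scoped NNReal RealInnerProductSpace Gradient ContDiff Laplacian
open Crest.AnalysisR.PDE.OnePhase

namespace Crest.Agent.R097

/-- **S0128 from the certificates in the dimensions four and five** -/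
theorem S0128_of_cert45
    (h4 : ∃ (C : CertData) (Lam : ℝ), Cert 4 C Lam)
    (h5 : ∃ (C : CertData) (Lam : ℝ), Cert 5 C Lam)
    (d : ℕ) (hd1 : 1 ≤ d) (hd6 : d ≤ 6)
    (u : EuclideanSpace ℝ (Fin d) → ℝ) (G : EuclideanSpace ℝ (Fin d) → EuclideanSpace ℝ (Fin d))
    (hmin : IsGlobalMinimizer u G) (hhom : IsOneHomogeneous u)
    (hne : ¬ (u =ᵐ[volume] 0)) :
    ∃ e : EuclideanSpace ℝ (Fin d), ‖e‖ = 1 ∧ u =ᵐ[volume] fun x => max (inner ℝ x e) 0 :=
  S0128_of_certs ⟨_, _, cert2⟩ ⟨_, _, cert3⟩ h4 h5 d hd1 hd6 u G hmin hhom hne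

end Crest.Agent.R097
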