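import Crest.Agent.R097.Defs

/-! L: calculus of Lipschitz functions (Rademacher), energy differences. -/
set_option autoImplicit false
open MeasureTheory Metric Set Filter Topology
open scoped NNReal RealInnerProductSpace Gradient ContDiff

namespace Crest.Agent.R097
variable {d : ℕ}

theorem pos_nonneg (t : ℝ) : 0 ≤ pos t := by unfold pos; split_ifs <;> norm_num
theorem pos_le_one (t : ℝ) : pos t ≤ 1 := by unfold pos; split_ifs <;> norm_num
theorem pos_of_pos {t : ℝ} (h : 0 < t) : pos t = 1 := by simp [pos, h]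
theorem pos_of_nonpos {t : ℝ} (h : t ≤ 0) : pos t = 0 := by simp [pos, not_lt.mpr h]
theorem measurable_pos : Measurable pos := Measurable.ite measurableSet_Ioi measurable_const measurable_const

theorem norm_grad_le {K : ℝ≥0} {f : E d → ℝ} (hf : LipschitzWith K f) (x : E d) : ‖∇ f x‖ ≤ K := by
  rw [norm_gradient]; exact norm_fderiv_le_of_lip hf x

theorem measurable_grad (f : E d → ℝ) : Measurable (fun x => ∇ f x) :=
  ((InnerProductSpace.toDual ℝ (E d)).symm.continuous.measurable).comp (measurable_fderiv ℝ f)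

/-- a.e. on `{f = g}` the gradients agree -/
theorem ae_grad_eq {K L : ℝ≥0} {f g : E d → ℝ} (hf : LipschitzWith K f) (hg : LipschitzWith L g) :
    ∀ᵐ x : E d, f x = g x → ∇ f x = ∇ g x := by
  have hh : LipschitzWith (K + L) (fun x => f x - g x) := hf.sub hg
  have ha : LipschitzWith (1 * (K + L)) (fun x => |f x - g x|) := by
    have := (lipschitzWith_one_norm (E := ℝ)).comp hh
    exact this
  filter_upwards [hf.ae_differentiableAt, hg.ae_differentiableAt, ha.ae_differentiableAt]
    with x h1 h2 h3 hx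
  have h0 : |f x - g x| = 0 := by rw [hx]; simp
  have h4 : fderiv ℝ (fun x => |f x - g x|) x = 0 :=
    fderiv_eq_zero_of_nonneg (g := fun x => |f x - g x|) (fun y => abs_nonneg _) h0
  have h5 : HasFDerivAt (fun x => |f x - g x|) (0 : E d →L[ℝ] ℝ) x := by
    rw [← h4]; exact h3.hasFDerivAt
  have h6 : HasFDerivAt (fun x => f x - g x) (0 : E d →L[ℝ] ℝ) x := by
    rw [hasFDerivAt_iff_isLittleO] at h5 ⊢
    have e1 : (fun y => |f y - g y| - |f x - g x| - (0 : E d →L[ℝ] ℝ) (y - x))
        = fun y => |f y - g y| := by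
      ext y; rw [h0]; simp
    have e2 : (fun y => (f y - g y) - (f x - g x) - (0 : E d →L[ℝ] ℝ) (y - x))
        = fun y => f y - g y := by
      ext y; rw [abs_eq_zero.1 h0]; simp
    rw [e1] at h5
    rw [e2]
    exact (Asymptotics.isLittleO_abs_left (u := fun y => f y - g y)).1 h5
  have h7 : fderiv ℝ f x - fderiv ℝ g x = 0 := by
    rw [← fderiv_fun_sub h1 h2]; exact h6.fderiv
  have h8 : fderiv ℝ f x = fderiv ℝ g x := sub_eq_zero.1 h7
  simp only [gradient, h8]

/-- the energy density vanishes outside the support of the perturbation -/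
theorem eD_zero {w u : E d → ℝ} {x : E d} (hx : x ∉ tsupport (fun x => w x - u x)) : eD w u x = 0 := by
  have h1 : w =ᶠ[𝓝 x] u := by
    rw [notMem_tsupport_iff_eventuallyEq] at hx
    filter_upwards [hx] with y hy
    exact sub_eq_zero.1 hy
  have h2 : ∇ w x = ∇ u x := by
    simp only [gradient, h1.fderiv_eq]
  simp [eD, h2, h1.self_of_nhds]

theorem measurable_eD {K L : ℝ≥0} {w u : E d → ℝ} (hw : LipschitzWith L w) (hu : LipschitzWith K u) :
    Measurable (eD w u) := by
  unfold eD
  exact (((measurable_grad w).norm.pow_const 2).sub ((measurable_grad u).norm.pow_const 2)).add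
    ((measurable_pos.comp hw.continuous.measurable).sub (measurable_pos.comp hu.continuous.measurable))

theorem sq_norm_grad_le {K : ℝ≥0} {f : E d → ℝ} (hf : LipschitzWith K f) (x : E d) :
    ‖∇ f x‖ ^ 2 ≤ (K : ℝ) ^ 2 := pow_le_pow_left₀ (norm_nonneg _) (norm_grad_le hf x) 2

theorem abs_eD_le {K L : ℝ≥0} {w u : E d → ℝ} (hw : LipschitzWith L w) (hu : LipschitzWith K u)
    (x : E d) : |eD w u x| ≤ (L : ℝ) ^ 2 + (K : ℝ) ^ 2 + 1 := by
  have h1 := sq_norm_grad_le hw x
  have h2 := sq_norm_grad_le hu x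
  have h3 := sq_nonneg ‖∇ w x‖
  have h4 := sq_nonneg ‖∇ u x‖
  have h5 := pos_nonneg (w x)
  have h6 := pos_nonneg (u x)
  have h7 := pos_le_one (w x)
  have h8 := pos_le_one (u x)
  unfold eD
  rw [abs_le]
  constructor <;> nlinarith

/-- the energy density of a compactly supported Lipschitz perturbation is integrable -/
theorem eD_integrable {K L : ℝ≥0} {w u : E d → ℝ} (hw : LipschitzWith L w) (hu : LipschitzWith K u)
    (hc : HasCompactSupport (fun x => w x - u x)) : Integrable (eD w u) :=
  integrable_of_bdd hc.isCompact (measurable_eD hw hu).aestronglyMeasurable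
    (fun _ hx => eD_zero hx) (fun x _ => abs_eD_le hw hu x)

/-- the energy as one integral -/
theorem Jr_eq {K : ℝ≥0} {u : E d → ℝ} (hu : LipschitzWith K u) (x₀ : E d) (r : ℝ) :
    IntegrableOn (fun x => ‖∇ u x‖ ^ 2 + pos (u x)) (ball x₀ r) ∧
    Jr u (ball x₀ r) = ∫ x in ball x₀ r, (‖∇ u x‖ ^ 2 + pos (u x)) := by
  have hfin : volume (ball x₀ r) ≠ ⊤ := measure_ball_lt_top.ne
  have i1 : IntegrableOn (fun x => ‖∇ u x‖ ^ 2) (ball x₀ r) := by
    refine Measure.integrableOn_of_bounded (M := (K : ℝ) ^ 2) hfin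
      ((measurable_grad u).norm.pow_const 2).aestronglyMeasurable ?_
    exact Eventually.of_forall fun x => by
      rw [Real.norm_of_nonneg (sq_nonneg _)]; exact sq_norm_grad_le hu x
  have i2 : IntegrableOn (fun x => pos (u x)) (ball x₀ r) := by
    refine Measure.integrableOn_of_bounded (M := 1) hfin
      (measurable_pos.comp hu.continuous.measurable).aestronglyMeasurable ?_
    exact Eventually.of_forall fun x => by
      rw [Real.norm_of_nonneg (pos_nonneg _)]; exact pos_le_one _
  refine ⟨i1.add i2, ?_⟩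
  rw [integral_add i1 i2]
  have hm : MeasurableSet {x : E d | 0 < u x} :=
    measurableSet_lt measurable_const hu.continuous.measurable
  have e2 : ∫ x in ball x₀ r, pos (u x) = (volume ({x | 0 < u x} ∩ ball x₀ r)).toReal := by
    have : (fun x => pos (u x)) = ({x : E d | 0 < u x}).indicator (fun _ => (1 : ℝ)) := by
      ext x
      by_cases h : 0 < u x
      · rw [pos_of_pos h, indicator_of_mem (show x ∈ {x : E d | 0 < u x} from h)]
      · rw [pos_of_nonpos (not_lt.1 h), indicator_of_notMem (show x ∉ {x : E d | 0 < u x} from h)]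
    rw [this, integral_indicator hm, Measure.restrict_restrict hm]
    simp [Measure.real]
  rw [e2]
  unfold Jr
  congr 1
  refine integral_congr_ae (Eventually.of_forall fun x => ?_)
  simp only [norm_gradient]

/-- the energy difference as a difference of energies on a ball -/
theorem dJ_eq_Jr {K L : ℝ≥0} {w u : E d → ℝ} (hw : LipschitzWith L w) (hu : LipschitzWith K u)
    {x₀ : E d} {r : ℝ} (hs : tsupport (fun x => w x - u x) ⊆ closedBall x₀ r) :
    dJ w u = Jr w (ball x₀ (r + 1)) - Jr u (ball x₀ (r + 1)) := by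
  obtain ⟨i1, e1⟩ := Jr_eq hw x₀ (r + 1)
  obtain ⟨i2, e2⟩ := Jr_eq hu x₀ (r + 1)
  rw [e1, e2, ← integral_sub i1 i2]
  have h1 : ∫ x, eD w u x = ∫ x in ball x₀ (r + 1), eD w u x := by
    symm
    refine setIntegral_eq_integral_of_forall_compl_eq_zero fun x hx => eD_zero fun hx' => hx ?_
    have := hs hx'
    rw [mem_closedBall] at this
    rw [mem_ball]; linarith
  unfold dJ
  rw [h1]
  refine integral_congr_ae (Eventually.of_forall fun x => ?_)
  simp only [eD]; ring

/-- minimality in terms of the integral of the energy difference -/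
theorem LM.dJ_nonneg {K L : ℝ≥0} {u w : E d → ℝ} (hu : LM u K) (hw : LipschitzWith L w) (hw0 : ∀ x, 0 ≤ w x)
    (hc : HasCompactSupport (fun x => w x - u x)) : 0 ≤ dJ w u := by
  obtain ⟨r, hr, hs⟩ := hc.isCompact.isBounded.subset_closedBall_lt 0 (0 : E d)
  rw [dJ_eq_Jr hw hu.lip hs]
  have := hu.min 0 r hr w hw0 ⟨L, hw⟩ (fun x hx => by
    have h1 : x ∉ tsupport (fun x => w x - u x) := fun h => hx (hs h)
    have h2 := image_eq_zero_of_notMem_tsupport h1
    exact sub_eq_zero.1 h2)
  linarith

theorem LM.of_dJ {K : ℝ≥0} {u : E d → ℝ} (h0 : ∀ x, 0 ≤ u x) (hl : LipschitzWith K u)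
    (h : ∀ (w : E d → ℝ) (L : ℝ≥0), LipschitzWith L w → (∀ x, 0 ≤ w x) →
      HasCompactSupport (fun x => w x - u x) → 0 ≤ dJ w u) : LM u K := by
  refine ⟨h0, hl, fun x₀ r hr w hw0 hwl hw => ?_⟩
  obtain ⟨L, hwL⟩ := hwl
  have hs : tsupport (fun x => w x - u x) ⊆ closedBall x₀ r := by
    refine closure_minimal (fun x hx => ?_) isClosed_closedBall
    by_contra hx'
    exact hx (sub_eq_zero.2 (hw x hx'))
  have hc : HasCompactSupport (fun x => w x - u x) :=
    (isCompact_closedBall x₀ r).of_isClosed_subset (isClosed_tsupport _) hs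
  have h1 := h w L hwL hw0 hc
  rw [dJ_eq_Jr hwL hl hs] at h1
  linarith

end Crest.Agent.R097
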