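import Crest.Agent.R097.MC6
import Crest.Agent.Tools.KB

/-!
# Row 97, engine for affine leaves, part 0: definitions

Axes are listed from the outermost to the innermost one.  The VARIABLE INDEX of an axis is the
number of axes behind it (the innermost axis has index 0).  A tensor over the list of lengths
`ms` is stored in the order of the flat index (outermost axis first).  Coordinates of a box:
`λ_i = τ_i / (1 + τ_i)`, `τ_i ≥ 0`.
-/

set_option autoImplicit false

namespace Crest.Agent.R097.MA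

open MC (sz pz)
open MvPolynomial

/-- power basis value of the tensor `c` -/
noncomputable def hv : List ℕ → (ℕ → ℝ) → (ℕ → ℝ) → ℝ
  | [], c, _ => c 0
  | m :: ms, c, τ => ∑ a ∈ Finset.range m, τ ms.length ^ a * hv ms (fun i => c (a * sz ms + i)) τ

/-- product of the binomial coefficients `C(m_i - 1, a_i)` at the flat index `k` -/
def mu : List ℕ → ℕ → ℕ
  | [], _ => 1
  | m :: ms, k => (m - 1).choose (k / sz ms) * mu ms (k % sz ms)

/-- `∏ (1 + τ_i) ^ n_i` -/
noncomputable def wt : List ℕ → (ℕ → ℝ) → ℝ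
  | [], _ => 1
  | n :: ns, τ => (1 + τ ns.length) ^ n * wt ns τ

/-- `∏ (1 + X_i) ^ n_i` -/
noncomputable def Wp : List ℕ → MvPolynomial ℕ ℤ
  | [] => 1
  | n :: ns => (1 + X ns.length) ^ n * Wp ns

/-- box coordinates -/
noncomputable def tt (τ : ℕ → ℝ) : ℕ → ℝ := fun j => τ j / (1 + τ j)

/-- degrees -/
def degs (ms : List ℕ) : List ℕ := ms.map fun m => m - 1

/-- state of one entry: `N` is the packed tensor (base `2 ^ B`, offset `2 ^ (B - 1)`) of the function
`f` on the box -/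
def PM (B : ℕ) (ms : List ℕ) (M e N : ℕ) (f : (ℕ → ℝ) → ℝ) : Prop :=
  ∃ c : ℕ → ℤ, (∀ k, k < sz ms → |c k| ≤ ((M : ℤ) + e) * mu ms k) ∧
    (N : ℤ) = pz B (sz ms) (fun i => c i + 2 ^ (B - 1)) ∧
    ∀ τ : ℕ → ℝ, (∀ j, 0 ≤ τ j) →
      |f (tt τ) * wt (degs ms) τ - hv ms (fun i => (c i : ℝ)) τ| ≤ (e : ℝ) * wt (degs ms) τ

/-- values of the variables: layout with the lengths `Ls` -/
def Tv (B : ℕ) (Ls : List ℕ) (i : ℕ) : ℤ := 2 ^ (B * KB.sg (fun j => Ls.reverse.getD j 1) i)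

/-- packed polynomial of degree `ns` (majorant `M ∏ (1 + X_i) ^ n_i`), error `E` -/
def QS (T : ℕ → ℤ) (ns : List ℕ) (M E : ℕ) (Z : ℤ) (f : (ℕ → ℝ) → ℝ) : Prop :=
  ∃ P : MvPolynomial ℕ ℤ, eval T P = Z ∧ (∀ m, |coeff m P| ≤ coeff m (C (M : ℤ) * Wp ns)) ∧
    ∀ τ : ℕ → ℝ, (∀ j, 0 ≤ τ j) →
      |f (tt τ) * wt ns τ - eval₂ (Int.castRingHom ℝ) τ P| ≤ (E : ℝ) * wt ns τ

/-- strided packing: list of (length, stride), outermost axis first; `c` is indexed compactly -/
def SR (B : ℕ) : List (ℕ × ℕ) → (ℕ → ℤ) → ℤ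
  | [], c => c 0
  | x :: l, c => ∑ a ∈ Finset.range x.1, 2 ^ (B * (a * x.2)) * SR B l (fun i => c (a * sz (l.map Prod.fst) + i))

/-- compact strides -/
def cpt : List ℕ → List (ℕ × ℕ)
  | [] => []
  | m :: ms => (m, sz ms) :: cpt ms

end Crest.Agent.R097.MA
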