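import Crest.Agent.R097.MA0

/-!
# Row 97, engine for affine leaves, part 1: halving a box in the power basis
-/

set_option autoImplicit false

namespace Crest.Agent.R097.MA

open MC (sz pz pn ones hh mask slices rnd LR Rep ax slf sz_pos sz_append)

/-! ## kernel functions -/

/-- Horner step for the left half -/
def hoL (k : ℕ) (l : List ℕ) : ℕ → ℕ → ℕ :=
  List.rec (motive := fun _ => ℕ → ℕ → ℕ) (fun R _ => R)
    (fun S _ ih R sh => ih (Nat.add (Nat.add (Nat.shiftLeft R 1) (Nat.shiftLeft R k))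
      (Nat.shiftLeft S sh)) (Nat.add sh k)) l

/-- `Σ T^a (2+T)^(n-a) S_a`, `T = 2^k` -/
def hL (k : ℕ) (l : List ℕ) : ℕ :=
  List.rec (motive := fun _ => ℕ) 0 (fun S l' _ => hoL k l' S k) l

/-- `Σ (1+2T)^a S_a`, `T = 2^k` -/
def hR (k : ℕ) (l : List ℕ) : ℕ :=
  List.rec (motive := fun _ => ℕ) 0
    (fun S _ ih => Nat.add S (Nat.add ih (Nat.shiftLeft ih (Nat.add k 1)))) l

/-- left/right numerators without rounding -/
def rawS (r : Bool) (B m I O N : ℕ) : ℕ :=
  Bool.rec (motive := fun _ => ℕ) (hL (Nat.mul B I) (slices N (mask B m I O) (Nat.mul B I) m 0))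
    (hR (Nat.mul B I) (slices N (mask B m I O) (Nat.mul B I) m 0)) r

/-- half of a box -/
def half (r : Bool) (B m I O N : ℕ) : ℕ :=
  rnd B (Nat.mul O (Nat.mul m I)) (Nat.sub m 1)
    (Nat.sub (Nat.add (rawS r B m I O N)
      (Nat.mul (Nat.pow 2 (Nat.sub m 1)) (hh B (Nat.mul O (Nat.mul m I)))))
      (rawS r B m I O (hh B (Nat.mul O (Nat.mul m I)))))

/-! ## the two polynomials -/

open Polynomial in
/-- numerator -/
noncomputable def pp (r : Bool) : ℤ[X] := if r then 1 + 2 * X else X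

open Polynomial in
/-- denominator -/
noncomputable def qq (r : Bool) : ℤ[X] := if r then 1 else 2 + X

/-- coefficients -/
noncomputable def cf (r : Bool) (n a b : ℕ) : ℤ := (pp r ^ a * qq r ^ (n - a)).coeff b

section poly
open Polynomial

theorem pp_add_qq (r : Bool) : pp r + qq r = C 2 * (1 + X) := by
  cases r <;> simp [pp, qq] <;> ring_nf

theorem deg_pp (r : Bool) : (pp r).natDegree ≤ 1 := by
  cases r
  · simp [pp]
  · simp only [pp, if_true]
    have : (1 + 2 * X : ℤ[X]) = C 2 * X + C 1 := by simp [add_comm]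
    rw [this]
    exact natDegree_linear_le

theorem deg_qq (r : Bool) : (qq r).natDegree ≤ 1 := by
  cases r
  · simp only [qq]
    have : (2 + X : ℤ[X]) = C 1 * X + C 2 := by simp [add_comm]
    rw [if_neg (by simp), this]
    exact natDegree_linear_le
  · simp [qq]

theorem deg_cf (r : Bool) (n a : ℕ) (h : a ≤ n) : (pp r ^ a * qq r ^ (n - a)).natDegree < n + 1 := by
  have h1 : (pp r ^ a * qq r ^ (n - a)).natDegree ≤ a * 1 + (n - a) * 1 :=
    (natDegree_mul_le).trans (add_le_add (natDegree_pow_le_of_le _ (deg_pp r))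
      (natDegree_pow_le_of_le _ (deg_qq r)))
  omega

theorem nonneg_pp (r : Bool) (b : ℕ) : 0 ≤ (pp r).coeff b := by
  cases r
  · simp only [pp]
    rw [if_neg (by simp), coeff_X]; split_ifs <;> simp
  · simp only [pp, if_true]
    have : (1 + 2 * X : ℤ[X]) = C 1 + C 2 * X := by simp
    rw [this, coeff_add, coeff_C, coeff_C_mul, coeff_X]
    split_ifs <;> simp

theorem nonneg_qq (r : Bool) (b : ℕ) : 0 ≤ (qq r).coeff b := by
  cases r
  · simp only [qq]
    have : (2 + X : ℤ[X]) = C 2 + X := by simp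
    rw [if_neg (by simp), this, coeff_add, coeff_C, coeff_X]
    split_ifs <;> simp
  · simp only [qq, if_true]
    rw [coeff_one]; split_ifs <;> simp

theorem nonneg_mul {p q : ℤ[X]} (hp : ∀ b, 0 ≤ p.coeff b) (hq : ∀ b, 0 ≤ q.coeff b) (b : ℕ) :
    0 ≤ (p * q).coeff b := by
  rw [coeff_mul]
  exact Finset.sum_nonneg fun x _ => mul_nonneg (hp _) (hq _)

theorem nonneg_pow {p : ℤ[X]} (hp : ∀ b, 0 ≤ p.coeff b) (k : ℕ) (b : ℕ) : 0 ≤ (p ^ k).coeff b := by
  induction k generalizing b with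
  | zero => rw [pow_zero, coeff_one]; split_ifs <;> simp
  | succ k ih => rw [pow_succ]; exact nonneg_mul ih hp b

theorem cf_nonneg (r : Bool) (n a b : ℕ) : 0 ≤ cf r n a b :=
  nonneg_mul (nonneg_pow (nonneg_pp r) a) (nonneg_pow (nonneg_qq r) _) b

theorem cf_zero (r : Bool) (n a b : ℕ) (ha : a ≤ n) (hb : n < b) : cf r n a b = 0 :=
  coeff_eq_zero_of_natDegree_lt (by have := deg_cf r n a ha; omega)

/-- the binomial sequence -/
theorem cf_choose (r : Bool) (n b : ℕ) :
    ∑ a ∈ Finset.range (n + 1), cf r n a b * (n.choose a : ℤ) = 2 ^ n * (n.choose b : ℤ) := by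
  have h1 : (pp r + qq r) ^ n = ∑ a ∈ Finset.range (n + 1), pp r ^ a * qq r ^ (n - a) * (n.choose a : ℤ[X]) :=
    add_pow _ _ _
  have h2 : ((pp r + qq r) ^ n).coeff b = 2 ^ n * (n.choose b : ℤ) := by
    rw [pp_add_qq, mul_pow, ← C_pow, coeff_C_mul, coeff_one_add_X_pow]
  rw [← h2, h1, finsetSum_coeff]
  refine Finset.sum_congr rfl fun a _ => ?_
  rw [← C_eq_natCast, coeff_mul_C]; rfl

/-- evaluation in a ring -/
theorem cf_eval {R : Type*} [CommRing R] (r : Bool) (n a : ℕ) (ha : a ≤ n) (y : R) :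
    ∑ b ∈ Finset.range (n + 1), (cf r n a b : R) * y ^ b =
      (aeval y (pp r)) ^ a * (aeval y (qq r)) ^ (n - a) := by
  rw [← map_pow, ← map_pow, ← map_mul, aeval_eq_sum_range' (deg_cf r n a ha)]
  refine Finset.sum_congr rfl fun b _ => ?_
  rw [zsmul_eq_mul]; rfl

end poly

/-- numerator, value -/
def pv {R : Type*} [CommRing R] (r : Bool) (y : R) : R := if r then 1 + 2 * y else y
/-- denominator, value -/
def qv {R : Type*} [CommRing R] (r : Bool) (y : R) : R := if r then 1 else 2 + y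

theorem aeval_two {R : Type*} [CommRing R] (y : R) : Polynomial.aeval y (2 : Polynomial ℤ) = 2 :=
  map_ofNat (Polynomial.aeval y) 2

theorem aeval_pp {R : Type*} [CommRing R] (r : Bool) (y : R) : Polynomial.aeval y (pp r) = pv r y := by
  cases r <;> simp [pp, pv, aeval_two]
theorem aeval_qq {R : Type*} [CommRing R] (r : Bool) (y : R) : Polynomial.aeval y (qq r) = qv r y := by
  cases r <;> simp [qq, qv, aeval_two]

/-- the combination -/
theorem cf_comb {R : Type*} [CommRing R] (r : Bool) (n : ℕ) (y : R) (x : ℕ → R) :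
    ∑ b ∈ Finset.range (n + 1), y ^ b * ∑ a ∈ Finset.range (n + 1), (cf r n a b : R) * x a =
      ∑ a ∈ Finset.range (n + 1), pv r y ^ a * qv r y ^ (n - a) * x a := by
  simp only [Finset.mul_sum]
  rw [Finset.sum_comm]
  refine Finset.sum_congr rfl fun a ha => ?_
  have h1 := cf_eval r n a (by have := Finset.mem_range.mp ha; omega) y
  rw [aeval_pp, aeval_qq] at h1
  rw [← h1, Finset.sum_mul]
  exact Finset.sum_congr rfl fun b _ => by ring

/-! ## the kernel functions on packed numbers -/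

theorem hoL_eq {B L : ℕ} (k : ℕ) {l : List ℕ} {F : ℕ → ℕ → ℤ} (h : LR B L l F) (R sh : ℕ) :
    ((hoL k l R sh : ℕ) : ℤ) = R * (2 + 2 ^ k) ^ l.length +
      ∑ a ∈ Finset.range l.length, 2 ^ sh * (2 ^ k) ^ a * (2 + 2 ^ k) ^ (l.length - 1 - a) * pz B L (F a) := by
  induction l generalizing F R sh with
  | nil => simp [hoL]
  | cons x l ih =>
    change ((hoL k l ((R <<< 1 + R <<< k) + x <<< sh) (sh + k) : ℕ) : ℤ) = _
    rw [ih h.2, List.length_cons, Finset.sum_range_succ']
    simp only [Nat.shiftLeft_eq]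
    push_cast
    rw [h.1]
    simp only [Nat.add_sub_cancel, Nat.sub_zero]
    have e1 : ∀ a ∈ Finset.range l.length, (2 : ℤ) ^ (sh + k) * (2 ^ k) ^ a * (2 + 2 ^ k) ^ (l.length - 1 - a) *
        pz B L (F (a + 1)) = 2 ^ sh * (2 ^ k) ^ (a + 1) * (2 + 2 ^ k) ^ (l.length - (a + 1)) *
        pz B L (F (a + 1)) := by
      intro a _
      have : l.length - (a + 1) = l.length - 1 - a := by omega
      rw [this, pow_add, pow_succ]; ring
    rw [Finset.sum_congr rfl e1, pow_succ]
    ring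

theorem hL_eq {B L : ℕ} (k : ℕ) {l : List ℕ} {F : ℕ → ℕ → ℤ} (h : LR B L l F) :
    ((hL k l : ℕ) : ℤ) = ∑ a ∈ Finset.range l.length,
      (2 ^ k) ^ a * (2 + 2 ^ k) ^ (l.length - 1 - a) * pz B L (F a) := by
  cases l with
  | nil => simp [hL]
  | cons x l =>
    change ((hoL k l x k : ℕ) : ℤ) = _
    rw [hoL_eq k h.2, List.length_cons, Finset.sum_range_succ', h.1]
    simp only [Nat.add_sub_cancel, Nat.sub_zero]
    have e1 : ∀ a ∈ Finset.range l.length, (2 : ℤ) ^ k * (2 ^ k) ^ a * (2 + 2 ^ k) ^ (l.length - 1 - a) *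
        pz B L (F (a + 1)) = (2 ^ k) ^ (a + 1) * (2 + 2 ^ k) ^ (l.length - (a + 1)) *
        pz B L (F (a + 1)) := by
      intro a _
      have : l.length - (a + 1) = l.length - 1 - a := by omega
      rw [this, pow_succ]; ring
    rw [Finset.sum_congr rfl e1]
    ring

theorem hR_eq {B L : ℕ} (k : ℕ) {l : List ℕ} {F : ℕ → ℕ → ℤ} (h : LR B L l F) :
    ((hR k l : ℕ) : ℤ) = ∑ a ∈ Finset.range l.length, (1 + 2 * 2 ^ k) ^ a * pz B L (F a) := by
  induction l generalizing F with
  | nil => simp [hR]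
  | cons x l ih =>
    change ((x + (hR k l + hR k l <<< (k + 1)) : ℕ) : ℤ) = _
    rw [Nat.shiftLeft_eq]
    push_cast
    rw [ih h.2, List.length_cons, Finset.sum_range_succ', h.1, pow_zero, one_mul]
    have e1 : ∀ a ∈ Finset.range l.length, ((1 : ℤ) + 2 * 2 ^ k) ^ (a + 1) * pz B L (F (a + 1)) =
        (1 + 2 * 2 ^ k) * ((1 + 2 * 2 ^ k) ^ a * pz B L (F (a + 1))) := by
      intro a _; ring
    rw [Finset.sum_congr rfl e1, ← Finset.mul_sum, pow_succ]
    ring

/-- the numerators -/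
noncomputable def vv (r : Bool) (m I : ℕ) (c : ℕ → ℤ) (i : ℕ) : ℤ :=
  ∑ a ∈ Finset.range m, cf r (m - 1) a (ax m I i) * c (i - ax m I i * I + a * I)

theorem rawS_eq (r : Bool) {B : ℕ} (hB : 0 < B) {m I : ℕ} (hm : 0 < m) (hI : 0 < I) (O : ℕ) {M : ℤ} {N : ℕ}
    {c : ℕ → ℤ} (h : Rep B (O * (m * I)) M N c) (hM : M < 2 ^ (B - 1)) :
    ((rawS r B m I O N : ℕ) : ℤ) = pz B (O * (m * I)) (fun i => vv r m I c i +
      vv r m I (fun _ => 1) i * 2 ^ (B - 1)) := by
  have h1 : LR B (O * (m * I)) (slices N (mask B m I O) (Nat.mul B I) m 0)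
      (fun a => slf B m I c a) := by
    have := MC.LR_slices hB hm hI O h hM m 0 (by omega)
    simpa using this
  have hlen := MC.slices_length N (mask B m I O) (Nat.mul B I) m 0
  -- both cases
  have h2 : ((rawS r B m I O N : ℕ) : ℤ) = ∑ a ∈ Finset.range (m - 1 + 1),
      pv r ((2 : ℤ) ^ (B * I)) ^ a * qv r ((2 : ℤ) ^ (B * I)) ^ (m - 1 - a) *
        pz B (O * (m * I)) (slf B m I c a) := by
    have hm1 : m - 1 + 1 = m := by omega
    cases r
    · change ((hL (B * I) _ : ℕ) : ℤ) = _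
      rw [hL_eq _ h1, hlen, hm1]
      refine Finset.sum_congr rfl fun a _ => ?_
      simp only [pv, qv]
      rfl
    · change ((hR (B * I) _ : ℕ) : ℤ) = _
      rw [hR_eq _ h1, hlen, hm1]
      refine Finset.sum_congr rfl fun a _ => ?_
      simp only [pv, qv, if_true, one_pow, mul_one]
  rw [h2, ← cf_comb r (m - 1) ((2 : ℤ) ^ (B * I)) (fun a => pz B (O * (m * I)) (slf B m I c a))]
  have hm1 : m - 1 + 1 = m := by omega
  rw [hm1]
  simp only [Int.cast_id]
  have h3 : ∀ b ∈ Finset.range m, ((2 : ℤ) ^ (B * I)) ^ b * ∑ a ∈ Finset.range m,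
      cf r (m - 1) a b * pz B (O * (m * I)) (slf B m I c a) =
      1 * 2 ^ (B * (b * I)) * pz B (O * (m * I))
        (fun i => ∑ a ∈ Finset.range m, cf r (m - 1) a b * slf B m I c a i) := by
    intro b _
    rw [one_mul, ← pow_mul]
    congr 1
    · congr 1; ring
    · unfold MC.pz
      rw [Finset.sum_congr rfl (fun a _ => Finset.mul_sum _ _ _), Finset.sum_comm]
      refine Finset.sum_congr rfl fun i _ => ?_
      rw [Finset.sum_mul]
      exact Finset.sum_congr rfl fun a _ => by push_cast; ring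
  rw [Finset.sum_congr rfl h3]
  have h4 := MC.assemble B hm hI O (fun b i => ∑ a ∈ Finset.range m, cf r (m - 1) a b * slf B m I c a i)
    (fun b i hi => by
      refine Finset.sum_eq_zero fun a _ => ?_
      simp only [MC.slf, if_neg hi, mul_zero]) (fun _ => 1)
  rw [h4]
  refine MC.pz_congr B fun i _ => ?_
  have h5 := MC.ax_sub_zero hm hI i
  unfold vv
  rw [Finset.sum_mul, ← Finset.sum_add_distrib, one_mul]
  refine Finset.sum_congr rfl fun a _ => ?_
  simp only [MC.slf, if_pos h5]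
  ring

end Crest.Agent.R097.MA
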