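import Crest.Agent.R097.MA1

/-!
# Row 97, engine for affine leaves, part 2: the state of one entry under halving
-/

set_option autoImplicit false

namespace Crest.Agent.R097.MA

open MC (sz pz pn ones hh mask slices rnd LR Rep ax slf sz_pos sz_append)

/-! ## power basis values -/

/-- `hv` with an offset of the variable indices -/
noncomputable def hvo (k : ℕ) : List ℕ → (ℕ → ℝ) → (ℕ → ℝ) → ℝ
  | [], c, _ => c 0
  | m :: ms, c, τ => ∑ a ∈ Finset.range m, τ (ms.length + k) ^ a * hvo k ms (fun i => c (a * sz ms + i)) τ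

theorem hvo_smul (k : ℕ) (ms : List ℕ) (s : ℝ) (c : ℕ → ℝ) (τ : ℕ → ℝ) :
    hvo k ms (fun i => s * c i) τ = s * hvo k ms c τ := by
  induction ms generalizing c with
  | nil => rfl
  | cons m ms ih =>
    simp only [hvo, ih]
    rw [Finset.mul_sum]
    exact Finset.sum_congr rfl fun a _ => by ring

theorem hvo_congr {k : ℕ} {ms : List ℕ} {c d : ℕ → ℝ} (h : ∀ i, i < sz ms → c i = d i) (τ : ℕ → ℝ) :
    hvo k ms c τ = hvo k ms d τ := by
  induction ms generalizing c d with
  | nil => exact h 0 (by simp [sz])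
  | cons m ms ih =>
    simp only [hvo]
    refine Finset.sum_congr rfl fun a ha => ?_
    rw [ih (fun i hi => h _ ?_)]
    simp only [sz]
    exact MC.block_lt (Finset.mem_range.mp ha) hi

theorem hvo_congr_t {k : ℕ} {ms : List ℕ} (c : ℕ → ℝ) {τ σ : ℕ → ℝ} (h : ∀ i, k ≤ i → τ i = σ i) :
    hvo k ms c τ = hvo k ms c σ := by
  induction ms generalizing c with
  | nil => rfl
  | cons m ms ih =>
    simp only [hvo]
    refine Finset.sum_congr rfl fun a _ => ?_
    rw [ih, h _ (by omega)]

theorem hv_congr {ms : List ℕ} {c d : ℕ → ℝ} (h : ∀ i, i < sz ms → c i = d i) (τ : ℕ → ℝ) :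
    hv ms c τ = hv ms d τ := by
  induction ms generalizing c d with
  | nil => exact h 0 (by simp [sz])
  | cons m ms ih =>
    simp only [hv]
    refine Finset.sum_congr rfl fun a ha => ?_
    rw [ih (fun i hi => h _ ?_)]
    simp only [sz]
    exact MC.block_lt (Finset.mem_range.mp ha) hi

theorem hv_congr_t {ms : List ℕ} (c : ℕ → ℝ) {τ σ : ℕ → ℝ} (h : ∀ i, i < ms.length → τ i = σ i) :
    hv ms c τ = hv ms c σ := by
  induction ms generalizing c with
  | nil => rfl
  | cons m ms ih =>
    simp only [hv]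
    refine Finset.sum_congr rfl fun a _ => ?_
    rw [ih _ (fun i hi => h i (by simp only [List.length_cons]; omega)),
      h ms.length (by simp)]

theorem hv_add (ms : List ℕ) (c d : ℕ → ℝ) (τ : ℕ → ℝ) :
    hv ms (fun i => c i + d i) τ = hv ms c τ + hv ms d τ := by
  induction ms generalizing c d with
  | nil => rfl
  | cons m ms ih =>
    simp only [hv, ih]
    rw [← Finset.sum_add_distrib]
    exact Finset.sum_congr rfl fun a _ => by ring

theorem hv_smul (ms : List ℕ) (s : ℝ) (c : ℕ → ℝ) (τ : ℕ → ℝ) :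
    hv ms (fun i => s * c i) τ = s * hv ms c τ := by
  induction ms generalizing c with
  | nil => rfl
  | cons m ms ih =>
    simp only [hv, ih]
    rw [Finset.mul_sum]
    exact Finset.sum_congr rfl fun a _ => by ring

theorem hv_zero (ms : List ℕ) (τ : ℕ → ℝ) : hv ms (fun _ => 0) τ = 0 := by
  have := hv_smul ms 0 (fun _ => 0) τ
  simpa using this

theorem hv_sub (ms : List ℕ) (c d : ℕ → ℝ) (τ : ℕ → ℝ) :
    hv ms (fun i => c i - d i) τ = hv ms c τ - hv ms d τ := by
  have : (fun i => c i - d i) = fun i => c i + (-1) * d i := by funext i; ring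
  rw [this, hv_add, hv_smul]; ring

theorem hv_sum {ι : Type*} (S : Finset ι) (ms : List ℕ) (F : ι → ℕ → ℝ) (τ : ℕ → ℝ) :
    hv ms (fun i => ∑ a ∈ S, F a i) τ = ∑ a ∈ S, hv ms (F a) τ := by
  classical
  induction S using Finset.induction_on with
  | empty => simp [hv_zero]
  | insert a S ha ih =>
    simp only [Finset.sum_insert ha]
    rw [hv_add, ih]

theorem hv_mono {ms : List ℕ} {c d : ℕ → ℝ} (h : ∀ i, i < sz ms → c i ≤ d i) {τ : ℕ → ℝ}
    (ht : ∀ j, 0 ≤ τ j) : hv ms c τ ≤ hv ms d τ := by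
  induction ms generalizing c d with
  | nil => exact h 0 (by simp [sz])
  | cons m ms ih =>
    simp only [hv]
    refine Finset.sum_le_sum fun a ha => mul_le_mul_of_nonneg_left (ih fun i hi => h _ ?_)
      (pow_nonneg (ht _) _)
    simp only [sz]
    exact MC.block_lt (Finset.mem_range.mp ha) hi

theorem hv_abs {ms : List ℕ} {c d : ℕ → ℝ} (h : ∀ i, i < sz ms → |c i| ≤ d i) {τ : ℕ → ℝ}
    (ht : ∀ j, 0 ≤ τ j) : |hv ms c τ| ≤ hv ms d τ := by
  rw [abs_le]
  constructor
  · have := hv_mono (c := fun i => (-1) * d i) (d := c) (fun i hi => by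
      have := (abs_le.mp (h i hi)).1; linarith) ht
    rw [hv_smul] at this; linarith
  · exact hv_mono (fun i hi => (abs_le.mp (h i hi)).2) ht

theorem hv_append (pre l2 : List ℕ) (c : ℕ → ℝ) (τ : ℕ → ℝ) :
    hv (pre ++ l2) c τ = hvo l2.length pre (fun o => hv l2 (fun x => c (o * sz l2 + x)) τ) τ := by
  induction pre generalizing c with
  | nil => simp [hvo]
  | cons m pre ih =>
    simp only [List.cons_append, hv, hvo]
    refine Finset.sum_congr rfl fun a _ => ?_
    rw [ih, List.length_append]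
    congr 1
    congr 1
    funext o
    congr 1
    funext x
    congr 1
    rw [sz_append]; ring

theorem mu_append {pre l2 : List ℕ} (h2 : 0 < sz l2) (hpre : ∀ m ∈ pre, 0 < m) (o x : ℕ)
    (ho : o < sz pre) (hx : x < sz l2) :
    mu (pre ++ l2) (o * sz l2 + x) = mu pre o * mu l2 x := by
  induction pre generalizing o with
  | nil =>
    have : o = 0 := by simp only [sz] at ho; omega
    subst this
    simp [mu]
  | cons m pre ih =>
    have hS1 : 0 < sz pre := sz_pos fun y hy => hpre y (by simp [hy])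
    have hS : sz (pre ++ l2) = sz pre * sz l2 := sz_append pre l2
    have hρ : o % sz pre < sz pre := Nat.mod_lt _ hS1
    have hlt : o % sz pre * sz l2 + x < sz pre * sz l2 := MC.block_lt hρ hx
    have e1 : o * sz l2 + x = (o % sz pre * sz l2 + x) + (o / sz pre) * (sz pre * sz l2) := by
      conv_lhs => rw [← Nat.div_add_mod o (sz pre)]
      ring
    have hpos : 0 < sz pre * sz l2 := Nat.mul_pos hS1 h2
    have e2 : (o * sz l2 + x) / sz (pre ++ l2) = o / sz pre := by
      rw [hS, e1, Nat.add_mul_div_right _ _ hpos, Nat.div_eq_of_lt hlt, Nat.zero_add]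
    have e3 : (o * sz l2 + x) % sz (pre ++ l2) = o % sz pre * sz l2 + x := by
      rw [hS]
      conv_lhs => rw [e1]
      rw [Nat.add_mul_mod_self_right, Nat.mod_eq_of_lt hlt]
    simp only [List.cons_append, mu]
    rw [e2, e3, ih (fun y hy => hpre y (by simp [hy])) _ hρ]
    ring

theorem mu_le (ms : List ℕ) (k : ℕ) : mu ms k ≤ 2 ^ (degs ms).sum := by
  induction ms generalizing k with
  | nil => simp [mu, degs]
  | cons m ms ih =>
    simp only [mu, degs, List.map_cons, List.sum_cons, pow_add]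
    exact Nat.mul_le_mul (Nat.choose_le_two_pow _ _) (ih _)

theorem mu_pos {ms : List ℕ} (hms : ∀ m ∈ ms, 0 < m) (k : ℕ) (hk : k < sz ms) : 0 < mu ms k := by
  induction ms generalizing k with
  | nil => simp [mu]
  | cons m ms ih =>
    have hS : 0 < sz ms := sz_pos fun y hy => hms y (by simp [hy])
    have hm := hms m (by simp)
    simp only [mu]
    refine Nat.mul_pos (Nat.choose_pos ?_) (ih (fun y hy => hms y (by simp [hy])) _ (Nat.mod_lt _ hS))
    have : k / sz ms < m := by rw [Nat.div_lt_iff_lt_mul hS]; exact hk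
    omega

theorem hv_mu {ms : List ℕ} (hms : ∀ m ∈ ms, 0 < m) (τ : ℕ → ℝ) :
    hv ms (fun k => (mu ms k : ℝ)) τ = wt (degs ms) τ := by
  induction ms with
  | nil => simp [hv, mu, wt, degs]
  | cons m ms ih =>
    have hS : 0 < sz ms := sz_pos fun y hy => hms y (by simp [hy])
    have hm := hms m (by simp)
    have hlen : (degs ms).length = ms.length := by simp [degs]
    have e0 : wt (degs (m :: ms)) τ = (1 + τ ms.length) ^ (m - 1) * wt (degs ms) τ := by
      simp only [degs, List.map_cons, wt, List.length_map]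
    rw [e0]
    simp only [hv]
    have e1 : ∀ a ∈ Finset.range m, τ ms.length ^ a * hv ms (fun i => ((mu (m :: ms) (a * sz ms + i) : ℕ) : ℝ)) τ =
        (τ ms.length ^ a * ((m - 1).choose a : ℝ)) * wt (degs ms) τ := by
      intro a ha
      have e2 : ∀ i, i < sz ms → ((mu (m :: ms) (a * sz ms + i) : ℕ) : ℝ) =
          ((m - 1).choose a : ℝ) * (mu ms i : ℝ) := by
        intro i hi
        simp only [mu]
        have e3 : (a * sz ms + i) / sz ms = a := by
          rw [Nat.add_comm, Nat.add_mul_div_right _ _ hS, Nat.div_eq_of_lt hi, Nat.zero_add]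
        have e4 : (a * sz ms + i) % sz ms = i := by
          rw [Nat.add_comm, Nat.add_mul_mod_self_right, Nat.mod_eq_of_lt hi]
        rw [e3, e4]; push_cast; ring
      rw [hv_congr e2, hv_smul, ih (fun y hy => hms y (by simp [hy]))]
      ring
    rw [Finset.sum_congr rfl e1, ← Finset.sum_mul]
    congr 1
    have h5 := add_pow (τ ms.length) 1 (m - 1)
    have hm1 : m - 1 + 1 = m := by omega
    rw [hm1] at h5
    rw [add_comm 1 (τ ms.length), h5]
    exact Finset.sum_congr rfl fun a _ => by rw [one_pow]; ring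

theorem wt_pos {ns : List ℕ} {τ : ℕ → ℝ} (ht : ∀ j, 0 ≤ τ j) : 0 < wt ns τ := by
  induction ns with
  | nil => simp [wt]
  | cons n ns ih =>
    simp only [wt]
    have := ht ns.length
    positivity

/-! ## the numerators -/

theorem vv_idx (r : Bool) {m I : ℕ} (hI : 0 < I) (c : ℕ → ℤ) (o b x : ℕ) (hb : b < m) (hx : x < I) :
    vv r m I c (o * (m * I) + (b * I + x)) =
      ∑ a ∈ Finset.range m, cf r (m - 1) a b * c (o * (m * I) + (a * I + x)) := by
  unfold vv
  rw [MC.ax_block hI o b x hb hx]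
  refine Finset.sum_congr rfl fun a _ => ?_
  congr 2
  omega

theorem hv_vv (r : Bool) {pre post : List ℕ} {m : ℕ} (hm : 0 < m) (hI : 0 < sz post) (c : ℕ → ℤ)
    (τ : ℕ → ℝ) (hq : qv r (τ post.length) ≠ 0) :
    hv (pre ++ m :: post) (fun i => (vv r m (sz post) c i : ℝ)) τ =
      qv r (τ post.length) ^ (m - 1) * hv (pre ++ m :: post) (fun i => (c i : ℝ))
        (Function.update τ post.length (pv r (τ post.length) / qv r (τ post.length))) := by
  set τ' := Function.update τ post.length (pv r (τ post.length) / qv r (τ post.length)) with hτ'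
  rw [hv_append, hv_append, List.length_cons]
  have hm1 : m - 1 + 1 = m := by omega
  have key : ∀ o, hv (m :: post) (fun x => (vv r m (sz post) c (o * sz (m :: post) + x) : ℝ)) τ =
      qv r (τ post.length) ^ (m - 1) *
        hv (m :: post) (fun x => (c (o * sz (m :: post) + x) : ℝ)) τ' := by
    intro o
    simp only [hv]
    have e1 : ∀ b ∈ Finset.range m, τ post.length ^ b *
        hv post (fun i => (vv r m (sz post) c (o * sz (m :: post) + (b * sz post + i)) : ℝ)) τ =
        τ post.length ^ b * ∑ a ∈ Finset.range m, (cf r (m - 1) a b : ℝ) *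
          hv post (fun i => (c (o * sz (m :: post) + (a * sz post + i)) : ℝ)) τ := by
      intro b hb
      have e2 : ∀ i, i < sz post → (vv r m (sz post) c (o * sz (m :: post) + (b * sz post + i)) : ℝ) =
          ∑ a ∈ Finset.range m, (cf r (m - 1) a b : ℝ) *
            (c (o * sz (m :: post) + (a * sz post + i)) : ℝ) := by
        intro i hi
        have := vv_idx r hI c o b i (Finset.mem_range.mp hb) hi
        simp only [sz]
        rw [this]; push_cast; rfl
      rw [hv_congr e2, hv_sum]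
      congr 1
      exact Finset.sum_congr rfl fun a _ => hv_smul _ _ _ _
    rw [Finset.sum_congr rfl e1]
    have e3 := cf_comb r (m - 1) (τ post.length)
      (fun a => hv post (fun i => (c (o * sz (m :: post) + (a * sz post + i)) : ℝ)) τ)
    rw [hm1] at e3
    rw [e3, Finset.mul_sum]
    refine Finset.sum_congr rfl fun a ha => ?_
    have ha' := Finset.mem_range.mp ha
    have e4 : τ' post.length = pv r (τ post.length) / qv r (τ post.length) := by
      rw [hτ', Function.update_self]
    have e5 : hv post (fun i => (c (o * sz (m :: post) + (a * sz post + i)) : ℝ)) τ' =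
        hv post (fun i => (c (o * sz (m :: post) + (a * sz post + i)) : ℝ)) τ :=
      hv_congr_t _ fun i hi => by rw [hτ', Function.update_of_ne (by omega)]
    rw [e4, e5, div_pow]
    have e6 : qv r (τ post.length) ^ (m - 1) = qv r (τ post.length) ^ (m - 1 - a) *
        qv r (τ post.length) ^ a := by rw [← pow_add]; congr 1; omega
    rw [e6]
    have : qv r (τ post.length) ^ a ≠ 0 := pow_ne_zero _ hq
    field_simp
  simp only [key]
  rw [hvo_smul]
  congr 1
  exact hvo_congr_t _ fun i hi => by rw [hτ', Function.update_of_ne (by omega)]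

theorem split_index {O m I i : ℕ} (hm : 0 < m) (hI : 0 < I) :
    ∃ o b x, b < m ∧ x < I ∧ i = o * (m * I) + (b * I + x) ∧ (i < O * (m * I) → o < O) ∧
      (O * (m * I) ≤ i → O ≤ o) := by
  have hmI : 0 < m * I := Nat.mul_pos hm hI
  refine ⟨i / (m * I), (i % (m * I)) / I, (i % (m * I)) % I, ?_, Nat.mod_lt _ hI, ?_, ?_, ?_⟩
  · rw [Nat.div_lt_iff_lt_mul hI]; exact Nat.mod_lt _ hmI
  · conv_lhs => rw [← Nat.div_add_mod i (m * I), ← Nat.div_add_mod (i % (m * I)) I]
    ring
  · intro h; rw [Nat.div_lt_iff_lt_mul hmI]; exact h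
  · intro h; rw [Nat.le_div_iff_mul_le hmI]; exact h

theorem vv_abs (r : Bool) {pre post : List ℕ} {m : ℕ} (hpos : ∀ x ∈ pre ++ m :: post, 0 < x)
    {c : ℕ → ℤ} {K : ℤ} (hK : 0 ≤ K)
    (h : ∀ k, k < sz (pre ++ m :: post) → |c k| ≤ K * mu (pre ++ m :: post) k) (i : ℕ)
    (hi : i < sz (pre ++ m :: post)) :
    |vv r m (sz post) c i| ≤ 2 ^ (m - 1) * (K * mu (pre ++ m :: post) i) := by
  have hm : 0 < m := hpos m (by simp)
  have hpre : ∀ x ∈ pre, 0 < x := fun x hx => hpos x (by simp [hx])
  have hpost : ∀ x ∈ post, 0 < x := fun x hx => hpos x (by simp [hx])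
  have hI : 0 < sz post := sz_pos hpost
  have hsz : sz (pre ++ m :: post) = sz pre * (m * sz post) := by rw [sz_append]; rfl
  obtain ⟨o, b, x, hb, hx, hix, ho, _⟩ := split_index (O := sz pre) (i := i) hm hI
  have ho' := ho (by rw [← hsz]; exact hi)
  subst hix
  rw [vv_idx r hI c o b x hb hx]
  have hmI : 0 < sz (m :: post) := Nat.mul_pos hm hI
  have emu : ∀ a, a < m → mu (pre ++ m :: post) (o * (m * sz post) + (a * sz post + x)) =
      mu pre o * ((m - 1).choose a * mu post x) := by
    intro a ha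
    have e1 := mu_append (pre := pre) (l2 := m :: post) hmI hpre o (a * sz post + x) ho'
      (MC.block_lt ha hx)
    have e2 : sz (m :: post) = m * sz post := rfl
    rw [e2] at e1
    rw [e1]
    congr 1
    simp only [mu]
    have e3 : (a * sz post + x) / sz post = a := by
      rw [Nat.add_comm, Nat.add_mul_div_right _ _ hI, Nat.div_eq_of_lt hx, Nat.zero_add]
    have e4 : (a * sz post + x) % sz post = x := by
      rw [Nat.add_comm, Nat.add_mul_mod_self_right, Nat.mod_eq_of_lt hx]
    rw [e3, e4]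
  rw [emu b hb]
  refine (Finset.abs_sum_le_sum_abs _ _).trans ?_
  have e5 : ∀ a ∈ Finset.range m, |cf r (m - 1) a b * c (o * (m * sz post) + (a * sz post + x))| ≤
      (K * (mu pre o * mu post x : ℕ)) * (cf r (m - 1) a b * ((m - 1).choose a : ℤ)) := by
    intro a ha
    have ha' := Finset.mem_range.mp ha
    rw [abs_mul, abs_of_nonneg (cf_nonneg r _ a b)]
    have e6 := h (o * (m * sz post) + (a * sz post + x)) (by
      rw [hsz]; exact MC.block_lt ho' (MC.block_lt ha' hx))
    rw [emu a ha'] at e6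
    calc _ ≤ cf r (m - 1) a b * (K * ((mu pre o * ((m - 1).choose a * mu post x) : ℕ) : ℤ)) :=
          mul_le_mul_of_nonneg_left e6 (cf_nonneg r _ a b)
      _ = _ := by push_cast; ring
  refine (Finset.sum_le_sum e5).trans ?_
  rw [← Finset.mul_sum]
  have hm1 : m - 1 + 1 = m := by omega
  have e7 := cf_choose r (m - 1) b
  rw [hm1] at e7
  rw [e7]
  apply le_of_eq
  push_cast; ring

theorem vv_zero (r : Bool) {m I O : ℕ} (hm : 0 < m) (hI : 0 < I) {c : ℕ → ℤ}
    (h : ∀ k, O * (m * I) ≤ k → c k = 0) (i : ℕ) (hi : O * (m * I) ≤ i) : vv r m I c i = 0 := by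
  obtain ⟨o, b, x, hb, hx, hix, _, ho⟩ := split_index (O := O) (i := i) hm hI
  have ho' := ho hi
  subst hix
  rw [vv_idx r hI c o b x hb hx]
  refine Finset.sum_eq_zero fun a _ => ?_
  rw [h, mul_zero]
  calc O * (m * I) ≤ o * (m * I) := Nat.mul_le_mul_right _ ho'
    _ ≤ _ := Nat.le_add_right _ _

theorem vv_mu (r : Bool) {pre post : List ℕ} {m : ℕ} (hpos : ∀ x ∈ pre ++ m :: post, 0 < x) (i : ℕ)
    (hi : i < sz (pre ++ m :: post)) :
    vv r m (sz post) (fun k => (mu (pre ++ m :: post) k : ℤ)) i = 2 ^ (m - 1) * mu (pre ++ m :: post) i := by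
  have hm : 0 < m := hpos m (by simp)
  have hpre : ∀ x ∈ pre, 0 < x := fun x hx => hpos x (by simp [hx])
  have hpost : ∀ x ∈ post, 0 < x := fun x hx => hpos x (by simp [hx])
  have hI : 0 < sz post := sz_pos hpost
  have hsz : sz (pre ++ m :: post) = sz pre * (m * sz post) := by rw [sz_append]; rfl
  obtain ⟨o, b, x, hb, hx, hix, ho, _⟩ := split_index (O := sz pre) (i := i) hm hI
  have ho' := ho (by rw [← hsz]; exact hi)
  subst hix
  rw [vv_idx r hI _ o b x hb hx]
  have hmI : 0 < sz (m :: post) := Nat.mul_pos hm hI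
  have emu : ∀ a, a < m → mu (pre ++ m :: post) (o * (m * sz post) + (a * sz post + x)) =
      mu pre o * ((m - 1).choose a * mu post x) := by
    intro a ha
    have e1 := mu_append (pre := pre) (l2 := m :: post) hmI hpre o (a * sz post + x) ho'
      (MC.block_lt ha hx)
    have e2 : sz (m :: post) = m * sz post := rfl
    rw [e2] at e1
    rw [e1]
    congr 1
    simp only [mu]
    have e3 : (a * sz post + x) / sz post = a := by
      rw [Nat.add_comm, Nat.add_mul_div_right _ _ hI, Nat.div_eq_of_lt hx, Nat.zero_add]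
    have e4 : (a * sz post + x) % sz post = x := by
      rw [Nat.add_comm, Nat.add_mul_mod_self_right, Nat.mod_eq_of_lt hx]
    rw [e3, e4]
  rw [emu b hb]
  have e5 : ∀ a ∈ Finset.range m, cf r (m - 1) a b *
      ((mu (pre ++ m :: post) (o * (m * sz post) + (a * sz post + x)) : ℕ) : ℤ) =
      ((mu pre o * mu post x : ℕ) : ℤ) * (cf r (m - 1) a b * ((m - 1).choose a : ℤ)) := by
    intro a ha
    rw [emu a (Finset.mem_range.mp ha)]; push_cast; ring
  rw [Finset.sum_congr rfl e5, ← Finset.mul_sum]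
  have hm1 : m - 1 + 1 = m := by omega
  have e7 := cf_choose r (m - 1) b
  rw [hm1] at e7
  rw [e7]
  push_cast; ring

/-! ## halving -/

/-- substitution -/
noncomputable def subH (r : Bool) (j : ℕ) (t : ℕ → ℝ) : ℕ → ℝ :=
  Function.update t j (if r then 1 / 2 + t j / 2 else t j / 2)

theorem qv_pos (r : Bool) {y : ℝ} (hy : 0 ≤ y) : 0 < qv r y := by
  cases r <;> simp [qv]; positivity

theorem pv_nonneg (r : Bool) {y : ℝ} (hy : 0 ≤ y) : 0 ≤ pv r y := by
  cases r <;> simp [pv]
  · exact hy
  · positivity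

theorem tt_sub (r : Bool) (j : ℕ) (τ : ℕ → ℝ) (h : 0 ≤ τ j) :
    tt (Function.update τ j (pv r (τ j) / qv r (τ j))) = subH r j (tt τ) := by
  funext i
  by_cases hi : i = j
  · subst hi
    have h1 : (1 : ℝ) + τ i ≠ 0 := by positivity
    simp only [tt, subH, Function.update_self]
    cases r
    · simp only [pv, qv]
      have h2 : (2 : ℝ) + τ i ≠ 0 := by positivity
      have h3 : (1 : ℝ) + τ i / (2 + τ i) ≠ 0 := by positivity
      rw [if_neg (by simp), if_neg (by simp), if_neg (by simp)]
      field_simp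
      ring
    · simp only [pv, qv, if_true, div_one]
      have h3 : (1 : ℝ) + (1 + 2 * τ i) ≠ 0 := by positivity
      field_simp
      ring
  · simp only [tt, subH, Function.update_of_ne hi]

theorem PM_half (r : Bool) {B : ℕ} (hB : 0 < B) {pre post : List ℕ} {m : ℕ}
    (hpos : ∀ x ∈ pre ++ m :: post, 0 < x) {M e N : ℕ} {f : (ℕ → ℝ) → ℝ}
    (h : PM B (pre ++ m :: post) M e N f)
    (hb : 2 ^ (m - 1) * ((M + e) * 2 ^ (degs (pre ++ m :: post)).sum) < 2 ^ (B - 1)) (hmB : m ≤ B) :
    PM B (pre ++ m :: post) M (e + 1) (half r B m (sz post) (sz pre) N)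
      (fun t => f (subH r post.length t)) := by
  obtain ⟨c0, h1, h2, h3⟩ := h
  have hm : 0 < m := hpos m (by simp)
  have hpre : ∀ x ∈ pre, 0 < x := fun x hx => hpos x (by simp [hx])
  have hpost : ∀ x ∈ post, 0 < x := fun x hx => hpos x (by simp [hx])
  have hI : 0 < sz post := sz_pos hpost
  have hsz : sz (pre ++ m :: post) = sz pre * (m * sz post) := by rw [sz_append]; rfl
  set K : ℤ := (M : ℤ) + e with hKdef
  have hK : 0 ≤ K := by positivity
  set S := (degs (pre ++ m :: post)).sum with hS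
  -- truncated coefficients
  set c : ℕ → ℤ := fun i => if i < sz (pre ++ m :: post) then c0 i else 0 with hc
  have hcz : ∀ k, sz pre * (m * sz post) ≤ k → c k = 0 := by
    intro k hk
    simp only [hc]
    rw [if_neg]; rw [hsz]; omega
  have hcb : ∀ k, k < sz (pre ++ m :: post) → |c k| ≤ K * mu (pre ++ m :: post) k := by
    intro k hk; simp only [hc]; rw [if_pos hk]; exact h1 k hk
  have hbz : (2 : ℤ) ^ (m - 1) * (K * 2 ^ S) < 2 ^ (B - 1) := by
    rw [hKdef]; exact_mod_cast hb
  have hmu : ∀ k, (mu (pre ++ m :: post) k : ℤ) ≤ 2 ^ S := fun k => by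
    exact_mod_cast mu_le (pre ++ m :: post) k
  have hcM : ∀ k, |c k| ≤ K * 2 ^ S := by
    intro k
    by_cases hk : k < sz (pre ++ m :: post)
    · exact (hcb k hk).trans (mul_le_mul_of_nonneg_left (hmu k) hK)
    · simp only [hc]; rw [if_neg hk, abs_zero]; positivity
  have hrep : Rep B (sz pre * (m * sz post)) (K * 2 ^ S) N c := by
    refine ⟨hcM, ?_⟩
    rw [h2, hsz]
    refine MC.pz_congr B fun i hi => ?_
    simp only [hc]
    rw [if_pos (by rw [hsz]; exact hi)]
  have hKS : K * 2 ^ S < 2 ^ (B - 1) := by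
    have h4 : (1 : ℤ) ≤ 2 ^ (m - 1) := one_le_pow₀ (by norm_num)
    have h5 : 0 ≤ K * 2 ^ S := by positivity
    nlinarith
  have hrepH : Rep B (sz pre * (m * sz post)) 0 (hh B (sz pre * (m * sz post))) (fun _ => 0) :=
    ⟨fun i => by simp, by rw [MC.hh_cast hB]; simp⟩
  have e1 := rawS_eq r hB hm hI (sz pre) hrep hKS
  have e2 := rawS_eq r hB hm hI (sz pre) hrepH (by positivity)
  have hvz : ∀ i, vv r m (sz post) (fun _ => 0) i = 0 := fun i => by simp [vv]
  have hva : ∀ i, |vv r m (sz post) c i| ≤ 2 ^ (m - 1) * (K * 2 ^ S) := by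
    intro i
    by_cases hi : i < sz (pre ++ m :: post)
    · refine (vv_abs r hpos hK hcb i hi).trans ?_
      have := hmu i
      gcongr
    · rw [vv_zero r hm hI hcz i (by rw [← hsz]; omega), abs_zero]; positivity
  have hhz : ((hh B (sz pre * (m * sz post)) : ℕ) : ℤ) = pz B (sz pre * (m * sz post)) (fun _ => 2 ^ (B - 1)) :=
    MC.hh_cast hB _
  -- the number before the division
  have hN : ((Nat.sub (Nat.add (rawS r B m (sz post) (sz pre) N)
      (Nat.mul (Nat.pow 2 (Nat.sub m 1)) (hh B (Nat.mul (sz pre) (Nat.mul m (sz post))))))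
      (rawS r B m (sz post) (sz pre) (hh B (Nat.mul (sz pre) (Nat.mul m (sz post))))) : ℕ) : ℤ) =
      pz B (sz pre * (m * sz post)) (fun i => vv r m (sz post) c i + 2 ^ (m - 1) * 2 ^ (B - 1)) := by
    have e3 : ((rawS r B m (sz post) (sz pre) N : ℕ) : ℤ) +
        ((2 ^ (m - 1) * hh B (sz pre * (m * sz post)) : ℕ) : ℤ) -
        ((rawS r B m (sz post) (sz pre) (hh B (sz pre * (m * sz post))) : ℕ) : ℤ) =
        pz B (sz pre * (m * sz post)) (fun i => vv r m (sz post) c i + 2 ^ (m - 1) * 2 ^ (B - 1)) := by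
      rw [e1, e2]
      push_cast
      rw [hhz, ← MC.pz_mul, ← MC.pz_add, ← MC.pz_sub]
      refine MC.pz_congr B fun i _ => ?_
      rw [hvz]; ring
    have e4 : 0 ≤ pz B (sz pre * (m * sz post))
        (fun i => vv r m (sz post) c i + 2 ^ (m - 1) * 2 ^ (B - 1)) :=
      MC.pz_nonneg B _ fun i _ => by
        have h6 := (abs_le.mp (hva i)).1
        have h7 : (2 : ℤ) ^ (m - 1) * (K * 2 ^ S) ≤ 2 ^ (m - 1) * 2 ^ (B - 1) :=
          mul_le_mul_of_nonneg_left hKS.le (by positivity)
        linarith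
    have e5 : rawS r B m (sz post) (sz pre) (hh B (sz pre * (m * sz post))) ≤
        rawS r B m (sz post) (sz pre) N + 2 ^ (m - 1) * hh B (sz pre * (m * sz post)) := by
      have : ((rawS r B m (sz post) (sz pre) (hh B (sz pre * (m * sz post))) : ℕ) : ℤ) ≤
        ((rawS r B m (sz post) (sz pre) N + 2 ^ (m - 1) * hh B (sz pre * (m * sz post)) : ℕ) : ℤ) := by
        rw [Nat.cast_add]; linarith
      exact_mod_cast this
    change (((rawS r B m (sz post) (sz pre) N + 2 ^ (m - 1) * hh B (sz pre * (m * sz post))) -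
      rawS r B m (sz post) (sz pre) (hh B (sz pre * (m * sz post))) : ℕ) : ℤ) = _
    rw [Nat.cast_sub e5, Nat.cast_add]
    exact e3
  have hrnd := MC.rnd_rep hB (sz pre * (m * sz post)) (m - 1) (by omega) (K * 2 ^ S) hbz _
    (vv r m (sz post) c) hva hN
  have hhalf : half r B m (sz post) (sz pre) N = rnd B (sz pre * (m * sz post)) (m - 1)
      (Nat.sub (Nat.add (rawS r B m (sz post) (sz pre) N)
      (Nat.mul (Nat.pow 2 (Nat.sub m 1)) (hh B (Nat.mul (sz pre) (Nat.mul m (sz post))))))
      (rawS r B m (sz post) (sz pre) (hh B (Nat.mul (sz pre) (Nat.mul m (sz post)))))) := rfl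
  rw [← hhalf] at hrnd
  refine ⟨fun i => vv r m (sz post) c i / 2 ^ (m - 1), fun k hk => ?_, ?_, fun τ ht => ?_⟩
  · -- bound of the coefficients
    have h8 := vv_abs r hpos hK hcb k hk
    have h9 : (1 : ℤ) ≤ mu (pre ++ m :: post) k := by exact_mod_cast mu_pos hpos k hk
    have hp : (0 : ℤ) < 2 ^ (m - 1) := by positivity
    have h10 := abs_le.mp h8
    rw [abs_le]
    push_cast
    have h11 : K * (mu (pre ++ m :: post) k : ℤ) ≤ ((M : ℤ) + (e + 1)) * mu (pre ++ m :: post) k := by
      rw [hKdef]; nlinarith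
    constructor
    · have : -(K * (mu (pre ++ m :: post) k : ℤ)) ≤ vv r m (sz post) c k / 2 ^ (m - 1) := by
        apply Int.le_ediv_of_mul_le hp; linarith
      linarith
    · have : vv r m (sz post) c k / 2 ^ (m - 1) ≤ K * (mu (pre ++ m :: post) k : ℤ) := by
        apply Int.ediv_le_of_le_mul hp; linarith
      linarith
  · rw [hrnd.eq, hsz]
  · -- real values
    set j := post.length with hj
    set y := τ j with hy
    have hy0 : 0 ≤ y := ht j
    have hq := qv_pos r hy0
    have hpv := pv_nonneg r hy0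
    set σ := Function.update τ j (pv r y / qv r y) with hσ
    have hσ0 : ∀ i, 0 ≤ σ i := by
      intro i
      by_cases hi : i = j
      · rw [hi, hσ, Function.update_self]; positivity
      · rw [hσ, Function.update_of_ne hi]; exact ht i
    have a1 := h3 σ hσ0
    have a0 : hv (pre ++ m :: post) (fun i => (c0 i : ℝ)) σ = hv (pre ++ m :: post) (fun i => (c i : ℝ)) σ :=
      hv_congr (fun i hi => by simp only [hc]; rw [if_pos hi]) σ
    rw [a0] at a1
    have a2 : hv (pre ++ m :: post) (fun i => (vv r m (sz post) c i : ℝ)) τ =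
        qv r y ^ (m - 1) * hv (pre ++ m :: post) (fun i => (c i : ℝ)) σ :=
      hv_vv r hm hI c τ hq.ne'
    have a3 : hv (pre ++ m :: post)
        (fun i => (vv r m (sz post) (fun k => (mu (pre ++ m :: post) k : ℤ)) i : ℝ)) τ =
        qv r y ^ (m - 1) * hv (pre ++ m :: post) (fun i => (((mu (pre ++ m :: post) i : ℕ) : ℤ) : ℝ)) σ :=
      hv_vv r hm hI _ τ hq.ne'
    have a4 : hv (pre ++ m :: post)
        (fun i => (vv r m (sz post) (fun k => (mu (pre ++ m :: post) k : ℤ)) i : ℝ)) τ =
        2 ^ (m - 1) * wt (degs (pre ++ m :: post)) τ := by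
      rw [← hv_mu hpos, ← hv_smul]
      exact hv_congr (fun i hi => by rw [vv_mu r hpos i hi]; push_cast; rfl) τ
    have a5 : hv (pre ++ m :: post) (fun i => (((mu (pre ++ m :: post) i : ℕ) : ℤ) : ℝ)) σ =
        wt (degs (pre ++ m :: post)) σ := by
      rw [← hv_mu hpos]
      exact hv_congr (fun i _ => by push_cast; rfl) σ
    rw [a4, a5] at a3
    have a6 : tt σ = subH r j (tt τ) := tt_sub r j τ hy0
    rw [a6] at a1
    set W := wt (degs (pre ++ m :: post)) τ with hW
    set F := f (subH r j (tt τ)) with hF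
    have hqn : 0 < qv r y ^ (m - 1) := pow_pos hq _
    have h2n : (0 : ℝ) < 2 ^ (m - 1) := by positivity
    have a7 : |F * W - hv (pre ++ m :: post) (fun i => (vv r m (sz post) c i : ℝ) / 2 ^ (m - 1)) τ| ≤ e * W := by
      have b1 : hv (pre ++ m :: post) (fun i => (vv r m (sz post) c i : ℝ) / 2 ^ (m - 1)) τ =
          (1 / 2 ^ (m - 1)) * (qv r y ^ (m - 1) * hv (pre ++ m :: post) (fun i => (c i : ℝ)) σ) := by
        rw [← a2, ← hv_smul]
        exact hv_congr (fun i _ => by ring) τ
      have b2 : W = (1 / 2 ^ (m - 1)) * (qv r y ^ (m - 1) * wt (degs (pre ++ m :: post)) σ) := by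
        rw [← a3]; field_simp
      rw [b1, b2]
      have b3 : F * (1 / 2 ^ (m - 1) * (qv r y ^ (m - 1) * wt (degs (pre ++ m :: post)) σ)) -
          1 / 2 ^ (m - 1) * (qv r y ^ (m - 1) * hv (pre ++ m :: post) (fun i => (c i : ℝ)) σ) =
          (1 / 2 ^ (m - 1) * qv r y ^ (m - 1)) * (F * wt (degs (pre ++ m :: post)) σ -
            hv (pre ++ m :: post) (fun i => (c i : ℝ)) σ) := by ring
      rw [b3, abs_mul, abs_of_pos (by positivity)]
      calc _ ≤ (1 / 2 ^ (m - 1) * qv r y ^ (m - 1)) * (e * wt (degs (pre ++ m :: post)) σ) :=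
            mul_le_mul_of_nonneg_left a1 (by positivity)
        _ = _ := by ring
    have a8 : |hv (pre ++ m :: post) (fun i => (vv r m (sz post) c i : ℝ) / 2 ^ (m - 1)) τ -
        hv (pre ++ m :: post) (fun i => ((vv r m (sz post) c i / 2 ^ (m - 1) : ℤ) : ℝ)) τ| ≤ W := by
      rw [← hv_sub, hW, ← hv_mu hpos]
      refine hv_abs (fun i hi => ?_) ht
      have h9 : (1 : ℝ) ≤ mu (pre ++ m :: post) i := by exact_mod_cast mu_pos hpos i hi
      exact (MC.floor_dist _ _).trans h9
    have c1 := abs_le.mp a7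
    have c2 := abs_le.mp a8
    rw [abs_le]
    push_cast at *
    constructor <;> linarith [c1.1, c1.2, c2.1, c2.2]

end Crest.Agent.R097.MA
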