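import Crest.Agent.R097.MAQ

/-!
# Row 97, engine for affine leaves: from packed entries (`PM`) to packed polynomials (`QS`)
-/

set_option autoImplicit false

namespace Crest.Agent.R097.MA

open MC (sz pz)
open MvPolynomial

/-! ### the polynomial of a tensor -/

/-- polynomial of the tensor `c` over the lengths `ms` -/
noncomputable def toP : List ℕ → (ℕ → ℤ) → MvPolynomial ℕ ℤ
  | [], c => C (c 0)
  | m :: ms, c => ∑ a ∈ Finset.range m, X ms.length ^ a * toP ms (fun i => c (a * sz ms + i))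

theorem eval₂_toP (ms : List ℕ) (c : ℕ → ℤ) (τ : ℕ → ℝ) :
    eval₂ (Int.castRingHom ℝ) τ (toP ms c) = hv ms (fun i => (c i : ℝ)) τ := by
  induction ms generalizing c with
  | nil => simp only [toP, hv, eval₂_C, Int.coe_castRingHom]
  | cons m ms ih =>
    simp only [toP, hv, eval₂_sum, eval₂_mul, eval₂_pow, eval₂_X, ih]

theorem Mj.sum {ι : Type*} (S : Finset ι) {P Q : ι → MvPolynomial ℕ ℤ}
    (h : ∀ a ∈ S, Mj (P a) (Q a)) : Mj (∑ a ∈ S, P a) (∑ a ∈ S, Q a) := by
  intro m
  rw [coeff_sum, coeff_sum]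
  exact (Finset.abs_sum_le_sum_abs _ _).trans (Finset.sum_le_sum fun a ha => h a ha m)

/-- the multiplicities at the flat index `a * sz ms + i` -/
theorem mu_blk (m : ℕ) (ms : List ℕ) {a i : ℕ} (hi : i < sz ms) :
    mu (m :: ms) (a * sz ms + i) = (m - 1).choose a * mu ms i := by
  have hs : 0 < sz ms := by omega
  simp only [mu]
  rw [Nat.add_comm, Nat.add_mul_div_right _ _ hs, Nat.div_eq_of_lt hi, Nat.zero_add,
    Nat.add_mul_mod_self_right, Nat.mod_eq_of_lt hi]

theorem binom_sum (m i : ℕ) (hm : 0 < m) (K : ℤ) (W : MvPolynomial ℕ ℤ) :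
    ∑ a ∈ Finset.range m, X i ^ a * (C (K * ((m - 1).choose a : ℕ)) * W) =
      C K * ((1 + X i) ^ (m - 1) * W) := by
  obtain ⟨n, rfl⟩ : ∃ n, m = n + 1 := ⟨m - 1, by omega⟩
  rw [Nat.add_sub_cancel, add_comm (1 : MvPolynomial ℕ ℤ) (X i), add_pow, Finset.sum_mul,
    Finset.mul_sum]
  refine Finset.sum_congr rfl fun a _ => ?_
  rw [C_mul, one_pow]
  have : (C (((n.choose a : ℕ) : ℤ)) : MvPolynomial ℕ ℤ) = ((n.choose a : ℕ) : MvPolynomial ℕ ℤ) := by
    simp
  rw [this]
  ring

theorem Mj_toP {ms : List ℕ} (hms : ∀ m ∈ ms, 0 < m) {c : ℕ → ℤ} {K : ℤ}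
    (hK : 0 ≤ K) (h : ∀ k, k < sz ms → |c k| ≤ K * mu ms k) :
    Mj (toP ms c) (C K * Wp (degs ms)) := by
  induction ms generalizing c K with
  | nil =>
    have h0 := h 0 (by simp [MC.sz])
    simp only [mu, Nat.cast_one, mul_one] at h0
    intro m
    simp only [toP, degs, List.map_nil, Wp, mul_one, coeff_C]
    split_ifs
    · exact h0
    · simp
  | cons m ms ih =>
    have hm : 0 < m := hms m (by simp)
    have e : degs (m :: ms) = (m - 1) :: degs ms := rfl
    have el : (degs ms).length = ms.length := by simp [degs]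
    rw [e]
    simp only [toP, Wp, el]
    rw [← binom_sum m ms.length hm K (Wp (degs ms))]
    refine Mj.sum _ fun a ha => ?_
    have ha' : a < m := Finset.mem_range.mp ha
    refine ((Mj.X _).pow a).mul (ih (fun x hx => hms x (by simp [hx])) (by positivity) fun i hi => ?_)
    have h1 := h (a * sz ms + i) (by simp only [MC.sz]; exact MC.block_lt ha' hi)
    rw [mu_blk m ms hi] at h1
    push_cast at h1
    rw [mul_assoc]
    exact h1

theorem coeff_toP_le {ms : List ℕ} (hms : ∀ m ∈ ms, 0 < m) {c : ℕ → ℤ} {K : ℤ} (hK : 0 ≤ K)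
    (h : ∀ k, k < sz ms → |c k| ≤ K * mu ms k) (m : ℕ →₀ ℕ) :
    |coeff m (toP ms c)| ≤ coeff m (C K * Wp (degs ms)) :=
  Mj_toP hms hK h m

/-! ### packed values -/

theorem cpt_fst (ms : List ℕ) : (cpt ms).map Prod.fst = ms := by
  induction ms with
  | nil => rfl
  | cons m ms ih => simp [cpt, ih]

theorem SR_cpt (B : ℕ) (ms : List ℕ) (c : ℕ → ℤ) : SR B (cpt ms) c = pz B (sz ms) c := by
  induction ms generalizing c with
  | nil => simp [cpt, SR, MC.sz, MC.pz]
  | cons m ms ih =>
    simp only [cpt, SR, cpt_fst, ih, MC.sz]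
    unfold MC.pz
    rw [MC.sum_blocks_z]
    refine Finset.sum_congr rfl fun a _ => ?_
    rw [Finset.mul_sum]
    refine Finset.sum_congr rfl fun i _ => ?_
    rw [Nat.mul_add, pow_add]
    ring

/-- lengths `ms` with the strides of the layout `Ls` -/
def strd : List ℕ → List ℕ → List (ℕ × ℕ)
  | m :: ms, _ :: Ls => (m, sz Ls) :: strd ms Ls
  | _, _ => []

theorem strd_fst : ∀ {ms Ls : List ℕ}, ms.length = Ls.length → (strd ms Ls).map Prod.fst = ms
  | [], [], _ => rfl
  | m :: ms, L :: Ls, h => by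
    have h' : ms.length = Ls.length := by simpa using h
    simp [strd, strd_fst h']
  | [], _ :: _, h => by simp at h
  | _ :: _, [], h => by simp at h

theorem eval_toP_congr (ms : List ℕ) (c : ℕ → ℤ) {T T' : ℕ → ℤ} (h : ∀ i, i < ms.length → T i = T' i) :
    eval T (toP ms c) = eval T' (toP ms c) := by
  induction ms generalizing c with
  | nil => simp [toP]
  | cons m ms ih =>
    simp only [toP, map_sum, map_mul, map_pow, eval_X]
    refine Finset.sum_congr rfl fun a _ => ?_
    rw [h ms.length (by simp), ih _ fun i hi => h i (by simp only [List.length_cons]; omega)]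

theorem Tv_cons_lt (B L : ℕ) (Ls : List ℕ) {i : ℕ} (hi : i ≤ Ls.length) :
    Tv B (L :: Ls) i = Tv B Ls i := by
  unfold Tv
  congr 2
  unfold KB.sg
  refine Finset.prod_congr rfl fun j hj => ?_
  have hj' : j < Ls.reverse.length := by
    simpa using lt_of_lt_of_le (Finset.mem_range.mp hj) hi
  change (L :: Ls).reverse.getD j 1 = Ls.reverse.getD j 1
  rw [List.reverse_cons, List.getD_append _ _ _ _ hj']

theorem Tv_length (B : ℕ) (Ls : List ℕ) : Tv B Ls Ls.length = 2 ^ (B * sz Ls) := by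
  unfold Tv
  rw [sg_eq_sz]

theorem SR_strd {B : ℕ} {ms Ls : List ℕ} (hl : ms.length = Ls.length) (c : ℕ → ℤ) :
    SR B (strd ms Ls) c = eval (Tv B Ls) (toP ms c) := by
  induction ms generalizing Ls c with
  | nil =>
    cases Ls with
    | nil => simp [strd, SR, toP]
    | cons L Ls => simp at hl
  | cons m ms ih =>
    cases Ls with
    | nil => simp at hl
    | cons L Ls =>
      have hl' : ms.length = Ls.length := by simpa using hl
      simp only [strd, SR, strd_fst hl', toP, map_sum, map_mul, map_pow, eval_X]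
      refine Finset.sum_congr rfl fun a _ => ?_
      rw [ih hl', hl', Tv_cons_lt B L Ls le_rfl, Tv_length, ← pow_mul]
      congr 1
      · congr 1
        ring
      · exact eval_toP_congr _ _ fun i hi => (Tv_cons_lt B L Ls (by omega)).symm

/-! ### from `PM` to `QS` -/

theorem QS_of_PM {B M e N : ℕ} {ms Ls : List ℕ} {f : (ℕ → ℝ) → ℝ} (hms : ∀ m ∈ ms, 0 < m)
    (hl : ms.length = Ls.length) (h : PM B ms M e N f) :
    ∃ c : ℕ → ℤ, (∀ k, k < sz ms → |c k| ≤ ((M : ℤ) + e) * mu ms k) ∧
      (N : ℤ) = pz B (sz ms) (fun i => c i + 2 ^ (B - 1)) ∧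
      QS (Tv B Ls) (degs ms) (M + e) e (SR B (strd ms Ls) c) f := by
  obtain ⟨c, h1, h2, h3⟩ := h
  refine ⟨c, h1, h2, toP ms c, (SR_strd hl c).symm, fun m => ?_, fun τ hτ => ?_⟩
  · have := coeff_toP_le hms (K := (M : ℤ) + e) (by positivity) h1 m
    push_cast
    exact this
  · rw [eval₂_toP]
    exact h3 τ hτ

/-! ### weights -/

theorem hv_congr (ms : List ℕ) {c d : ℕ → ℝ} (h : ∀ i, i < sz ms → c i = d i) (τ : ℕ → ℝ) :
    hv ms c τ = hv ms d τ := by
  induction ms generalizing c d with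
  | nil => exact h 0 (by simp [MC.sz])
  | cons m ms ih =>
    simp only [hv]
    refine Finset.sum_congr rfl fun a ha => ?_
    rw [ih fun i hi => h _ (by simp only [MC.sz]; exact MC.block_lt (Finset.mem_range.mp ha) hi)]

theorem hv_smul (ms : List ℕ) (k : ℝ) (c : ℕ → ℝ) (τ : ℕ → ℝ) :
    hv ms (fun i => k * c i) τ = k * hv ms c τ := by
  induction ms generalizing c with
  | nil => rfl
  | cons m ms ih =>
    simp only [hv, ih, Finset.mul_sum]
    exact Finset.sum_congr rfl fun a _ => by ring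

theorem hv_add (ms : List ℕ) (c d : ℕ → ℝ) (τ : ℕ → ℝ) :
    hv ms (fun i => c i + d i) τ = hv ms c τ + hv ms d τ := by
  induction ms generalizing c d with
  | nil => rfl
  | cons m ms ih =>
    simp only [hv, ih, ← Finset.sum_add_distrib, mul_add]

theorem hv_sub (ms : List ℕ) (c d : ℕ → ℝ) (τ : ℕ → ℝ) :
    hv ms (fun i => c i - d i) τ = hv ms c τ - hv ms d τ := by
  induction ms generalizing c d with
  | nil => rfl
  | cons m ms ih =>
    simp only [hv, ih, ← Finset.sum_sub_distrib, mul_sub]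

theorem hv_mono (ms : List ℕ) {c d : ℕ → ℝ} (h : ∀ i, i < sz ms → c i ≤ d i) {τ : ℕ → ℝ}
    (hτ : ∀ j, 0 ≤ τ j) : hv ms c τ ≤ hv ms d τ := by
  induction ms generalizing c d with
  | nil => exact h 0 (by simp [MC.sz])
  | cons m ms ih =>
    simp only [hv]
    refine Finset.sum_le_sum fun a ha => mul_le_mul_of_nonneg_left ?_ (pow_nonneg (hτ _) _)
    exact ih fun i hi => h _ (by simp only [MC.sz]; exact MC.block_lt (Finset.mem_range.mp ha) hi)

theorem wt_hv {ms : List ℕ} (hms : ∀ m ∈ ms, 0 < m) (τ : ℕ → ℝ) :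
    hv ms (fun k => (mu ms k : ℝ)) τ = wt (degs ms) τ := by
  induction ms with
  | nil => simp [hv, mu, degs, wt]
  | cons m ms ih =>
    have hm : 0 < m := hms m (by simp)
    obtain ⟨n, rfl⟩ : ∃ n, m = n + 1 := ⟨m - 1, by omega⟩
    have el : (degs ms).length = ms.length := by simp [degs]
    have e : degs ((n + 1) :: ms) = n :: degs ms := rfl
    rw [e]
    simp only [hv, wt, el]
    rw [add_comm (1 : ℝ) (τ ms.length), add_pow, Finset.sum_mul]
    refine Finset.sum_congr rfl fun a _ => ?_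
    have h1 : hv ms (fun i => (mu ((n + 1) :: ms) (a * sz ms + i) : ℝ)) τ =
        hv ms (fun i => (n.choose a : ℝ) * (mu ms i : ℝ)) τ :=
      hv_congr ms (fun i hi => by rw [mu_blk _ ms hi]; push_cast; simp) τ
    rw [h1, hv_smul, ih fun x hx => hms x (by simp [hx])]
    simp only [one_pow, mul_one]
    ring

theorem mu_le (ms : List ℕ) (k : ℕ) (hk : k < sz ms) : mu ms k ≤ 2 ^ (degs ms).sum := by
  induction ms generalizing k with
  | nil => simp [mu, degs]
  | cons m ms ih =>
    have e : degs (m :: ms) = (m - 1) :: degs ms := rfl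
    rw [e, List.sum_cons, pow_add]
    simp only [mu]
    have hs : 0 < sz ms := by
      rcases Nat.eq_zero_or_pos (sz ms) with h0 | h0
      · simp only [MC.sz, h0, Nat.mul_zero] at hk
        omega
      · exact h0
    exact Nat.mul_le_mul (Nat.choose_le_two_pow _ _) (ih _ (Nat.mod_lt _ hs))

end Crest.Agent.R097.MA
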