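import Crest.Agent.R097.MA0

/-!
# Row 97, engine for affine leaves: calculus of the packed polynomials `QS`
-/

set_option autoImplicit false

namespace Crest.Agent.R097.MA

open MvPolynomial

/-! ### majorants -/

/-- coefficientwise majorant -/
def Mj (P Q : MvPolynomial ℕ ℤ) : Prop := ∀ m, |coeff m P| ≤ coeff m Q

theorem Mj.nonneg {P Q : MvPolynomial ℕ ℤ} (h : Mj P Q) (m : ℕ →₀ ℕ) : 0 ≤ coeff m Q :=
  (abs_nonneg _).trans (h m)

theorem Mj.add {P Q P' Q' : MvPolynomial ℕ ℤ} (h : Mj P Q) (h' : Mj P' Q') : Mj (P + P') (Q + Q') := by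
  intro m
  rw [coeff_add, coeff_add]
  exact (abs_add_le _ _).trans (add_le_add (h m) (h' m))

theorem Mj.sub {P Q P' Q' : MvPolynomial ℕ ℤ} (h : Mj P Q) (h' : Mj P' Q') : Mj (P - P') (Q + Q') := by
  intro m
  rw [coeff_sub, coeff_add]
  exact (abs_sub _ _).trans (add_le_add (h m) (h' m))

theorem Mj.mul {P Q P' Q' : MvPolynomial ℕ ℤ} (h : Mj P Q) (h' : Mj P' Q') : Mj (P * P') (Q * Q') := by
  intro m
  rw [coeff_mul, coeff_mul]
  refine (Finset.abs_sum_le_sum_abs _ _).trans (Finset.sum_le_sum fun x _ => ?_)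
  rw [abs_mul]
  exact mul_le_mul (h _) (h' _) (abs_nonneg _) (h.nonneg _)

theorem Mj.trans' {P Q R : MvPolynomial ℕ ℤ} (h : Mj P Q) (h' : Mj Q R) : Mj P R := by
  intro m
  exact (h m).trans ((le_abs_self _).trans (h' m))

theorem Mj.C (a : ℤ) : Mj (C a) (C |a|) := by
  intro m
  rw [coeff_C, coeff_C]
  split_ifs <;> simp

theorem Mj.X (i : ℕ) : Mj (X i : MvPolynomial ℕ ℤ) (X i) := by
  intro m
  rw [coeff_X]
  split_ifs <;> simp

theorem Mj.self {P : MvPolynomial ℕ ℤ} (h : ∀ m, 0 ≤ coeff m P) : Mj P P := by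
  intro m
  rw [abs_of_nonneg (h m)]

theorem Mj.one : Mj (1 : MvPolynomial ℕ ℤ) 1 := by
  have := Mj.C 1
  simpa using this

theorem Mj.pow {P Q : MvPolynomial ℕ ℤ} (h : Mj P Q) (k : ℕ) : Mj (P ^ k) (Q ^ k) := by
  induction k with
  | zero => simpa using Mj.one
  | succ k ih => rw [pow_succ, pow_succ]; exact ih.mul h

theorem Mj.Wp (ns : List ℕ) : Mj (Wp ns) (Wp ns) := by
  induction ns with
  | nil => exact Mj.one
  | cons n ns ih => exact ((Mj.one.add (Mj.X _)).pow n).mul ih

theorem coeff_Wp_nonneg (ns : List ℕ) (m : ℕ →₀ ℕ) : 0 ≤ coeff m (Wp ns) := (Mj.Wp ns).nonneg m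

/-- real value of a majorant -/
theorem Mj.eval₂_le {P Q : MvPolynomial ℕ ℤ} (h : Mj P Q) {τ : ℕ → ℝ} (hτ : ∀ j, 0 ≤ τ j) :
    |eval₂ (Int.castRingHom ℝ) τ P| ≤ eval₂ (Int.castRingHom ℝ) τ Q := by
  have hs : P.support ⊆ Q.support := by
    intro m hm
    rw [mem_support_iff] at hm ⊢
    intro h0
    have := h m
    rw [h0] at this
    exact hm (abs_eq_zero.mp (le_antisymm this (abs_nonneg _)))
  have hP : eval₂ (Int.castRingHom ℝ) τ P =
      ∑ m ∈ Q.support, ((coeff m P : ℤ) : ℝ) * ∏ i ∈ m.support, τ i ^ m i := by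
    rw [MvPolynomial.eval₂_eq]
    refine Finset.sum_subset hs fun m _ hm => ?_
    rw [notMem_support_iff.mp hm]
    simp
  rw [hP, MvPolynomial.eval₂_eq]
  refine (Finset.abs_sum_le_sum_abs _ _).trans (Finset.sum_le_sum fun m _ => ?_)
  have hp : 0 ≤ ∏ i ∈ m.support, τ i ^ m i := Finset.prod_nonneg fun i _ => pow_nonneg (hτ i) _
  rw [abs_mul, abs_of_nonneg hp]
  refine mul_le_mul_of_nonneg_right ?_ hp
  have := h m
  simp only [Int.coe_castRingHom]
  exact_mod_cast this

theorem eval₂_nonneg' {P : MvPolynomial ℕ ℤ} (h : ∀ m, 0 ≤ coeff m P) {τ : ℕ → ℝ}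
    (hτ : ∀ j, 0 ≤ τ j) : 0 ≤ eval₂ (Int.castRingHom ℝ) τ P :=
  (abs_nonneg _).trans ((Mj.self h).eval₂_le hτ)

theorem castN (k : ℕ) : (Int.castRingHom ℝ) ((k : ℕ) : ℤ) = (k : ℝ) := by simp

/-! ### weights -/

theorem wt_pos (ns : List ℕ) {τ : ℕ → ℝ} (hτ : ∀ j, 0 ≤ τ j) : 0 < wt ns τ := by
  induction ns with
  | nil => simp [wt]
  | cons n ns ih =>
    simp only [wt]
    have := hτ ns.length
    positivity

theorem eval₂_Wp (ns : List ℕ) (τ : ℕ → ℝ) :
    eval₂ (Int.castRingHom ℝ) τ (Wp ns) = wt ns τ := by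
  induction ns with
  | nil => simp [Wp, wt]
  | cons n ns ih =>
    simp only [Wp, wt, eval₂_mul, eval₂_pow, eval₂_add, eval₂_one, eval₂_X, ih]

theorem Wp_zip : ∀ (ns ns' : List ℕ), ns.length = ns'.length →
    Wp (List.zipWith (· + ·) ns ns') = Wp ns * Wp ns'
  | [], [], _ => by simp [Wp]
  | n :: ns, n' :: ns', h => by
    have h' : ns.length = ns'.length := by simpa using h
    simp only [List.zipWith_cons_cons, Wp, Wp_zip ns ns' h', List.length_zipWith, h', min_self]
    rw [pow_add]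
    ring
  | [], n' :: ns', h => by simp at h
  | n :: ns, [], h => by simp at h

theorem wt_zip (ns ns' : List ℕ) (h : ns.length = ns'.length) (τ : ℕ → ℝ) :
    wt (List.zipWith (· + ·) ns ns') τ = wt ns τ * wt ns' τ := by
  rw [← eval₂_Wp, Wp_zip ns ns' h, eval₂_mul, eval₂_Wp, eval₂_Wp]

theorem eval_one_Wp (ns : List ℕ) : eval (fun _ => (1 : ℤ)) (Wp ns) = 2 ^ ns.sum := by
  induction ns with
  | nil => simp [Wp]
  | cons n ns ih =>
    simp only [Wp, map_mul, map_pow, map_add, map_one, eval_X, ih, List.sum_cons, pow_add]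
    norm_num

/-! ### calculus -/

section

variable {T : ℕ → ℤ} {ns : List ℕ} {M E M' E' : ℕ} {Z Z' : ℤ} {f g : (ℕ → ℝ) → ℝ}

theorem QS.add (h : QS T ns M E Z f) (h' : QS T ns M' E' Z' g) :
    QS T ns (M + M') (E + E') (Z + Z') (fun t => f t + g t) := by
  obtain ⟨P, h1, h2, h3⟩ := h
  obtain ⟨P', h1', h2', h3'⟩ := h'
  refine ⟨P + P', by rw [map_add, h1, h1'], ?_, fun τ hτ => ?_⟩
  · have := Mj.add (show Mj P _ from h2) (show Mj P' _ from h2')
    rw [← add_mul, ← C_add] at this
    push_cast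
    exact this
  · have a := abs_le.mp (h3 τ hτ)
    have b := abs_le.mp (h3' τ hτ)
    rw [eval₂_add, abs_le]
    push_cast
    constructor
    · linarith [a.1, b.1]
    · linarith [a.2, b.2]

theorem QS.sub (h : QS T ns M E Z f) (h' : QS T ns M' E' Z' g) :
    QS T ns (M + M') (E + E') (Z - Z') (fun t => f t - g t) := by
  obtain ⟨P, h1, h2, h3⟩ := h
  obtain ⟨P', h1', h2', h3'⟩ := h'
  refine ⟨P - P', by rw [map_sub, h1, h1'], ?_, fun τ hτ => ?_⟩
  · have := Mj.sub (show Mj P _ from h2) (show Mj P' _ from h2')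
    rw [← add_mul, ← C_add] at this
    push_cast
    exact this
  · have a := abs_le.mp (h3 τ hτ)
    have b := abs_le.mp (h3' τ hτ)
    rw [eval₂_sub, abs_le]
    push_cast
    constructor
    · linarith [a.1, b.2]
    · linarith [a.2, b.1]

theorem QS.smul (k : ℤ) (h : QS T ns M E Z f) :
    QS T ns (k.natAbs * M) (k.natAbs * E) (k * Z) (fun t => k * f t) := by
  obtain ⟨P, h1, h2, h3⟩ := h
  refine ⟨C k * P, by rw [map_mul, eval_C, h1], ?_, fun τ hτ => ?_⟩
  · have := Mj.mul (Mj.C k) (show Mj P _ from h2)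
    rw [← mul_assoc, ← C_mul] at this
    push_cast
    exact this
  · have a := h3 τ hτ
    rw [eval₂_mul, eval₂_C]
    have e : (k : ℝ) * f (tt τ) * wt ns τ - (Int.castRingHom ℝ) k * eval₂ (Int.castRingHom ℝ) τ P =
        k * (f (tt τ) * wt ns τ - eval₂ (Int.castRingHom ℝ) τ P) := by
      simp only [Int.coe_castRingHom]; ring
    rw [e, abs_mul]
    have e2 : ((k.natAbs * E : ℕ) : ℝ) * wt ns τ = |(k : ℝ)| * (E * wt ns τ) := by
      push_cast
      rw [Nat.cast_natAbs]
      push_cast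
      ring
    rw [e2]
    exact mul_le_mul_of_nonneg_left a (abs_nonneg _)

theorem QS.mul {ns' : List ℕ} (hl : ns.length = ns'.length) (h : QS T ns M E Z f)
    (h' : QS T ns' M' E' Z' g) :
    QS T (List.zipWith (· + ·) ns ns') (M * M') ((M + E) * E' + E * M') (Z * Z')
      (fun t => f t * g t) := by
  obtain ⟨P, h1, h2, h3⟩ := h
  obtain ⟨P', h1', h2', h3'⟩ := h'
  refine ⟨P * P', by rw [map_mul, h1, h1'], ?_, fun τ hτ => ?_⟩
  · have := Mj.mul (show Mj P _ from h2) (show Mj P' _ from h2')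
    rw [Wp_zip ns ns' hl]
    have e : C ((M * M' : ℕ) : ℤ) * (Wp ns * Wp ns') = C (M : ℤ) * Wp ns * (C (M' : ℤ) * Wp ns') := by
      push_cast
      rw [C_mul]
      ring
    rw [e]
    exact this
  · have a := h3 τ hτ
    have b := h3' τ hτ
    have hW := wt_pos ns hτ
    have hW' := wt_pos ns' hτ
    have hP : |eval₂ (Int.castRingHom ℝ) τ P| ≤ M * wt ns τ := by
      have := Mj.eval₂_le (show Mj P _ from h2) hτ
      rwa [eval₂_mul, eval₂_C, eval₂_Wp, castN] at this
    have hQ : |eval₂ (Int.castRingHom ℝ) τ P'| ≤ M' * wt ns' τ := by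
      have := Mj.eval₂_le (show Mj P' _ from h2') hτ
      rwa [eval₂_mul, eval₂_C, eval₂_Wp, castN] at this
    have hf : |f (tt τ) * wt ns τ| ≤ (M + E) * wt ns τ := by
      have : f (tt τ) * wt ns τ = (f (tt τ) * wt ns τ - eval₂ (Int.castRingHom ℝ) τ P) +
        eval₂ (Int.castRingHom ℝ) τ P := by ring
      rw [this]
      refine (abs_add_le _ _).trans ?_
      linarith
    rw [wt_zip ns ns' hl, eval₂_mul]
    have e : f (tt τ) * g (tt τ) * (wt ns τ * wt ns' τ) -
        eval₂ (Int.castRingHom ℝ) τ P * eval₂ (Int.castRingHom ℝ) τ P' =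
        (f (tt τ) * wt ns τ) * (g (tt τ) * wt ns' τ - eval₂ (Int.castRingHom ℝ) τ P') +
        (f (tt τ) * wt ns τ - eval₂ (Int.castRingHom ℝ) τ P) * eval₂ (Int.castRingHom ℝ) τ P' := by
      ring
    rw [e]
    refine (abs_add_le _ _).trans ?_
    rw [abs_mul (f (tt τ) * wt ns τ), abs_mul (f (tt τ) * wt ns τ - _)]
    have hME : (0 : ℝ) ≤ (M + E) * wt ns τ := by positivity
    have hE : (0 : ℝ) ≤ E * wt ns τ := by positivity
    have c1 := mul_le_mul hf b (abs_nonneg _) hME
    have c2 := mul_le_mul a hQ (abs_nonneg _) hE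
    refine (add_le_add c1 c2).trans (le_of_eq ?_)
    push_cast
    ring

theorem QS.one (rs : List ℕ) : QS T rs 1 0 (eval T (Wp rs)) (fun _ => 1) := by
  refine ⟨Wp rs, rfl, ?_, fun τ hτ => ?_⟩
  · intro m
    have := Mj.Wp rs m
    simpa using this
  · rw [eval₂_Wp]
    simp

theorem QS.congr (h : QS T ns M E Z f) (hfg : ∀ t, f t = g t) : QS T ns M E Z g := by
  have : f = g := funext hfg
  rwa [← this]

theorem QS.mono (h : QS T ns M E Z f) (hM : M ≤ M') (hE : E ≤ E') : QS T ns M' E' Z f := by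
  obtain ⟨P, h1, h2, h3⟩ := h
  refine ⟨P, h1, fun m => (h2 m).trans ?_, fun τ hτ => (h3 τ hτ).trans ?_⟩
  · rw [coeff_C_mul, coeff_C_mul]
    exact mul_le_mul_of_nonneg_right (by exact_mod_cast hM) (coeff_Wp_nonneg _ _)
  · exact mul_le_mul_of_nonneg_right (by exact_mod_cast hE) (wt_pos ns hτ).le

end

/-! ### affine functions -/

def affU (T : ℕ → ℤ) : List ℤ → ℤ
  | [] => 1
  | _ :: fs => (1 + T fs.length) * affU T fs

def affA (T : ℕ → ℤ) : List ℤ → ℤ
  | [] => 0
  | a :: fs => (1 + T fs.length) * affA T fs + a * T fs.length * affU T fs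

def affR : List ℤ → (ℕ → ℝ) → ℝ
  | [], _ => 0
  | a :: fs, t => a * t fs.length + affR fs t

/-- polynomial of the affine part -/
noncomputable def affP : List ℤ → MvPolynomial ℕ ℤ
  | [] => 0
  | a :: fs => (1 + X fs.length) * affP fs +
      C a * (X fs.length * Wp (List.replicate fs.length 1))

theorem eval_affU (T : ℕ → ℤ) (fs : List ℤ) :
    eval T (Wp (List.replicate fs.length 1)) = affU T fs := by
  induction fs with
  | nil => simp [Wp, affU]
  | cons a fs ih =>
    simp only [List.length_cons, List.replicate_succ, Wp, List.length_replicate, pow_one, map_mul,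
      map_add, map_one, eval_X, ih, affU]

theorem eval_affP (T : ℕ → ℤ) (fs : List ℤ) : eval T (affP fs) = affA T fs := by
  induction fs with
  | nil => simp [affP, affA]
  | cons a fs ih =>
    simp only [affP, affA, map_add, map_mul, map_one, eval_X, eval_C, ih, eval_affU]
    ring

theorem Mj_affP (fs : List ℤ) :
    Mj (affP fs) (C (((fs.map Int.natAbs).sum : ℕ) : ℤ) * Wp (List.replicate fs.length 1)) := by
  induction fs with
  | nil =>
    intro m
    simp [affP]
  | cons a fs ih =>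
    simp only [affP, List.length_cons, List.replicate_succ, Wp, List.length_replicate, pow_one,
      List.map_cons, List.sum_cons]
    have h1 := (Mj.one.add (Mj.X fs.length)).mul ih
    have h2 : Mj (X fs.length * Wp (List.replicate fs.length 1))
        ((1 + X fs.length) * Wp (List.replicate fs.length 1)) := by
      have h3 : Mj (X fs.length : MvPolynomial ℕ ℤ) (1 + X fs.length) := by
        intro m
        rw [coeff_add]
        have h4 := Mj.X fs.length m
        have h5 := Mj.one.nonneg m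
        linarith
      exact h3.mul (Mj.Wp _)
    have h6 := h1.add ((Mj.C a).mul h2)
    have e : (C (((a.natAbs + (fs.map Int.natAbs).sum : ℕ) : ℤ)) : MvPolynomial ℕ ℤ) *
        ((1 + X fs.length) * Wp (List.replicate fs.length 1)) =
        (1 + X fs.length) * (C (((fs.map Int.natAbs).sum : ℕ) : ℤ) *
          Wp (List.replicate fs.length 1)) +
        C |a| * ((1 + X fs.length) * Wp (List.replicate fs.length 1)) := by
      push_cast
      rw [C_add]
      ring
    rw [e]
    exact h6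

theorem eval₂_affP (fs : List ℤ) {τ : ℕ → ℝ} (hτ : ∀ j, 0 ≤ τ j) :
    eval₂ (Int.castRingHom ℝ) τ (affP fs) =
      affR fs (tt τ) * wt (List.replicate fs.length 1) τ := by
  induction fs with
  | nil => simp [affP, affR]
  | cons a fs ih =>
    simp only [affP, affR, List.length_cons, List.replicate_succ, wt, List.length_replicate,
      pow_one, eval₂_add, eval₂_mul, eval₂_one, eval₂_X, eval₂_C, eval₂_Wp, ih, tt,
      Int.coe_castRingHom]
    have h1 : (1 : ℝ) + τ fs.length ≠ 0 := by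
      have := hτ fs.length
      positivity
    field_simp
    ring

theorem QS.aff {T : ℕ → ℤ} (a0 : ℤ) (fs : List ℤ) :
    QS T (List.replicate fs.length 1) (a0.natAbs + (fs.map Int.natAbs).sum) 0
      (a0 * affU T fs + affA T fs) (fun t => a0 + affR fs t) := by
  refine ⟨C a0 * Wp (List.replicate fs.length 1) + affP fs, ?_, ?_, fun τ hτ => ?_⟩
  · rw [map_add, map_mul, eval_C, eval_affU, eval_affP]
  · have h := ((Mj.C a0).mul (Mj.Wp (List.replicate fs.length 1))).add (Mj_affP fs)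
    have e : (C (((a0.natAbs + (fs.map Int.natAbs).sum : ℕ) : ℤ)) : MvPolynomial ℕ ℤ) *
        Wp (List.replicate fs.length 1) =
        C |a0| * Wp (List.replicate fs.length 1) +
        C (((fs.map Int.natAbs).sum : ℕ) : ℤ) * Wp (List.replicate fs.length 1) := by
      push_cast
      rw [C_add]
      ring
    rw [e]
    exact h
  · rw [eval₂_add, eval₂_mul, eval₂_C, eval₂_Wp, eval₂_affP fs hτ, Int.coe_castRingHom]
    have e : ((a0 : ℝ) + affR fs (tt τ)) * wt (List.replicate fs.length 1) τ -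
      ((a0 : ℝ) * wt (List.replicate fs.length 1) τ +
        affR fs (tt τ) * wt (List.replicate fs.length 1) τ) = 0 := by ring
    rw [e]
    simp

/-! ### nonnegativity -/

theorem degreeOf_Wp (i : ℕ) (ns : List ℕ) : degreeOf i (Wp ns) ≤ ns.reverse.getD i 0 := by
  induction ns with
  | nil => simp [Wp, degreeOf_one]
  | cons n ns ih =>
    simp only [Wp, List.reverse_cons]
    refine (degreeOf_mul_le i _ _).trans ?_
    have h1 : degreeOf i ((1 + X ns.length : MvPolynomial ℕ ℤ) ^ n) ≤ if i = ns.length then n else 0 := by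
      have := KB.degreeOf_lin i ns.length 1 1 n
      simpa using this
    rcases lt_trichotomy i ns.length with h | h | h
    · have h2 : (ns.reverse ++ [n]).getD i 0 = ns.reverse.getD i 0 := by
        rw [List.getD_append _ _ _ _ (by simpa using h)]
      rw [h2]
      rw [if_neg h.ne] at h1
      omega
    · subst h
      have h2 : (ns.reverse ++ [n]).getD ns.length 0 = n := by
        rw [List.getD_append_right _ _ _ _ (by simp)]
        simp
      have h3 : ns.reverse.getD ns.length 0 = 0 := by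
        rw [List.getD_eq_default _ _ (by simp)]
      rw [h2]
      rw [if_pos rfl] at h1
      omega
    · have h3 : ns.reverse.getD i 0 = 0 := by
        rw [List.getD_eq_default _ _ (by simpa using h.le)]
      rw [if_neg h.ne'] at h1
      omega

theorem degreeOf_le_of_Mj {P Q : MvPolynomial ℕ ℤ} (h : Mj P Q) (i : ℕ) :
    degreeOf i P ≤ degreeOf i Q := by
  rw [degreeOf_le_iff]
  intro m hm
  refine monomial_le_degreeOf i ?_
  rw [mem_support_iff] at hm ⊢
  intro h0
  have := h m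
  rw [h0] at this
  exact hm (abs_eq_zero.mp (le_antisymm this (abs_nonneg _)))

theorem sg_eq_sz (Ls : List ℕ) : KB.sg (fun j => Ls.reverse.getD j 1) Ls.length = MC.sz Ls := by
  induction Ls with
  | nil => simp [KB.sg, MC.sz]
  | cons a Ls ih =>
    unfold KB.sg at ih ⊢
    rw [List.length_cons, Finset.prod_range_succ, MC.sz, ← ih]
    have h1 : (a :: Ls).reverse.getD Ls.length 1 = a := by
      rw [List.reverse_cons, List.getD_append_right _ _ _ _ (by simp)]
      simp
    rw [h1, mul_comm]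
    congr 1
    refine Finset.prod_congr rfl fun j hj => ?_
    rw [List.reverse_cons, List.getD_append _ _ _ _ (by simpa using Finset.mem_range.mp hj)]

theorem Hm_eq_hh (B L : ℕ) : KB.Hm B L = MC.hh B L := rfl

theorem QS.nonneg {B : ℕ} {Ls ns : List ℕ} {M E : ℕ} {Z : ℤ} {f : (ℕ → ℝ) → ℝ} (hB : 0 < B)
    (hlen : Ls.length = ns.length) (hdeg : ∀ i, i < ns.length → ns.getD i 0 < Ls.getD i 0)
    (hbd : (M + E) * 2 ^ ns.sum < 2 ^ (B - 1)) (h : QS (Tv B Ls) ns M E Z f)
    (hchk : Nat.land (Z - E * eval (Tv B Ls) (Wp ns) + (MC.hh B (MC.sz Ls) : ℤ)).toNat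
      (MC.hh B (MC.sz Ls)) = MC.hh B (MC.sz Ls))
    {t : ℕ → ℝ} (ht : ∀ j, 0 ≤ t j ∧ t j < 1) : 0 ≤ f t := by
  obtain ⟨P, h1, h2, h3⟩ := h
  have hP : Mj P (C (M : ℤ) * Wp ns) := h2
  have hE : Mj (C (E : ℤ) * Wp ns) (C (E : ℤ) * Wp ns) := by
    have := (Mj.C (E : ℤ)).mul (Mj.Wp ns)
    simpa using this
  have hPE : Mj (P - C (E : ℤ) * Wp ns) (C ((M + E : ℕ) : ℤ) * Wp ns) := by
    have := hP.sub hE
    rw [← add_mul, ← C_add] at this
    push_cast
    exact this
  have hdW : ∀ i, degreeOf i (P - C (E : ℤ) * Wp ns) ≤ ns.reverse.getD i 0 := fun i =>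
    (degreeOf_le_of_Mj hPE i).trans ((degreeOf_C_mul_le _ i _).trans (degreeOf_Wp i ns))
  have key := KB.coeff_nonneg_of_land B hB Ls.length (fun j => Ls.reverse.getD j 1)
    (P - C (E : ℤ) * Wp ns) ?_ ?_ ?_ ?_
  · have hnn : ∀ τ : ℕ → ℝ, (∀ j, 0 ≤ τ j) → 0 ≤ f (tt τ) := by
      intro τ hτ
      have a := (abs_le.mp (h3 τ hτ)).1
      have b := eval₂_nonneg' key hτ
      rw [eval₂_sub, eval₂_mul, eval₂_C, eval₂_Wp, castN] at b
      have c : 0 ≤ f (tt τ) * wt ns τ := by linarith
      exact nonneg_of_mul_nonneg_left c (wt_pos ns hτ)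
    have e : tt (fun j => t j / (1 - t j)) = t := by
      funext j
      have h1 : (1 : ℝ) - t j ≠ 0 := by have := (ht j).2; linarith
      simp only [tt]
      field_simp
      ring
    rw [← e]
    exact hnn _ fun j => div_nonneg (ht j).1 (by linarith [(ht j).2])
  · intro i hi
    refine lt_of_le_of_lt (hdW i) ?_
    have hi' : i < ns.length := by omega
    have e1 : ns.reverse.getD i 0 = ns.getD (ns.length - 1 - i) 0 := by
      rw [List.getD_eq_getElem _ _ (by simpa using hi'), List.getD_eq_getElem _ _ (by omega),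
        List.getElem_reverse]
    have e2 : Ls.reverse.getD i 1 = Ls.getD (ns.length - 1 - i) 0 := by
      rw [List.getD_eq_getElem _ _ (by simpa using hi), List.getD_eq_getElem _ _ (by omega),
        List.getElem_reverse]
      congr 1
      omega
    rw [e1, e2]
    exact hdeg _ (by omega)
  · intro i hi
    have := hdW i
    rw [List.getD_eq_default _ _ (by simpa [hlen] using hi)] at this
    omega
  · intro m
    refine lt_of_le_of_lt (hPE m) ?_
    rw [coeff_C_mul]
    have h5 := KB.coeff_le_eval_one (coeff_Wp_nonneg ns) m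
    rw [eval_one_Wp] at h5
    have h6 : ((M + E : ℕ) : ℤ) * coeff m (Wp ns) ≤ ((M + E : ℕ) : ℤ) * 2 ^ ns.sum :=
      mul_le_mul_of_nonneg_left h5 (by positivity)
    refine lt_of_le_of_lt h6 ?_
    exact_mod_cast hbd
  · rw [sg_eq_sz, Hm_eq_hh]
    have e : eval (fun i => (2 : ℤ) ^ (B * KB.sg (fun j => Ls.reverse.getD j 1) i))
        (P - C (E : ℤ) * Wp ns) = Z - E * eval (Tv B Ls) (Wp ns) := by
      change eval (Tv B Ls) (P - C (E : ℤ) * Wp ns) = _
      rw [map_sub, map_mul, eval_C, h1]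
    rw [e]
    exact hchk

end Crest.Agent.R097.MA
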