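import Mathlib

/-!
# Row 97, verification engine, part 1: Bernstein forms by the recursion of de Casteljau
-/

set_option autoImplicit false

namespace Crest.Agent.R097.MC

/-! ## one variable -/

/-- Bernstein form of degree `n` with coefficients `b 0, ..., b n` -/
noncomputable def bern : ℕ → (ℕ → ℝ) → ℝ → ℝ
  | 0, b, _ => b 0
  | n + 1, b, t => (1 - t) * bern n b t + t * bern n (fun i => b (i + 1)) t

theorem bern_add (n : ℕ) (b c : ℕ → ℝ) (t : ℝ) :
    bern n (fun i => b i + c i) t = bern n b t + bern n c t := by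
  induction n generalizing b c with
  | zero => rfl
  | succ n ih => simp only [bern, ih]; ring

theorem bern_smul (n : ℕ) (k : ℝ) (b : ℕ → ℝ) (t : ℝ) :
    bern n (fun i => k * b i) t = k * bern n b t := by
  induction n generalizing b with
  | zero => rfl
  | succ n ih => simp only [bern, ih]; ring

theorem bern_const (n : ℕ) (k t : ℝ) : bern n (fun _ => k) t = k := by
  induction n with
  | zero => rfl
  | succ n ih => simp only [bern, ih]; ring

theorem bern_congr (n : ℕ) {b c : ℕ → ℝ} (h : ∀ i, i ≤ n → b i = c i) (t : ℝ) :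
    bern n b t = bern n c t := by
  induction n generalizing b c with
  | zero => exact h 0 le_rfl
  | succ n ih =>
    simp only [bern]
    rw [ih (fun i hi => h i (by omega)), ih (b := fun i => b (i + 1)) (c := fun i => c (i + 1))
      (fun i hi => h (i + 1) (by omega))]

theorem bern_mono (n : ℕ) {b c : ℕ → ℝ} (h : ∀ i, i ≤ n → b i ≤ c i) {t : ℝ} (h0 : 0 ≤ t)
    (h1 : t ≤ 1) : bern n b t ≤ bern n c t := by
  induction n generalizing b c with
  | zero => exact h 0 le_rfl
  | succ n ih =>
    simp only [bern]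
    have e1 := ih (b := b) (c := c) (fun i hi => h i (by omega))
    have e2 := ih (b := fun i => b (i + 1)) (c := fun i => c (i + 1))
      (fun i hi => h (i + 1) (by omega))
    have h2 : 0 ≤ 1 - t := by linarith
    gcongr

theorem bern_nonneg (n : ℕ) {b : ℕ → ℝ} (h : ∀ i, i ≤ n → 0 ≤ b i) {t : ℝ} (h0 : 0 ≤ t)
    (h1 : t ≤ 1) : 0 ≤ bern n b t := by
  have := bern_mono n (b := fun _ => 0) h h0 h1
  rwa [bern_const] at this

/-- the operator `(1-s) b i + s b (i+1)` -/
noncomputable def lin (s : ℝ) (b : ℕ → ℝ) : ℕ → ℝ := fun i => (1 - s) * b i + s * b (i + 1)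

theorem bern_lin_comm (n : ℕ) (s t : ℝ) (b : ℕ → ℝ) :
    bern n (lin s b) t = (1 - s) * bern n b t + s * bern n (fun i => b (i + 1)) t := by
  have e : lin s b = fun i => (1 - s) * b i + s * b (i + 1) := rfl
  rw [e, bern_add, bern_smul, bern_smul]

/-- left half -/
theorem bern_left (n : ℕ) (b : ℕ → ℝ) (s t : ℝ) :
    bern n (fun i => (lin s)^[i] b 0) t = bern n b (s * t) := by
  induction n generalizing b with
  | zero => rfl
  | succ n ih =>
    simp only [bern]
    rw [ih b]
    have e : (fun i => (lin s)^[i + 1] b 0) = fun i => (lin s)^[i] (lin s b) 0 := by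
      funext i; rw [Function.iterate_succ_apply]
    rw [e, ih (lin s b), bern_lin_comm]
    ring

theorem lin_iter_shift (s : ℝ) (k : ℕ) (b : ℕ → ℝ) (j : ℕ) :
    (lin s)^[k] (fun i => b (i + 1)) j = (lin s)^[k] b (j + 1) := by
  induction k generalizing b with
  | zero => rfl
  | succ k ih =>
    rw [Function.iterate_succ_apply, Function.iterate_succ_apply]
    have : lin s (fun i => b (i + 1)) = fun i => lin s b (i + 1) := by funext i; rfl
    rw [this, ih]

/-- right part: coefficients `(lin s)^(n-b) b` at `b` -/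
theorem bern_right (n : ℕ) (b : ℕ → ℝ) (s t : ℝ) :
    bern n (fun i => (lin s)^[n - i] b i) t = bern n b (s + (1 - s) * t) := by
  induction n generalizing b with
  | zero => rfl
  | succ n ih =>
    simp only [bern]
    have e1 : bern n (fun i => (lin s)^[n + 1 - i] b i) t = bern n (lin s b) (s + (1 - s) * t) := by
      rw [← ih (lin s b)]
      refine bern_congr n (fun i hi => ?_) t
      have : n + 1 - i = (n - i) + 1 := by omega
      rw [this, Function.iterate_succ_apply]
    have e2 : bern n (fun i => (lin s)^[n + 1 - (i + 1)] b (i + 1)) t =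
        bern n (fun i => b (i + 1)) (s + (1 - s) * t) := by
      rw [← ih (fun i => b (i + 1))]
      refine bern_congr n (fun i hi => ?_) t
      have : n + 1 - (i + 1) = n - i := by omega
      rw [this, lin_iter_shift]
    rw [e1, e2, bern_lin_comm]
    ring

/-- monomials: the coefficients `C(i,a)` give `C(n,a) t^a` -/
theorem bern_choose (n a : ℕ) (t : ℝ) :
    bern n (fun i => (i.choose a : ℝ)) t = (n.choose a : ℝ) * t ^ a := by
  induction n generalizing a with
  | zero =>
    cases a with
    | zero => simp [bern]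
    | succ a => simp [bern]
  | succ n ih =>
    simp only [bern]
    cases a with
    | zero =>
      simp only [Nat.choose_zero_right, Nat.cast_one, pow_zero, mul_one]
      rw [bern_const]; ring
    | succ a =>
      have e : (fun i : ℕ => (((i + 1).choose (a + 1) : ℕ) : ℝ)) =
          fun i => (i.choose a : ℝ) + (i.choose (a + 1) : ℝ) := by
        funext i; rw [Nat.choose_succ_succ]; push_cast; ring
      rw [e, bern_add, ih, ih, Nat.choose_succ_succ]
      push_cast
      ring

theorem bern_sum {ι : Type*} (S : Finset ι) (n : ℕ) (f : ι → ℕ → ℝ) (t : ℝ) :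
    bern n (fun i => ∑ a ∈ S, f a i) t = ∑ a ∈ S, bern n (f a) t := by
  classical
  induction S using Finset.induction_on with
  | empty => simp [bern_const]
  | insert a S ha ih =>
    simp only [Finset.sum_insert ha]
    rw [bern_add, ih]

/-! ## several variables

`ms` is the list of the lengths (degree + 1) of the axes, outermost first; the coefficient of the
multiindex `(a_0, a_1, ...)` is at position `a_0 * sz ms' + ...`. -/

/-- number of coefficients -/
def sz : List ℕ → ℕ
  | [] => 1
  | m :: ms => m * sz ms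

/-- value of the tensor at the point `t` (coordinates `t j, t (j+1), ...`) -/
noncomputable def ev : List ℕ → (ℕ → ℝ) → (ℕ → ℝ) → ℕ → ℝ
  | [], c, _, _ => c 0
  | m :: ms, c, t, j => bern (m - 1) (fun a => ev ms (fun i => c (a * sz ms + i)) t (j + 1)) (t j)

theorem sz_pos {ms : List ℕ} (h : ∀ m ∈ ms, 0 < m) : 0 < sz ms := by
  induction ms with
  | nil => simp [sz]
  | cons m ms ih =>
    simp only [sz]
    exact Nat.mul_pos (h m (by simp)) (ih (fun x hx => h x (by simp [hx])))

theorem ev_add (ms : List ℕ) (c d : ℕ → ℝ) (t : ℕ → ℝ) (j : ℕ) :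
    ev ms (fun i => c i + d i) t j = ev ms c t j + ev ms d t j := by
  induction ms generalizing c d j with
  | nil => rfl
  | cons m ms ih => simp only [ev, ih, bern_add]

theorem ev_smul (ms : List ℕ) (k : ℝ) (c : ℕ → ℝ) (t : ℕ → ℝ) (j : ℕ) :
    ev ms (fun i => k * c i) t j = k * ev ms c t j := by
  induction ms generalizing c j with
  | nil => rfl
  | cons m ms ih => simp only [ev, ih, bern_smul]

theorem ev_const (ms : List ℕ) (k : ℝ) (t : ℕ → ℝ) (j : ℕ) : ev ms (fun _ => k) t j = k := by
  induction ms generalizing j with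
  | nil => rfl
  | cons m ms ih => simp only [ev, ih, bern_const]

theorem block_lt {a m s i : ℕ} (ha : a < m) (hi : i < s) : a * s + i < m * s := by
  calc a * s + i < a * s + s := by omega
    _ = (a + 1) * s := by ring
    _ ≤ m * s := Nat.mul_le_mul_right _ ha

theorem ev_mono {ms : List ℕ} (hms : ∀ m ∈ ms, 0 < m) {c d : ℕ → ℝ} (h : ∀ i, i < sz ms → c i ≤ d i)
    {t : ℕ → ℝ} (ht : ∀ j, 0 ≤ t j ∧ t j ≤ 1) (j : ℕ) : ev ms c t j ≤ ev ms d t j := by
  induction ms generalizing c d j with
  | nil => exact h 0 (by simp [sz])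
  | cons m ms ih =>
    simp only [ev]
    have hm : 0 < m := hms m (by simp)
    refine bern_mono _ (fun a ha => ih (fun x hx => hms x (by simp [hx])) (fun i hi => h _ ?_) _)
      (ht j).1 (ht j).2
    simp only [sz]
    exact block_lt (by omega) hi

theorem ev_congr {ms : List ℕ} (hms : ∀ m ∈ ms, 0 < m) {c d : ℕ → ℝ} (h : ∀ i, i < sz ms → c i = d i)
    (t : ℕ → ℝ) (j : ℕ) : ev ms c t j = ev ms d t j := by
  induction ms generalizing c d j with
  | nil => exact h 0 (by simp [sz])
  | cons m ms ih =>
    simp only [ev]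
    have hm : 0 < m := hms m (by simp)
    refine bern_congr _ (fun a ha => ih (fun x hx => hms x (by simp [hx])) (fun i hi => h _ ?_) _) _
    simp only [sz]
    exact block_lt (by omega) hi

theorem ev_nonneg {ms : List ℕ} (hms : ∀ m ∈ ms, 0 < m) {c : ℕ → ℝ} (h : ∀ i, i < sz ms → 0 ≤ c i)
    {t : ℕ → ℝ} (ht : ∀ j, 0 ≤ t j ∧ t j ≤ 1) (j : ℕ) : 0 ≤ ev ms c t j := by
  have := ev_mono hms (c := fun _ => 0) h ht j
  rwa [ev_const] at this

theorem ev_sub (ms : List ℕ) (c d : ℕ → ℝ) (t : ℕ → ℝ) (j : ℕ) :
    ev ms (fun i => c i - d i) t j = ev ms c t j - ev ms d t j := by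
  have : (fun i => c i - d i) = fun i => c i + (-1) * d i := by funext i; ring
  rw [this, ev_add, ev_smul]; ring

theorem ev_dist {ms : List ℕ} (hms : ∀ m ∈ ms, 0 < m) {c d : ℕ → ℝ} {e : ℝ}
    (h : ∀ i, i < sz ms → |c i - d i| ≤ e) {t : ℕ → ℝ} (ht : ∀ j, 0 ≤ t j ∧ t j ≤ 1) (j : ℕ) :
    |ev ms c t j - ev ms d t j| ≤ e := by
  rw [← ev_sub, abs_le]
  constructor
  · rw [← ev_const ms (-e) t j]
    exact ev_mono hms (fun i hi => (abs_le.mp (h i hi)).1) ht j
  · rw [← ev_const ms e t j]
    exact ev_mono hms (fun i hi => (abs_le.mp (h i hi)).2) ht j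

theorem ev_congr_t (ms : List ℕ) (c : ℕ → ℝ) {t s : ℕ → ℝ} (j : ℕ) (h : ∀ i, j ≤ i → t i = s i) :
    ev ms c t j = ev ms c s j := by
  induction ms generalizing c j with
  | nil => rfl
  | cons m ms ih =>
    simp only [ev]
    rw [h j le_rfl]
    exact bern_congr _ (fun a _ => ih _ (j + 1) (fun i hi => h i (by omega))) _

theorem ev_sum {ι : Type*} (S : Finset ι) (ms : List ℕ) (f : ι → ℕ → ℝ) (t : ℕ → ℝ) (j : ℕ) :
    ev ms (fun i => ∑ a ∈ S, f a i) t j = ∑ a ∈ S, ev ms (f a) t j := by
  classical
  induction S using Finset.induction_on with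
  | empty => simp [ev_const]
  | insert a S ha ih =>
    simp only [Finset.sum_insert ha]
    rw [ev_add, ih]

/-! ## operations along one axis -/

/-- a linear operation on coefficient sequences of length `m`, which realises the
substitution `φ` -/
structure GoodOp (m : ℕ) (g : (ℕ → ℝ) → ℕ → ℝ) (φ : ℝ → ℝ) : Prop where
  add : ∀ x y b, g (fun a => x a + y a) b = g x b + g y b
  smul : ∀ k x b, g (fun a => k * x a) b = k * g x b
  bern : ∀ x t, bern (m - 1) (g x) t = bern (m - 1) x (φ t)

theorem GoodOp.comm_bern {m : ℕ} {g : (ℕ → ℝ) → ℕ → ℝ} {φ : ℝ → ℝ} (h : GoodOp m g φ) (n : ℕ)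
    (D : ℕ → ℕ → ℝ) (t : ℝ) (b : ℕ) :
    g (fun a => MC.bern n (D a) t) b = MC.bern n (fun i => g (fun a => D a i) b) t := by
  induction n generalizing D with
  | zero => rfl
  | succ n ih =>
    simp only [MC.bern]
    rw [h.add, h.smul, h.smul, ih, ih]

theorem GoodOp.comm_ev {m : ℕ} {g : (ℕ → ℝ) → ℕ → ℝ} {φ : ℝ → ℝ} (h : GoodOp m g φ) (ms : List ℕ)
    (D : ℕ → ℕ → ℝ) (t : ℕ → ℝ) (j b : ℕ) :
    g (fun a => ev ms (D a) t j) b = ev ms (fun i => g (fun a => D a i) b) t j := by
  induction ms generalizing D j with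
  | nil => rfl
  | cons m' ms ih =>
    simp only [ev]
    rw [h.comm_bern]
    simp only [ih]

/-- axis index of the position `i` -/
abbrev ax (m I i : ℕ) : ℕ := (i / I) % m

theorem ax_mul_le (m I i : ℕ) : ax m I i * I ≤ i := by
  calc ax m I i * I ≤ (i / I) * I := Nat.mul_le_mul_right _ (Nat.mod_le _ _)
    _ ≤ i := Nat.div_mul_le_self _ _

theorem ev_axis {m : ℕ} {g : (ℕ → ℝ) → ℕ → ℝ} {φ : ℝ → ℝ} (h : GoodOp m g φ) (hm : 0 < m)
    (pre post : List ℕ) (hpre : ∀ x ∈ pre, 0 < x) (hpost : ∀ x ∈ post, 0 < x)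
    (c c' : ℕ → ℝ) (t : ℕ → ℝ) (j : ℕ)
    (hc : ∀ i, i < sz (pre ++ m :: post) →
      c' i = g (fun a => c (i - ax m (sz post) i * sz post + a * sz post)) (ax m (sz post) i)) :
    ev (pre ++ m :: post) c' t j = ev (pre ++ m :: post) c
      (Function.update t (j + pre.length) (φ (t (j + pre.length)))) j := by
  induction pre generalizing c c' j with
  | nil =>
    simp only [List.nil_append, List.length_nil, Nat.add_zero, ev] at *
    have hI : 0 < sz post := sz_pos hpost
    have e1 : ∀ a, a ≤ m - 1 → ev post (fun i => c' (a * sz post + i)) t (j + 1) =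
        g (fun a' => ev post (fun i => c (a' * sz post + i)) t (j + 1)) a := by
      intro a ha
      rw [h.comm_ev]
      refine ev_congr hpost (fun i hi => ?_) t (j + 1)
      have ha' : a < m := by omega
      rw [hc _ (by simp only [sz]; exact block_lt ha' hi)]
      have e2 : ax m (sz post) (a * sz post + i) = a := by
        unfold ax
        rw [Nat.add_comm, Nat.add_mul_div_right _ _ hI, Nat.div_eq_of_lt hi, Nat.zero_add,
          Nat.mod_eq_of_lt ha']
      rw [e2, Nat.add_sub_cancel_left]
      simp only [Nat.add_comm]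
    rw [bern_congr _ e1, h.bern, Function.update_self]
    refine bern_congr _ (fun a _ => ?_) _
    refine ev_congr_t _ _ _ (fun i hi => ?_)
    rw [Function.update_of_ne (by omega)]
  | cons m0 pre ih =>
    have hp : ∀ x ∈ pre, 0 < x := fun x hx => hpre x (by simp [hx])
    simp only [List.cons_append, ev]
    have hI : 0 < sz post := sz_pos hpost
    have hS : m * sz post ∣ sz (pre ++ m :: post) := by
      clear ih hc hpre hp
      induction pre with
      | nil => simp [sz]
      | cons x xs ih2 => simp only [List.cons_append, sz]; exact Dvd.dvd.mul_left ih2 _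
    rw [show j + (m0 :: pre).length = (j + 1) + pre.length by simp only [List.length_cons]; omega]
    have e0 : Function.update t (j + 1 + pre.length) (φ (t (j + 1 + pre.length))) j = t j :=
      Function.update_of_ne (by omega) _ _
    rw [e0]
    refine bern_congr _ (fun a ha => ?_) _
    refine ih hp _ _ _ (fun i hi => ?_)
    have ha' : a < m0 := by
      have := hpre m0 (by simp)
      omega
    have hlt : a * sz (pre ++ m :: post) + i < sz (m0 :: pre ++ m :: post) := by
      simp only [List.cons_append, sz]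
      exact block_lt ha' hi
    rw [hc _ hlt]
    obtain ⟨q, hq⟩ := hS
    have e2 : ax m (sz post) (a * sz (pre ++ m :: post) + i) = ax m (sz post) i := by
      unfold ax
      rw [hq, show a * (m * sz post * q) + i = i + (a * m * q) * sz post by ring,
        Nat.add_mul_div_right _ _ hI, show a * m * q = m * (a * q) by ring, Nat.add_mul_mod_self_left]
    rw [e2]
    have h3 := ax_mul_le m (sz post) i
    congr 1
    funext a'
    congr 1
    omega

/-- left half -/
noncomputable def gL (x : ℕ → ℝ) (b : ℕ) : ℝ := (lin (1 / 2))^[b] x 0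

/-- right half -/
noncomputable def gR (m : ℕ) (x : ℕ → ℝ) (b : ℕ) : ℝ := (lin (1 / 2))^[m - 1 - b] x b

theorem lin_iter_add (s : ℝ) (k : ℕ) (x y : ℕ → ℝ) (j : ℕ) :
    (lin s)^[k] (fun a => x a + y a) j = (lin s)^[k] x j + (lin s)^[k] y j := by
  induction k generalizing x y j with
  | zero => rfl
  | succ k ih =>
    rw [Function.iterate_succ_apply, Function.iterate_succ_apply, Function.iterate_succ_apply, ← ih]
    have e : lin s (fun a => x a + y a) = fun a => lin s x a + lin s y a := by
      funext a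
      simp only [lin]; ring
    rw [e]

theorem lin_iter_smul (s : ℝ) (k : ℕ) (r : ℝ) (x : ℕ → ℝ) (j : ℕ) :
    (lin s)^[k] (fun a => r * x a) j = r * (lin s)^[k] x j := by
  induction k generalizing x j with
  | zero => rfl
  | succ k ih =>
    rw [Function.iterate_succ_apply, Function.iterate_succ_apply, ← ih]
    have e : lin s (fun a => r * x a) = fun a => r * lin s x a := by
      funext a
      simp only [lin]; ring
    rw [e]

theorem good_gL (m : ℕ) : GoodOp m gL (fun t => 1 / 2 * t) where
  add _ _ _ := lin_iter_add _ _ _ _ _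
  smul _ _ _ := lin_iter_smul _ _ _ _ _
  bern _ _ := bern_left _ _ _ _

theorem good_gR (m : ℕ) : GoodOp m (gR m) (fun t => 1 / 2 + (1 - 1 / 2) * t) where
  add _ _ _ := lin_iter_add _ _ _ _ _
  smul _ _ _ := lin_iter_smul _ _ _ _ _
  bern _ _ := bern_right _ _ _ _

end Crest.Agent.R097.MC
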