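import Crest.Agent.R097.MC1

/-!
# Row 97, verification engine, part 2: packed numbers
-/

set_option autoImplicit false

namespace Crest.Agent.R097.MC

/-- packed number with the integer digits `d i` (base `2^B`) -/
def pz (B L : ℕ) (d : ℕ → ℤ) : ℤ := ∑ i ∈ Finset.range L, d i * 2 ^ (B * i)

/-- packed number with natural digits -/
def pn (B L : ℕ) (d : ℕ → ℕ) : ℕ := ∑ i ∈ Finset.range L, d i * 2 ^ (B * i)

theorem pn_cast (B L : ℕ) (d : ℕ → ℕ) : ((pn B L d : ℕ) : ℤ) = pz B L (fun i => (d i : ℤ)) := by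
  unfold pn pz; push_cast; rfl

theorem pz_add (B L : ℕ) (c d : ℕ → ℤ) : pz B L (fun i => c i + d i) = pz B L c + pz B L d := by
  unfold pz; rw [← Finset.sum_add_distrib]; exact Finset.sum_congr rfl fun i _ => by ring

theorem pz_sub (B L : ℕ) (c d : ℕ → ℤ) : pz B L (fun i => c i - d i) = pz B L c - pz B L d := by
  unfold pz; rw [← Finset.sum_sub_distrib]; exact Finset.sum_congr rfl fun i _ => by ring

theorem pz_mul (B L : ℕ) (k : ℤ) (c : ℕ → ℤ) : pz B L (fun i => k * c i) = k * pz B L c := by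
  unfold pz; rw [Finset.mul_sum]; exact Finset.sum_congr rfl fun i _ => by ring

theorem pz_congr (B : ℕ) {L : ℕ} {c d : ℕ → ℤ} (h : ∀ i, i < L → c i = d i) :
    pz B L c = pz B L d := by
  unfold pz
  exact Finset.sum_congr rfl fun i hi => by rw [h i (Finset.mem_range.mp hi)]

theorem pn_congr (B : ℕ) {L : ℕ} {c d : ℕ → ℕ} (h : ∀ i, i < L → c i = d i) :
    pn B L c = pn B L d := by
  unfold pn
  exact Finset.sum_congr rfl fun i hi => by rw [h i (Finset.mem_range.mp hi)]

theorem pz_nonneg (B L : ℕ) {c : ℕ → ℤ} (h : ∀ i, i < L → 0 ≤ c i) : 0 ≤ pz B L c := by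
  unfold pz
  refine Finset.sum_nonneg fun i hi => mul_nonneg (h i (Finset.mem_range.mp hi)) (by positivity)

theorem pn_succ (B L : ℕ) (d : ℕ → ℕ) :
    pn B (L + 1) d = 2 ^ B * pn B L (fun i => d (i + 1)) + d 0 := by
  unfold pn
  rw [Finset.sum_range_succ', Finset.mul_sum]
  simp only [Nat.mul_zero, pow_zero, Nat.mul_one]
  congr 1
  refine Finset.sum_congr rfl fun i _ => ?_
  rw [Nat.mul_add, Nat.mul_one, pow_add]; ring

/-- bits of a packed number -/
theorem testBit_pn {B : ℕ} (hB : 0 < B) (L : ℕ) (d : ℕ → ℕ) (hd : ∀ i, d i < 2 ^ B) (p : ℕ) :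
    (pn B L d).testBit p = (decide (p / B < L) && (d (p / B)).testBit (p % B)) := by
  induction L generalizing d p with
  | zero => simp [pn]
  | succ L ih =>
    rw [pn_succ, Nat.testBit_two_pow_mul_add _ (hd 0)]
    by_cases hp : p < B
    · rw [if_pos hp, Nat.div_eq_of_lt hp, Nat.mod_eq_of_lt hp]
      simp
    · rw [if_neg hp, ih _ (fun i => hd _)]
      have h1 : p / B = (p - B) / B + 1 := by
        conv_lhs => rw [show p = (p - B) + B by omega]
        exact Nat.add_div_right _ hB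
      have h2 : (p - B) % B = p % B := by
        conv_rhs => rw [show p = (p - B) + B by omega]
        rw [Nat.add_mod_right]
      rw [h1, h2]
      simp

/-- geometric sum -/
theorem pn_const {B : ℕ} (hB : 0 < B) (L k : ℕ) :
    pn B L (fun _ => k) = k * ((2 ^ (B * L) - 1) / (2 ^ B - 1)) := by
  unfold pn
  rw [← Finset.mul_sum]
  congr 1
  have h2 : 2 ≤ 2 ^ B := by
    calc 2 = 2 ^ 1 := rfl
      _ ≤ 2 ^ B := Nat.pow_le_pow_right (by norm_num) hB
  have h := Nat.geomSum_eq h2 L
  rw [pow_mul, ← h]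
  exact Finset.sum_congr rfl fun i _ => by rw [pow_mul]

/-- all digits one -/
def ones (B L : ℕ) : ℕ := Nat.div (Nat.sub (Nat.pow 2 (Nat.mul B L)) 1) (Nat.sub (Nat.pow 2 B) 1)

theorem ones_eq {B : ℕ} (hB : 0 < B) (L : ℕ) : ones B L = pn B L (fun _ => 1) := by
  rw [pn_const hB, Nat.one_mul]; rfl

theorem mul_ones {B : ℕ} (hB : 0 < B) (L k : ℕ) : k * ones B L = pn B L (fun _ => k) := by
  rw [pn_const hB]; rfl

/-- the offset -/
def hh (B L : ℕ) : ℕ := Nat.mul (Nat.pow 2 (Nat.sub B 1)) (ones B L)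

theorem hh_eq {B : ℕ} (hB : 0 < B) (L : ℕ) : hh B L = pn B L (fun _ => 2 ^ (B - 1)) :=
  mul_ones hB L _

/-! ### positions with axis index 0 -/

/-- mask of the positions with axis index zero (`L = O * (m * I)`) -/
def mask (B m I O : ℕ) : ℕ :=
  Nat.mul (Nat.sub (Nat.pow 2 (Nat.mul B I)) 1) (ones (Nat.mul B (Nat.mul m I)) O)

theorem sum_blocks (f : ℕ → ℕ) (m s : ℕ) :
    ∑ i ∈ Finset.range (m * s), f i = ∑ a ∈ Finset.range m, ∑ r ∈ Finset.range s, f (a * s + r) := by
  induction m with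
  | zero => simp
  | succ m ih =>
    rw [Finset.sum_range_succ, ← ih, Nat.succ_mul, Finset.sum_range_add]

theorem sum_blocks_z (f : ℕ → ℤ) (m s : ℕ) :
    ∑ i ∈ Finset.range (m * s), f i = ∑ a ∈ Finset.range m, ∑ r ∈ Finset.range s, f (a * s + r) := by
  induction m with
  | zero => simp
  | succ m ih =>
    rw [Finset.sum_range_succ, ← ih, Nat.succ_mul, Finset.sum_range_add]

theorem ax_block {m I : ℕ} (hI : 0 < I) (o b r : ℕ) (hb : b < m) (hr : r < I) :
    ax m I (o * (m * I) + (b * I + r)) = b := by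
  unfold ax
  rw [show o * (m * I) + (b * I + r) = r + (b + o * m) * I by ring, Nat.add_mul_div_right _ _ hI,
    Nat.div_eq_of_lt hr, Nat.zero_add, Nat.add_mul_mod_self_right, Nat.mod_eq_of_lt hb]

theorem mask_eq {B : ℕ} (hB : 0 < B) {m I : ℕ} (hm : 0 < m) (hI : 0 < I) (O : ℕ) :
    mask B m I O = pn B (O * (m * I)) (fun i => if ax m I i = 0 then 2 ^ B - 1 else 0) := by
  have hmI : 0 < B * (m * I) := by positivity
  have e1 : ones (B * (m * I)) O = pn (B * (m * I)) O (fun _ => 1) := ones_eq hmI O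
  have e2 : mask B m I O = (2 ^ (B * I) - 1) * ones (B * (m * I)) O := rfl
  rw [e2, e1]
  unfold pn
  rw [Finset.mul_sum, sum_blocks]
  refine Finset.sum_congr rfl fun o _ => ?_
  rw [sum_blocks]
  rw [Finset.sum_eq_single_of_mem 0 (Finset.mem_range.mpr hm)]
  · have h3 : ∀ r ∈ Finset.range I, (if ax m I (o * (m * I) + (0 * I + r)) = 0 then 2 ^ B - 1 else 0) *
        2 ^ (B * (o * (m * I) + (0 * I + r))) = ((2 ^ B - 1) * 2 ^ (B * r)) * 2 ^ (B * (m * I) * o) := by
      intro r hr
      rw [ax_block hI o 0 r hm (Finset.mem_range.mp hr), if_pos rfl, mul_assoc, ← pow_add]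
      congr 2
      ring
    rw [Finset.sum_congr rfl h3, ← Finset.sum_mul]
    beta_reduce
    rw [one_mul]
    congr 1
    have h4 := pn_const hB I (2 ^ B - 1)
    unfold pn at h4
    rw [h4]
    have h5 : 2 ^ B - 1 ∣ 2 ^ (B * I) - 1 := by
      rw [pow_mul]
      exact Nat.sub_one_dvd_pow_sub_one _ _
    rw [Nat.mul_div_cancel' h5]
  · intro b hb hb0
    refine Finset.sum_eq_zero fun r hr => ?_
    beta_reduce
    rw [ax_block hI o b r (Finset.mem_range.mp hb) (Finset.mem_range.mp hr), if_neg hb0, zero_mul]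

/-- slice number `b` of an axis, moved to the index 0 -/
theorem slice_eq {B : ℕ} (hB : 0 < B) {m I : ℕ} (hm : 0 < m) (hI : 0 < I) (O : ℕ) (d : ℕ → ℕ)
    (hd : ∀ i, d i < 2 ^ B) (b : ℕ) (hb : b < m) :
    Nat.land (Nat.shiftRight (pn B (O * (m * I)) d) (B * (b * I))) (mask B m I O) =
      pn B (O * (m * I)) (fun i => if ax m I i = 0 then d (i + b * I) else 0) := by
  rw [mask_eq hB hm hI]
  apply Nat.eq_of_testBit_eq
  intro p
  have h0 : ∀ i, (if ax m I i = 0 then 2 ^ B - 1 else 0) < 2 ^ B := by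
    intro i
    have : 0 < 2 ^ B := by positivity
    split_ifs <;> omega
  have h1 : ∀ i, (if ax m I i = 0 then d (i + b * I) else 0) < 2 ^ B := by
    intro i
    have : 0 < 2 ^ B := by positivity
    split_ifs
    · exact hd _
    · exact this
  change (((pn B (O * (m * I)) d) >>> (B * (b * I))) &&& _).testBit p = _
  rw [Nat.testBit_and, Nat.testBit_shiftRight, testBit_pn hB _ _ h0, testBit_pn hB _ _ h1,
    testBit_pn hB _ _ hd]
  have e1 : (B * (b * I) + p) / B = p / B + b * I := by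
    rw [Nat.add_comm, Nat.add_mul_div_left _ _ hB]
  have e2 : (B * (b * I) + p) % B = p % B := by
    rw [Nat.add_comm, Nat.add_mul_mod_self_left]
  rw [e1, e2]
  by_cases hL : p / B < O * (m * I)
  · by_cases hz : ax m I (p / B) = 0
    · have h3 : p / B + b * I < O * (m * I) := by
        -- the block of p / B has index q * m
        obtain ⟨q, hq⟩ : ∃ q, p / B / I = q * m := by
          have := Nat.div_add_mod (p / B / I) m
          unfold ax at hz
          exact ⟨p / B / I / m, by rw [hz] at this; rw [Nat.mul_comm]; omega⟩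
        have hq2 : q < O := by
          have h4 : p / B / I < O * m := by
            rw [Nat.div_lt_iff_lt_mul hI]
            calc p / B < O * (m * I) := hL
              _ = O * m * I := by ring
          rw [hq] at h4
          exact lt_of_mul_lt_mul_right h4 (Nat.zero_le _)
        have h5 : p / B < (p / B / I + 1) * I := by
          have := Nat.lt_div_mul_add (a := p / B) hI
          calc p / B < p / B / I * I + I := this
            _ = (p / B / I + 1) * I := by ring
        calc p / B + b * I < (p / B / I + 1) * I + b * I := by omega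
          _ = (q * m + (b + 1)) * I := by rw [hq]; ring
          _ ≤ (q * m + m) * I := Nat.mul_le_mul_right _ (by omega)
          _ = (q + 1) * (m * I) := by ring
          _ ≤ O * (m * I) := Nat.mul_le_mul_right _ hq2
      have h6 : (2 ^ B - 1).testBit (p % B) = true := by
        rw [Nat.testBit_two_pow_sub_one]
        simp [Nat.mod_lt _ hB]
      simp [hL, hz, h3, h6]
    · simp [hz]
  · simp [hL]

/-- division of all digits by a power of two -/
theorem shift_eq {B : ℕ} (hB : 0 < B) (L : ℕ) (d : ℕ → ℕ) (hd : ∀ i, d i < 2 ^ B) (s : ℕ)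
    (hs : s ≤ B) :
    Nat.land (Nat.shiftRight (pn B L d) s) (Nat.mul (Nat.sub (Nat.pow 2 (Nat.sub B s)) 1) (ones B L)) =
      pn B L (fun i => d i / 2 ^ s) := by
  have e0 : Nat.mul (Nat.sub (Nat.pow 2 (Nat.sub B s)) 1) (ones B L) =
      pn B L (fun _ => 2 ^ (B - s) - 1) := mul_ones hB L _
  rw [e0]
  apply Nat.eq_of_testBit_eq
  intro p
  have h2 : 2 ^ (B - s) ≤ 2 ^ B := Nat.pow_le_pow_right (by norm_num) (Nat.sub_le _ _)
  have h0 : ∀ i : ℕ, (fun _ => 2 ^ (B - s) - 1) i < 2 ^ B := by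
    intro i
    have : 0 < 2 ^ (B - s) := by positivity
    change 2 ^ (B - s) - 1 < 2 ^ B
    omega
  have h1 : ∀ i, d i / 2 ^ s < 2 ^ B := fun i => lt_of_le_of_lt (Nat.div_le_self _ _) (hd i)
  change (((pn B L d) >>> s) &&& _).testBit p = _
  rw [Nat.testBit_and, Nat.testBit_shiftRight, testBit_pn hB _ _ h0, testBit_pn hB _ _ h1,
    testBit_pn hB _ _ hd, Nat.testBit_div_two_pow, Nat.testBit_two_pow_sub_one]
  by_cases h3 : p % B < B - s
  · have e1 : (s + p) / B = p / B := by
      conv_lhs => rw [← Nat.div_add_mod p B]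
      rw [show s + (B * (p / B) + p % B) = (s + p % B) + B * (p / B) by ring,
        Nat.add_mul_div_left _ _ hB, Nat.div_eq_of_lt (by omega), Nat.zero_add]
    have e2 : (s + p) % B = s + p % B := by
      conv_lhs => rw [← Nat.div_add_mod p B]
      rw [show s + (B * (p / B) + p % B) = (s + p % B) + B * (p / B) by ring,
        Nat.add_mul_mod_self_left, Nat.mod_eq_of_lt (by omega)]
    rw [e1, e2, Nat.add_comm s (p % B)]
    by_cases h4 : p / B < L <;> simp [h3, h4]
  · have h5 : (d (p / B)).testBit (p % B + s) = false := by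
      apply Nat.testBit_lt_two_pow
      calc d (p / B) < 2 ^ B := hd _
        _ ≤ 2 ^ (p % B + s) := Nat.pow_le_pow_right (by norm_num) (by omega)
    simp [h3, h5]

/-- sign test: the top bit of all digits is set -/
theorem top_bits {B : ℕ} (hB : 0 < B) (L : ℕ) (d : ℕ → ℕ) (hd : ∀ i, d i < 2 ^ B)
    (h : Nat.land (pn B L d) (hh B L) = hh B L) : ∀ i, i < L → 2 ^ (B - 1) ≤ d i := by
  intro i hi
  rw [hh_eq hB] at h
  have h0 : ∀ i : ℕ, (fun _ => 2 ^ (B - 1)) i < 2 ^ B := by
    intro i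
    change 2 ^ (B - 1) < 2 ^ B
    exact Nat.pow_lt_pow_right (by norm_num) (by omega)
  have h1 : ((pn B L d) &&& (pn B L (fun _ => 2 ^ (B - 1)))).testBit (B * i + (B - 1)) =
      (pn B L (fun _ => 2 ^ (B - 1))).testBit (B * i + (B - 1)) := by
    change (Nat.land _ _).testBit _ = _
    rw [h]
  rw [Nat.testBit_and, testBit_pn hB _ _ h0, testBit_pn hB _ _ hd] at h1
  have e1 : (B * i + (B - 1)) / B = i := by
    rw [Nat.add_comm, Nat.add_mul_div_left _ _ hB, Nat.div_eq_of_lt (by omega), Nat.zero_add]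
  have e2 : (B * i + (B - 1)) % B = B - 1 := by
    rw [Nat.add_comm, Nat.add_mul_mod_self_left, Nat.mod_eq_of_lt (by omega)]
  rw [e1, e2] at h1
  have h3 : (2 ^ (B - 1) : ℕ).testBit (B - 1) = true := by
    rw [Nat.testBit_two_pow]; simp
  simp only [hi, decide_true, Bool.true_and, h3, Bool.and_true] at h1
  exact Nat.ge_two_pow_of_testBit h1

end Crest.Agent.R097.MC
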