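import Crest.Agent.R097.MC2

/-!
# Row 97, verification engine, part 3: splitting along an axis
-/

set_option autoImplicit false

namespace Crest.Agent.R097.MC

/-! ## the kernel functions -/

/-- neighbour sums -/
def nb (L : List ℕ) : List ℕ :=
  List.rec (motive := fun _ => List ℕ) [] (fun x L' ih =>
    List.rec (motive := fun _ => List ℕ) [] (fun y _ _ => Nat.add x y :: ih) L') L

/-- heads of the rows of the triangle -/
def hds (n : ℕ) : List ℕ → List ℕ :=
  Nat.rec (motive := fun _ => List ℕ → List ℕ) (fun _ => [])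
    (fun _ ih L => List.rec (motive := fun _ => List ℕ) [] (fun x _ _ => x :: ih (nb L)) L) n

/-- last element -/
def lastD (L : List ℕ) : ℕ → ℕ :=
  List.rec (motive := fun _ => ℕ → ℕ) (fun d => d) (fun x _ ih _ => ih x) L

/-- last elements of the rows of the triangle -/
def lst (n : ℕ) : List ℕ → List ℕ → List ℕ :=
  Nat.rec (motive := fun _ => List ℕ → List ℕ → List ℕ) (fun _ acc => acc)
    (fun _ ih L acc => ih (nb L) (lastD L 0 :: acc)) n

/-- the slices of an axis -/
def slices (N M s : ℕ) (m : ℕ) : ℕ → List ℕ :=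
  Nat.rec (motive := fun _ => ℕ → List ℕ) (fun _ => [])
    (fun _ ih sh => Nat.land (Nat.shiftRight N sh) M :: ih (Nat.add sh s)) m

/-- put the slices together -/
def jn (δ : ℕ) (L : List ℕ) : ℕ → ℕ → ℕ :=
  List.rec (motive := fun _ => ℕ → ℕ → ℕ) (fun _ acc => acc)
    (fun r _ ih sh acc => ih (Nat.add sh δ) (Nat.add acc (Nat.shiftLeft r sh))) L

/-- division by `2^n` -/
def rnd (B L n N : ℕ) : ℕ :=
  Nat.add (Nat.land (Nat.shiftRight (Nat.sub N (Nat.mul (Nat.sub (Nat.pow 2 n) 1) (hh B L))) n)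
    (Nat.mul (Nat.sub (Nat.pow 2 (Nat.sub B n)) 1) (ones B L)))
    (Nat.sub (hh B L) (Nat.shiftRight (hh B L) n))

/-- left half -/
def splL (B m I O N : ℕ) : ℕ :=
  rnd B (Nat.mul O (Nat.mul m I)) (Nat.sub m 1)
    (jn (Nat.sub (Nat.mul B I) 1) (hds m (slices N (mask B m I O) (Nat.mul B I) m 0)) (Nat.sub m 1) 0)

/-- right half -/
def splR (B m I O N : ℕ) : ℕ :=
  rnd B (Nat.mul O (Nat.mul m I)) (Nat.sub m 1)
    (jn (Nat.add (Nat.mul B I) 1) (lst m (slices N (mask B m I O) (Nat.mul B I) m 0) []) 0 0)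

/-! ## lists and functions -/

/-- the list consists of packed numbers -/
def LR (B L : ℕ) : List ℕ → (ℕ → ℕ → ℤ) → Prop
  | [], _ => True
  | x :: l, F => ((x : ℕ) : ℤ) = pz B L (F 0) ∧ LR B L l (fun a => F (a + 1))

/-- neighbour sums of functions -/
def nbf (F : ℕ → ℕ → ℤ) : ℕ → ℕ → ℤ := fun a i => F a i + F (a + 1) i

/-- neighbour sums of sequences -/
def nbz (x : ℕ → ℤ) : ℕ → ℤ := fun a => x a + x (a + 1)

theorem LR.congr {B L : ℕ} {l : List ℕ} {F G : ℕ → ℕ → ℤ} (h : LR B L l F)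
    (hFG : ∀ a, a < l.length → F a = G a) : LR B L l G := by
  induction l generalizing F G with
  | nil => trivial
  | cons x l ih =>
    refine ⟨by rw [h.1, hFG 0 (by simp)], ih h.2 (fun a ha => hFG (a + 1) (by simpa using ha))⟩

theorem nb_cons_cons (x y : ℕ) (l : List ℕ) : nb (x :: y :: l) = (x + y) :: nb (y :: l) := rfl
theorem nb_nil : nb [] = [] := rfl
theorem nb_one (x : ℕ) : nb [x] = [] := rfl

theorem nb_length (l : List ℕ) : (nb l).length = l.length - 1 := by
  induction l with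
  | nil => rfl
  | cons x l ih =>
    cases l with
    | nil => rfl
    | cons y l => rw [nb_cons_cons, List.length_cons, ih]; simp

theorem LR_nb {B L : ℕ} {l : List ℕ} {F : ℕ → ℕ → ℤ} (h : LR B L l F) : LR B L (nb l) (nbf F) := by
  induction l generalizing F with
  | nil => trivial
  | cons x l ih =>
    cases l with
    | nil => trivial
    | cons y l =>
      rw [nb_cons_cons]
      refine ⟨?_, ih h.2⟩
      push_cast
      rw [h.1, h.2.1, ← pz_add]
      rfl

theorem hds_succ (n x : ℕ) (l : List ℕ) : hds (n + 1) (x :: l) = x :: hds n (nb (x :: l)) := rfl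

theorem hds_length (n : ℕ) (l : List ℕ) (h : l.length = n) : (hds n l).length = n := by
  induction n generalizing l with
  | zero => rfl
  | succ n ih =>
    cases l with
    | nil => simp at h
    | cons x l =>
      rw [hds_succ, List.length_cons, ih _ (by rw [nb_length]; simpa using h)]

theorem LR_hds {B L : ℕ} (n : ℕ) {l : List ℕ} {F : ℕ → ℕ → ℤ} (h : LR B L l F) :
    LR B L (hds n l) (fun k => nbf^[k] F 0) := by
  induction n generalizing l F with
  | zero => trivial
  | succ n ih =>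
    cases l with
    | nil => trivial
    | cons x l =>
      rw [hds_succ]
      exact ⟨h.1, ih (LR_nb h)⟩

theorem lastD_eq {B L : ℕ} {l : List ℕ} {F : ℕ → ℕ → ℤ} (h : LR B L l F) (hl : l ≠ []) (d : ℕ) :
    ((lastD l d : ℕ) : ℤ) = pz B L (F (l.length - 1)) := by
  induction l generalizing F d with
  | nil => exact absurd rfl hl
  | cons x l ih =>
    change ((lastD l x : ℕ) : ℤ) = _
    cases l with
    | nil => exact h.1
    | cons y l =>
      rw [ih h.2 (by simp)]
      simp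

theorem LR_lst {B L : ℕ} (n : ℕ) {l acc : List ℕ} {F G : ℕ → ℕ → ℤ} (h : LR B L l F)
    (hl : l.length = n) (hG : LR B L acc G) :
    LR B L (lst n l acc) (fun k => if k < n then nbf^[n - 1 - k] F k else G (k - n)) := by
  induction n generalizing l acc F G with
  | zero => exact hG
  | succ n ih =>
    change LR B L (lst n (nb l) (lastD l 0 :: acc)) _
    have hl0 : l ≠ [] := by rintro rfl; simp at hl
    have h1 := ih (l := nb l) (acc := lastD l 0 :: acc) (F := nbf F)
      (G := fun k => if k = 0 then F n else G (k - 1)) (LR_nb h) (by rw [nb_length, hl]; simp)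
      ⟨by rw [lastD_eq h hl0, hl]; rfl, by simpa using hG⟩
    refine h1.congr (fun k _ => ?_)
    by_cases h2 : k < n
    · rw [if_pos h2, if_pos (by omega)]
      have : n + 1 - 1 - k = (n - 1 - k) + 1 := by omega
      rw [this, Function.iterate_succ_apply]
    · rw [if_neg h2]
      by_cases h3 : k = n
      · subst h3; simp
      · rw [if_neg (by omega), if_neg (by omega)]
        congr 1

theorem lst_length (n : ℕ) (l acc : List ℕ) : (lst n l acc).length = n + acc.length := by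
  induction n generalizing l acc with
  | zero => simp [lst]
  | succ n ih =>
    change (lst n (nb l) (lastD l 0 :: acc)).length = _
    rw [ih, List.length_cons]; omega

theorem jn_eq {B L : ℕ} (δ : ℕ) {l : List ℕ} {F : ℕ → ℕ → ℤ} (h : LR B L l F) (sh acc : ℕ) :
    ((jn δ l sh acc : ℕ) : ℤ) = acc + ∑ b ∈ Finset.range l.length, 2 ^ (sh + b * δ) * pz B L (F b) := by
  induction l generalizing F sh acc with
  | nil => simp [jn]
  | cons x l ih =>
    change ((jn δ l (sh + δ) (acc + x <<< sh) : ℕ) : ℤ) = _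
    rw [ih h.2, List.length_cons, Finset.sum_range_succ']
    rw [Nat.shiftLeft_eq]
    push_cast
    rw [h.1, Nat.zero_mul, Nat.add_zero]
    have : ∀ b, sh + δ + b * δ = sh + (b + 1) * δ := fun b => by ring
    simp only [this]
    ring

theorem nbf_iter (k : ℕ) (F : ℕ → ℕ → ℤ) (a i : ℕ) :
    nbf^[k] F a i = nbz^[k] (fun a' => F a' i) a := by
  induction k generalizing F with
  | zero => rfl
  | succ k ih => rw [Function.iterate_succ_apply, Function.iterate_succ_apply, ih]; rfl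

theorem nbz_add_const (k : ℕ) (x : ℕ → ℤ) (h : ℤ) (a : ℕ) :
    nbz^[k] (fun a' => x a' + h) a = nbz^[k] x a + 2 ^ k * h := by
  induction k generalizing x h with
  | zero => simp
  | succ k ih =>
    rw [Function.iterate_succ_apply, Function.iterate_succ_apply]
    have : nbz (fun a' => x a' + h) = fun a' => nbz x a' + 2 * h := by
      funext a'; simp only [nbz]; ring
    rw [this, ih]; ring

theorem nbz_zero (k : ℕ) (a : ℕ) : nbz^[k] (fun _ => 0) a = 0 := by
  induction k with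
  | zero => rfl
  | succ k ih =>
    rw [Function.iterate_succ_apply]
    have : nbz (fun _ => 0) = fun _ => 0 := by funext a'; simp [nbz]
    rw [this, ih]

theorem nbz_abs (k : ℕ) (x : ℕ → ℤ) (M : ℤ) (h : ∀ a, |x a| ≤ M) (a : ℕ) :
    |nbz^[k] x a| ≤ 2 ^ k * M := by
  induction k generalizing x M with
  | zero => simpa using h a
  | succ k ih =>
    rw [Function.iterate_succ_apply]
    have : ∀ a, |nbz x a| ≤ 2 * M := by
      intro a
      simp only [nbz]
      exact (abs_add_le _ _).trans (by linarith [h a, h (a + 1)])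
    calc _ ≤ 2 ^ k * (2 * M) := ih _ _ this
      _ = _ := by ring

theorem nbz_lin (k : ℕ) (x : ℕ → ℤ) (a : ℕ) :
    (lin (1 / 2))^[k] (fun i => (x i : ℝ)) a = ((nbz^[k] x a : ℤ) : ℝ) / 2 ^ k := by
  induction k generalizing x with
  | zero => simp
  | succ k ih =>
    rw [Function.iterate_succ_apply, Function.iterate_succ_apply]
    have : lin (1 / 2) (fun i => (x i : ℝ)) = fun i => (1 / 2 : ℝ) * ((nbz x i : ℤ) : ℝ) := by
      funext i; simp only [lin, nbz]; push_cast; ring
    rw [this, lin_iter_smul, ih, pow_succ]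
    field_simp

/-! ## assembling the slices -/

theorem assemble (B : ℕ) {m I : ℕ} (hm : 0 < m) (hI : 0 < I) (O : ℕ) (F : ℕ → ℕ → ℤ)
    (hF : ∀ b i, ax m I i ≠ 0 → F b i = 0) (w : ℕ → ℤ) :
    ∑ b ∈ Finset.range m, w b * 2 ^ (B * (b * I)) * pz B (O * (m * I)) (F b) =
      pz B (O * (m * I)) (fun i => w (ax m I i) * F (ax m I i) (i - ax m I i * I)) := by
  have e1 : ∀ b ∈ Finset.range m, w b * 2 ^ (B * (b * I)) * pz B (O * (m * I)) (F b) =
      ∑ o ∈ Finset.range O, ∑ r ∈ Finset.range I,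
        w b * F b (o * (m * I) + r) * 2 ^ (B * (o * (m * I) + (b * I + r))) := by
    intro b _
    unfold pz
    rw [sum_blocks_z, Finset.mul_sum]
    refine Finset.sum_congr rfl fun o _ => ?_
    rw [sum_blocks_z, Finset.sum_eq_single_of_mem 0 (Finset.mem_range.mpr hm)]
    · rw [Finset.mul_sum]
      refine Finset.sum_congr rfl fun r _ => ?_
      rw [Nat.zero_mul, Nat.zero_add]
      rw [show B * (o * (m * I) + (b * I + r)) = B * (b * I) + B * (o * (m * I) + r) by ring, pow_add]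
      ring
    · intro b' hb' hb0
      refine Finset.sum_eq_zero fun r hr => ?_
      rw [hF, zero_mul]
      rw [ax_block hI o b' r (Finset.mem_range.mp hb') (Finset.mem_range.mp hr)]
      exact hb0
  rw [Finset.sum_congr rfl e1, Finset.sum_comm]
  unfold pz
  rw [sum_blocks_z]
  refine Finset.sum_congr rfl fun o _ => ?_
  rw [sum_blocks_z]
  refine Finset.sum_congr rfl fun b hb => ?_
  refine Finset.sum_congr rfl fun r hr => ?_
  beta_reduce
  rw [ax_block hI o b r (Finset.mem_range.mp hb) (Finset.mem_range.mp hr)]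
  have : o * (m * I) + (b * I + r) - b * I = o * (m * I) + r := by omega
  rw [this]

/-! ## representation -/

/-- `N` is the packed tensor with the integer coefficients `c`, `|c| ≤ M` -/
structure Rep (B L : ℕ) (M : ℤ) (N : ℕ) (c : ℕ → ℤ) : Prop where
  le : ∀ i, |c i| ≤ M
  eq : (N : ℤ) = pz B L (fun i => c i + 2 ^ (B - 1))

theorem hh_cast {B : ℕ} (hB : 0 < B) (L : ℕ) : ((hh B L : ℕ) : ℤ) = pz B L (fun _ => 2 ^ (B - 1)) := by
  rw [hh_eq hB, pn_cast]; push_cast; rfl

theorem two_pow_pred {B : ℕ} (hB : 0 < B) : (2 : ℤ) ^ B = 2 * 2 ^ (B - 1) := by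
  conv_lhs => rw [show B = (B - 1) + 1 by omega, pow_succ]
  ring

/-- natural digits -/
theorem Rep.pn {B L : ℕ} {M : ℤ} {N : ℕ} {c : ℕ → ℤ} (h : Rep B L M N c) (hM : M < 2 ^ (B - 1)) :
    N = MC.pn B L (fun i => (c i + 2 ^ (B - 1)).toNat) := by
  have : (N : ℤ) = ((MC.pn B L (fun i => (c i + 2 ^ (B - 1)).toNat) : ℕ) : ℤ) := by
    rw [h.eq, pn_cast]
    refine pz_congr B fun i _ => ?_
    have := abs_le.mp (h.le i)
    rw [Int.toNat_of_nonneg (by linarith)]
  exact_mod_cast this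

theorem Rep.dlt {B L : ℕ} {M : ℤ} {N : ℕ} {c : ℕ → ℤ} (h : Rep B L M N c) (hB : 0 < B)
    (hM : M < 2 ^ (B - 1)) (i : ℕ) : (c i + 2 ^ (B - 1)).toNat < 2 ^ B := by
  have h1 := abs_le.mp (h.le i)
  have h2 := two_pow_pred hB
  have h3 : c i + 2 ^ (B - 1) < ((2 ^ B : ℕ) : ℤ) := by push_cast; linarith
  omega

theorem rnd_rep {B : ℕ} (hB : 0 < B) (L n : ℕ) (hn : n ≤ B - 1) (M : ℤ) (hM : 2 ^ n * M < 2 ^ (B - 1))
    (N : ℕ) (v : ℕ → ℤ) (hv : ∀ i, |v i| ≤ 2 ^ n * M)
    (hN : (N : ℤ) = pz B L (fun i => v i + 2 ^ n * 2 ^ (B - 1))) :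
    Rep B L M (rnd B L n N) (fun i => v i / 2 ^ n) := by
  have hp : (0 : ℤ) < 2 ^ n := by positivity
  refine ⟨fun i => ?_, ?_⟩
  · have := abs_le.mp (hv i)
    rw [abs_le]
    constructor
    · apply Int.le_ediv_of_mul_le hp; linarith
    · apply Int.ediv_le_of_le_mul hp
      linarith
  · -- the number before the shift
    have e1 : ((Nat.sub N (Nat.mul (Nat.sub (Nat.pow 2 n) 1) (hh B L)) : ℕ) : ℤ) =
        pz B L (fun i => v i + 2 ^ (B - 1)) := by
      have e2 : ((Nat.mul (Nat.sub (Nat.pow 2 n) 1) (hh B L) : ℕ) : ℤ) =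
          pz B L (fun _ => (2 ^ n - 1) * 2 ^ (B - 1)) := by
        rw [pz_mul B L (2 ^ n - 1) (fun _ => 2 ^ (B - 1)), ← hh_cast hB]
        change (((2 ^ n - 1) * hh B L : ℕ) : ℤ) = _
        rw [Nat.cast_mul, Nat.cast_sub (Nat.one_le_two_pow)]
        push_cast; ring
      have e3 : (N : ℤ) - ((Nat.mul (Nat.sub (Nat.pow 2 n) 1) (hh B L) : ℕ) : ℤ) =
          pz B L (fun i => v i + 2 ^ (B - 1)) := by
        rw [e2, hN, ← pz_sub]
        exact pz_congr B fun i _ => by ring
      have e4 : 0 ≤ pz B L (fun i => v i + 2 ^ (B - 1)) :=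
        pz_nonneg B L fun i _ => by have := abs_le.mp (hv i); linarith
      have e5 : Nat.mul (Nat.sub (Nat.pow 2 n) 1) (hh B L) ≤ N := by
        have : ((Nat.mul (Nat.sub (Nat.pow 2 n) 1) (hh B L) : ℕ) : ℤ) ≤ N := by linarith
        exact_mod_cast this
      change ((N - Nat.mul (Nat.sub (Nat.pow 2 n) 1) (hh B L) : ℕ) : ℤ) = _
      rw [Nat.cast_sub e5, e3]
    have r1 : Rep B L (2 ^ n * M) (Nat.sub N (Nat.mul (Nat.sub (Nat.pow 2 n) 1) (hh B L))) v :=
      ⟨hv, e1⟩
    have e6 := r1.pn hM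
    have e7 : Nat.land (Nat.shiftRight (Nat.sub N (Nat.mul (Nat.sub (Nat.pow 2 n) 1) (hh B L))) n)
        (Nat.mul (Nat.sub (Nat.pow 2 (Nat.sub B n)) 1) (ones B L)) =
        MC.pn B L (fun i => (v i + 2 ^ (B - 1)).toNat / 2 ^ n) := by
      rw [e6]
      exact shift_eq hB L _ (r1.dlt hB hM) n (by omega)
    have e8 : ((Nat.sub (hh B L) (Nat.shiftRight (hh B L) n) : ℕ) : ℤ) =
        pz B L (fun _ => 2 ^ (B - 1) - 2 ^ (B - 1 - n)) := by
      have e9 : hh B L = 2 ^ n * MC.pn B L (fun _ => 2 ^ (B - 1 - n)) := by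
        rw [hh_eq hB]
        unfold MC.pn
        rw [Finset.mul_sum]
        refine Finset.sum_congr rfl fun i _ => ?_
        change 2 ^ (B - 1) * 2 ^ (B * i) = 2 ^ n * (2 ^ (B - 1 - n) * 2 ^ (B * i))
        have e12 : 2 ^ (B - 1) = 2 ^ n * 2 ^ (B - 1 - n) := by rw [← pow_add]; congr 1; omega
        rw [e12, mul_assoc]
      have e10 : Nat.shiftRight (hh B L) n = MC.pn B L (fun _ => 2 ^ (B - 1 - n)) := by
        change hh B L >>> n = _
        rw [Nat.shiftRight_eq_div_pow, e9, Nat.mul_div_cancel_left _ (by positivity)]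
      have e11 : Nat.shiftRight (hh B L) n ≤ hh B L := by
        change hh B L >>> n ≤ _
        rw [Nat.shiftRight_eq_div_pow]
        exact Nat.div_le_self _ _
      change ((hh B L - Nat.shiftRight (hh B L) n : ℕ) : ℤ) = _
      rw [Nat.cast_sub e11, e10, hh_cast hB, pn_cast, ← pz_sub]
      push_cast; rfl
    change ((Nat.land _ _ + Nat.sub _ _ : ℕ) : ℤ) = _
    rw [Nat.cast_add, e7, e8, pn_cast, ← pz_add]
    refine pz_congr B fun i _ => ?_
    have h1 := abs_le.mp (hv i)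
    have h2 : (0 : ℤ) ≤ v i + 2 ^ (B - 1) := by linarith
    rw [Int.natCast_ediv, Int.toNat_of_nonneg h2]
    push_cast
    have h3 : (2 : ℤ) ^ (B - 1) = 2 ^ (B - 1 - n) * 2 ^ n := by rw [← pow_add]; congr 1; omega
    rw [h3, Int.add_mul_ediv_right _ _ hp.ne']
    ring

/-! ## the split -/

theorem ax_sub_zero {m I : ℕ} (hm : 0 < m) (hI : 0 < I) (i : ℕ) : ax m I (i - ax m I i * I) = 0 := by
  unfold ax
  have h1 : i / I % m * I ≤ i := ax_mul_le m I i
  rw [Nat.mul_comm (i / I % m) I, Nat.sub_mul_div]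
  have h2 : m * (i / I / m) + i / I % m = i / I := Nat.div_add_mod _ _
  have h3 : i / I - i / I % m = m * (i / I / m) := by omega
  rw [h3, Nat.mul_mod_right]

theorem ax_add {m I : ℕ} (hI : 0 < I) (i b : ℕ) (hi : ax m I i = 0) (hb : b < m) :
    ax m I (i + b * I) = b := by
  unfold ax at *
  rw [Nat.add_mul_div_right _ _ hI, Nat.add_mod, hi, Nat.zero_add, Nat.mod_mod, Nat.mod_eq_of_lt hb]

/-- the slice functions -/
def slf (B m I : ℕ) (c : ℕ → ℤ) (a i : ℕ) : ℤ := if ax m I i = 0 then c (i + a * I) + 2 ^ (B - 1) else 0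

theorem LR_slices {B : ℕ} (hB : 0 < B) {m I : ℕ} (hm : 0 < m) (hI : 0 < I) (O : ℕ) {M : ℤ} {N : ℕ}
    {c : ℕ → ℤ} (h : Rep B (O * (m * I)) M N c) (hM : M < 2 ^ (B - 1)) (k b : ℕ) (hkb : b + k ≤ m) :
    LR B (O * (m * I)) (slices N (mask B m I O) (Nat.mul B I) k (B * (b * I)))
      (fun a => slf B m I c (b + a)) := by
  induction k generalizing b with
  | zero => trivial
  | succ k ih =>
    change LR B (O * (m * I)) (Nat.land (Nat.shiftRight N (B * (b * I))) (mask B m I O) ::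
      slices N (mask B m I O) (Nat.mul B I) k (Nat.add (B * (b * I)) (Nat.mul B I))) _
    refine ⟨?_, ?_⟩
    · conv_lhs => rw [h.pn hM]
      rw [slice_eq hB hm hI O _ (h.dlt hB hM) b (by omega), pn_cast]
      refine pz_congr B fun i _ => ?_
      simp only [slf, Nat.add_zero]
      by_cases hz : ax m I i = 0
      · rw [if_pos hz, if_pos hz]
        have := abs_le.mp (h.le (i + b * I))
        exact Int.toNat_of_nonneg (by linarith)
      · rw [if_neg hz, if_neg hz]; rfl
    · have e1 : Nat.add (B * (b * I)) (Nat.mul B I) = B * ((b + 1) * I) := by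
        change B * (b * I) + B * I = _
        ring
      rw [e1]
      refine (ih (b + 1) (by omega)).congr fun a _ => ?_
      rw [show b + 1 + a = b + (a + 1) by ring]

theorem slices_length (N M s m sh : ℕ) : (slices N M s m sh).length = m := by
  induction m generalizing sh with
  | zero => rfl
  | succ m ih =>
    change (_ :: slices N M s m (Nat.add sh s)).length = _
    rw [List.length_cons, ih]

theorem slf_iter {B : ℕ} {m I : ℕ} (c : ℕ → ℤ) (k a i : ℕ) (hi : ax m I i = 0) :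
    nbf^[k] (fun a => slf B m I c a) a i = nbz^[k] (fun a => c (i + a * I)) a + 2 ^ k * 2 ^ (B - 1) := by
  rw [nbf_iter]
  simp only [slf, if_pos hi]
  exact nbz_add_const k (fun a => c (i + a * I)) _ a

theorem slf_iter_zero {B : ℕ} {m I : ℕ} (c : ℕ → ℤ) (k a i : ℕ) (hi : ax m I i ≠ 0) :
    nbf^[k] (fun a => slf B m I c a) a i = 0 := by
  rw [nbf_iter]
  simp only [slf, if_neg hi]
  exact nbz_zero k a

/-- numerators of the left half -/
def vL (m I : ℕ) (c : ℕ → ℤ) (i : ℕ) : ℤ :=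
  2 ^ (m - 1 - ax m I i) * nbz^[ax m I i] (fun a => c (i - ax m I i * I + a * I)) 0

/-- numerators of the right half -/
def vR (m I : ℕ) (c : ℕ → ℤ) (i : ℕ) : ℤ :=
  2 ^ (ax m I i) * nbz^[m - 1 - ax m I i] (fun a => c (i - ax m I i * I + a * I)) (ax m I i)

theorem ax_lt {m I : ℕ} (hm : 0 < m) (i : ℕ) : ax m I i < m := Nat.mod_lt _ hm

theorem vL_abs {m I : ℕ} (hm : 0 < m) {c : ℕ → ℤ} {M : ℤ} (h : ∀ i, |c i| ≤ M) (i : ℕ) :
    |vL m I c i| ≤ 2 ^ (m - 1) * M := by
  unfold vL
  rw [abs_mul, abs_of_nonneg (by positivity : (0 : ℤ) ≤ 2 ^ (m - 1 - ax m I i))]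
  have h1 := nbz_abs (ax m I i) (fun a => c (i - ax m I i * I + a * I)) M (fun a => h _) 0
  have h2 := ax_lt (I := I) hm i
  calc _ ≤ 2 ^ (m - 1 - ax m I i) * (2 ^ ax m I i * M) := by gcongr
    _ = 2 ^ (m - 1) * M := by
      rw [← mul_assoc, ← pow_add]; congr 2; omega

theorem vR_abs {m I : ℕ} (hm : 0 < m) {c : ℕ → ℤ} {M : ℤ} (h : ∀ i, |c i| ≤ M) (i : ℕ) :
    |vR m I c i| ≤ 2 ^ (m - 1) * M := by
  unfold vR
  rw [abs_mul, abs_of_nonneg (by positivity : (0 : ℤ) ≤ 2 ^ (ax m I i))]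
  have h1 := nbz_abs (m - 1 - ax m I i) (fun a => c (i - ax m I i * I + a * I)) M (fun a => h _)
    (ax m I i)
  have h2 := ax_lt (I := I) hm i
  calc _ ≤ 2 ^ (ax m I i) * (2 ^ (m - 1 - ax m I i) * M) := by gcongr
    _ = 2 ^ (m - 1) * M := by
      rw [← mul_assoc, ← pow_add]; congr 2; omega

theorem splL_rep {B : ℕ} (hB : 0 < B) {m I : ℕ} (hm : 0 < m) (hI : 0 < I) (O : ℕ) {M : ℤ} {N : ℕ}
    {c : ℕ → ℤ} (h : Rep B (O * (m * I)) M N c) (hM : 2 ^ (m - 1) * M < 2 ^ (B - 1))
    (hmB : m ≤ B) :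
    Rep B (O * (m * I)) M (splL B m I O N) (fun i => vL m I c i / 2 ^ (m - 1)) := by
  have hM0 : 0 ≤ M := (abs_nonneg _).trans (h.le 0)
  have hM1 : M < 2 ^ (B - 1) := by
    have : (1 : ℤ) ≤ 2 ^ (m - 1) := one_le_pow₀ (by norm_num)
    nlinarith
  refine rnd_rep hB _ (m - 1) (by omega) M hM _ (vL m I c) (vL_abs hm h.le) ?_
  have h1 : LR B (O * (m * I)) (slices N (mask B m I O) (Nat.mul B I) m 0)
      (fun a => slf B m I c a) := by
    have := LR_slices hB hm hI O h hM1 m 0 (by omega)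
    simpa using this
  have h2 := LR_hds m h1
  have h3 : (hds m (slices N (mask B m I O) (Nat.mul B I) m 0)).length = m :=
    hds_length m _ (slices_length _ _ _ _ _)
  rw [jn_eq _ h2, h3]
  have h4 := assemble B hm hI O (fun b => nbf^[b] (fun a => slf B m I c a) 0)
    (fun b i hi => slf_iter_zero c b 0 i hi) (fun b => 2 ^ (m - 1 - b))
  have h5 : ∑ b ∈ Finset.range m, (2 : ℤ) ^ (Nat.sub m 1 + b * Nat.sub (Nat.mul B I) 1) *
      pz B (O * (m * I)) (nbf^[b] (fun a => slf B m I c a) 0) =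
      ∑ b ∈ Finset.range m, 2 ^ (m - 1 - b) * 2 ^ (B * (b * I)) *
      pz B (O * (m * I)) (nbf^[b] (fun a => slf B m I c a) 0) := by
    refine Finset.sum_congr rfl fun b hb => ?_
    rw [← pow_add]
    congr 2
    change m - 1 + b * (B * I - 1) = _
    have hb' := Finset.mem_range.mp hb
    have hBI : 1 ≤ B * I := Nat.mul_pos hB hI
    obtain ⟨k, hk⟩ := Nat.exists_eq_add_of_le hBI
    have e1 : B * (b * I) = b * (B * I) := by ring
    rw [e1, hk, Nat.add_sub_cancel_left, Nat.mul_add]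
    omega
  rw [h5, h4]
  push_cast
  rw [zero_add]
  refine pz_congr B fun i _ => ?_
  have h6 := ax_lt (I := I) hm i
  rw [slf_iter c _ 0 _ (ax_sub_zero hm hI i)]
  unfold vL
  rw [mul_add, ← mul_assoc (2 ^ (m - 1 - ax m I i)) (2 ^ ax m I i), ← pow_add]
  congr 3
  omega

theorem splR_rep {B : ℕ} (hB : 0 < B) {m I : ℕ} (hm : 0 < m) (hI : 0 < I) (O : ℕ) {M : ℤ} {N : ℕ}
    {c : ℕ → ℤ} (h : Rep B (O * (m * I)) M N c) (hM : 2 ^ (m - 1) * M < 2 ^ (B - 1))
    (hmB : m ≤ B) :
    Rep B (O * (m * I)) M (splR B m I O N) (fun i => vR m I c i / 2 ^ (m - 1)) := by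
  have hM0 : 0 ≤ M := (abs_nonneg _).trans (h.le 0)
  have hM1 : M < 2 ^ (B - 1) := by
    have : (1 : ℤ) ≤ 2 ^ (m - 1) := one_le_pow₀ (by norm_num)
    nlinarith
  refine rnd_rep hB _ (m - 1) (by omega) M hM _ (vR m I c) (vR_abs hm h.le) ?_
  have h1 : LR B (O * (m * I)) (slices N (mask B m I O) (Nat.mul B I) m 0)
      (fun a => slf B m I c a) := by
    have := LR_slices hB hm hI O h hM1 m 0 (by omega)
    simpa using this
  have h2 := LR_lst (G := fun _ _ => 0) m h1 (slices_length _ _ _ _ _) (acc := []) trivial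
  have h3 : (lst m (slices N (mask B m I O) (Nat.mul B I) m 0) []).length = m :=
    lst_length m _ _
  rw [jn_eq _ h2, h3]
  have h4 := assemble B hm hI O (fun b => nbf^[m - 1 - b] (fun a => slf B m I c a) b)
    (fun b i hi => slf_iter_zero c _ b i hi) (fun b => 2 ^ b)
  have h5 : ∑ b ∈ Finset.range m, (2 : ℤ) ^ (0 + b * Nat.add (Nat.mul B I) 1) *
      pz B (O * (m * I)) (if b < m then nbf^[m - 1 - b] (fun a => slf B m I c a) b else
        (fun _ _ => 0) (b - m)) =
      ∑ b ∈ Finset.range m, 2 ^ b * 2 ^ (B * (b * I)) *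
      pz B (O * (m * I)) (nbf^[m - 1 - b] (fun a => slf B m I c a) b) := by
    refine Finset.sum_congr rfl fun b hb => ?_
    have hb' := Finset.mem_range.mp hb
    rw [if_pos hb', ← pow_add]
    congr 2
    change 0 + b * (B * I + 1) = _
    ring
  rw [h5, h4]
  push_cast
  rw [zero_add]
  refine pz_congr B fun i _ => ?_
  have h6 := ax_lt (I := I) hm i
  rw [slf_iter c _ _ _ (ax_sub_zero hm hI i)]
  unfold vR
  rw [mul_add, ← mul_assoc (2 ^ (ax m I i)) (2 ^ (m - 1 - ax m I i)), ← pow_add]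
  congr 3
  omega

end Crest.Agent.R097.MC
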