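import Crest.Agent.R097.MC3

/-!
# Row 97, verification engine, part 4: the checker
-/

set_option autoImplicit false

namespace Crest.Agent.R097.MC

/-! ## packed sums -/

/-- the unit box -/
def Box (t : ℕ → ℝ) : Prop := ∀ j, 0 ≤ t j ∧ t j ≤ 1

/-- `S` is the packed tensor of a function `f`: offset `A`, error `A e`, size `A M` -/
def PS (B : ℕ) (ms : List ℕ) (M e : ℕ) (A S : ℕ) (f : (ℕ → ℝ) → ℝ) : Prop :=
  ∃ c : ℕ → ℤ, (∀ i, |c i| ≤ (A : ℤ) * M) ∧
    (S : ℤ) = pz B (sz ms) (fun i => c i + (A : ℤ) * 2 ^ (B - 1)) ∧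
    ∀ t, Box t → |f t - ev ms (fun i => (c i : ℝ)) t 0| ≤ (A : ℝ) * e

theorem PS.zero (B : ℕ) (ms : List ℕ) (M e : ℕ) : PS B ms M e 0 0 (fun _ => 0) := by
  refine ⟨fun _ => 0, fun i => by simp, ?_, fun t _ => ?_⟩
  · simp [pz]
  · have : ev ms (fun _ => (((0 : ℤ) : ℝ))) t 0 = 0 := by
      rw [Int.cast_zero]; exact ev_const ms 0 t 0
    rw [this]; simp

theorem PS.add {B : ℕ} {ms : List ℕ} {M e A S A' S' : ℕ} {f g : (ℕ → ℝ) → ℝ}
    (h : PS B ms M e A S f) (h' : PS B ms M e A' S' g) :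
    PS B ms M e (A + A') (S + S') (fun t => f t + g t) := by
  obtain ⟨c, h1, h2, h3⟩ := h
  obtain ⟨d, g1, g2, g3⟩ := h'
  refine ⟨fun i => c i + d i, fun i => ?_, ?_, fun t ht => ?_⟩
  · have := abs_add_le (c i) (d i)
    push_cast
    linarith [h1 i, g1 i]
  · push_cast
    rw [h2, g2, ← pz_add]
    exact pz_congr B fun i _ => by ring
  · have e1 : ev ms (fun i => (((c i + d i : ℤ)) : ℝ)) t 0 =
        ev ms (fun i => (c i : ℝ)) t 0 + ev ms (fun i => (d i : ℝ)) t 0 := by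
      rw [← ev_add]; congr 1; funext i; push_cast; rfl
    rw [e1]
    have a1 := abs_le.mp (h3 t ht)
    have a2 := abs_le.mp (g3 t ht)
    rw [abs_le]
    push_cast
    constructor <;> linarith [a1.1, a1.2, a2.1, a2.2]

theorem PS.smul {B : ℕ} {ms : List ℕ} {M e A S : ℕ} {f : (ℕ → ℝ) → ℝ}
    (h : PS B ms M e A S f) (k : ℕ) : PS B ms M e (k * A) (k * S) (fun t => k * f t) := by
  obtain ⟨c, h1, h2, h3⟩ := h
  refine ⟨fun i => k * c i, fun i => ?_, ?_, fun t ht => ?_⟩
  · rw [abs_mul, Nat.abs_cast]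
    push_cast
    rw [mul_assoc]
    exact mul_le_mul_of_nonneg_left (h1 i) (by positivity)
  · push_cast
    rw [h2, ← pz_mul]
    exact pz_congr B fun i _ => by ring
  · have e1 : ev ms (fun i => (((k * c i : ℤ)) : ℝ)) t 0 = k * ev ms (fun i => (c i : ℝ)) t 0 := by
      rw [← ev_smul]; congr 1; funext i; push_cast; rfl
    rw [e1, ← mul_sub, abs_mul, Nat.abs_cast]
    push_cast
    rw [mul_assoc]
    exact mul_le_mul_of_nonneg_left (h3 t ht) (by positivity)

theorem PS.neg {B : ℕ} {ms : List ℕ} {M e A S : ℕ} {f : (ℕ → ℝ) → ℝ} (hB : 0 < B)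
    (hM : (M : ℤ) < 2 ^ (B - 1))
    (h : PS B ms M e A S f) :
    PS B ms M e A (A * (2 * hh B (sz ms)) - S) (fun t => -f t) := by
  obtain ⟨c, h1, h2, h3⟩ := h
  refine ⟨fun i => - c i, fun i => by rw [abs_neg]; exact h1 i, ?_, fun t ht => ?_⟩
  · have e1 : ((A * (2 * hh B (sz ms)) : ℕ) : ℤ) = pz B (sz ms) (fun _ => 2 * (A * 2 ^ (B - 1))) := by
      rw [pz_mul B (sz ms) 2 (fun _ => (A : ℤ) * 2 ^ (B - 1)),
        pz_mul B (sz ms) A (fun _ => (2 : ℤ) ^ (B - 1)), ← hh_cast hB]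
      push_cast; ring
    have e2 : ((A * (2 * hh B (sz ms)) : ℕ) : ℤ) - S =
        pz B (sz ms) (fun i => -c i + (A : ℤ) * 2 ^ (B - 1)) := by
      rw [e1, h2, ← pz_sub]
      exact pz_congr B fun i _ => by ring
    have e3 : 0 ≤ pz B (sz ms) (fun i => -c i + (A : ℤ) * 2 ^ (B - 1)) := by
      refine pz_nonneg B _ fun i _ => ?_
      have a1 := (abs_le.mp (h1 i)).2
      have a2 : (A : ℤ) * M ≤ A * 2 ^ (B - 1) := mul_le_mul_of_nonneg_left hM.le (by positivity)
      linarith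
    have e4 : S ≤ A * (2 * hh B (sz ms)) := by
      have : (S : ℤ) ≤ ((A * (2 * hh B (sz ms)) : ℕ) : ℤ) := by linarith
      exact_mod_cast this
    rw [Nat.cast_sub e4, e2]
  · have e1 : ev ms (fun i => (((- c i : ℤ)) : ℝ)) t 0 = - ev ms (fun i => (c i : ℝ)) t 0 := by
      have : (fun i => (((- c i : ℤ)) : ℝ)) = fun i => (-1) * (c i : ℝ) := by
        funext i; push_cast; ring
      rw [this, ev_smul]; ring
    rw [e1]
    have := h3 t ht
    rw [show -f t - -ev ms (fun i => (c i : ℝ)) t 0 = -(f t - ev ms (fun i => (c i : ℝ)) t 0) by ring,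
      abs_neg]
    exact this

/-! ## the final test -/

/-- conjunction, kernel friendly -/
def band (a b : Bool) : Bool := Bool.rec (motive := fun _ => Bool) false b a

theorem band_eq {a b : Bool} : band a b = true ↔ a = true ∧ b = true := by
  cases a <;> cases b <;> simp [band]

/-- all coefficients are at least `e A` -/
def fin (B L M e A S : ℕ) : Bool :=
  band (Nat.ble 1 A) (band (Nat.blt (Nat.mul A (Nat.add M e)) (Nat.pow 2 (Nat.sub B 1)))
    (Nat.beq (Nat.land (Nat.sub S (Nat.add (Nat.mul (Nat.sub A 1) (hh B L))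
      (Nat.mul (Nat.mul e A) (ones B L)))) (hh B L)) (hh B L)))

theorem fin_sound {B : ℕ} (hB : 0 < B) {ms : List ℕ} (hms : ∀ m ∈ ms, 0 < m) {M e A S : ℕ}
    {f : (ℕ → ℝ) → ℝ} (h : PS B ms M e A S f) (hf : fin B (sz ms) M e A S = true) (t : ℕ → ℝ)
    (ht : Box t) : 0 ≤ f t := by
  obtain ⟨c, h1, h2, h3⟩ := h
  unfold fin at hf
  rw [band_eq, band_eq] at hf
  obtain ⟨k1, k2, k3⟩ := hf
  have k1' : 1 ≤ A := Nat.le_of_ble_eq_true k1
  have k2' : A * (M + e) < 2 ^ (B - 1) := by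
    have : Nat.ble (Nat.succ (A * (M + e))) (2 ^ (B - 1)) = true := k2
    exact Nat.le_of_ble_eq_true this
  have k2z : (A : ℤ) * (M + e) < 2 ^ (B - 1) := by exact_mod_cast k2'
  have k3' := Nat.eq_of_beq_eq_true k3
  have hx : ((Nat.add (Nat.mul (Nat.sub A 1) (hh B (sz ms))) (Nat.mul (Nat.mul e A) (ones B (sz ms))) :
      ℕ) : ℤ) = pz B (sz ms) (fun _ => ((A : ℤ) - 1) * 2 ^ (B - 1) + e * A) := by
    change (((A - 1) * hh B (sz ms) + (e * A) * ones B (sz ms) : ℕ) : ℤ) = _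
    rw [mul_ones hB, Nat.cast_add, pn_cast, Nat.cast_mul, Nat.cast_sub k1', hh_cast hB, ← pz_mul,
      ← pz_add]
    push_cast; rfl
  have hd : ∀ i, 0 ≤ c i + 2 ^ (B - 1) - e * A ∧ c i + 2 ^ (B - 1) - e * A < 2 ^ B := by
    intro i
    have a1 := abs_le.mp (h1 i)
    have a2 := two_pow_pred hB
    have a3 : (0 : ℤ) ≤ e * A := by positivity
    constructor <;> nlinarith
  have hs : (S : ℤ) - ((Nat.add (Nat.mul (Nat.sub A 1) (hh B (sz ms)))
      (Nat.mul (Nat.mul e A) (ones B (sz ms))) : ℕ) : ℤ) =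
      pz B (sz ms) (fun i => c i + 2 ^ (B - 1) - e * A) := by
    rw [hx, h2, ← pz_sub]
    exact pz_congr B fun i _ => by ring
  have hle : Nat.add (Nat.mul (Nat.sub A 1) (hh B (sz ms))) (Nat.mul (Nat.mul e A) (ones B (sz ms)))
      ≤ S := by
    have := pz_nonneg B (sz ms) (c := fun i => c i + 2 ^ (B - 1) - e * A) (fun i _ => (hd i).1)
    have : ((Nat.add (Nat.mul (Nat.sub A 1) (hh B (sz ms)))
      (Nat.mul (Nat.mul e A) (ones B (sz ms))) : ℕ) : ℤ) ≤ S := by linarith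
    exact_mod_cast this
  have hS : Nat.sub S (Nat.add (Nat.mul (Nat.sub A 1) (hh B (sz ms)))
      (Nat.mul (Nat.mul e A) (ones B (sz ms)))) =
      pn B (sz ms) (fun i => (c i + 2 ^ (B - 1) - e * A).toNat) := by
    have : ((Nat.sub S (Nat.add (Nat.mul (Nat.sub A 1) (hh B (sz ms)))
      (Nat.mul (Nat.mul e A) (ones B (sz ms)))) : ℕ) : ℤ) =
      ((pn B (sz ms) (fun i => (c i + 2 ^ (B - 1) - e * A).toNat) : ℕ) : ℤ) := by
      change ((S - _ : ℕ) : ℤ) = _
      rw [Nat.cast_sub hle, hs, pn_cast]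
      refine pz_congr B fun i _ => ?_
      rw [Int.toNat_of_nonneg (hd i).1]
    exact_mod_cast this
  rw [hS] at k3'
  have hb := top_bits hB (sz ms) _ (fun i => by
    have := (hd i).2
    have h4 := (hd i).1
    have h5 : ((2 ^ B : ℕ) : ℤ) = 2 ^ B := by push_cast; rfl
    omega) k3'
  have hc : ∀ i, i < sz ms → (0 : ℝ) ≤ (c i : ℝ) - (A : ℝ) * e := by
    intro i hi
    have b1 := hb i hi
    have b2 := (hd i).1
    have b3 : (((c i + 2 ^ (B - 1) - e * A).toNat : ℕ) : ℤ) = c i + 2 ^ (B - 1) - e * A :=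
      Int.toNat_of_nonneg b2
    have b4 : ((2 ^ (B - 1) : ℕ) : ℤ) ≤ c i + 2 ^ (B - 1) - e * A := by
      rw [← b3]; exact_mod_cast b1
    push_cast at b4
    have b5 : (0 : ℤ) ≤ c i - A * e := by linarith
    have : (0 : ℝ) ≤ ((c i - A * e : ℤ) : ℝ) := by exact_mod_cast b5
    push_cast at this
    linarith
  have e1 := ev_nonneg hms hc ht 0
  rw [ev_sub, ev_const] at e1
  have e2 := (abs_le.mp (h3 t ht)).1
  linarith

/-! ## rows -/

/-- test of `f ≥ Σ ± e_j` for all signs -/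
def rowt (B L M e : ℕ) (es : List (ℕ × ℕ)) : ℕ → ℕ → Bool :=
  List.rec (motive := fun _ => ℕ → ℕ → Bool) (fun A S => fin B L M e A S)
    (fun x _ ih A S => band (ih (Nat.add A x.1) (Nat.add S x.2))
      (ih (Nat.add A x.1) (Nat.add S (Nat.sub (Nat.mul x.1 (Nat.mul 2 (hh B L))) x.2)))) es

/-- list version of `PS` -/
def PSL (B : ℕ) (ms : List ℕ) (M e : ℕ) : List (ℕ × ℕ) → List ((ℕ → ℝ) → ℝ) → Prop
  | [], [] => True
  | x :: l, g :: gs => PS B ms M e x.1 x.2 g ∧ PSL B ms M e l gs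
  | _, _ => False

/-- sum of absolute values -/
noncomputable def sabs : List ((ℕ → ℝ) → ℝ) → (ℕ → ℝ) → ℝ
  | [], _ => 0
  | g :: gs, t => |g t| + sabs gs t

theorem rowt_sound {B : ℕ} (hB : 0 < B) {ms : List ℕ} (hms : ∀ m ∈ ms, 0 < m) {M e : ℕ}
    (hM : (M : ℤ) < 2 ^ (B - 1)) (es : List (ℕ × ℕ)) (gs : List ((ℕ → ℝ) → ℝ))
    (hg : PSL B ms M e es gs) {A S : ℕ} {f : (ℕ → ℝ) → ℝ} (h : PS B ms M e A S f)
    (hr : rowt B (sz ms) M e es A S = true) (t : ℕ → ℝ) (ht : Box t) : sabs gs t ≤ f t := by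
  induction es generalizing gs A S f with
  | nil =>
    cases gs with
    | nil => exact fin_sound hB hms h hr t ht
    | cons g gs => exact absurd hg (by simp [PSL])
  | cons x es ih =>
    cases gs with
    | nil => exact absurd hg (by simp [PSL])
    | cons g gs =>
      obtain ⟨h1, h2⟩ := hg
      have hr' : band (rowt B (sz ms) M e es (A + x.1) (S + x.2))
          (rowt B (sz ms) M e es (A + x.1) (S + (x.1 * (2 * hh B (sz ms)) - x.2))) = true := hr
      rw [band_eq] at hr'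
      have e1 := ih gs h2 (h.add h1) hr'.1
      have e2 := ih gs h2 (h.add (h1.neg hB hM)) hr'.2
      simp only [sabs]
      rcases abs_cases (g t) with ⟨h3, _⟩ | ⟨h3, _⟩ <;> rw [h3] <;> linarith

/-! ## combinations of the entries -/

/-- the state: the entries represent the functions -/
def StL (B : ℕ) (ms : List ℕ) (M e : ℕ) : List ℕ → List ((ℕ → ℝ) → ℝ) → Prop
  | [], [] => True
  | N :: l, g :: gs => PS B ms M e 1 N g ∧ StL B ms M e l gs
  | _, _ => False

/-- combination (sum of the weights, sum) -/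
def cmb (H2 : ℕ) (w : List ℤ) : List ℕ → ℕ × ℕ :=
  List.rec (motive := fun _ => List ℕ → ℕ × ℕ) (fun _ => (0, 0))
    (fun a _ ih Ns => List.rec (motive := fun _ => ℕ × ℕ) (0, 0)
      (fun N Ns' _ => Int.casesOn (motive := fun _ => ℕ × ℕ) a
        (fun k => Nat.rec (motive := fun _ => ℕ × ℕ) (ih Ns')
          (fun k' _ => (Nat.add (Nat.succ k') (ih Ns').1, Nat.add (Nat.mul (Nat.succ k') N) (ih Ns').2)) k)
        (fun k => (Nat.add (Nat.succ k) (ih Ns').1,
          Nat.add (Nat.mul (Nat.succ k) (Nat.sub H2 N)) (ih Ns').2))) Ns) w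

/-- real combination -/
noncomputable def dotR : List ℤ → List ((ℕ → ℝ) → ℝ) → (ℕ → ℝ) → ℝ
  | a :: w, g :: gs, t => (a : ℝ) * g t + dotR w gs t
  | _, _, _ => 0

theorem cmb_sound {B : ℕ} (hB : 0 < B) {ms : List ℕ} {M e : ℕ}
    (hM : (M : ℤ) < 2 ^ (B - 1)) (w : List ℤ) (Ns : List ℕ) (fs : List ((ℕ → ℝ) → ℝ))
    (h : StL B ms M e Ns fs) :
    PS B ms M e (cmb (Nat.mul 2 (hh B (sz ms))) w Ns).1 (cmb (Nat.mul 2 (hh B (sz ms))) w Ns).2
      (dotR w fs) := by
  induction w generalizing Ns fs with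
  | nil =>
    have : dotR [] fs = fun _ => 0 := by funext t; simp [dotR]
    rw [this]
    exact PS.zero B ms M e
  | cons a w ih =>
    cases Ns with
    | nil =>
      cases fs with
      | nil =>
        have : dotR (a :: w) [] = fun _ => 0 := by funext t; simp [dotR]
        rw [this]
        exact PS.zero B ms M e
      | cons g gs => exact absurd h (by simp [StL])
    | cons N Ns =>
      cases fs with
      | nil => exact absurd h (by simp [StL])
      | cons g gs =>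
        obtain ⟨h1, h2⟩ := h
        have h3 := ih Ns gs h2
        have e0 : dotR (a :: w) (g :: gs) = fun t => (a : ℝ) * g t + dotR w gs t := rfl
        rw [e0]
        cases a with
        | ofNat k =>
          cases k with
          | zero =>
            have e1 : cmb (Nat.mul 2 (hh B (sz ms))) (Int.ofNat 0 :: w) (N :: Ns) =
              cmb (Nat.mul 2 (hh B (sz ms))) w Ns := rfl
            rw [e1]
            have : (fun t => ((Int.ofNat 0 : ℤ) : ℝ) * g t + dotR w gs t) = dotR w gs := by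
              funext t; simp
            rw [this]
            exact h3
          | succ k =>
            have e1 : cmb (Nat.mul 2 (hh B (sz ms))) (Int.ofNat (k + 1) :: w) (N :: Ns) =
              ((k + 1) + (cmb (Nat.mul 2 (hh B (sz ms))) w Ns).1,
                (k + 1) * N + (cmb (Nat.mul 2 (hh B (sz ms))) w Ns).2) := rfl
            rw [e1]
            have h4 := (h1.smul (k + 1)).add h3
            rw [Nat.mul_one] at h4
            have : (fun t => ((Int.ofNat (k + 1) : ℤ) : ℝ) * g t + dotR w gs t) =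
              fun t => ((k + 1 : ℕ) : ℝ) * g t + dotR w gs t := by
              funext t; simp
            rw [this]
            exact h4
        | negSucc k =>
          have e1 : cmb (Nat.mul 2 (hh B (sz ms))) (Int.negSucc k :: w) (N :: Ns) =
            ((k + 1) + (cmb (Nat.mul 2 (hh B (sz ms))) w Ns).1,
              (k + 1) * ((2 * hh B (sz ms)) - N) + (cmb (Nat.mul 2 (hh B (sz ms))) w Ns).2) := rfl
          rw [e1]
          have h5 := h1.neg hB hM
          rw [Nat.one_mul] at h5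
          have h4 := (h5.smul (k + 1)).add h3
          rw [Nat.mul_one] at h4
          have : (fun t => ((Int.negSucc k : ℤ) : ℝ) * g t + dotR w gs t) =
            fun t => ((k + 1 : ℕ) : ℝ) * (-g t) + dotR w gs t := by
            funext t; rw [Int.cast_negSucc]; push_cast; ring
          rw [this]
          exact h4

/-! ## leaves -/

/-- map, kernel friendly -/
def mp {α β : Type} (f : α → β) (l : List α) : List β :=
  List.rec (motive := fun _ => List β) [] (fun x _ ih => f x :: ih) l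

theorem mp_eq {α β : Type} (f : α → β) (l : List α) : mp f l = l.map f := by
  induction l with
  | nil => rfl
  | cons x l ih => change f x :: mp f l = _; rw [ih]; rfl

/-- all rows of a leaf -/
def rowsT (B L M e : ℕ) (Ns : List ℕ) (R : List (List ℤ × List (List ℤ))) : Bool :=
  List.rec (motive := fun _ => Bool) true
    (fun x _ ih => band (rowt B L M e (mp (fun w => cmb (Nat.mul 2 (hh B L)) w Ns) x.2)
      (cmb (Nat.mul 2 (hh B L)) x.1 Ns).1 (cmb (Nat.mul 2 (hh B L)) x.1 Ns).2) ih) R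

/-- the row inequality: `Σ_j |e_j · F| ≤ f · F` -/
def RowOK (x : List ℤ × List (List ℤ)) (fs : List ((ℕ → ℝ) → ℝ)) (t : ℕ → ℝ) : Prop :=
  sabs (x.2.map fun w => dotR w fs) t ≤ dotR x.1 fs t

theorem PSL_map {B : ℕ} (hB : 0 < B) {ms : List ℕ} {M e : ℕ}
    (hM : (M : ℤ) < 2 ^ (B - 1)) {Ns : List ℕ} {fs : List ((ℕ → ℝ) → ℝ)}
    (h : StL B ms M e Ns fs) (l : List (List ℤ)) :
    PSL B ms M e (mp (fun w => cmb (Nat.mul 2 (hh B (sz ms))) w Ns) l) (l.map fun w => dotR w fs) := by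
  induction l with
  | nil => trivial
  | cons x l ih => exact ⟨cmb_sound hB hM x Ns fs h, ih⟩

theorem rowsT_sound {B : ℕ} (hB : 0 < B) {ms : List ℕ} (hms : ∀ m ∈ ms, 0 < m) {M e : ℕ}
    (hM : (M : ℤ) < 2 ^ (B - 1)) {Ns : List ℕ} {fs : List ((ℕ → ℝ) → ℝ)}
    (h : StL B ms M e Ns fs) (R : List (List ℤ × List (List ℤ)))
    (hr : rowsT B (sz ms) M e Ns R = true) (t : ℕ → ℝ) (ht : Box t) : ∀ x ∈ R, RowOK x fs t := by
  induction R with
  | nil => simp
  | cons x R ih =>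
    have hr' : band (rowt B (sz ms) M e (mp (fun w => cmb (Nat.mul 2 (hh B (sz ms))) w Ns) x.2)
      (cmb (Nat.mul 2 (hh B (sz ms))) x.1 Ns).1 (cmb (Nat.mul 2 (hh B (sz ms))) x.1 Ns).2)
      (rowsT B (sz ms) M e Ns R) = true := hr
    rw [band_eq] at hr'
    intro y hy
    rcases List.mem_cons.mp hy with h1 | h1
    · subst h1
      exact rowt_sound hB hms hM _ _ (PSL_map hB hM h y.2) (cmb_sound hB hM y.1 Ns fs h) hr'.1 t ht
    · exact ih hr'.2 y h1

/-! ## splitting -/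

theorem sz_append (pre post : List ℕ) : sz (pre ++ post) = sz pre * sz post := by
  induction pre with
  | nil => simp [sz]
  | cons x xs ih => simp only [List.cons_append, sz, ih]; ring

theorem floor_dist (a : ℤ) (n : ℕ) :
    |((a : ℝ) / 2 ^ n) - ((a / 2 ^ n : ℤ) : ℝ)| ≤ 1 := by
  have hp : (0 : ℤ) < 2 ^ n := by positivity
  have h1 : (2 : ℤ) ^ n * (a / 2 ^ n) + a % 2 ^ n = a := Int.mul_ediv_add_emod a (2 ^ n)
  have h2 := Int.emod_nonneg a hp.ne'
  have h3 := Int.emod_lt_of_pos a hp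
  have h4 : (a : ℝ) = 2 ^ n * ((a / 2 ^ n : ℤ) : ℝ) + ((a % 2 ^ n : ℤ) : ℝ) := by
    exact_mod_cast h1.symm
  have h5 : (0 : ℝ) ≤ ((a % 2 ^ n : ℤ) : ℝ) := by exact_mod_cast h2
  have h6 : ((a % 2 ^ n : ℤ) : ℝ) ≤ 2 ^ n := by exact_mod_cast h3.le
  have h7 : (0 : ℝ) < 2 ^ n := by positivity
  have h8 : ((a : ℝ) / 2 ^ n) - ((a / 2 ^ n : ℤ) : ℝ) = ((a % 2 ^ n : ℤ) : ℝ) / 2 ^ n := by
    rw [eq_div_iff h7.ne', sub_mul, div_mul_cancel₀ _ h7.ne']
    linarith
  rw [h8, abs_le]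
  constructor
  · have : 0 ≤ ((a % 2 ^ n : ℤ) : ℝ) / 2 ^ n := by positivity
    linarith
  · rw [div_le_one h7]; exact h6

theorem vL_real {m I : ℕ} (hm : 0 < m) (c : ℕ → ℤ) (i : ℕ) :
    ((vL m I c i : ℤ) : ℝ) / 2 ^ (m - 1) =
      gL (fun a => ((c (i - ax m I i * I + a * I) : ℤ) : ℝ)) (ax m I i) := by
  unfold vL gL
  rw [nbz_lin (ax m I i) (fun a => c (i - ax m I i * I + a * I))]
  have h1 := ax_lt (I := I) hm i
  have h2 : (2 : ℝ) ^ (m - 1) = 2 ^ (m - 1 - ax m I i) * 2 ^ (ax m I i) := by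
    rw [← pow_add]; congr 1; omega
  push_cast
  rw [h2]
  field_simp

theorem vR_real {m I : ℕ} (hm : 0 < m) (c : ℕ → ℤ) (i : ℕ) :
    ((vR m I c i : ℤ) : ℝ) / 2 ^ (m - 1) =
      gR m (fun a => ((c (i - ax m I i * I + a * I) : ℤ) : ℝ)) (ax m I i) := by
  unfold vR gR
  rw [nbz_lin (m - 1 - ax m I i) (fun a => c (i - ax m I i * I + a * I))]
  have h1 := ax_lt (I := I) hm i
  have h2 : (2 : ℝ) ^ (m - 1) = 2 ^ (ax m I i) * 2 ^ (m - 1 - ax m I i) := by
    rw [← pow_add]; congr 1; omega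
  push_cast
  rw [h2]
  field_simp

theorem Box.upd {t : ℕ → ℝ} (ht : Box t) (j : ℕ) {s : ℝ} (h0 : 0 ≤ s) (h1 : s ≤ 1) :
    Box (Function.update t j s) := by
  intro i
  by_cases h : i = j
  · subst h; rw [Function.update_self]; exact ⟨h0, h1⟩
  · rw [Function.update_of_ne h]; exact ht i

/-- substitution -/
noncomputable def subL (j : ℕ) (t : ℕ → ℝ) : ℕ → ℝ := Function.update t j (1 / 2 * t j)

/-- substitution -/
noncomputable def subR (j : ℕ) (t : ℕ → ℝ) : ℕ → ℝ := Function.update t j (1 / 2 + (1 - 1 / 2) * t j)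

theorem PS_left {B : ℕ} (hB : 0 < B) {pre post : List ℕ} {m : ℕ} (hms : ∀ x ∈ pre ++ m :: post, 0 < x)
    {M e N : ℕ} {f : (ℕ → ℝ) → ℝ} (h : PS B (pre ++ m :: post) M e 1 N f)
    (hM : (2 : ℤ) ^ (m - 1) * M < 2 ^ (B - 1)) (hmB : m ≤ B) :
    PS B (pre ++ m :: post) M (e + 1) 1 (splL B m (sz post) (sz pre) N)
      (fun t => f (subL pre.length t)) := by
  obtain ⟨c, h1, h2, h3⟩ := h
  have hm : 0 < m := hms m (by simp)
  have hpre : ∀ x ∈ pre, 0 < x := fun x hx => hms x (by simp [hx])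
  have hpost : ∀ x ∈ post, 0 < x := fun x hx => hms x (by simp [hx])
  have hI : 0 < sz post := sz_pos hpost
  have hsz : sz (pre ++ m :: post) = sz pre * (m * sz post) := by rw [sz_append]; rfl
  have hr : Rep B (sz pre * (m * sz post)) M N c := by
    refine ⟨fun i => by simpa using h1 i, ?_⟩
    rw [h2, hsz]; simp
  have hr' := splL_rep hB hm hI (sz pre) hr hM hmB
  refine ⟨fun i => vL m (sz post) c i / 2 ^ (m - 1), fun i => by simpa using hr'.le i, ?_,
    fun t ht => ?_⟩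
  · rw [hr'.eq, hsz]; simp
  · have ht2 : Box (subL pre.length t) :=
      ht.upd _ (by linarith [(ht pre.length).1]) (by linarith [(ht pre.length).1, (ht pre.length).2])
    have e1 := h3 _ ht2
    have e2 := ev_axis (good_gL m) hm pre post hpre hpost (fun i => (c i : ℝ))
      (fun i => ((vL m (sz post) c i : ℤ) : ℝ) / 2 ^ (m - 1)) t 0 (fun i _ => vL_real hm c i)
    rw [Nat.zero_add] at e2
    have e3 : |ev (pre ++ m :: post) (fun i => ((vL m (sz post) c i : ℤ) : ℝ) / 2 ^ (m - 1)) t 0 -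
        ev (pre ++ m :: post) (fun i => ((vL m (sz post) c i / 2 ^ (m - 1) : ℤ) : ℝ)) t 0| ≤ 1 :=
      ev_dist hms (fun i _ => floor_dist _ _) ht 0
    have e4 : ev (pre ++ m :: post) (fun i => (c i : ℝ)) (subL pre.length t) 0 =
        ev (pre ++ m :: post) (fun i => ((vL m (sz post) c i : ℤ) : ℝ) / 2 ^ (m - 1)) t 0 := e2.symm
    rw [e4] at e1
    have a1 := abs_le.mp e1
    have a2 := abs_le.mp e3
    rw [abs_le]
    push_cast at *
    constructor <;> linarith [a1.1, a1.2, a2.1, a2.2]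

theorem PS_right {B : ℕ} (hB : 0 < B) {pre post : List ℕ} {m : ℕ} (hms : ∀ x ∈ pre ++ m :: post, 0 < x)
    {M e N : ℕ} {f : (ℕ → ℝ) → ℝ} (h : PS B (pre ++ m :: post) M e 1 N f)
    (hM : (2 : ℤ) ^ (m - 1) * M < 2 ^ (B - 1)) (hmB : m ≤ B) :
    PS B (pre ++ m :: post) M (e + 1) 1 (splR B m (sz post) (sz pre) N)
      (fun t => f (subR pre.length t)) := by
  obtain ⟨c, h1, h2, h3⟩ := h
  have hm : 0 < m := hms m (by simp)
  have hpre : ∀ x ∈ pre, 0 < x := fun x hx => hms x (by simp [hx])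
  have hpost : ∀ x ∈ post, 0 < x := fun x hx => hms x (by simp [hx])
  have hI : 0 < sz post := sz_pos hpost
  have hsz : sz (pre ++ m :: post) = sz pre * (m * sz post) := by rw [sz_append]; rfl
  have hr : Rep B (sz pre * (m * sz post)) M N c := by
    refine ⟨fun i => by simpa using h1 i, ?_⟩
    rw [h2, hsz]; simp
  have hr' := splR_rep hB hm hI (sz pre) hr hM hmB
  refine ⟨fun i => vR m (sz post) c i / 2 ^ (m - 1), fun i => by simpa using hr'.le i, ?_,
    fun t ht => ?_⟩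
  · rw [hr'.eq, hsz]; simp
  · have ht2 : Box (subR pre.length t) :=
      ht.upd _ (by linarith [(ht pre.length).1]) (by linarith [(ht pre.length).1, (ht pre.length).2])
    have e1 := h3 _ ht2
    have e2 := ev_axis (good_gR m) hm pre post hpre hpost (fun i => (c i : ℝ))
      (fun i => ((vR m (sz post) c i : ℤ) : ℝ) / 2 ^ (m - 1)) t 0 (fun i _ => vR_real hm c i)
    rw [Nat.zero_add] at e2
    have e3 : |ev (pre ++ m :: post) (fun i => ((vR m (sz post) c i : ℤ) : ℝ) / 2 ^ (m - 1)) t 0 -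
        ev (pre ++ m :: post) (fun i => ((vR m (sz post) c i / 2 ^ (m - 1) : ℤ) : ℝ)) t 0| ≤ 1 :=
      ev_dist hms (fun i _ => floor_dist _ _) ht 0
    have e4 : ev (pre ++ m :: post) (fun i => (c i : ℝ)) (subR pre.length t) 0 =
        ev (pre ++ m :: post) (fun i => ((vR m (sz post) c i : ℤ) : ℝ) / 2 ^ (m - 1)) t 0 := e2.symm
    rw [e4] at e1
    have a1 := abs_le.mp e1
    have a2 := abs_le.mp e3
    rw [abs_le]
    push_cast at *
    constructor <;> linarith [a1.1, a1.2, a2.1, a2.2]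

end Crest.Agent.R097.MC
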