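import Crest.Agent.R097.MC4

/-!
# Row 97, verification engine, part 5: trees of boxes
-/

set_option autoImplicit false

namespace Crest.Agent.R097.MC

/-- subdivision: leaves carry the number of the multiplier -/
inductive Tree where
  | leaf (d : ℕ)
  | node (j : ℕ) (l r : Tree)

/-- the data of a problem -/
structure Ctx where
  B : ℕ
  M : ℕ
  e0 : ℕ
  ms : List ℕ
  rows : ℕ → List (List ℤ × List (List ℤ))
  okd : ℕ → Bool
  root : List ℕ

/-- size, kernel friendly -/
def szk (ms : List ℕ) : ℕ := List.rec (motive := fun _ => ℕ) 1 (fun m _ ih => Nat.mul m ih) ms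

theorem szk_eq (ms : List ℕ) : szk ms = sz ms := by
  induction ms with
  | nil => rfl
  | cons m ms ih => change m * szk ms = m * sz ms; rw [ih]

/-- axis data (outer size, length, inner size) -/
def axd (ms : List ℕ) : ℕ → ℕ → ℕ × ℕ × ℕ :=
  List.rec (motive := fun _ => ℕ → ℕ → ℕ × ℕ × ℕ) (fun _ _ => (0, 0, 0))
    (fun m ms' ih O j => Nat.rec (motive := fun _ => ℕ × ℕ × ℕ) (O, m, szk ms')
      (fun j' _ => ih (Nat.mul O m) j') j) ms

theorem axd_eq (ms : List ℕ) (O j : ℕ) (hj : j < ms.length) :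
    ∃ pre m post, ms = pre ++ m :: post ∧ pre.length = j ∧ axd ms O j = (O * sz pre, m, sz post) := by
  induction ms generalizing O j with
  | nil => simp at hj
  | cons m ms ih =>
    cases j with
    | zero =>
      refine ⟨[], m, ms, rfl, rfl, ?_⟩
      change (O, m, szk ms) = _
      rw [szk_eq]; simp [sz]
    | succ j =>
      obtain ⟨pre, m', post, h1, h2, h3⟩ := ih (O * m) j (by simpa using hj)
      refine ⟨m :: pre, m', post, by rw [h1]; rfl, by simp [h2], ?_⟩
      change axd ms (O * m) j = _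
      rw [h3]
      simp only [sz]
      rw [Nat.mul_assoc]

/-- one step -/
def step (c : Ctx) (x : ℕ × Bool) (Ns : List ℕ) : List ℕ :=
  Bool.rec (motive := fun _ => List ℕ)
    (mp (splL c.B (axd c.ms 1 x.1).2.1 (axd c.ms 1 x.1).2.2 (axd c.ms 1 x.1).1) Ns)
    (mp (splR c.B (axd c.ms 1 x.1).2.1 (axd c.ms 1 x.1).2.2 (axd c.ms 1 x.1).1) Ns) x.2

/-- the checker -/
noncomputable def chk (c : Ctx) (T : Tree) : ℕ → List ℕ → Bool :=
  Tree.rec (motive := fun _ => ℕ → List ℕ → Bool)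
    (fun d e Ns => band (c.okd d) (rowsT c.B (szk c.ms) c.M e Ns (c.rows d)))
    (fun j _ _ ihl ihr e Ns => band (Nat.blt j c.ms.length)
      (band (ihl (Nat.succ e) (step c (j, false) Ns)) (ihr (Nat.succ e) (step c (j, true) Ns)))) T

/-- the parameters are consistent -/
def Ctx.wf (c : Ctx) : Bool :=
  band (Nat.blt 0 c.B) (band (Nat.blt c.M (Nat.pow 2 (Nat.sub c.B 1)))
    (List.rec (motive := fun _ => Bool) true (fun m _ ih =>
      band (band (Nat.blt 0 m) (Nat.ble m c.B))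
        (band (Nat.blt (Nat.mul (Nat.pow 2 (Nat.sub m 1)) c.M) (Nat.pow 2 (Nat.sub c.B 1))) ih)) c.ms))

theorem blt_iff {a b : ℕ} : Nat.blt a b = true ↔ a < b := by
  rw [Nat.blt_eq]

theorem wf_list {B M : ℕ} (l : List ℕ)
    (h : (List.rec (motive := fun _ => Bool) true (fun m _ ih =>
      band (band (Nat.blt 0 m) (Nat.ble m B))
        (band (Nat.blt (Nat.mul (Nat.pow 2 (Nat.sub m 1)) M) (Nat.pow 2 (Nat.sub B 1))) ih)) l : Bool)
        = true) : ∀ m ∈ l, 0 < m ∧ m ≤ B ∧ (2 : ℤ) ^ (m - 1) * M < 2 ^ (B - 1) := by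
  induction l with
  | nil => simp
  | cons m l ih =>
    simp only [] at h
    rw [band_eq, band_eq, band_eq] at h
    intro x hx
    rcases List.mem_cons.mp hx with h1 | h1
    · subst h1
      refine ⟨blt_iff.mp h.1.1, Nat.le_of_ble_eq_true h.1.2, ?_⟩
      have : 2 ^ (x - 1) * M < 2 ^ (B - 1) := blt_iff.mp h.2.1
      exact_mod_cast this
    · exact ih h.2.2 x h1

theorem Ctx.wf_spec {c : Ctx} (h : c.wf = true) : 0 < c.B ∧ (c.M : ℤ) < 2 ^ (c.B - 1) ∧
    ∀ m ∈ c.ms, 0 < m ∧ m ≤ c.B ∧ (2 : ℤ) ^ (m - 1) * c.M < 2 ^ (c.B - 1) := by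
  unfold Ctx.wf at h
  rw [band_eq, band_eq] at h
  refine ⟨blt_iff.mp h.1, ?_, wf_list c.ms h.2.2⟩
  have : c.M < 2 ^ (c.B - 1) := blt_iff.mp h.2.1
  exact_mod_cast this

/-- the assertion for a list of entries -/
def FinS (c : Ctx) (e : ℕ) (Ns : List ℕ) : Prop :=
  ∀ fs, StL c.B c.ms c.M e Ns fs → ∀ t, Box t →
    ∃ d, c.okd d = true ∧ ∀ x ∈ c.rows d, RowOK x fs t

theorem dotR_map (w : List ℤ) (fs : List ((ℕ → ℝ) → ℝ)) (φ : (ℕ → ℝ) → ℕ → ℝ) (t : ℕ → ℝ) :
    dotR w (fs.map fun f t => f (φ t)) t = dotR w fs (φ t) := by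
  induction w generalizing fs with
  | nil => simp [dotR]
  | cons a w ih =>
    cases fs with
    | nil => simp [dotR]
    | cons f fs => simp only [List.map_cons, dotR, ih]

theorem sabs_congr (l : List (List ℤ)) (F G : List ℤ → (ℕ → ℝ) → ℝ) (t s : ℕ → ℝ)
    (h : ∀ w, F w t = G w s) : sabs (l.map F) t = sabs (l.map G) s := by
  induction l with
  | nil => rfl
  | cons x l ih => simp only [List.map_cons, sabs, ih, h]

theorem RowOK_map (x : List ℤ × List (List ℤ)) (fs : List ((ℕ → ℝ) → ℝ)) (φ : (ℕ → ℝ) → ℕ → ℝ)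
    (t : ℕ → ℝ) (h : RowOK x (fs.map fun f t => f (φ t)) t) : RowOK x fs (φ t) := by
  unfold RowOK at *
  rw [dotR_map] at h
  rw [sabs_congr x.2 (fun w => dotR w fs) (fun w => dotR w (fs.map fun f t => f (φ t))) (φ t) t
    (fun w => (dotR_map w fs φ t).symm)]
  exact h

theorem StL_left {B : ℕ} (hB : 0 < B) {pre post : List ℕ} {m : ℕ} (hms : ∀ x ∈ pre ++ m :: post, 0 < x)
    {M e : ℕ} (hM : (2 : ℤ) ^ (m - 1) * M < 2 ^ (B - 1)) (hmB : m ≤ B)
    (Ns : List ℕ) (fs : List ((ℕ → ℝ) → ℝ)) (h : StL B (pre ++ m :: post) M e Ns fs) :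
    StL B (pre ++ m :: post) M (e + 1) (mp (splL B m (sz post) (sz pre)) Ns)
      (fs.map fun f t => f (subL pre.length t)) := by
  induction Ns generalizing fs with
  | nil =>
    cases fs with
    | nil => trivial
    | cons f fs => exact absurd h (by simp [StL])
  | cons N Ns ih =>
    cases fs with
    | nil => exact absurd h (by simp [StL])
    | cons f fs => exact ⟨PS_left hB hms h.1 hM hmB, ih fs h.2⟩

theorem StL_right {B : ℕ} (hB : 0 < B) {pre post : List ℕ} {m : ℕ} (hms : ∀ x ∈ pre ++ m :: post, 0 < x)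
    {M e : ℕ} (hM : (2 : ℤ) ^ (m - 1) * M < 2 ^ (B - 1)) (hmB : m ≤ B)
    (Ns : List ℕ) (fs : List ((ℕ → ℝ) → ℝ)) (h : StL B (pre ++ m :: post) M e Ns fs) :
    StL B (pre ++ m :: post) M (e + 1) (mp (splR B m (sz post) (sz pre)) Ns)
      (fs.map fun f t => f (subR pre.length t)) := by
  induction Ns generalizing fs with
  | nil =>
    cases fs with
    | nil => trivial
    | cons f fs => exact absurd h (by simp [StL])
  | cons N Ns ih =>
    cases fs with
    | nil => exact absurd h (by simp [StL])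
    | cons f fs => exact ⟨PS_right hB hms h.1 hM hmB, ih fs h.2⟩

theorem subL_surj (j : ℕ) {t : ℕ → ℝ} (ht : Box t) (h : t j ≤ 1 / 2) : ∃ s, Box s ∧ subL j s = t := by
  refine ⟨Function.update t j (2 * t j), ht.upd j (by linarith [(ht j).1]) (by linarith), ?_⟩
  unfold subL
  rw [Function.update_self, Function.update_idem]
  rw [show 1 / 2 * (2 * t j) = t j by ring, Function.update_eq_self]

theorem subR_surj (j : ℕ) {t : ℕ → ℝ} (ht : Box t) (h : 1 / 2 ≤ t j) : ∃ s, Box s ∧ subR j s = t := by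
  refine ⟨Function.update t j (2 * t j - 1), ht.upd j (by linarith) (by linarith [(ht j).2]), ?_⟩
  unfold subR
  rw [Function.update_self, Function.update_idem]
  rw [show 1 / 2 + (1 - 1 / 2) * (2 * t j - 1) = t j by ring, Function.update_eq_self]

theorem FinS.node {c : Ctx} (hw : c.wf = true) {j : ℕ} (hj : j < c.ms.length) {e : ℕ} {Ns : List ℕ}
    (hl : FinS c (e + 1) (step c (j, false) Ns)) (hr : FinS c (e + 1) (step c (j, true) Ns)) :
    FinS c e Ns := by
  obtain ⟨hB, hM, hms⟩ := Ctx.wf_spec hw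
  intro fs hfs t ht
  obtain ⟨pre, m, post, h1, h2, h3⟩ := axd_eq c.ms 1 j hj
  rw [Nat.one_mul] at h3
  have hpos : ∀ x ∈ pre ++ m :: post, 0 < x := fun x hx => (hms x (by rw [h1]; exact hx)).1
  have hm := hms m (by rw [h1]; simp)
  have sl : step c (j, false) Ns = mp (splL c.B m (sz post) (sz pre)) Ns := by
    change mp (splL c.B (axd c.ms 1 j).2.1 (axd c.ms 1 j).2.2 (axd c.ms 1 j).1) Ns = _
    rw [h3]
  have sr : step c (j, true) Ns = mp (splR c.B m (sz post) (sz pre)) Ns := by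
    change mp (splR c.B (axd c.ms 1 j).2.1 (axd c.ms 1 j).2.2 (axd c.ms 1 j).1) Ns = _
    rw [h3]
  rw [h1] at hfs
  rcases le_total (t j) (1 / 2) with h | h
  · obtain ⟨s, hs, hst⟩ := subL_surj j ht h
    have h4 := StL_left hB hpos hm.2.2 hm.2.1 Ns fs hfs
    rw [← h1, ← sl, h2] at h4
    obtain ⟨d, hd, hd2⟩ := hl _ h4 s hs
    refine ⟨d, hd, fun x hx => ?_⟩
    rw [← hst]
    exact RowOK_map x fs (subL j) s (hd2 x hx)
  · obtain ⟨s, hs, hst⟩ := subR_surj j ht h
    have h4 := StL_right hB hpos hm.2.2 hm.2.1 Ns fs hfs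
    rw [← h1, ← sr, h2] at h4
    obtain ⟨d, hd, hd2⟩ := hr _ h4 s hs
    refine ⟨d, hd, fun x hx => ?_⟩
    rw [← hst]
    exact RowOK_map x fs (subR j) s (hd2 x hx)

theorem chk_sound {c : Ctx} (hw : c.wf = true) (T : Tree) (e : ℕ) (Ns : List ℕ)
    (h : chk c T e Ns = true) : FinS c e Ns := by
  induction T generalizing e Ns with
  | leaf d =>
    obtain ⟨hB, hM, hms⟩ := Ctx.wf_spec hw
    have h' : band (c.okd d) (rowsT c.B (szk c.ms) c.M e Ns (c.rows d)) = true := h
    rw [band_eq, szk_eq] at h'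
    intro fs hfs t ht
    exact ⟨d, h'.1, rowsT_sound hB (fun m hm => (hms m hm).1) hM hfs _ h'.2 t ht⟩
  | node j l r ihl ihr =>
    have h' : band (Nat.blt j c.ms.length) (band (chk c l (e + 1) (step c (j, false) Ns))
      (chk c r (e + 1) (step c (j, true) Ns))) = true := h
    rw [band_eq, band_eq] at h'
    exact FinS.node hw (blt_iff.mp h'.1) (ihl _ _ h'.2.1) (ihr _ _ h'.2.2)

/-! ## pieces of the tree -/

/-- entries at the end of a path (the last step is the head of the list) -/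
def sub (c : Ctx) (p : List (ℕ × Bool)) : List ℕ :=
  List.rec (motive := fun _ => List ℕ) c.root (fun x _ ih => step c x ih) p

/-- the assertion for the box with the path `p` -/
def FinP (c : Ctx) (p : List (ℕ × Bool)) : Prop := FinS c (c.e0 + p.length) (sub c p)

theorem FinP.node {c : Ctx} (hw : c.wf = true) (j : ℕ) (hj : j < c.ms.length) {p : List (ℕ × Bool)}
    (hl : FinP c ((j, false) :: p)) (hr : FinP c ((j, true) :: p)) : FinP c p :=
  FinS.node hw hj hl hr

theorem FinP.chk {c : Ctx} (hw : c.wf = true) {p : List (ℕ × Bool)} (T : Tree)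
    (h : chk c T (c.e0 + p.length) (sub c p) = true) : FinP c p :=
  chk_sound hw T _ _ h

/-- the result -/
theorem FinP.result {c : Ctx} (h : FinP c []) {fs : List ((ℕ → ℝ) → ℝ)}
    (hfs : StL c.B c.ms c.M c.e0 c.root fs) {t : ℕ → ℝ} (ht : Box t) :
    ∃ d, c.okd d = true ∧ ∀ x ∈ c.rows d, RowOK x fs t :=
  h fs hfs t ht

end Crest.Agent.R097.MC
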