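import Crest.Agent.R097.MC5

/-!
# Row 97, verification engine, part 6: the root tensors of sparse integer polynomials
-/

set_option autoImplicit false

namespace Crest.Agent.R097.MC

/-- a sparse polynomial: coefficient and exponents -/
abbrev SPol := List (ℤ × List ℕ)

/-- monomial -/
noncomputable def monE : List ℕ → (ℕ → ℝ) → ℕ → ℝ
  | [], _, _ => 1
  | a :: as, t, j => t j ^ a * monE as t (j + 1)

/-- value of a sparse polynomial -/
noncomputable def spE : SPol → (ℕ → ℝ) → ℕ → ℝ
  | [], _, _ => 0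
  | x :: P, t, j => (x.1 : ℝ) * monE x.2 t j + spE P t j

/-! ## kernel functions -/

/-- binomial coefficients -/
def chz (b : ℕ) : ℕ → ℕ :=
  Nat.rec (motive := fun _ => ℕ → ℕ) (fun a => Nat.rec (motive := fun _ => ℕ) 1 (fun _ _ => 0) a)
    (fun _ ih a => Nat.rec (motive := fun _ => ℕ) 1 (fun a' _ => Nat.add (ih a') (ih (Nat.succ a'))) a) b

theorem chz_eq (b a : ℕ) : chz b a = b.choose a := by
  induction b generalizing a with
  | zero => cases a <;> rfl
  | succ b ih =>
    cases a with
    | zero => simp [chz]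
    | succ a => change chz b a + chz b (a + 1) = _; rw [ih, ih, Nat.choose_succ_succ]

/-- terms with first exponent `a` -/
def flt (a : ℕ) (P : SPol) : SPol :=
  List.rec (motive := fun _ => SPol) []
    (fun x _ ih => List.rec (motive := fun _ => SPol) ih
      (fun b bs _ => Bool.rec (motive := fun _ => SPol) ih ((x.1, bs) :: ih) (Nat.beq b a)) x.2) P

/-- sum of the positive and of the negative coefficients -/
def sms (P : SPol) : ℕ × ℕ :=
  List.rec (motive := fun _ => ℕ × ℕ) (0, 0)
    (fun x _ ih => Int.casesOn (motive := fun _ => ℕ × ℕ) x.1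
      (fun k => (Nat.add k ih.1, ih.2)) (fun k => (ih.1, Nat.add (Nat.succ k) ih.2))) P

/-- packed column of the transformation -/
def Uf (B S a m : ℕ) : ℕ :=
  Nat.rec (motive := fun _ => ℕ) 0
    (fun b ih => Nat.add ih (Nat.mul (chz b a) (Nat.pow 2 (Nat.mul B (Nat.mul b S))))) m

/-- size -/
def szm (md : List (ℕ × ℕ)) : ℕ := szk (mp Prod.fst md)

/-- sum over the exponents of one variable -/
def bldk (B : ℕ) (x : ℕ × ℕ) (S : ℕ) (G : ℕ → ℕ × ℕ) (k : ℕ) : ℕ × ℕ :=
  Nat.rec (motive := fun _ => ℕ × ℕ) (0, 0)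
    (fun a acc =>
      (Nat.add acc.1 (Nat.mul (Nat.mul (Nat.div x.2 (chz (Nat.sub x.1 1) a)) (Uf B S a x.1)) (G a).1),
       Nat.add acc.2 (Nat.mul (Nat.mul (Nat.div x.2 (chz (Nat.sub x.1 1) a)) (Uf B S a x.1)) (G a).2))) k

/-- positive and negative part of the packed tensor -/
def bld (B : ℕ) (md : List (ℕ × ℕ)) : SPol → ℕ × ℕ :=
  List.rec (motive := fun _ => SPol → ℕ × ℕ) (fun P => sms P)
    (fun x md' ih P => bldk B x (szm md') (fun a => ih (flt a P)) x.1) md

/-- the exponents of a monomial fit -/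
def vldm (md : List (ℕ × ℕ)) : List ℕ → Bool :=
  List.rec (motive := fun _ => List ℕ → Bool)
    (fun as => List.rec (motive := fun _ => Bool) true (fun _ _ _ => false) as)
    (fun x _ ih as => List.rec (motive := fun _ => Bool) false
      (fun a as' _ => band (Nat.blt a x.1) (ih as')) as) md

/-- all monomials fit -/
def vld (md : List (ℕ × ℕ)) (P : SPol) : Bool :=
  List.rec (motive := fun _ => Bool) true (fun x _ ih => band (vldm md x.2) ih) P

/-- divisibility -/
def dvm (m D : ℕ) : Bool :=
  Nat.rec (motive := fun _ => Bool) true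
    (fun a ih => band (Nat.beq (Nat.mul (Nat.div D (chz (Nat.sub m 1) a)) (chz (Nat.sub m 1) a)) D) ih) m

/-- divisibility -/
def dvl (md : List (ℕ × ℕ)) : Bool :=
  List.rec (motive := fun _ => Bool) true (fun x _ ih => band (band (Nat.blt 0 x.1) (dvm x.1 x.2)) ih) md

/-- product of the denominators -/
def dtot (md : List (ℕ × ℕ)) : ℕ :=
  List.rec (motive := fun _ => ℕ) 1 (fun x _ ih => Nat.mul x.2 ih) md

/-- the root tensor -/
def root1 (B : ℕ) (md : List (ℕ × ℕ)) (P : SPol) : ℕ :=
  Nat.sub (Nat.add (hh B (szm md)) (bld B md P).1) (bld B md P).2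

/-- check of a root tensor -/
def rootchk (B M : ℕ) (md : List (ℕ × ℕ)) (P : SPol) (N : ℕ) : Bool :=
  band (Nat.beq N (root1 B md P)) (band (vld md P)
    (band (Nat.blt (Nat.add (Nat.mul (dtot md) (Nat.add (sms P).1 (sms P).2)) M) (Nat.pow 2 (Nat.sub B 1)))
    (band (Nat.beq (Nat.land (Nat.add N (Nat.mul M (ones B (szm md)))) (hh B (szm md))) (hh B (szm md)))
      (Nat.beq (Nat.land (Nat.add (Nat.sub (Nat.mul 2 (hh B (szm md))) N) (Nat.mul M (ones B (szm md))))
        (hh B (szm md))) (hh B (szm md))))))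

/-- check of the list of root tensors -/
def rootsL (B M : ℕ) (md : List (ℕ × ℕ)) (Ps : List SPol) : List ℕ → Bool :=
  List.rec (motive := fun _ => List ℕ → Bool)
    (fun Ns => List.rec (motive := fun _ => Bool) true (fun _ _ _ => false) Ns)
    (fun P _ ih Ns => List.rec (motive := fun _ => Bool) false
      (fun N Ns' _ => band (rootchk B M md P N) (ih Ns')) Ns) Ps

/-! ## coefficient functions -/

/-- sum of the coefficients -/
def sumc (P : SPol) : ℤ := (P.map Prod.fst).sum

/-- sum of the absolute values of the coefficients -/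
def l1 (P : SPol) : ℕ := (P.map fun x => x.1.natAbs).sum

/-- coefficient of the tensor -/
def bc : List (ℕ × ℕ) → SPol → ℕ → ℤ
  | [], P, _ => sumc P
  | x :: md, P, i => ∑ a ∈ Finset.range x.1,
      (((x.2 / (x.1 - 1).choose a : ℕ) : ℤ) * ((i / szm md).choose a : ℕ)) * bc md (flt a P) (i % szm md)

theorem sms_eq (P : SPol) : ((sms P).1 : ℤ) - (sms P).2 = sumc P := by
  induction P with
  | nil => simp [sms, sumc]
  | cons x P ih =>
    obtain ⟨z, l⟩ := x
    unfold sumc at *
    rw [List.map_cons, List.sum_cons, ← ih]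
    cases z with
    | ofNat k =>
      change ((k + (sms P).1 : ℕ) : ℤ) - (sms P).2 = _
      push_cast; simp only [Int.ofNat_eq_natCast]; ring
    | negSucc k =>
      change ((sms P).1 : ℤ) - ((k + 1 + (sms P).2 : ℕ) : ℤ) = _
      rw [Int.negSucc_eq]; push_cast; ring

theorem sms_l1 (P : SPol) : (sms P).1 + (sms P).2 = l1 P := by
  induction P with
  | nil => simp [sms, l1]
  | cons x P ih =>
    obtain ⟨z, l⟩ := x
    unfold l1 at *
    rw [List.map_cons, List.sum_cons, ← ih]
    cases z with
    | ofNat k =>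
      change (k + (sms P).1) + (sms P).2 = k + _
      ring
    | negSucc k =>
      change (sms P).1 + (k + 1 + (sms P).2) = (k + 1) + _
      ring

theorem sumc_abs (P : SPol) : |sumc P| ≤ l1 P := by
  induction P with
  | nil => simp [sumc, l1]
  | cons x P ih =>
    unfold sumc l1 at *
    rw [List.map_cons, List.sum_cons, List.map_cons, List.sum_cons]
    push_cast
    refine (abs_add_le _ _).trans ?_
    push_cast at ih
    linarith

theorem flt_nil (a : ℕ) : flt a [] = [] := rfl

theorem flt_cons_nil (a : ℕ) (z : ℤ) (P : SPol) : flt a ((z, []) :: P) = flt a P := rfl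

theorem flt_cons_cons (a : ℕ) (z : ℤ) (b : ℕ) (bs : List ℕ) (P : SPol) :
    flt a ((z, b :: bs) :: P) = if b = a then (z, bs) :: flt a P else flt a P := by
  change (Bool.rec (flt a P) ((z, bs) :: flt a P) (Nat.beq b a) : SPol) = _
  by_cases h : b = a
  · subst h
    rw [Nat.beq_refl, if_pos rfl]
  · have : Nat.beq b a = false := by
      rw [← Bool.not_eq_true]
      intro h2; exact h (Nat.eq_of_beq_eq_true h2)
    rw [this, if_neg h]

theorem l1_flt (m : ℕ) (P : SPol) : ∑ a ∈ Finset.range m, l1 (flt a P) ≤ l1 P := by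
  induction P with
  | nil => simp [flt_nil, l1]
  | cons x P ih =>
    obtain ⟨z, l⟩ := x
    cases l with
    | nil =>
      simp only [flt_cons_nil]
      have : l1 ((z, []) :: P) = z.natAbs + l1 P := by simp [l1]
      omega
    | cons b bs =>
      have e1 : ∀ a, l1 (flt a ((z, b :: bs) :: P)) = (if b = a then z.natAbs else 0) + l1 (flt a P) := by
        intro a
        rw [flt_cons_cons]
        by_cases h : b = a
        · rw [if_pos h, if_pos h]; simp [l1]
        · rw [if_neg h, if_neg h, Nat.zero_add]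
      simp only [e1]
      rw [Finset.sum_add_distrib, Finset.sum_ite_eq]
      have : l1 ((z, b :: bs) :: P) = z.natAbs + l1 P := by simp [l1]
      rw [this]
      split_ifs <;> omega

theorem szm_nil : szm [] = 1 := rfl
theorem szm_cons (x : ℕ × ℕ) (md : List (ℕ × ℕ)) : szm (x :: md) = x.1 * szm md := rfl

theorem szm_eq (md : List (ℕ × ℕ)) : szm md = sz (md.map Prod.fst) := by
  unfold szm; rw [szk_eq, mp_eq]

theorem dvm_spec {m D : ℕ} (k : ℕ)
    (h : (Nat.rec (motive := fun _ => Bool) true
    (fun a ih => band (Nat.beq (Nat.mul (Nat.div D (chz (Nat.sub m 1) a)) (chz (Nat.sub m 1) a)) D) ih) k : Bool) = true) :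
    ∀ a, a < k → D / (m - 1).choose a * (m - 1).choose a = D := by
  induction k with
  | zero => intro a ha; omega
  | succ k ih =>
    simp only [] at h
    rw [band_eq] at h
    intro a ha
    by_cases h1 : a = k
    · subst h1
      have := Nat.eq_of_beq_eq_true h.1
      rw [chz_eq] at this
      exact this
    · exact ih h.2 a (by omega)

theorem dvl_spec {x : ℕ × ℕ} {md : List (ℕ × ℕ)} (h : dvl (x :: md) = true) :
    0 < x.1 ∧ (∀ a, a < x.1 → x.2 / (x.1 - 1).choose a * (x.1 - 1).choose a = x.2) ∧ dvl md = true := by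
  have h' : band (band (Nat.blt 0 x.1) (dvm x.1 x.2)) (dvl md) = true := h
  rw [band_eq, band_eq] at h'
  exact ⟨blt_iff.mp h'.1.1, dvm_spec x.1 h'.1.2, h'.2⟩

theorem dvl_pos {md : List (ℕ × ℕ)} (h : dvl md = true) : ∀ m ∈ md.map Prod.fst, 0 < m := by
  induction md with
  | nil => simp
  | cons x md ih =>
    obtain ⟨h1, _, h3⟩ := dvl_spec h
    intro m hm
    rw [List.map_cons] at hm
    rcases List.mem_cons.mp hm with h4 | h4
    · rw [h4]; exact h1
    · exact ih h3 m h4

theorem bc_abs (md : List (ℕ × ℕ)) (hd : dvl md = true) (P : SPol) (i : ℕ) (hi : i < szm md) :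
    |bc md P i| ≤ (dtot md : ℤ) * l1 P := by
  induction md generalizing P i with
  | nil =>
    have : dtot [] = 1 := rfl
    rw [this]; simpa [bc] using sumc_abs P
  | cons x md ih =>
    obtain ⟨h1, h2, h3⟩ := dvl_spec hd
    have hS : 0 < szm md := by rw [szm_eq]; exact sz_pos (dvl_pos h3)
    rw [szm_cons] at hi
    have hb : i / szm md < x.1 := by rw [Nat.div_lt_iff_lt_mul hS]; exact hi
    have hr : i % szm md < szm md := Nat.mod_lt _ hS
    simp only [bc]
    have e0 : (dtot (x :: md) : ℤ) = x.2 * dtot md := by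
      change ((x.2 * dtot md : ℕ) : ℤ) = _
      push_cast; rfl
    rw [e0]
    have e1 : ∀ a ∈ Finset.range x.1, |((((x.2 / (x.1 - 1).choose a : ℕ) : ℤ) * ((i / szm md).choose a : ℕ)) *
        bc md (flt a P) (i % szm md))| ≤ (x.2 : ℤ) * dtot md * l1 (flt a P) := by
      intro a ha
      rw [abs_mul]
      have e2 : |((x.2 / (x.1 - 1).choose a : ℕ) : ℤ) * ((i / szm md).choose a : ℕ)| ≤ x.2 := by
        rw [abs_of_nonneg (by positivity)]
        have e3 : (i / szm md).choose a ≤ (x.1 - 1).choose a := Nat.choose_le_choose a (by omega)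
        have e4 := h2 a (Finset.mem_range.mp ha)
        have e5 : x.2 / (x.1 - 1).choose a * (i / szm md).choose a ≤ x.2 := by
          calc _ ≤ x.2 / (x.1 - 1).choose a * (x.1 - 1).choose a := Nat.mul_le_mul_left _ e3
            _ = x.2 := e4
        exact_mod_cast e5
      have e6 := ih h3 (flt a P) (i % szm md) hr
      calc _ ≤ (x.2 : ℤ) * ((dtot md : ℤ) * l1 (flt a P)) := by gcongr
        _ = _ := by ring
    refine (Finset.abs_sum_le_sum_abs _ _).trans ((Finset.sum_le_sum e1).trans ?_)
    rw [← Finset.mul_sum]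
    have e7 := l1_flt x.1 P
    have e8 : (∑ a ∈ Finset.range x.1, (l1 (flt a P) : ℤ)) ≤ l1 P := by exact_mod_cast e7
    gcongr

theorem Uf_eq (B S a m : ℕ) : Uf B S a m = ∑ b ∈ Finset.range m, b.choose a * 2 ^ (B * (b * S)) := by
  induction m with
  | zero => simp [Uf]
  | succ m ih =>
    change Uf B S a m + chz m a * 2 ^ (B * (m * S)) = _
    rw [ih, Finset.sum_range_succ, chz_eq]

theorem bldk_eq (B : ℕ) (x : ℕ × ℕ) (S : ℕ) (G : ℕ → ℕ × ℕ) (k : ℕ) :
    (((bldk B x S G k).1 : ℕ) : ℤ) - (((bldk B x S G k).2 : ℕ) : ℤ) =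
    ∑ a ∈ Finset.range k, ((x.2 / (x.1 - 1).choose a : ℕ) : ℤ) * ((Uf B S a x.1 : ℕ) : ℤ) *
      (((G a).1 : ℤ) - (G a).2) := by
  induction k with
  | zero => simp [bldk]
  | succ k ih =>
    rw [Finset.sum_range_succ, ← ih]
    change (((bldk B x S G k).1 + (x.2 / chz (x.1 - 1) k) * Uf B S k x.1 * (G k).1 : ℕ) : ℤ) -
      (((bldk B x S G k).2 + (x.2 / chz (x.1 - 1) k) * Uf B S k x.1 * (G k).2 : ℕ) : ℤ) = _
    rw [chz_eq]
    push_cast
    ring

theorem bld_eq (B : ℕ) (md : List (ℕ × ℕ)) (hd : dvl md = true) (P : SPol) :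
    ((bld B md P).1 : ℤ) - (bld B md P).2 = pz B (szm md) (bc md P) := by
  induction md generalizing P with
  | nil =>
    change ((sms P).1 : ℤ) - (sms P).2 = _
    rw [sms_eq]
    simp [pz, szm_nil, bc]
  | cons x md ih =>
    obtain ⟨h1, h2, h3⟩ := dvl_spec hd
    have hS : 0 < szm md := by rw [szm_eq]; exact sz_pos (dvl_pos h3)
    have e1 := bldk_eq B x (szm md) (fun a => bld B md (flt a P)) x.1
    change ((bld B (x :: md) P).1 : ℤ) - (bld B (x :: md) P).2 = _ at e1
    rw [e1, szm_cons]
    unfold pz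
    rw [sum_blocks_z]
    have e2 : ∀ b ∈ Finset.range x.1, ∑ r ∈ Finset.range (szm md),
        bc (x :: md) P (b * szm md + r) * 2 ^ (B * (b * szm md + r)) =
        ∑ a ∈ Finset.range x.1, ((x.2 / (x.1 - 1).choose a : ℕ) : ℤ) * ((b.choose a : ℕ) : ℤ) *
          2 ^ (B * (b * szm md)) * pz B (szm md) (bc md (flt a P)) := by
      intro b _
      have e3 : ∀ r ∈ Finset.range (szm md), bc (x :: md) P (b * szm md + r) * 2 ^ (B * (b * szm md + r)) =
          ∑ a ∈ Finset.range x.1, ((x.2 / (x.1 - 1).choose a : ℕ) : ℤ) * ((b.choose a : ℕ) : ℤ) *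
          2 ^ (B * (b * szm md)) * (bc md (flt a P) r * 2 ^ (B * r)) := by
        intro r hr
        have hr' := Finset.mem_range.mp hr
        simp only [bc]
        have e4 : (b * szm md + r) / szm md = b := by
          rw [Nat.add_comm, Nat.add_mul_div_right _ _ hS, Nat.div_eq_of_lt hr', Nat.zero_add]
        have e5 : (b * szm md + r) % szm md = r := by
          rw [Nat.add_comm, Nat.add_mul_mod_self_right, Nat.mod_eq_of_lt hr']
        rw [e4, e5, Finset.sum_mul]
        refine Finset.sum_congr rfl fun a _ => ?_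
        rw [Nat.mul_add, pow_add]
        ring
      rw [Finset.sum_congr rfl e3, Finset.sum_comm]
      refine Finset.sum_congr rfl fun a _ => ?_
      unfold pz
      rw [Finset.mul_sum]
    rw [Finset.sum_congr rfl e2, Finset.sum_comm]
    refine Finset.sum_congr rfl fun a _ => ?_
    rw [ih h3, Uf_eq]
    push_cast
    rw [Finset.mul_sum, Finset.sum_mul]
    refine Finset.sum_congr rfl fun b _ => ?_
    ring

theorem vld_cons {md : List (ℕ × ℕ)} {x : ℤ × List ℕ} {P : SPol} (h : vld md (x :: P) = true) :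
    vldm md x.2 = true ∧ vld md P = true := by
  have h' : band (vldm md x.2) (vld md P) = true := h
  rwa [band_eq] at h'

theorem vldm_cons {x : ℕ × ℕ} {md : List (ℕ × ℕ)} {l : List ℕ} (h : vldm (x :: md) l = true) :
    ∃ a as, l = a :: as ∧ a < x.1 ∧ vldm md as = true := by
  cases l with
  | nil => exact absurd h (by simp [vldm])
  | cons a as =>
    have h' : band (Nat.blt a x.1) (vldm md as) = true := h
    rw [band_eq] at h'
    exact ⟨a, as, rfl, blt_iff.mp h'.1, h'.2⟩

theorem vld_flt {x : ℕ × ℕ} {md : List (ℕ × ℕ)} (a : ℕ) {P : SPol} (h : vld (x :: md) P = true) :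
    vld md (flt a P) = true := by
  induction P with
  | nil => rfl
  | cons y P ih =>
    obtain ⟨z, l⟩ := y
    obtain ⟨h1, h2⟩ := vld_cons h
    obtain ⟨b, bs, h3, h4, h5⟩ := vldm_cons h1
    simp only at h3
    subst h3
    rw [flt_cons_cons]
    split_ifs
    · change band (vldm md bs) (vld md (flt a P)) = true
      rw [band_eq]; exact ⟨h5, ih h2⟩
    · exact ih h2

theorem spE_flt {x : ℕ × ℕ} {md : List (ℕ × ℕ)} {P : SPol} (h : vld (x :: md) P = true) (t : ℕ → ℝ)
    (j : ℕ) : spE P t j = ∑ a ∈ Finset.range x.1, t j ^ a * spE (flt a P) t (j + 1) := by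
  induction P with
  | nil => simp [flt_nil, spE]
  | cons y P ih =>
    obtain ⟨z, l⟩ := y
    obtain ⟨h1, h2⟩ := vld_cons h
    obtain ⟨b, bs, h3, h4, h5⟩ := vldm_cons h1
    simp only at h3
    subst h3
    have e1 : ∀ a, t j ^ a * spE (flt a ((z, b :: bs) :: P)) t (j + 1) =
        (if b = a then t j ^ a * ((z : ℝ) * monE bs t (j + 1)) else 0) +
          t j ^ a * spE (flt a P) t (j + 1) := by
      intro a
      rw [flt_cons_cons]
      by_cases hb : b = a
      · rw [if_pos hb, if_pos hb]; simp only [spE]; ring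
      · rw [if_neg hb, if_neg hb, zero_add]
    simp only [e1]
    rw [Finset.sum_add_distrib, ← ih h2, Finset.sum_ite_eq, if_pos (Finset.mem_range.mpr h4)]
    simp only [spE, monE]
    ring

theorem spE_nil_vars {P : SPol} (h : vld [] P = true) (t : ℕ → ℝ) (j : ℕ) :
    spE P t j = (sumc P : ℤ) := by
  induction P with
  | nil => simp [spE, sumc]
  | cons y P ih =>
    obtain ⟨z, l⟩ := y
    obtain ⟨h1, h2⟩ := vld_cons h
    cases l with
    | nil =>
      simp only [spE, monE]
      rw [ih h2]
      unfold sumc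
      rw [List.map_cons, List.sum_cons]
      push_cast; ring
    | cons b bs => exact absurd h1 (by simp [vldm])

theorem bc_ev (md : List (ℕ × ℕ)) (hd : dvl md = true) (P : SPol) (hP : vld md P = true)
    (t : ℕ → ℝ) (j : ℕ) :
    ev (md.map Prod.fst) (fun i => (bc md P i : ℝ)) t j = dtot md * spE P t j := by
  induction md generalizing P j with
  | nil =>
    have : dtot [] = 1 := rfl
    rw [this, spE_nil_vars hP]
    simp [ev, bc]
  | cons x md ih =>
    obtain ⟨h1, h2, h3⟩ := dvl_spec hd
    have hS : 0 < szm md := by rw [szm_eq]; exact sz_pos (dvl_pos h3)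
    simp only [List.map_cons, ev]
    have e1 : ∀ b, b ≤ x.1 - 1 → ev (md.map Prod.fst)
        (fun i => (bc (x :: md) P (b * sz (md.map Prod.fst) + i) : ℝ)) t (j + 1) =
        ∑ a ∈ Finset.range x.1, (((x.2 / (x.1 - 1).choose a : ℕ) : ℝ) *
          (dtot md * spE (flt a P) t (j + 1))) * (b.choose a : ℝ) := by
      intro b _
      have e2 : ∀ i, i < sz (md.map Prod.fst) → (bc (x :: md) P (b * sz (md.map Prod.fst) + i) : ℝ) =
          ∑ a ∈ Finset.range x.1, (((x.2 / (x.1 - 1).choose a : ℕ) : ℝ) * (b.choose a : ℝ)) *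
            (bc md (flt a P) i : ℝ) := by
        intro i hi
        rw [← szm_eq] at hi
        rw [← szm_eq]
        simp only [bc]
        have e4 : (b * szm md + i) / szm md = b := by
          rw [Nat.add_comm, Nat.add_mul_div_right _ _ hS, Nat.div_eq_of_lt hi, Nat.zero_add]
        have e5 : (b * szm md + i) % szm md = i := by
          rw [Nat.add_comm, Nat.add_mul_mod_self_right, Nat.mod_eq_of_lt hi]
        rw [e4, e5]
        push_cast
        rfl
      rw [ev_congr (dvl_pos h3) e2, ev_sum]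
      refine Finset.sum_congr rfl fun a _ => ?_
      rw [ev_smul, ih h3 (flt a P) (vld_flt a hP)]
      ring
    rw [bern_congr _ e1, bern_sum, spE_flt hP]
    have e6 : (dtot (x :: md) : ℝ) = x.2 * dtot md := by
      change ((x.2 * dtot md : ℕ) : ℝ) = _
      push_cast; rfl
    rw [e6, Finset.mul_sum]
    refine Finset.sum_congr rfl fun a ha => ?_
    rw [bern_smul, bern_choose]
    have e7 := h2 a (Finset.mem_range.mp ha)
    have e8 : ((x.2 / (x.1 - 1).choose a : ℕ) : ℝ) * (((x.1 - 1).choose a : ℕ) : ℝ) = x.2 := by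
      exact_mod_cast e7
    calc _ = (((x.2 / (x.1 - 1).choose a : ℕ) : ℝ) * (((x.1 - 1).choose a : ℕ) : ℝ)) *
          (dtot md * (t j ^ a * spE (flt a P) t (j + 1))) := by ring
      _ = _ := by rw [e8]; ring

/-! ## soundness of the root check -/

theorem top_int {B : ℕ} (hB : 0 < B) (L : ℕ) (c : ℕ → ℤ) (X : ℕ)
    (h1 : ∀ i, i < L → 0 ≤ c i + 2 ^ (B - 1) ∧ c i + 2 ^ (B - 1) < 2 ^ B)
    (h2 : (X : ℤ) = pz B L (fun i => c i + 2 ^ (B - 1)))
    (h3 : Nat.land X (hh B L) = hh B L) : ∀ i, i < L → 0 ≤ c i := by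
  have e1 : X = pn B L (fun i => if i < L then (c i + 2 ^ (B - 1)).toNat else 0) := by
    have : (X : ℤ) = ((pn B L (fun i => if i < L then (c i + 2 ^ (B - 1)).toNat else 0) : ℕ) : ℤ) := by
      rw [h2, pn_cast]
      refine pz_congr B fun i hi => ?_
      rw [if_pos hi, Int.toNat_of_nonneg (h1 i hi).1]
    exact_mod_cast this
  rw [e1] at h3
  have hb := top_bits hB L _ (fun i => by
    by_cases hi : i < L
    · rw [if_pos hi]
      have := h1 i hi
      have h5 : ((2 ^ B : ℕ) : ℤ) = 2 ^ B := by push_cast; rfl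
      omega
    · rw [if_neg hi]; positivity) h3
  intro i hi
  have b1 := hb i hi
  rw [if_pos hi] at b1
  have b3 : (((c i + 2 ^ (B - 1)).toNat : ℕ) : ℤ) = c i + 2 ^ (B - 1) :=
    Int.toNat_of_nonneg (h1 i hi).1
  have b4 : ((2 ^ (B - 1) : ℕ) : ℤ) ≤ c i + 2 ^ (B - 1) := by
    rw [← b3]; exact_mod_cast b1
  push_cast at b4
  linarith

theorem root_sound {B M : ℕ} (hB : 0 < B) {md : List (ℕ × ℕ)} (hd : dvl md = true) {P : SPol} {N : ℕ}
    (h : rootchk B M md P N = true) :
    PS B (md.map Prod.fst) M 0 1 N (fun t => dtot md * spE P t 0) := by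
  unfold rootchk at h
  rw [band_eq, band_eq, band_eq, band_eq] at h
  obtain ⟨k1, k2, k3, k4, k5⟩ := h
  have k1' := Nat.eq_of_beq_eq_true k1
  have k3' : dtot md * ((sms P).1 + (sms P).2) + M < 2 ^ (B - 1) := blt_iff.mp k3
  rw [sms_l1] at k3'
  have k4' := Nat.eq_of_beq_eq_true k4
  have k5' := Nat.eq_of_beq_eq_true k5
  have hab : ∀ i, i < szm md → |bc md P i| + M < 2 ^ (B - 1) := by
    intro i hi
    have e1 := bc_abs md hd P i hi
    have e2 : (dtot md : ℤ) * l1 P + M < 2 ^ (B - 1) := by exact_mod_cast k3'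
    linarith
  have hhz : ((hh B (szm md) : ℕ) : ℤ) = pz B (szm md) (fun _ => 2 ^ (B - 1)) := hh_cast hB _
  have hN : (N : ℤ) = pz B (szm md) (fun i => bc md P i + 2 ^ (B - 1)) := by
    have e1 := bld_eq B md hd P
    have e2 : ((hh B (szm md) : ℕ) : ℤ) + (bld B md P).1 - (bld B md P).2 =
        pz B (szm md) (fun i => bc md P i + 2 ^ (B - 1)) := by
      rw [pz_add, ← e1, hhz]; ring
    have e3 : 0 ≤ pz B (szm md) (fun i => bc md P i + 2 ^ (B - 1)) :=
      pz_nonneg B _ fun i hi => by
        have := hab i hi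
        have h4 := neg_abs_le (bc md P i)
        have : (0 : ℤ) ≤ M := by positivity
        linarith
    have e4 : (bld B md P).2 ≤ hh B (szm md) + (bld B md P).1 := by
      have : (((bld B md P).2 : ℕ) : ℤ) ≤ ((hh B (szm md) + (bld B md P).1 : ℕ) : ℤ) := by
        push_cast; linarith
      exact_mod_cast this
    rw [k1']
    change (((hh B (szm md) + (bld B md P).1) - (bld B md P).2 : ℕ) : ℤ) = _
    rw [Nat.cast_sub e4]
    push_cast
    exact e2
  have hMo : ((M * ones B (szm md) : ℕ) : ℤ) = pz B (szm md) (fun _ => (M : ℤ)) := by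
    rw [mul_ones hB, pn_cast]
  have htb := two_pow_pred hB
  have hlow : ∀ i, i < szm md → 0 ≤ bc md P i + M := by
    refine top_int hB (szm md) _ (N + M * ones B (szm md)) (fun i hi => ?_) ?_ k4'
    · have := hab i hi
      have h4 := neg_abs_le (bc md P i)
      have h5 := le_abs_self (bc md P i)
      have h6 : (0 : ℤ) ≤ M := by positivity
      constructor <;> linarith
    · push_cast at hMo ⊢
      rw [hN, hMo, ← pz_add]
      exact pz_congr B fun i _ => by ring
  have hup : ∀ i, i < szm md → 0 ≤ (M : ℤ) - bc md P i := by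
    refine top_int hB (szm md) _ ((2 * hh B (szm md) - N) + M * ones B (szm md)) (fun i hi => ?_) ?_ k5'
    · have := hab i hi
      have h4 := neg_abs_le (bc md P i)
      have h5 := le_abs_self (bc md P i)
      have h6 : (0 : ℤ) ≤ M := by positivity
      constructor <;> linarith
    · have e1 : ((2 * hh B (szm md) : ℕ) : ℤ) - N = pz B (szm md) (fun i => 2 ^ (B - 1) - bc md P i) := by
        push_cast
        rw [hhz, ← pz_mul, hN, ← pz_sub]
        exact pz_congr B fun i _ => by ring
      have e2 : 0 ≤ pz B (szm md) (fun i => 2 ^ (B - 1) - bc md P i) :=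
        pz_nonneg B _ fun i hi => by
          have := hab i hi
          have h5 := le_abs_self (bc md P i)
          have h6 : (0 : ℤ) ≤ M := by positivity
          linarith
      have e3 : N ≤ 2 * hh B (szm md) := by
        have : (N : ℤ) ≤ ((2 * hh B (szm md) : ℕ) : ℤ) := by linarith
        exact_mod_cast this
      rw [Nat.cast_add, Nat.cast_sub e3, e1, hMo, ← pz_add]
      exact pz_congr B fun i _ => by ring
  have hsz : szm md = sz (md.map Prod.fst) := szm_eq md
  refine ⟨fun i => if i < szm md then bc md P i else 0, fun i => ?_, ?_, fun t ht => ?_⟩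
  · simp only
    split_ifs with hi
    · rw [abs_le]
      have a1 := hlow i hi
      have a2 := hup i hi
      constructor <;> push_cast <;> linarith
    · simp
  · rw [hN, ← hsz]
    refine pz_congr B fun i hi => ?_
    simp only [if_pos hi]; push_cast; ring
  · have e1 : ev (md.map Prod.fst) (fun i => (((if i < szm md then bc md P i else 0 : ℤ)) : ℝ)) t 0 =
        ev (md.map Prod.fst) (fun i => (bc md P i : ℝ)) t 0 := by
      refine ev_congr (dvl_pos hd) (fun i hi => ?_) t 0
      rw [← hsz] at hi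
      rw [if_pos hi]
    rw [e1, bc_ev md hd P k2]
    simp

theorem roots_sound {B M : ℕ} (hB : 0 < B) {md : List (ℕ × ℕ)} (hd : dvl md = true) (Ps : List SPol)
    (Ns : List ℕ) (h : rootsL B M md Ps Ns = true) :
    StL B (md.map Prod.fst) M 0 Ns (Ps.map fun P t => dtot md * spE P t 0) := by
  induction Ps generalizing Ns with
  | nil =>
    cases Ns with
    | nil => trivial
    | cons N Ns => exact absurd h (by simp [rootsL])
  | cons P Ps ih =>
    cases Ns with
    | nil => exact absurd h (by simp [rootsL])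
    | cons N Ns =>
      have h' : band (rootchk B M md P N) (rootsL B M md Ps Ns) = true := h
      rw [band_eq] at h'
      exact ⟨root_sound hB hd h'.1, ih Ns h'.2⟩

/-! ## the result for the polynomials -/

/-- combination of sparse polynomials -/
noncomputable def dotP : List ℤ → List SPol → (ℕ → ℝ) → ℝ
  | a :: w, P :: Ps, t => (a : ℝ) * spE P t 0 + dotP w Ps t
  | _, _, _ => 0

/-- sum of the absolute values of combinations -/
noncomputable def sabP : List (List ℤ) → List SPol → (ℕ → ℝ) → ℝ
  | [], _, _ => 0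
  | w :: ws, Ps, t => |dotP w Ps t| + sabP ws Ps t

theorem dotR_P (D : ℝ) (w : List ℤ) (Ps : List SPol) (t : ℕ → ℝ) :
    dotR w (Ps.map fun P t => D * spE P t 0) t = D * dotP w Ps t := by
  induction w generalizing Ps with
  | nil => simp [dotR, dotP]
  | cons a w ih =>
    cases Ps with
    | nil => simp [dotR, dotP]
    | cons P Ps =>
      simp only [List.map_cons, dotR, dotP, ih]; ring

theorem sabs_P {D : ℝ} (hD : 0 ≤ D) (l : List (List ℤ)) (Ps : List SPol) (t : ℕ → ℝ) :
    sabs (l.map fun w => dotR w (Ps.map fun P t => D * spE P t 0)) t = D * sabP l Ps t := by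
  induction l with
  | nil => simp [sabs, sabP]
  | cons w l ih =>
    simp only [List.map_cons, sabs, sabP, ih, dotR_P]
    rw [abs_mul, abs_of_nonneg hD]; ring

/-- **main theorem**: on the unit box every point satisfies the rows of an admissible multiplier -/
theorem main {c : Ctx} (hw : c.wf = true) (md : List (ℕ × ℕ)) (hmd : c.ms = md.map Prod.fst)
    (hd : dvl md = true) (hD : 0 < dtot md) (Ps : List SPol)
    (hroot : StL c.B (md.map Prod.fst) c.M 0 c.root (Ps.map fun P t => (dtot md : ℝ) * spE P t 0))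
    (he : c.e0 = 0) (hF : FinP c []) {t : ℕ → ℝ} (ht : Box t) :
    ∃ d, c.okd d = true ∧ ∀ x ∈ c.rows d, sabP x.2 Ps t ≤ dotP x.1 Ps t := by
  have h1 := hF
  unfold FinP at h1
  obtain ⟨d, h2, h3⟩ := h1 (Ps.map fun P t => (dtot md : ℝ) * spE P t 0)
    (by rw [he]; rw [hmd]; exact hroot) t ht
  refine ⟨d, h2, fun x hx => ?_⟩
  have h4 := h3 x hx
  unfold RowOK at h4
  have hD' : (0 : ℝ) < dtot md := by exact_mod_cast hD
  rw [dotR_P, sabs_P hD'.le] at h4
  exact le_of_mul_le_mul_left h4 hD'

end Crest.Agent.R097.MC
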