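import Crest.Agent.R097.A3
import Crest.Agent.R097.DimRed
import Crest.Agent.R097.FlatEnd

/-! Main: assembly of S0128 from the classification of Lipschitz minimising cones. -/
set_option autoImplicit false
open MeasureTheory Metric Set Filter Topology
open scoped NNReal RealInnerProductSpace Gradient ContDiff Laplacian
open Crest.AnalysisR.PDE.OnePhase

namespace Crest.Agent.R097

/-- the final assembly: the induction step is a hypothesis here -/
theorem final (hstep : ∀ d : ℕ, 2 ≤ d → d ≤ 5 → Cls d → Cls (d + 1)) (d : ℕ) (hd1 : 1 ≤ d) (hd6 : d ≤ 6)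
    (u : EuclideanSpace ℝ (Fin d) → ℝ) (G : EuclideanSpace ℝ (Fin d) → EuclideanSpace ℝ (Fin d))
    (hmin : IsGlobalMinimizer u G) (hhom : IsOneHomogeneous u)
    (hne : ¬ (u =ᵐ[volume] 0)) :
    ∃ e : EuclideanSpace ℝ (Fin d), ‖e‖ = 1 ∧ u =ᵐ[volume] fun x => max (inner ℝ x e) 0 := by
  have hC : Cls d := by
    have h1 := cls_one
    have h2 := cls_two
    obtain rfl | rfl | rfl | rfl | rfl | rfl : d = 1 ∨ d = 2 ∨ d = 3 ∨ d = 4 ∨ d = 5 ∨ d = 6 := by omega
    · exact h1
    · exact h2
    · exact hstep 2 le_rfl (by norm_num) h2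
    · exact hstep 3 (by norm_num) (by norm_num) (hstep 2 le_rfl (by norm_num) h2)
    · exact hstep 4 (by norm_num) (by norm_num) (hstep 3 (by norm_num) (by norm_num) (hstep 2 le_rfl (by norm_num) h2))
    · exact hstep 5 (by norm_num) (by norm_num) (hstep 4 (by norm_num) (by norm_num)
        (hstep 3 (by norm_num) (by norm_num) (hstep 2 le_rfl (by norm_num) h2)))
  obtain ⟨K, U, hU, hh, hne', hae⟩ := sobolev_to_LM hd1 hmin hhom hne
  obtain ⟨e, he, h⟩ := hC K U hU hh hne'
  exact ⟨e, he, hae.trans (Filter.Eventually.of_forall fun x => h x)⟩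

end Crest.Agent.R097
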