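import Mathlib

/-!
# Row 97: power sum inequalities for two, three, four real numbers with sum zero
-/

set_option autoImplicit false

namespace Crest.Agent.R097.NU

/-- two numbers -/
theorem nu2_three (a b : ℝ) (h : a + b = 0) : a ^ 3 + b ^ 3 = 0 := by
  have : b = -a := by linarith
  subst this; ring

theorem nu2_four (a b : ℝ) (h : a + b = 0) : a ^ 4 + b ^ 4 = (a ^ 2 + b ^ 2) ^ 2 / 2 := by
  have : b = -a := by linarith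
  subst this; ring

/-- three numbers -/
theorem nu3_four (a b c : ℝ) (h : a + b + c = 0) :
    a ^ 4 + b ^ 4 + c ^ 4 = (a ^ 2 + b ^ 2 + c ^ 2) ^ 2 / 2 := by
  have : c = -a - b := by linarith
  subst this; ring

theorem nu3_three (a b c : ℝ) (h : a + b + c = 0) :
    6 * (a ^ 3 + b ^ 3 + c ^ 3) ^ 2 ≤ (a ^ 2 + b ^ 2 + c ^ 2) ^ 3 := by
  have hc : c = -a - b := by linarith
  subst hc
  have : (a ^ 2 + b ^ 2 + (-a - b) ^ 2) ^ 3 - 6 * (a ^ 3 + b ^ 3 + (-a - b) ^ 3) ^ 2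
      = 2 * ((a - b) * (2 * a + b) * (a + 2 * b)) ^ 2 := by ring
  nlinarith [sq_nonneg ((a - b) * (2 * a + b) * (a + 2 * b))]

/-- four numbers: `∑ ν⁴ ≤ (7/12) (∑ ν²)²` (`12 e₄ + e₂² = A² + B² + C² - AB - BC - CA`) -/
theorem nu4_four (a b c d : ℝ) (h : a + b + c + d = 0) :
    a ^ 4 + b ^ 4 + c ^ 4 + d ^ 4 ≤ (7 / 12) * (a ^ 2 + b ^ 2 + c ^ 2 + d ^ 2) ^ 2 := by
  have hd : d = -a - b - c := by linarith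
  subst hd
  nlinarith [sq_nonneg ((a * b + c * (-a - b - c)) - (a * c + b * (-a - b - c))),
    sq_nonneg ((a * c + b * (-a - b - c)) - (b * c + a * (-a - b - c))),
    sq_nonneg ((b * c + a * (-a - b - c)) - (a * b + c * (-a - b - c)))]

/-- four numbers: each square is at most `3/4` of the sum -/
theorem nu4_sq_le (a b c d : ℝ) (h : a + b + c + d = 0) :
    a ^ 2 ≤ (3 / 4) * (a ^ 2 + b ^ 2 + c ^ 2 + d ^ 2) := by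
  have hd : a = -b - c - d := by linarith
  subst hd
  nlinarith [sq_nonneg (b - c), sq_nonneg (c - d), sq_nonneg (b - d)]

theorem nu4_three_aux (m x : ℝ) (hx : x ≤ m) :
    x ^ 3 ≤ (m / 3) * x ^ 2 + (5 / 9) * m ^ 2 * x + m ^ 3 / 9 := by
  nlinarith [mul_nonneg (sub_nonneg.2 hx) (sq_nonneg (x + m / 3))]

/-- four numbers: `3 (∑ ν³)² ≤ (∑ ν²)³` -/
theorem nu4_three (a b c d : ℝ) (h : a + b + c + d = 0) :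
    3 * (a ^ 3 + b ^ 3 + c ^ 3 + d ^ 3) ^ 2 ≤ (a ^ 2 + b ^ 2 + c ^ 2 + d ^ 2) ^ 3 := by
  have key : ∀ a b c d : ℝ, a + b + c + d = 0 →
      a ^ 3 + b ^ 3 + c ^ 3 + d ^ 3 ≤
        (2 / 3) * Real.sqrt ((3 / 4) * (a ^ 2 + b ^ 2 + c ^ 2 + d ^ 2)) *
          (a ^ 2 + b ^ 2 + c ^ 2 + d ^ 2) := by
    intro a b c d h
    set p := a ^ 2 + b ^ 2 + c ^ 2 + d ^ 2 with hp
    have hp0 : 0 ≤ p := by positivity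
    set m := Real.sqrt ((3 / 4) * p) with hm
    have hm2 : m ^ 2 = (3 / 4) * p := Real.sq_sqrt (by positivity)
    have h1 : a ≤ m := Real.le_sqrt_of_sq_le (nu4_sq_le a b c d h)
    have h2 : b ≤ m := Real.le_sqrt_of_sq_le (by
      have := nu4_sq_le b c d a (by linarith); rw [hp]; linarith)
    have h3 : c ≤ m := Real.le_sqrt_of_sq_le (by
      have := nu4_sq_le c d a b (by linarith); rw [hp]; linarith)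
    have h4 : d ≤ m := Real.le_sqrt_of_sq_le (by
      have := nu4_sq_le d a b c (by linarith); rw [hp]; linarith)
    have e1 := nu4_three_aux m a h1
    have e2 := nu4_three_aux m b h2
    have e3 := nu4_three_aux m c h3
    have e4 := nu4_three_aux m d h4
    have hm3 : m ^ 3 = (3 / 4) * p * m := by rw [← hm2]; ring
    have hz : (5 / 9) * m ^ 2 * a + (5 / 9) * m ^ 2 * b + (5 / 9) * m ^ 2 * c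
        + (5 / 9) * m ^ 2 * d = 0 := by
      have : (5 / 9) * m ^ 2 * a + (5 / 9) * m ^ 2 * b + (5 / 9) * m ^ 2 * c
        + (5 / 9) * m ^ 2 * d = (5 / 9) * m ^ 2 * (a + b + c + d) := by ring
      rw [this, h]; ring
    have hs : (m / 3) * a ^ 2 + (m / 3) * b ^ 2 + (m / 3) * c ^ 2 + (m / 3) * d ^ 2
        = (m / 3) * p := by rw [hp]; ring
    linarith
  set p := a ^ 2 + b ^ 2 + c ^ 2 + d ^ 2 with hp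
  have hp0 : 0 ≤ p := by positivity
  have k1 := key a b c d h
  have k2 := key (-a) (-b) (-c) (-d) (by linarith)
  have e : (-a) ^ 2 + (-b) ^ 2 + (-c) ^ 2 + (-d) ^ 2 = p := by rw [hp]; ring
  rw [e] at k2
  rw [← hp] at k1
  set m := Real.sqrt ((3 / 4) * p) with hm
  have hm2 : m ^ 2 = (3 / 4) * p := Real.sq_sqrt (by positivity)
  have habs : |a ^ 3 + b ^ 3 + c ^ 3 + d ^ 3| ≤ (2 / 3) * m * p := by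
    rw [abs_le]; constructor
    · have : (-a) ^ 3 + (-b) ^ 3 + (-c) ^ 3 + (-d) ^ 3 = -(a ^ 3 + b ^ 3 + c ^ 3 + d ^ 3) := by
        ring
      rw [this] at k2; linarith
    · exact k1
  have hsq : (a ^ 3 + b ^ 3 + c ^ 3 + d ^ 3) ^ 2 ≤ ((2 / 3) * m * p) ^ 2 := by
    rw [← sq_abs]; exact pow_le_pow_left₀ (abs_nonneg _) habs 2
  have : ((2 / 3) * m * p) ^ 2 = p ^ 3 / 3 := by
    have : ((2 / 3) * m * p) ^ 2 = (4 / 9) * m ^ 2 * p ^ 2 := by ring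
    rw [this, hm2]; ring
  linarith

/-- direction data in `Fin 5` (one distinguished eigenvalue `x`, four others), explicit form -/
theorem dir5_aux (x a b c d : ℝ) (h : x + a + b + c + d = 0) :
    0 ≤ (x ^ 2 + a ^ 2 + b ^ 2 + c ^ 2 + d ^ 2) - 5 / 4 * x ^ 2 ∧
    3 * ((x ^ 3 + a ^ 3 + b ^ 3 + c ^ 3 + d ^ 3) - 15 / 16 * x ^ 3
        + 3 / 4 * x * ((x ^ 2 + a ^ 2 + b ^ 2 + c ^ 2 + d ^ 2) - 5 / 4 * x ^ 2)) ^ 2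
      ≤ ((x ^ 2 + a ^ 2 + b ^ 2 + c ^ 2 + d ^ 2) - 5 / 4 * x ^ 2) ^ 3 ∧
    x ^ 4 + a ^ 4 + b ^ 4 + c ^ 4 + d ^ 4 ≤ x ^ 4 + x ^ 4 / 64
      + 3 / 8 * x ^ 2 * ((x ^ 2 + a ^ 2 + b ^ 2 + c ^ 2 + d ^ 2) - 5 / 4 * x ^ 2)
      - x * ((x ^ 3 + a ^ 3 + b ^ 3 + c ^ 3 + d ^ 3) - 15 / 16 * x ^ 3
        + 3 / 4 * x * ((x ^ 2 + a ^ 2 + b ^ 2 + c ^ 2 + d ^ 2) - 5 / 4 * x ^ 2))
      + 7 / 12 * ((x ^ 2 + a ^ 2 + b ^ 2 + c ^ 2 + d ^ 2) - 5 / 4 * x ^ 2) ^ 2 := by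
  have hn : (a + x / 4) + (b + x / 4) + (c + x / 4) + (d + x / 4) = 0 := by linarith
  have hd : d = -x - a - b - c := by linarith
  have e2 : (a + x / 4) ^ 2 + (b + x / 4) ^ 2 + (c + x / 4) ^ 2 + (d + x / 4) ^ 2
      = (x ^ 2 + a ^ 2 + b ^ 2 + c ^ 2 + d ^ 2) - 5 / 4 * x ^ 2 := by
    subst hd; ring
  have e3 : (a + x / 4) ^ 3 + (b + x / 4) ^ 3 + (c + x / 4) ^ 3 + (d + x / 4) ^ 3
      = (x ^ 3 + a ^ 3 + b ^ 3 + c ^ 3 + d ^ 3) - 15 / 16 * x ^ 3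
        + 3 / 4 * x * ((x ^ 2 + a ^ 2 + b ^ 2 + c ^ 2 + d ^ 2) - 5 / 4 * x ^ 2) := by
    subst hd; ring
  have e4 : x ^ 4 + a ^ 4 + b ^ 4 + c ^ 4 + d ^ 4 = x ^ 4 + x ^ 4 / 64
      + 3 / 8 * x ^ 2 * ((a + x / 4) ^ 2 + (b + x / 4) ^ 2 + (c + x / 4) ^ 2 + (d + x / 4) ^ 2)
      - x * ((a + x / 4) ^ 3 + (b + x / 4) ^ 3 + (c + x / 4) ^ 3 + (d + x / 4) ^ 3)
      + ((a + x / 4) ^ 4 + (b + x / 4) ^ 4 + (c + x / 4) ^ 4 + (d + x / 4) ^ 4) := by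
    subst hd; ring
  refine ⟨?_, ?_, ?_⟩
  · rw [← e2]; positivity
  · rw [← e3, ← e2]; exact nu4_three _ _ _ _ hn
  · rw [e4, ← e3, ← e2]
    have := nu4_four _ _ _ _ hn
    linarith

/-- direction data in `Fin 4` (one distinguished eigenvalue `x`, three others), explicit form -/
theorem dir4_aux (x a b c : ℝ) (h : x + a + b + c = 0) :
    0 ≤ (x ^ 2 + a ^ 2 + b ^ 2 + c ^ 2) - 4 / 3 * x ^ 2 ∧
    6 * ((x ^ 3 + a ^ 3 + b ^ 3 + c ^ 3) - 8 / 9 * x ^ 3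
        + x * ((x ^ 2 + a ^ 2 + b ^ 2 + c ^ 2) - 4 / 3 * x ^ 2)) ^ 2
      ≤ ((x ^ 2 + a ^ 2 + b ^ 2 + c ^ 2) - 4 / 3 * x ^ 2) ^ 3 ∧
    x ^ 4 + a ^ 4 + b ^ 4 + c ^ 4 = x ^ 4 + x ^ 4 / 27
      + 2 / 3 * x ^ 2 * ((x ^ 2 + a ^ 2 + b ^ 2 + c ^ 2) - 4 / 3 * x ^ 2)
      - 4 / 3 * x * ((x ^ 3 + a ^ 3 + b ^ 3 + c ^ 3) - 8 / 9 * x ^ 3
        + x * ((x ^ 2 + a ^ 2 + b ^ 2 + c ^ 2) - 4 / 3 * x ^ 2))
      + 1 / 2 * ((x ^ 2 + a ^ 2 + b ^ 2 + c ^ 2) - 4 / 3 * x ^ 2) ^ 2 := by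
  have hn : (a + x / 3) + (b + x / 3) + (c + x / 3) = 0 := by linarith
  have hd : c = -x - a - b := by linarith
  have e2 : (a + x / 3) ^ 2 + (b + x / 3) ^ 2 + (c + x / 3) ^ 2
      = (x ^ 2 + a ^ 2 + b ^ 2 + c ^ 2) - 4 / 3 * x ^ 2 := by
    subst hd; ring
  have e3 : (a + x / 3) ^ 3 + (b + x / 3) ^ 3 + (c + x / 3) ^ 3
      = (x ^ 3 + a ^ 3 + b ^ 3 + c ^ 3) - 8 / 9 * x ^ 3
        + x * ((x ^ 2 + a ^ 2 + b ^ 2 + c ^ 2) - 4 / 3 * x ^ 2) := by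
    subst hd; ring
  refine ⟨?_, ?_, ?_⟩
  · rw [← e2]; positivity
  · rw [← e3, ← e2]; exact nu3_three _ _ _ hn
  · subst hd; ring

/-- direction data in `Fin 3` (one distinguished eigenvalue `x`, two others), explicit form -/
theorem dir3_aux (x a b : ℝ) (h : x + a + b = 0) :
    0 ≤ (x ^ 2 + a ^ 2 + b ^ 2) - 3 / 2 * x ^ 2 ∧
    (x ^ 3 + a ^ 3 + b ^ 3) = 3 / 4 * x ^ 3
        - 3 / 2 * x * ((x ^ 2 + a ^ 2 + b ^ 2) - 3 / 2 * x ^ 2) ∧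
    x ^ 4 + a ^ 4 + b ^ 4 = (x ^ 2 + a ^ 2 + b ^ 2) ^ 2 / 2 := by
  have hd : b = -x - a := by linarith
  refine ⟨?_, ?_, ?_⟩
  · have : (x ^ 2 + a ^ 2 + b ^ 2) - 3 / 2 * x ^ 2 = 2 * (a + x / 2) ^ 2 := by
      subst hd; ring
    rw [this]; positivity
  · subst hd; ring
  · subst hd; ring

/-- `Fin 5`, any direction `k` -/
theorem dir5 (l : Fin 5 → ℝ) (k : Fin 5) (h : ∑ i, l i = 0) :
    0 ≤ ∑ i, l i ^ 2 - 5 / 4 * l k ^ 2 ∧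
    3 * (∑ i, l i ^ 3 - 15 / 16 * l k ^ 3
        + 3 / 4 * l k * (∑ i, l i ^ 2 - 5 / 4 * l k ^ 2)) ^ 2
      ≤ (∑ i, l i ^ 2 - 5 / 4 * l k ^ 2) ^ 3 ∧
    ∑ i, l i ^ 4 ≤ l k ^ 4 + l k ^ 4 / 64
      + 3 / 8 * l k ^ 2 * (∑ i, l i ^ 2 - 5 / 4 * l k ^ 2)
      - l k * (∑ i, l i ^ 3 - 15 / 16 * l k ^ 3
        + 3 / 4 * l k * (∑ i, l i ^ 2 - 5 / 4 * l k ^ 2))
      + 7 / 12 * (∑ i, l i ^ 2 - 5 / 4 * l k ^ 2) ^ 2 := by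
  simp only [Fin.sum_univ_five] at h ⊢
  fin_cases k
  · have := dir5_aux (l 0) (l 1) (l 2) (l 3) (l 4) (by linarith)
    simpa using this
  · have := dir5_aux (l 1) (l 0) (l 2) (l 3) (l 4) (by linarith)
    have e2 : l 1 ^ 2 + l 0 ^ 2 + l 2 ^ 2 + l 3 ^ 2 + l 4 ^ 2
      = l 0 ^ 2 + l 1 ^ 2 + l 2 ^ 2 + l 3 ^ 2 + l 4 ^ 2 := by ring
    have e3 : l 1 ^ 3 + l 0 ^ 3 + l 2 ^ 3 + l 3 ^ 3 + l 4 ^ 3
      = l 0 ^ 3 + l 1 ^ 3 + l 2 ^ 3 + l 3 ^ 3 + l 4 ^ 3 := by ring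
    have e4 : l 1 ^ 4 + l 0 ^ 4 + l 2 ^ 4 + l 3 ^ 4 + l 4 ^ 4
      = l 0 ^ 4 + l 1 ^ 4 + l 2 ^ 4 + l 3 ^ 4 + l 4 ^ 4 := by ring
    rw [e2, e3, e4] at this
    simpa using this
  · have := dir5_aux (l 2) (l 0) (l 1) (l 3) (l 4) (by linarith)
    have e2 : l 2 ^ 2 + l 0 ^ 2 + l 1 ^ 2 + l 3 ^ 2 + l 4 ^ 2
      = l 0 ^ 2 + l 1 ^ 2 + l 2 ^ 2 + l 3 ^ 2 + l 4 ^ 2 := by ring
    have e3 : l 2 ^ 3 + l 0 ^ 3 + l 1 ^ 3 + l 3 ^ 3 + l 4 ^ 3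
      = l 0 ^ 3 + l 1 ^ 3 + l 2 ^ 3 + l 3 ^ 3 + l 4 ^ 3 := by ring
    have e4 : l 2 ^ 4 + l 0 ^ 4 + l 1 ^ 4 + l 3 ^ 4 + l 4 ^ 4
      = l 0 ^ 4 + l 1 ^ 4 + l 2 ^ 4 + l 3 ^ 4 + l 4 ^ 4 := by ring
    rw [e2, e3, e4] at this
    simpa using this
  · have := dir5_aux (l 3) (l 0) (l 1) (l 2) (l 4) (by linarith)
    have e2 : l 3 ^ 2 + l 0 ^ 2 + l 1 ^ 2 + l 2 ^ 2 + l 4 ^ 2
      = l 0 ^ 2 + l 1 ^ 2 + l 2 ^ 2 + l 3 ^ 2 + l 4 ^ 2 := by ring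
    have e3 : l 3 ^ 3 + l 0 ^ 3 + l 1 ^ 3 + l 2 ^ 3 + l 4 ^ 3
      = l 0 ^ 3 + l 1 ^ 3 + l 2 ^ 3 + l 3 ^ 3 + l 4 ^ 3 := by ring
    have e4 : l 3 ^ 4 + l 0 ^ 4 + l 1 ^ 4 + l 2 ^ 4 + l 4 ^ 4
      = l 0 ^ 4 + l 1 ^ 4 + l 2 ^ 4 + l 3 ^ 4 + l 4 ^ 4 := by ring
    rw [e2, e3, e4] at this
    simpa using this
  · have := dir5_aux (l 4) (l 0) (l 1) (l 2) (l 3) (by linarith)
    have e2 : l 4 ^ 2 + l 0 ^ 2 + l 1 ^ 2 + l 2 ^ 2 + l 3 ^ 2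
      = l 0 ^ 2 + l 1 ^ 2 + l 2 ^ 2 + l 3 ^ 2 + l 4 ^ 2 := by ring
    have e3 : l 4 ^ 3 + l 0 ^ 3 + l 1 ^ 3 + l 2 ^ 3 + l 3 ^ 3
      = l 0 ^ 3 + l 1 ^ 3 + l 2 ^ 3 + l 3 ^ 3 + l 4 ^ 3 := by ring
    have e4 : l 4 ^ 4 + l 0 ^ 4 + l 1 ^ 4 + l 2 ^ 4 + l 3 ^ 4
      = l 0 ^ 4 + l 1 ^ 4 + l 2 ^ 4 + l 3 ^ 4 + l 4 ^ 4 := by ring
    rw [e2, e3, e4] at this
    simpa using this

/-- `Fin 4`, any direction `k` -/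
theorem dir4 (l : Fin 4 → ℝ) (k : Fin 4) (h : ∑ i, l i = 0) :
    0 ≤ ∑ i, l i ^ 2 - 4 / 3 * l k ^ 2 ∧
    6 * (∑ i, l i ^ 3 - 8 / 9 * l k ^ 3
        + l k * (∑ i, l i ^ 2 - 4 / 3 * l k ^ 2)) ^ 2
      ≤ (∑ i, l i ^ 2 - 4 / 3 * l k ^ 2) ^ 3 ∧
    ∑ i, l i ^ 4 = l k ^ 4 + l k ^ 4 / 27
      + 2 / 3 * l k ^ 2 * (∑ i, l i ^ 2 - 4 / 3 * l k ^ 2)
      - 4 / 3 * l k * (∑ i, l i ^ 3 - 8 / 9 * l k ^ 3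
        + l k * (∑ i, l i ^ 2 - 4 / 3 * l k ^ 2))
      + 1 / 2 * (∑ i, l i ^ 2 - 4 / 3 * l k ^ 2) ^ 2 := by
  simp only [Fin.sum_univ_four] at h ⊢
  fin_cases k
  · have := dir4_aux (l 0) (l 1) (l 2) (l 3) (by linarith)
    simpa using this
  · have := dir4_aux (l 1) (l 0) (l 2) (l 3) (by linarith)
    have e2 : l 1 ^ 2 + l 0 ^ 2 + l 2 ^ 2 + l 3 ^ 2
      = l 0 ^ 2 + l 1 ^ 2 + l 2 ^ 2 + l 3 ^ 2 := by ring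
    have e3 : l 1 ^ 3 + l 0 ^ 3 + l 2 ^ 3 + l 3 ^ 3
      = l 0 ^ 3 + l 1 ^ 3 + l 2 ^ 3 + l 3 ^ 3 := by ring
    have e4 : l 1 ^ 4 + l 0 ^ 4 + l 2 ^ 4 + l 3 ^ 4
      = l 0 ^ 4 + l 1 ^ 4 + l 2 ^ 4 + l 3 ^ 4 := by ring
    rw [e2, e3, e4] at this
    simpa using this
  · have := dir4_aux (l 2) (l 0) (l 1) (l 3) (by linarith)
    have e2 : l 2 ^ 2 + l 0 ^ 2 + l 1 ^ 2 + l 3 ^ 2
      = l 0 ^ 2 + l 1 ^ 2 + l 2 ^ 2 + l 3 ^ 2 := by ring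
    have e3 : l 2 ^ 3 + l 0 ^ 3 + l 1 ^ 3 + l 3 ^ 3
      = l 0 ^ 3 + l 1 ^ 3 + l 2 ^ 3 + l 3 ^ 3 := by ring
    have e4 : l 2 ^ 4 + l 0 ^ 4 + l 1 ^ 4 + l 3 ^ 4
      = l 0 ^ 4 + l 1 ^ 4 + l 2 ^ 4 + l 3 ^ 4 := by ring
    rw [e2, e3, e4] at this
    simpa using this
  · have := dir4_aux (l 3) (l 0) (l 1) (l 2) (by linarith)
    have e2 : l 3 ^ 2 + l 0 ^ 2 + l 1 ^ 2 + l 2 ^ 2
      = l 0 ^ 2 + l 1 ^ 2 + l 2 ^ 2 + l 3 ^ 2 := by ring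
    have e3 : l 3 ^ 3 + l 0 ^ 3 + l 1 ^ 3 + l 2 ^ 3
      = l 0 ^ 3 + l 1 ^ 3 + l 2 ^ 3 + l 3 ^ 3 := by ring
    have e4 : l 3 ^ 4 + l 0 ^ 4 + l 1 ^ 4 + l 2 ^ 4
      = l 0 ^ 4 + l 1 ^ 4 + l 2 ^ 4 + l 3 ^ 4 := by ring
    rw [e2, e3, e4] at this
    simpa using this

end Crest.Agent.R097.NU
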