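import Crest.Agent.R097.SStab1
import Crest.Agent.R097.FlatEnd

/-!
# Row 97, reduction: `|∇u| ≤ 1` for regular cones and the sign of the mean curvature (helper392)
-/

set_option autoImplicit false
open MeasureTheory Metric Set Filter Topology InnerProductSpace
open scoped RealInnerProductSpace NNReal ENNReal Gradient Laplacian

namespace Crest.Agent.R097

variable {d : ℕ}

namespace RG

/-! ### general facts -/

lemma dv_smul' {f : E d → ℝ} {Y : E d → E d} {x : E d} (hf : DifferentiableAt ℝ f x)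
    (h : DifferentiableAt ℝ Y x) :
    dv (fun y => f y • Y y) x = fderiv ℝ f x (Y x) + f x * dv Y x := by
  unfold dv
  rw [fderiv_fun_smul hf h, Finset.mul_sum]
  have e1 : fderiv ℝ f x (Y x) = ∑ i, Y x i * fderiv ℝ f x (bv i) := by
    conv_lhs => rw [← sum_bv (Y x), map_sum]
    simp [smul_eq_mul]
  rw [e1, ← Finset.sum_add_distrib]
  refine Finset.sum_congr rfl fun i _ => ?_
  simp only [add_apply, smul_apply, ContinuousLinearMap.smulRight_apply, PiLp.add_apply,
    PiLp.smul_apply, smul_eq_mul]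
  ring

lemma continuousOn_dv' {Y : E d → E d} {s : Set (E d)} (hs : IsOpen s)
    (hY : ContDiffOn ℝ 1 Y s) : ContinuousOn (dv Y) s := by
  unfold dv
  have h := hY.continuousOn_fderiv_of_isOpen hs le_rfl
  refine continuousOn_finsetSum _ fun i _ => ?_
  have h2 : ContinuousOn (fun x => fderiv ℝ Y x (bv i)) s := h.clm_apply continuousOn_const
  exact (EuclideanSpace.proj i : E d →L[ℝ] ℝ).continuous.comp_continuousOn h2

lemma inner_mp (u : E d → ℝ) (x v : E d) : ⟪mp u x, v⟫_ℝ = D2 u x (∇ u x) v := by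
  rw [apply_eq_sum (D2 u x (∇ u x)) v]
  conv_lhs => rw [← sum_bv v, inner_sum]
  refine Finset.sum_congr rfl fun i _ => ?_
  rw [inner_smul_right, inner_bv', mp_apply]

lemma D2_symm {u : E d → ℝ} {x : E d} (h : ContDiffAt ℝ 2 u x) (v w : E d) :
    D2 u x v w = D2 u x w v := h.isSymmSndFDerivAt (by simp) v w

/-- locally bounded Hessian near regular points -/
lemma D2_bdd {u : E d → ℝ} {K : ℝ≥0} (hu : LM u K) (hsm : ContDiffOn ℝ (⊤ : ℕ∞) u (Om u))
    {S : Set (E d)} (hS : IsCompact S) (hreg : ∀ y ∈ S, y ∈ frontier (Om u) → RegPt u y) :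
    ∃ C : ℝ, ∀ x ∈ Om u, x ∈ S → ‖D2 u x‖ ≤ C := by
  have hO : IsOpen (Om u) := isOpen_Om hu.continuous
  refine bdd_of_local hS fun y hyS hyc => ?_
  by_cases hy : y ∈ Om u
  · refine ⟨‖D2 u y‖ + 1, ?_⟩
    have h1 : ContinuousAt (fun x => ‖D2 u x‖) y :=
      (((contDiffOn_D2 hO hsm).contDiffAt (hO.mem_nhds hy)).continuousAt).norm
    exact (h1.eventually (eventually_le_nhds (by linarith))).filter_mono nhdsWithin_le_nhds
  · have hf : y ∈ frontier (Om u) := by
      rw [hO.frontier_eq]; exact ⟨hyc, hy⟩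
    obtain ⟨e, A, B, hj⟩ := hreg y hyS hf
    exact ⟨‖A‖ + 1, hj.t2.norm.eventually (eventually_le_nhds (by linarith))⟩

/-! ### the radial cut-off -/

/-- radial cut-off: one at distance `√s₀`, zero outside an annulus -/
noncomputable def eta (s₀ : ℝ) (x : E d) : ℝ :=
  Real.smoothTransition (2 * (‖x‖ ^ 2 / s₀) - 1) * Real.smoothTransition (3 - ‖x‖ ^ 2 / s₀)

lemma eta_nonneg (s₀ : ℝ) (x : E d) : 0 ≤ eta s₀ x :=
  mul_nonneg (Real.smoothTransition.nonneg _) (Real.smoothTransition.nonneg _)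

lemma eta_le_one (s₀ : ℝ) (x : E d) : eta s₀ x ≤ 1 :=
  mul_le_one₀ (Real.smoothTransition.le_one _) (Real.smoothTransition.nonneg _)
    (Real.smoothTransition.le_one _)

lemma eta_one {x : E d} (hx : x ≠ 0) : eta (‖x‖ ^ 2) x = 1 := by
  have h : ‖x‖ ^ 2 ≠ 0 := by positivity
  unfold eta
  rw [div_self h]
  rw [Real.smoothTransition.one_of_one_le (by norm_num),
    Real.smoothTransition.one_of_one_le (by norm_num), one_mul]

/-- the profile of the cut-off -/
noncomputable def thet (s₀ s : ℝ) : ℝ :=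
  Real.smoothTransition (2 * (s / s₀) - 1) * Real.smoothTransition (3 - s / s₀)

lemma contDiff_thet (s₀ : ℝ) {n : ℕ∞} : ContDiff ℝ n (thet s₀) := by
  unfold thet
  refine ContDiff.mul ?_ ?_
  · exact (Real.smoothTransition.contDiff (n := n)).comp (by fun_prop)
  · exact (Real.smoothTransition.contDiff (n := n)).comp (by fun_prop)

lemma hasFDerivAt_eta (s₀ : ℝ) (x : E d) :
    HasFDerivAt (eta s₀ : E d → ℝ) ((2 * deriv (thet s₀) (‖x‖ ^ 2)) • innerSL ℝ x) x := by
  have h1 : HasFDerivAt (fun y : E d => ‖y‖ ^ 2) (2 • (innerSL ℝ x)) x := by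
    simpa using (hasStrictFDerivAt_norm_sq (F := E d) x).hasFDerivAt
  have h2 : HasDerivAt (thet s₀) (deriv (thet s₀) (‖x‖ ^ 2)) (‖x‖ ^ 2) :=
    ((contDiff_thet s₀ (n := 1)).differentiable (by simp) _).hasDerivAt
  have h3 := h2.comp_hasFDerivAt x h1
  refine h3.congr_fderiv ?_
  ext v
  simp only [smul_apply, smul_eq_mul, nsmul_eq_mul]
  push_cast
  ring

lemma contDiff_eta (s₀ : ℝ) : ContDiff ℝ 1 (eta s₀ : E d → ℝ) :=
  (contDiff_thet s₀ (n := 1)).comp (contDiff_norm_sq ℝ)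

/-- the support annulus -/
def SS (s₀ : ℝ) : Set (E d) := {x | s₀ / 2 ≤ ‖x‖ ^ 2 ∧ ‖x‖ ^ 2 ≤ 3 * s₀}

lemma isCompact_SS (s₀ : ℝ) : IsCompact (SS s₀ : Set (E d)) := by
  refine (isCompact_closedBall (0 : E d) (Real.sqrt (3 * s₀))).of_isClosed_subset ?_ ?_
  · exact (isClosed_le continuous_const (continuous_norm.pow 2)).inter
      (isClosed_le (continuous_norm.pow 2) continuous_const)
  · intro x hx
    rw [mem_closedBall_zero_iff]
    exact Real.le_sqrt_of_sq_le hx.2

lemma eta_zero {s₀ : ℝ} (hs : 0 < s₀) {x : E d} (hx : x ∉ SS s₀) : eta s₀ x = 0 := by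
  unfold eta
  by_cases h : s₀ / 2 ≤ ‖x‖ ^ 2
  · have h2 : 3 * s₀ < ‖x‖ ^ 2 := by
      by_contra hc
      exact hx ⟨h, not_lt.1 hc⟩
    rw [Real.smoothTransition.zero_of_nonpos (x := 3 - ‖x‖ ^ 2 / s₀), mul_zero]
    rw [sub_nonpos, le_div_iff₀ hs]; exact h2.le
  · rw [Real.smoothTransition.zero_of_nonpos (x := 2 * (‖x‖ ^ 2 / s₀) - 1), zero_mul]
    have h3 : ‖x‖ ^ 2 / s₀ ≤ 1 / 2 := by
      rw [div_le_iff₀ hs]; linarith [not_le.1 h]
    linarith

lemma deriv_smoothTransition_nonneg (s : ℝ) : 0 ≤ deriv Real.smoothTransition s :=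
  Real.smoothTransition.monotone.deriv_nonneg

/-- the test field -/
noncomputable def Ff (u : E d → ℝ) (s₀ : ℝ) (x : E d) : E d :=
  (eta s₀ x * Real.smoothTransition (‖fderiv ℝ u x‖ ^ 2 - 1)) • mp u x

section main
variable {u : E d → ℝ} {K : ℝ≥0}

lemma dv_Ff (hu : LM u K) (hh : Hom1 u) (hha : Harm u (Om u)) (s₀ : ℝ) {x : E d}
    (hx : x ∈ Om u) : dv (Ff u s₀) x =
      eta s₀ x * (deriv Real.smoothTransition (‖fderiv ℝ u x‖ ^ 2 - 1) * (2 * ‖mp u x‖ ^ 2)
        + Real.smoothTransition (‖fderiv ℝ u x‖ ^ 2 - 1) * hs (D2 u x)) := by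
  have hO : IsOpen (Om u) := isOpen_Om hu.continuous
  have hnb : Om u ∈ 𝓝 x := hO.mem_nhds hx
  have hsm : ContDiffOn ℝ (⊤ : ℕ∞) u (Om u) := hha.1
  have hc2 : ContDiffAt ℝ 2 u x := (hsm.contDiffAt hnb).of_le two_le_smooth
  have hm : DifferentiableAt ℝ (mp u) x :=
    ((contDiffOn_mp hO hsm).contDiffAt hnb).differentiableAt (by simp)
  have h1 : HasFDerivAt (fun y => ‖fderiv ℝ u y‖ ^ 2 - 1)
      ((2 : ℝ) • ((D2 u x).flip (∇ u x))) x := (hasFDerivAt_normsq hc2).sub_const 1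
  have h2 : HasDerivAt Real.smoothTransition
      (deriv Real.smoothTransition (‖fderiv ℝ u x‖ ^ 2 - 1)) (‖fderiv ℝ u x‖ ^ 2 - 1) :=
    ((Real.smoothTransition.contDiff (n := 1)).differentiable (by simp) _).hasDerivAt
  have h3 := h2.comp_hasFDerivAt x h1
  have h4 := (hasFDerivAt_eta s₀ x).mul h3
  have h5 : fderiv ℝ (fun y => eta s₀ y * Real.smoothTransition (‖fderiv ℝ u y‖ ^ 2 - 1)) x
      (mp u x) = eta s₀ x * (deriv Real.smoothTransition (‖fderiv ℝ u x‖ ^ 2 - 1) *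
        (2 * ‖mp u x‖ ^ 2)) := by
    have h6 : HasFDerivAt (fun y => eta s₀ y * Real.smoothTransition (‖fderiv ℝ u y‖ ^ 2 - 1))
      _ x := h4
    rw [h6.fderiv]
    simp only [add_apply, smul_apply, smul_eq_mul, ContinuousLinearMap.flip_apply,
      Function.comp_apply]
    have h7 : D2 u x (mp u x) (∇ u x) = ‖mp u x‖ ^ 2 := by
      rw [D2_symm hc2, ← inner_mp, real_inner_self_eq_norm_sq]
    have h8 : (innerSL ℝ x) (mp u x) = 0 := by
      rw [innerSL_apply_apply, real_inner_comm, inner_mp, D2_symm hc2]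
      have : D2 u x x = 0 := FE.hess_self hh hc2
      rw [this]; rfl
    rw [h7, h8]
    ring
  have h9 : dv (Ff u s₀) x = fderiv ℝ (fun y => eta s₀ y *
      Real.smoothTransition (‖fderiv ℝ u y‖ ^ 2 - 1)) x (mp u x)
      + (eta s₀ x * Real.smoothTransition (‖fderiv ℝ u x‖ ^ 2 - 1)) * dv (mp u) x :=
    dv_smul' h4.differentiableAt hm
  rw [h9, h5, dv_mp hO hsm hha.2 hx]
  ring

lemma contDiffOn_Ff (hu : LM u K) (hha : Harm u (Om u)) (s₀ : ℝ) :
    ContDiffOn ℝ 1 (Ff u s₀) (Om u) := by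
  have hO : IsOpen (Om u) := isOpen_Om hu.continuous
  have hsm : ContDiffOn ℝ (⊤ : ℕ∞) u (Om u) := hha.1
  have h1 : ContDiffOn ℝ 1 (fun y => ‖fderiv ℝ u y‖ ^ 2 - 1) (Om u) := by
    have e : (fun y => ‖fderiv ℝ u y‖ ^ 2 - 1) = fun y => ‖∇ u y‖ ^ 2 - 1 := by
      funext y; rw [norm_gradient]
    rw [e]
    exact (((contDiffOn_gradient hO hsm).of_le (by exact_mod_cast le_top)).norm_sq ℝ).sub
      contDiffOn_const
  have h2 : ContDiffOn ℝ 1 (fun y => Real.smoothTransition (‖fderiv ℝ u y‖ ^ 2 - 1)) (Om u) :=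
    (Real.smoothTransition.contDiff (n := 1)).comp_contDiffOn h1
  exact (((contDiff_eta s₀).contDiffOn).mul h2).smul
    ((contDiffOn_mp hO hsm).of_le (by exact_mod_cast le_top))

/-- the Hessian vanishes where the gradient is larger than one -/
theorem hess_zero (hu : LM u K) (hh : Hom1 u) (hha : Harm u (Om u))
    (hreg : ∀ y ∈ frontier (Om u), y ≠ 0 → RegPt u y) {x : E d} (hx : x ∈ Om u)
    (hg : 1 < ‖fderiv ℝ u x‖) : D2 u x = 0 := by
  have hO : IsOpen (Om u) := isOpen_Om hu.continuous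
  have hsm : ContDiffOn ℝ (⊤ : ℕ∞) u (Om u) := hha.1
  have hx0 : x ≠ 0 := by
    rintro rfl
    have h1 : (0 : ℝ) < u 0 := hx
    rw [FE.hom1_zero hh] at h1
    exact lt_irrefl _ h1
  set s₀ : ℝ := ‖x‖ ^ 2 with hs₀
  have hs0 : 0 < s₀ := by positivity
  set S : Set (E d) := SS s₀ with hS
  have hSc : IsCompact S := isCompact_SS s₀
  have hS0 : ∀ y ∈ S, y ≠ 0 := by
    rintro y hy rfl
    have := hy.1
    rw [norm_zero] at this
    norm_num at this
    linarith
  have hregS : ∀ y ∈ S, y ∈ frontier (Om u) → RegPt u y := fun y hy hf => hreg y hf (hS0 y hy)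
  obtain ⟨C, hC⟩ := D2_bdd hu hsm hSc hregS
  have hK : ∀ y, ‖∇ u y‖ ≤ K := fun y => by
    rw [norm_gradient]; exact norm_fderiv_le_of_lip hu.lip y
  have hmpb : ∀ y ∈ Om u, y ∈ S → ‖mp u y‖ ≤ |C| * K := by
    intro y hy hyS
    rw [norm_mp]
    refine (ContinuousLinearMap.le_opNorm _ _).trans ?_
    exact mul_le_mul ((hC y hy hyS).trans (le_abs_self _)) (hK y) (norm_nonneg _) (abs_nonneg _)
  obtain ⟨Cs, hCs⟩ := isCompact_Icc.exists_bound_of_continuousOn (s := Icc (-1 : ℝ) (K ^ 2))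
    ((Real.smoothTransition.contDiff (n := 1)).continuous_deriv le_rfl).continuousOn
  have hsT : ∀ y, ‖deriv Real.smoothTransition (‖fderiv ℝ u y‖ ^ 2 - 1)‖ ≤ |Cs| := by
    intro y
    refine (hCs _ ?_).trans (le_abs_self _)
    have h1 : ‖fderiv ℝ u y‖ ≤ K := norm_fderiv_le_of_lip hu.lip y
    have h2 : ‖fderiv ℝ u y‖ ^ 2 ≤ (K : ℝ) ^ 2 := pow_le_pow_left₀ (norm_nonneg _) h1 2
    exact ⟨by nlinarith [sq_nonneg ‖fderiv ℝ u y‖], by linarith⟩
  set Cb : ℝ := |Cs| * (2 * (|C| * K) ^ 2) + (d : ℝ) * (d * |C| ^ 2) with hCb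
  have hdvb : ∀ y ∈ Om u, |dv (Ff u s₀) y| ≤ Cb := by
    intro y hy
    rw [dv_Ff hu hh hha s₀ hy]
    by_cases hyS : y ∈ S
    · rw [abs_mul, abs_of_nonneg (eta_nonneg _ _)]
      have h1 := eta_le_one s₀ y
      have h2 := eta_nonneg s₀ y
      have h3 : |deriv Real.smoothTransition (‖fderiv ℝ u y‖ ^ 2 - 1) * (2 * ‖mp u y‖ ^ 2)
          + Real.smoothTransition (‖fderiv ℝ u y‖ ^ 2 - 1) * hs (D2 u y)| ≤ Cb := by
        refine (abs_add_le _ _).trans (add_le_add ?_ ?_)
        · rw [abs_mul, abs_of_nonneg (a := 2 * ‖mp u y‖ ^ 2) (by positivity)]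
          refine mul_le_mul (hsT y) ?_ (by positivity) (abs_nonneg _)
          have := pow_le_pow_left₀ (norm_nonneg _) (hmpb y hy hyS) 2
          linarith
        · rw [abs_mul, abs_of_nonneg (Real.smoothTransition.nonneg _),
            abs_of_nonneg (hs_nonneg _)]
          have h4 := hs_le (D2 u y)
          have h5 : ‖D2 u y‖ ^ 2 ≤ |C| ^ 2 :=
            pow_le_pow_left₀ (norm_nonneg _) ((hC y hy hyS).trans (le_abs_self _)) 2
          have h6 : (d : ℝ) * (d * ‖D2 u y‖ ^ 2) ≤ d * (d * |C| ^ 2) := by gcongr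
          calc Real.smoothTransition (‖fderiv ℝ u y‖ ^ 2 - 1) * hs (D2 u y)
              ≤ 1 * hs (D2 u y) :=
                mul_le_mul_of_nonneg_right (Real.smoothTransition.le_one _) (hs_nonneg _)
            _ ≤ _ := by rw [one_mul]; exact h4.trans h6
      calc _ ≤ 1 * Cb := mul_le_mul h1 h3 (abs_nonneg _) zero_le_one
        _ = Cb := one_mul _
    · rw [eta_zero hs0 hyS, zero_mul, abs_zero]
      positivity
  have hF0 : ∀ y, y ∉ S → Ff u s₀ y = 0 := by
    intro y hy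
    unfold Ff
    rw [eta_zero hs0 hy, zero_mul, zero_smul]
  have hFb : ∀ y ∈ Om u, ‖Ff u s₀ y‖ ≤ |C| * K := by
    intro y hy
    by_cases hyS : y ∈ S
    · unfold Ff
      rw [norm_smul, Real.norm_eq_abs, abs_mul, abs_of_nonneg (eta_nonneg _ _),
        abs_of_nonneg (Real.smoothTransition.nonneg _)]
      have h1 : eta s₀ y * Real.smoothTransition (‖fderiv ℝ u y‖ ^ 2 - 1) ≤ 1 :=
        mul_le_one₀ (eta_le_one _ _) (Real.smoothTransition.nonneg _)
          (Real.smoothTransition.le_one _)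
      calc _ ≤ 1 * (|C| * K) := mul_le_mul h1 (hmpb y hy hyS) (norm_nonneg _) zero_le_one
        _ = _ := one_mul _
    · rw [hF0 y hyS, norm_zero]; positivity
  -- boundary behaviour
  have hbd : ∀ y ∈ S, y ∈ frontier (Om u) → ∀ ε : ℝ, 0 < ε →
      ∀ᶠ z in 𝓝[Om u] y, -ε ≤ fderiv ℝ u z (Ff u s₀ z) := by
    intro y hyS hyf ε hε
    obtain ⟨e, A, B, hj⟩ := hregS y hyS hyf
    have h1 : Tendsto (fun z => Real.smoothTransition (‖fderiv ℝ u z‖ ^ 2 - 1)
        * (K * (|‖A‖ + 1| * K))) (𝓝[Om u] y) (𝓝 (0 * (K * (|‖A‖ + 1| * K)))) := by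
      refine Tendsto.mul_const _ ?_
      have h2 : Tendsto (fun z => ‖fderiv ℝ u z‖ ^ 2 - 1) (𝓝[Om u] y) (𝓝 (1 - 1)) :=
        hj.norm_sq.sub_const 1
      have h3 := (Real.smoothTransition.continuous.tendsto (1 - 1)).comp h2
      rw [sub_self, Real.smoothTransition.zero] at h3
      exact h3
    rw [zero_mul] at h1
    have h4 : ∀ᶠ z in 𝓝[Om u] y, ‖D2 u z‖ ≤ ‖A‖ + 1 :=
      hj.t2.norm.eventually (eventually_le_nhds (by linarith))
    filter_upwards [h1.eventually (eventually_le_nhds hε), h4] with z hz1 hz2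
    have h5 : |fderiv ℝ u z (Ff u s₀ z)| ≤ Real.smoothTransition (‖fderiv ℝ u z‖ ^ 2 - 1)
        * (K * (|‖A‖ + 1| * K)) := by
      unfold Ff
      rw [map_smul, smul_eq_mul, abs_mul, abs_mul, abs_of_nonneg (eta_nonneg _ _),
        abs_of_nonneg (Real.smoothTransition.nonneg _)]
      have h6 : |fderiv ℝ u z (mp u z)| ≤ K * (|‖A‖ + 1| * K) := by
        refine abs_clm_le (norm_fderiv_le_of_lip hu.lip z) ?_
        rw [norm_mp]
        refine (ContinuousLinearMap.le_opNorm _ _).trans ?_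
        exact mul_le_mul (hz2.trans (le_abs_self _)) (hK z) (norm_nonneg _) (abs_nonneg _)
      have h7 : eta s₀ z * Real.smoothTransition (‖fderiv ℝ u z‖ ^ 2 - 1)
          ≤ Real.smoothTransition (‖fderiv ℝ u z‖ ^ 2 - 1) := by
        have := mul_le_mul_of_nonneg_right (eta_le_one s₀ z)
          (Real.smoothTransition.nonneg (‖fderiv ℝ u z‖ ^ 2 - 1))
        rwa [one_mul] at this
      exact mul_le_mul h7 h6 (abs_nonneg _) (Real.smoothTransition.nonneg _)
    have := (abs_le.1 h5).1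
    linarith
  have hflux := flux hu hsm hha.2 hSc hregS (contDiffOn_Ff hu hha s₀) hF0
    (C := max (|C| * K) Cb) (fun y hy => (hFb y hy).trans (le_max_left _ _))
    (fun y hy => (hdvb y hy).trans (le_max_right _ _)) hbd
  -- the divergence is nonnegative, hence zero
  have hnn : ∀ y ∈ Om u, 0 ≤ dv (Ff u s₀) y := by
    intro y hy
    rw [dv_Ff hu hh hha s₀ hy]
    have h1 := deriv_smoothTransition_nonneg (‖fderiv ℝ u y‖ ^ 2 - 1)
    have h2 := Real.smoothTransition.nonneg (‖fderiv ℝ u y‖ ^ 2 - 1)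
    have h3 := hs_nonneg (D2 u y)
    have h4 := eta_nonneg s₀ y
    positivity
  have hint : IntegrableOn (dv (Ff u s₀)) (Om u) := by
    refine Integrable.mono' (g := S.indicator fun _ => Cb) ?_
      (measurable_dv _).aestronglyMeasurable ?_
    · refine Integrable.restrict ?_
      rw [integrable_indicator_iff hSc.measurableSet]
      exact integrableOn_const (hSc.measure_lt_top.ne)
    · rw [ae_restrict_iff' hO.measurableSet]
      refine Eventually.of_forall fun y hy => ?_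
      by_cases hyS : y ∈ S
      · rw [indicator_of_mem hyS, Real.norm_eq_abs]; exact hdvb y hy
      · rw [indicator_of_notMem hyS, dv_eq_zero_of_compl hSc.isClosed hF0 hyS]
        simp
  have hzero : ∫ y in Om u, dv (Ff u s₀) y = 0 :=
    le_antisymm hflux (setIntegral_nonneg hO.measurableSet hnn)
  have hae : dv (Ff u s₀) =ᵐ[volume.restrict (Om u)] fun _ => 0 := by
    have h1 : 0 ≤ᵐ[volume.restrict (Om u)] dv (Ff u s₀) := by
      rw [EventuallyLE, ae_restrict_iff' hO.measurableSet]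
      exact Eventually.of_forall hnn
    exact (integral_eq_zero_iff_of_nonneg_ae h1 hint).1 hzero
  have heq := Measure.eqOn_open_of_ae_eq hae hO
    (continuousOn_dv' hO (contDiffOn_Ff hu hha s₀)) continuousOn_const
  have h1 : dv (Ff u s₀) x = 0 := heq hx
  rw [dv_Ff hu hh hha s₀ hx, hs₀, eta_one hx0, one_mul] at h1
  have h2 : 0 < Real.smoothTransition (‖fderiv ℝ u x‖ ^ 2 - 1) := by
    refine Real.smoothTransition.pos_of_pos ?_
    nlinarith
  have h3 : 0 ≤ deriv Real.smoothTransition (‖fderiv ℝ u x‖ ^ 2 - 1) * (2 * ‖mp u x‖ ^ 2) :=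
    mul_nonneg (deriv_smoothTransition_nonneg _) (by positivity)
  have h4 := hs_nonneg (D2 u x)
  have h5 : hs (D2 u x) = 0 := by
    by_contra hne
    have h6 : 0 < hs (D2 u x) := lt_of_le_of_ne h4 (Ne.symm hne)
    have := mul_pos h2 h6
    linarith
  -- vanishing Hilbert-Schmidt norm
  have h6 : ∀ i j, D2 u x (bv i) (bv j) = 0 := by
    intro i j
    unfold hs at h5
    have h7 := (Finset.sum_eq_zero_iff_of_nonneg (fun i _ =>
      Finset.sum_nonneg fun j _ => sq_nonneg _)).1 h5 i (Finset.mem_univ _)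
    have h8 := (Finset.sum_eq_zero_iff_of_nonneg (fun j _ => sq_nonneg _)).1 h7 j
      (Finset.mem_univ _)
    exact pow_eq_zero_iff (by norm_num) |>.1 h8
  have h7 : ∀ i, D2 u x (bv i) = 0 := by
    intro i
    ext v
    rw [apply_eq_sum (D2 u x (bv i)) v]
    simp [h6]
  ext v w
  conv_lhs => rw [← sum_bv v, map_sum]
  simp [h7]

/-- a cone whose gradient is larger than one somewhere is linear on a half space -/
lemma lin_half (hu : LM u K) (hh : Hom1 u) (hha : Harm u (Om u))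
    (hreg : ∀ y ∈ frontier (Om u), y ≠ 0 → RegPt u y) {x0 : E d} (hx0 : x0 ∈ Om u)
    (hg : 1 < ‖fderiv ℝ u x0‖) :
    ∀ x, 0 < fderiv ℝ u x0 x → x ∈ Om u ∧ fderiv ℝ u x = fderiv ℝ u x0 := by
  have hO : IsOpen (Om u) := isOpen_Om hu.continuous
  have hsm : ContDiffOn ℝ (⊤ : ℕ∞) u (Om u) := hha.1
  set p : E d →L[ℝ] ℝ := fderiv ℝ u x0 with hp
  have hD1 : ContinuousOn (fderiv ℝ u) (Om u) := (contDiffOn_D1 hO hsm).continuousOn
  have hdiff : ∀ x ∈ Om u, DifferentiableAt ℝ u x := fun x hx =>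
    (hsm.contDiffAt (hO.mem_nhds hx)).differentiableAt (by simp)
  have hdiff2 : ∀ x ∈ Om u, DifferentiableAt ℝ (fderiv ℝ u) x := fun x hx =>
    ((contDiffOn_D1 hO hsm).contDiffAt (hO.mem_nhds hx)).differentiableAt (by simp)
  set H : Set (E d) := {x | 0 < p x} with hH
  have hHc : IsPreconnected H := (convex_halfSpace_gt p.isLinear 0).isPreconnected
  set W : Set (E d) := {x | x ∈ Om u ∧ fderiv ℝ u x = p} with hW
  have hWo : IsOpen W := by
    rw [isOpen_iff_mem_nhds]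
    rintro x ⟨hx, hxp⟩
    have h1 : ∀ᶠ y in 𝓝 x, y ∈ Om u ∧ 1 < ‖fderiv ℝ u y‖ := by
      have h2 : ContinuousAt (fun y => ‖fderiv ℝ u y‖) x :=
        ((hD1 x hx).continuousAt (hO.mem_nhds hx)).norm
      have h3 : ∀ᶠ y in 𝓝 x, 1 < ‖fderiv ℝ u y‖ :=
        h2.eventually (lt_mem_nhds (by simp only; rw [hxp]; exact hg))
      filter_upwards [hO.mem_nhds hx, h3] with y h4 h5 using ⟨h4, h5⟩
    obtain ⟨r, hr, hb⟩ := Metric.eventually_nhds_iff_ball.1 h1
    refine mem_of_superset (ball_mem_nhds x hr) fun y hy => ⟨(hb y hy).1, ?_⟩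
    have h3 : fderiv ℝ u y = fderiv ℝ u x := by
      refine (convex_ball x r).is_const_of_fderivWithin_eq_zero (𝕜 := ℝ) (f := fderiv ℝ u) ?_ ?_
        hy (mem_ball_self hr)
      · exact fun w hw => (hdiff2 w (hb w hw).1).differentiableWithinAt
      · intro w hw
        rw [fderivWithin_of_isOpen isOpen_ball hw]
        exact hess_zero hu hh hha hreg (hb w hw).1 (hb w hw).2
    rw [h3, hxp]
  have hval : ∀ x ∈ W, u x = p x := fun x hx => by
    rw [← FE.euler1 hh (hdiff x hx.1), hx.2]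
  have hcl : closure W ∩ H ⊆ W := by
    rintro x ⟨hxW, hxH⟩
    have h1 : u x = p x := by
      have hc : IsClosed {y | u y = p y} := isClosed_eq hu.continuous p.continuous
      exact hc.closure_subset_iff.2 (fun y hy => hval y hy) hxW
    have hxO : x ∈ Om u := by
      show 0 < u x
      rw [h1]; exact hxH
    refine ⟨hxO, ?_⟩
    obtain ⟨y, hy, hyx⟩ := mem_closure_iff_seq_limit.1 hxW
    have h2 : Tendsto (fun n => fderiv ℝ u (y n)) atTop (𝓝 (fderiv ℝ u x)) :=
      ((hD1 x hxO).continuousAt (hO.mem_nhds hxO)).tendsto.comp hyx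
    have h3 : (fun n => fderiv ℝ u (y n)) = fun _ => p := funext fun n => (hy n).2
    rw [h3] at h2
    exact tendsto_nhds_unique h2 tendsto_const_nhds
  have hne : (H ∩ W).Nonempty := by
    refine ⟨x0, ?_, hx0, rfl⟩
    show 0 < p x0
    rw [hp, FE.euler1 hh (hdiff x0 hx0)]
    exact hx0
  exact fun x hx => hHc.subset_of_closure_inter_subset hWo hne hcl hx

lemma exists_ker (hd : 2 ≤ d) (p : E d →L[ℝ] ℝ) : ∃ y : E d, y ≠ 0 ∧ p y = 0 := by
  by_contra hcon
  push Not at hcon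
  have hinj : Function.Injective p.toLinearMap := by
    rw [← LinearMap.ker_eq_bot, LinearMap.ker_eq_bot']
    intro y hy
    by_contra hy0
    exact hcon y hy0 hy
  have h1 := LinearMap.finrank_le_finrank_of_injective hinj
  rw [finrank_euclideanSpace_fin, Module.finrank_self] at h1
  omega

end main

end RG

open RG in
/-- **gradient bound for regular cones** -/
theorem grad_le_one (hd : 2 ≤ d) {u : E d → ℝ} {K : ℝ≥0} (hu : LM u K) (hh : Hom1 u)
    (hha : Harm u (Om u)) (hreg : ∀ y ∈ frontier (Om u), y ≠ 0 → RegPt u y) :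
    ∀ x ∈ Om u, ‖fderiv ℝ u x‖ ≤ 1 := by
  intro x0 hx0
  by_contra hg
  have hg' : 1 < ‖fderiv ℝ u x0‖ := not_le.1 hg
  have hO : IsOpen (Om u) := isOpen_Om hu.continuous
  have hL := lin_half hu hh hha hreg hx0 hg'
  set p : E d →L[ℝ] ℝ := fderiv ℝ u x0 with hp
  obtain ⟨y, hy0, hyp⟩ := exists_ker hd p
  have hpx0 : 0 < p x0 := by
    have hd0 : DifferentiableAt ℝ u x0 :=
      (hha.1.contDiffAt (hO.mem_nhds hx0)).differentiableAt (by simp)
    rw [hp, FE.euler1 hh hd0]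
    exact hx0
  -- the approximating points
  have hmem : ∀ t : ℝ, 0 < t → y + t • x0 ∈ Om u ∧ fderiv ℝ u (y + t • x0) = p := by
    intro t ht
    refine hL _ ?_
    rw [map_add, hyp, map_smul, smul_eq_mul, zero_add]
    positivity
  have htend : Tendsto (fun t : ℝ => y + t • x0) (𝓝[>] 0) (𝓝 y) := by
    have h1 : Tendsto (fun t : ℝ => y + t • x0) (𝓝 0) (𝓝 (y + (0 : ℝ) • x0)) :=
      (continuous_const.add (continuous_id.smul continuous_const)).tendsto 0
    rw [zero_smul, add_zero] at h1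
    exact h1.mono_left nhdsWithin_le_nhds
  have htend2 : Tendsto (fun t : ℝ => y + t • x0) (𝓝[>] 0) (𝓝[Om u] y) := by
    refine tendsto_nhdsWithin_iff.2 ⟨htend, ?_⟩
    filter_upwards [self_mem_nhdsWithin] with t ht
    exact (hmem t ht).1
  have huy : u y = 0 := by
    have h1 : Tendsto (fun t : ℝ => u (y + t • x0)) (𝓝[>] 0) (𝓝 (u y)) :=
      (hu.continuous.tendsto y).comp htend
    have h2 : Tendsto (fun t : ℝ => t * p x0) (𝓝[>] 0) (𝓝 (0 * p x0)) :=
      ((continuous_id.mul continuous_const).tendsto 0).mono_left nhdsWithin_le_nhds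
    have h3 : (fun t : ℝ => u (y + t • x0)) =ᶠ[𝓝[>] 0] fun t => t * p x0 := by
      filter_upwards [self_mem_nhdsWithin] with t ht
      obtain ⟨h4, h5⟩ := hmem t ht
      have hd1 : DifferentiableAt ℝ u (y + t • x0) :=
        (hha.1.contDiffAt (hO.mem_nhds h4)).differentiableAt (by simp)
      rw [← FE.euler1 hh hd1, h5, map_add, hyp, map_smul, smul_eq_mul, zero_add]
    have h4 := tendsto_nhds_unique (h1.congr' h3) h2
    rw [zero_mul] at h4
    exact h4
  have hyO : y ∉ Om u := by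
    intro h
    have : 0 < u y := h
    rw [huy] at this
    exact lt_irrefl _ this
  have hyf : y ∈ frontier (Om u) := by
    rw [hO.frontier_eq]
    refine ⟨mem_closure_of_tendsto htend ?_, hyO⟩
    filter_upwards [self_mem_nhdsWithin] with t ht
    exact (hmem t ht).1
  obtain ⟨e, A, B, hj⟩ := hreg y hyf hy0
  have h1 := hj.norm_sq.comp htend2
  have h2 : ((fun x => ‖fderiv ℝ u x‖ ^ 2) ∘ fun t : ℝ => y + t • x0) =ᶠ[𝓝[>] 0]
      fun _ => ‖p‖ ^ 2 := by
    filter_upwards [self_mem_nhdsWithin] with t ht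
    simp only [Function.comp_apply]
    rw [(hmem t ht).2]
  have h3 := tendsto_nhds_unique (h1.congr' h2) tendsto_const_nhds
  nlinarith [norm_nonneg p]

/-- **sign of the mean curvature**: `D²u(ν,ν) ≤ 0` at regular free boundary points of a cone -/
theorem jets_Aee_nonpos (hd : 2 ≤ d) {u : E d → ℝ} {K : ℝ≥0} (hu : LM u K) (hh : Hom1 u)
    (hha : Harm u (Om u)) (hreg : ∀ y ∈ frontier (Om u), y ≠ 0 → RegPt u y) {y e : E d}
    {A : Bil d} {B : Tri d} (hy : y ∈ frontier (Om u)) (hy0 : y ≠ 0) (hj : Jets u y e A B) :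
    A e e ≤ 0 := by
  have hO : IsOpen (Om u) := isOpen_Om hu.continuous
  have hgl := grad_le_one hd hu hh hha hreg
  have hne : (𝓝[Om u] y).NeBot := mem_closure_iff_nhdsWithin_neBot.1 (frontier_subset_closure hy)
  have hgrad : Tendsto (fun x => ∇ u x) (𝓝[Om u] y) (𝓝 e) := by
    rw [tendsto_iff_norm_sub_tendsto_zero]
    have h1 := tendsto_iff_norm_sub_tendsto_zero.1 hj.t1
    refine h1.congr fun x => ?_
    rw [grad_sub_norm]
  have hlim : Tendsto (fun x => D2 u x (∇ u x) (∇ u x)) (𝓝[Om u] y) (𝓝 (A e e)) := by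
    have hc : Continuous fun q : Bil d × E d => q.1 q.2 q.2 := by fun_prop
    exact (hc.tendsto (A, e)).comp (hj.t2.prodMk_nhds hgrad)
  refine le_of_forall_pos_le_add fun ε hε => ?_
  rw [zero_add]
  refine le_of_tendsto hlim ?_
  have hexp := expand_near hu hha.1 (U := {0}ᶜ) isOpen_compl_singleton
    (fun z hz hf => hreg z hf hz) (y := y) hy0 hy (ε := 2 * ε) (by positivity)
  filter_upwards [hexp, self_mem_nhdsWithin] with x hx hxO
  have hux : 0 < u x := hxO
  have h1 := (abs_le.1 hx).2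
  have h2 : ‖fderiv ℝ u x‖ ^ 2 ≤ 1 := by
    have := hgl x hxO
    have h0 := norm_nonneg (fderiv ℝ u x)
    nlinarith
  have h3 : u x * D2 u x (∇ u x) (∇ u x) ≤ u x * ε := by linarith
  exact le_of_mul_le_mul_left h3 hux

end Crest.Agent.R097
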