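import Crest.Agent.R097.Red1

/-!
# Row 97, reduction: the Kato inequality for symmetric trace-free tensors, boundary identity
-/

set_option autoImplicit false
open MeasureTheory Metric Set Filter Topology InnerProductSpace
open scoped RealInnerProductSpace NNReal ENNReal Gradient Laplacian

namespace Crest.Agent.R097

variable {d : ℕ}

namespace KT

/-- `|Av|² ≤ (d-1)/d |A|²|v|²` for symmetric trace-free `A` -/
lemma av_le (hd : 2 ≤ d) (a : Fin d → Fin d → ℝ) (hs : ∀ i j, a i j = a j i)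
    (ht : ∑ i, a i i = 0) (v : Fin d → ℝ) :
    (d : ℝ) * ∑ i, (∑ j, a i j * v j) ^ 2 ≤
      ((d : ℝ) - 1) * ((∑ i, ∑ j, a i j ^ 2) * ∑ j, v j ^ 2) := by
  set w : Fin d → ℝ := fun i => ∑ j, a i j * v j with hw
  set V := ∑ j, v j ^ 2 with hV
  set W := ∑ i, w i ^ 2 with hW
  set α := ∑ i, v i * w i with hα
  set m := ∑ i, ∑ j, a i j ^ 2 with hm
  have hd1 : (1 : ℝ) ≤ (d : ℝ) - 1 := by
    have : (2 : ℝ) ≤ d := by exact_mod_cast hd
    linarith
  have hd0 : (0 : ℝ) < (d : ℝ) - 1 := by linarith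
  set β := α / ((d : ℝ) - 1) with hβ
  set γ := α - β with hγ
  have hβd : β * ((d : ℝ) - 1) = α := by rw [hβ]; field_simp
  set A0 : Fin d → Fin d → ℝ := fun i j =>
    V * (v i * w j + w i * v j) - γ * (v i * v j) - (if i = j then β * V else 0) with hA0
  -- pairing with a symmetric trace-free matrix
  have pair : ∀ T : Fin d → Fin d → ℝ, (∀ i j, T i j = T j i) → ∑ i, T i i = 0 →
      ∑ i, ∑ j, T i j * A0 i j = 2 * V * ∑ i, (∑ j, T i j * v j) * w i -
        γ * ∑ i, (∑ j, T i j * v j) * v i := by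
    intro T hTs hTt
    have e1 : ∑ i, ∑ j, T i j * A0 i j = V * (∑ i, ∑ j, T i j * (v i * w j)) +
        V * (∑ i, ∑ j, T i j * (w i * v j)) - γ * (∑ i, ∑ j, T i j * (v i * v j)) -
        ∑ i, ∑ j, T i j * (if i = j then β * V else 0) := by
      simp only [hA0, Finset.mul_sum, ← Finset.sum_add_distrib, ← Finset.sum_sub_distrib]
      refine Finset.sum_congr rfl fun i _ => Finset.sum_congr rfl fun j _ => ?_
      ring
    have e2 : ∑ i, ∑ j, T i j * (if i = j then β * V else 0) = 0 := by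
      have : ∀ i, ∑ j, T i j * (if i = j then β * V else 0) = T i i * (β * V) := by
        intro i; simp
      simp_rw [this, ← Finset.sum_mul, hTt, zero_mul]
    have e3 : ∑ i, ∑ j, T i j * (w i * v j) = ∑ i, (∑ j, T i j * v j) * w i := by
      refine Finset.sum_congr rfl fun i _ => ?_
      rw [Finset.sum_mul]
      refine Finset.sum_congr rfl fun j _ => ?_
      ring
    have e4 : ∑ i, ∑ j, T i j * (v i * w j) = ∑ i, (∑ j, T i j * v j) * w i := by
      rw [Finset.sum_comm, ← e3]
      refine Finset.sum_congr rfl fun i _ => Finset.sum_congr rfl fun j _ => ?_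
      rw [hTs j i]; ring
    have e5 : ∑ i, ∑ j, T i j * (v i * v j) = ∑ i, (∑ j, T i j * v j) * v i := by
      refine Finset.sum_congr rfl fun i _ => ?_
      rw [Finset.sum_mul]
      refine Finset.sum_congr rfl fun j _ => ?_
      ring
    rw [e1, e2, e3, e4, e5]
    ring
  have A0s : ∀ i j, A0 i j = A0 j i := by
    intro i j
    simp only [hA0]
    have : (if i = j then β * V else 0) = (if j = i then β * V else 0) := by
      simp [eq_comm]
    rw [this]; ring
  have A0t : ∑ i, A0 i i = 0 := by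
    have : ∀ i, A0 i i = 2 * V * (v i * w i) - γ * (v i ^ 2) - β * V := by
      intro i; simp only [hA0, if_true]; ring
    simp_rw [this, Finset.sum_sub_distrib, ← Finset.mul_sum, Finset.sum_const, Finset.card_univ,
      Fintype.card_fin, nsmul_eq_mul]
    rw [← hα, ← hV, hγ]
    linear_combination V * (-hβd)
  have A0v : ∀ i, ∑ j, A0 i j * v j = V ^ 2 * w i := by
    intro i
    have e1 : ∑ j, A0 i j * v j = V * v i * (∑ j, v j * w j) + V * w i * (∑ j, v j ^ 2) -
        γ * v i * (∑ j, v j ^ 2) - ∑ j, (if i = j then β * V * v j else 0) := by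
      simp only [hA0, Finset.mul_sum, ← Finset.sum_add_distrib, ← Finset.sum_sub_distrib]
      refine Finset.sum_congr rfl fun j _ => ?_
      split_ifs <;> ring
    rw [e1, ← hα, ← hV]
    simp only [Finset.sum_ite_eq, Finset.mem_univ, if_true]
    rw [hγ]; ring
  set κ := 2 * V * W - γ * α with hκ
  have p1 : ∑ i, ∑ j, a i j * A0 i j = κ := by
    rw [pair a hs ht]
    have e1 : ∑ i, (∑ j, a i j * v j) * w i = W := by
      rw [hW]; refine Finset.sum_congr rfl fun i _ => ?_
      simp only [hw]; ring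
    have e2 : ∑ i, (∑ j, a i j * v j) * v i = α := by
      rw [hα]; refine Finset.sum_congr rfl fun i _ => ?_
      simp only [hw]; ring
    rw [e1, e2]
  have p2 : ∑ i, ∑ j, A0 i j * A0 i j = V ^ 2 * κ := by
    rw [pair A0 A0s A0t]
    have e1 : ∑ i, (∑ j, A0 i j * v j) * w i = V ^ 2 * W := by
      rw [hW, Finset.mul_sum]; refine Finset.sum_congr rfl fun i _ => ?_
      rw [A0v]; ring
    have e2 : ∑ i, (∑ j, A0 i j * v j) * v i = V ^ 2 * α := by
      rw [hα, Finset.mul_sum]; refine Finset.sum_congr rfl fun i _ => ?_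
      rw [A0v]; ring
    rw [e1, e2]; ring
  have hsq : 0 ≤ ∑ i, ∑ j, (V ^ 2 * a i j - A0 i j) ^ 2 :=
    Finset.sum_nonneg fun i _ => Finset.sum_nonneg fun j _ => sq_nonneg _
  have e : ∑ i, ∑ j, (V ^ 2 * a i j - A0 i j) ^ 2 = V ^ 4 * m - 2 * V ^ 2 * (∑ i, ∑ j, a i j * A0 i j) +
      ∑ i, ∑ j, A0 i j * A0 i j := by
    rw [hm]
    simp only [Finset.mul_sum, ← Finset.sum_add_distrib, ← Finset.sum_sub_distrib]
    refine Finset.sum_congr rfl fun i _ => Finset.sum_congr rfl fun j _ => ?_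
    ring
  rw [e, p1, p2] at hsq
  have hV0 : 0 ≤ V := Finset.sum_nonneg fun i _ => sq_nonneg _
  have hW0 : 0 ≤ W := Finset.sum_nonneg fun i _ => sq_nonneg _
  have hm0 : 0 ≤ m := Finset.sum_nonneg fun i _ => Finset.sum_nonneg fun j _ => sq_nonneg _
  have hCS : α ^ 2 ≤ V * W := by
    have := Finset.sum_mul_sq_le_sq_mul_sq Finset.univ v w
    rw [← hα, ← hV, ← hW] at this
    exact this
  rcases hV0.eq_or_lt with hV' | hV'
  · -- v = 0
    have hv : ∀ j, v j = 0 := by
      intro j
      have := (Finset.sum_eq_zero_iff_of_nonneg (fun i _ => sq_nonneg (v i))).1 (hV ▸ hV'.symm) j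
        (Finset.mem_univ j)
      exact pow_eq_zero_iff (two_ne_zero) |>.1 this
    have hW' : W = 0 := by
      rw [hW]; refine Finset.sum_eq_zero fun i _ => ?_
      simp [hw, hv]
    rw [hW', ← hV']; simp
  · have h1 : κ ≤ V ^ 2 * m := by
      have h2 : V ^ 2 * κ ≤ V ^ 2 * (V ^ 2 * m) := by nlinarith
      exact le_of_mul_le_mul_left h2 (by positivity)
    -- κ (d-1) = 2VW(d-1) - α²(d-2)
    have h3 : κ * ((d : ℝ) - 1) = 2 * V * W * ((d : ℝ) - 1) - α ^ 2 * ((d : ℝ) - 2) := by
      rw [hκ, hγ]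
      linear_combination α * hβd
    have h4 : V * W * d ≤ κ * ((d : ℝ) - 1) := by
      rw [h3]
      nlinarith
    have h5 : V * ((d : ℝ) * W) ≤ V * (((d : ℝ) - 1) * (m * V)) := by
      have h6 := mul_le_mul_of_nonneg_right h1 hd0.le
      nlinarith
    exact le_of_mul_le_mul_left h5 hV'

/-- the Kato inequality in coordinates -/
lemma kato (hd : 2 ≤ d) (a : Fin d → Fin d → ℝ) (hs : ∀ i j, a i j = a j i)
    (ht : ∑ i, a i i = 0) (b : Fin d → Fin d → Fin d → ℝ) (h12 : ∀ i j k, b i j k = b j i k)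
    (h23 : ∀ i j k, b i j k = b i k j) (hbt : ∀ i, ∑ j, b i j j = 0) :
    ((d : ℝ) + 2) * ∑ k, (∑ i, ∑ j, a i j * b k i j) ^ 2 ≤
      (d : ℝ) * ((∑ i, ∑ j, a i j ^ 2) * ∑ i, ∑ j, ∑ k, b i j k ^ 2) := by
  set v : Fin d → ℝ := fun k => ∑ i, ∑ j, a i j * b k i j with hv
  set w : Fin d → ℝ := fun i => ∑ j, a i j * v j with hw
  set V := ∑ j, v j ^ 2 with hV
  set W := ∑ i, w i ^ 2 with hW
  set m := ∑ i, ∑ j, a i j ^ 2 with hm
  set n := ∑ i, ∑ j, ∑ k, b i j k ^ 2 with hn
  have hd2 : (2 : ℝ) ≤ d := by exact_mod_cast hd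
  set c : ℝ := 2 / ((d : ℝ) + 2) with hc
  have hcd : c * ((d : ℝ) + 2) = 2 := by rw [hc]; field_simp
  set δ : Fin d → Fin d → ℝ := fun i j => if i = j then 1 else 0 with hδ
  set C : Fin d → Fin d → Fin d → ℝ := fun i j k =>
    a i j * v k + a j k * v i + a k i * v j - c * (δ i j * w k + δ j k * w i + δ k i * w j) with hC
  have δs : ∀ i j, δ i j = δ j i := fun i j => by simp [hδ, eq_comm]
  -- rotation of triple sums
  have rot : ∀ f : Fin d → Fin d → Fin d → ℝ, ∑ i, ∑ j, ∑ k, f i j k = ∑ i, ∑ j, ∑ k, f k i j := by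
    intro f
    rw [Finset.sum_comm]
    simp_rw [Finset.sum_comm (f := fun i k => f i _ k)]
  have pair : ∀ T : Fin d → Fin d → Fin d → ℝ, (∀ i j k, T i j k = T j i k) →
      (∀ i j k, T i j k = T i k j) → (∀ i, ∑ j, T i j j = 0) →
      ∑ i, ∑ j, ∑ k, C i j k * T i j k = 3 * ∑ k, v k * ∑ i, ∑ j, a i j * T k i j := by
    intro T h12 h23 hT
    have hcyc : ∀ i j k, T k i j = T i j k := by
      intro i j k; rw [h12 k i j, h23 i k j]
    set X := ∑ i, ∑ j, ∑ k, a i j * v k * T i j k with hX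
    set Y := ∑ i, ∑ j, ∑ k, δ i j * w k * T i j k with hY
    have hX2 : ∑ i, ∑ j, ∑ k, a j k * v i * T i j k = X := by
      rw [rot]
      refine Finset.sum_congr rfl fun i _ => Finset.sum_congr rfl fun j _ =>
        Finset.sum_congr rfl fun k _ => ?_
      rw [hcyc]
    have hX3 : ∑ i, ∑ j, ∑ k, a k i * v j * T i j k = X := by
      rw [rot, rot]
      refine Finset.sum_congr rfl fun i _ => Finset.sum_congr rfl fun j _ =>
        Finset.sum_congr rfl fun k _ => ?_
      rw [← hcyc j k i, ← hcyc i j k]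
    have hY2 : ∑ i, ∑ j, ∑ k, δ j k * w i * T i j k = Y := by
      rw [rot]
      refine Finset.sum_congr rfl fun i _ => Finset.sum_congr rfl fun j _ =>
        Finset.sum_congr rfl fun k _ => ?_
      rw [hcyc]
    have hY3 : ∑ i, ∑ j, ∑ k, δ k i * w j * T i j k = Y := by
      rw [rot, rot]
      refine Finset.sum_congr rfl fun i _ => Finset.sum_congr rfl fun j _ =>
        Finset.sum_congr rfl fun k _ => ?_
      rw [← hcyc j k i, ← hcyc i j k]
    have hY0 : Y = 0 := by
      rw [← hY2]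
      refine Finset.sum_eq_zero fun i _ => ?_
      have e1 : ∀ j, ∑ k, δ j k * w i * T i j k = w i * T i j j := by
        intro j
        have : ∀ k, δ j k * w i * T i j k = if j = k then w i * T i j k else 0 := by
          intro k; simp only [hδ]; split_ifs <;> ring
        simp_rw [this]
        simp
      simp_rw [e1, ← Finset.mul_sum, hT, mul_zero]
    have hX1 : ∑ k, v k * ∑ i, ∑ j, a i j * T k i j = X := by
      rw [← hX2]
      refine Finset.sum_congr rfl fun i _ => ?_
      simp only [Finset.mul_sum]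
      refine Finset.sum_congr rfl fun j _ => Finset.sum_congr rfl fun k _ => ?_
      ring
    have e0 : ∑ i, ∑ j, ∑ k, C i j k * T i j k = X + (∑ i, ∑ j, ∑ k, a j k * v i * T i j k) +
        (∑ i, ∑ j, ∑ k, a k i * v j * T i j k) - c * (Y + (∑ i, ∑ j, ∑ k, δ j k * w i * T i j k) +
        (∑ i, ∑ j, ∑ k, δ k i * w j * T i j k)) := by
      rw [hX, hY]
      simp only [hC, Finset.mul_sum, ← Finset.sum_add_distrib, ← Finset.sum_sub_distrib]
      refine Finset.sum_congr rfl fun i _ => Finset.sum_congr rfl fun j _ =>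
        Finset.sum_congr rfl fun k _ => ?_
      ring
    rw [e0, hX2, hX3, hY2, hY3, hY0, hX1]
    ring
  have C12 : ∀ i j k, C i j k = C j i k := by
    intro i j k
    simp only [hC]
    rw [hs i j, δs i j, hs j k, hs k i, δs j k, δs k i]
    ring
  have C23 : ∀ i j k, C i j k = C i k j := by
    intro i j k
    simp only [hC]
    rw [hs i j, δs i j, hs j k, hs k i, δs j k, δs k i]
    ring
  have Ct : ∀ i, ∑ j, C i j j = 0 := by
    intro i
    have e1 : ∀ j, C i j j = 2 * (a i j * v j) + a j j * v i - c * (2 * (δ i j * w j) + δ j j * w i) := by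
      intro j; simp only [hC]; rw [hs j i, δs j i]; ring
    simp_rw [e1]
    rw [Finset.sum_sub_distrib, Finset.sum_add_distrib, ← Finset.mul_sum, ← Finset.sum_mul, ht,
      ← Finset.mul_sum, Finset.sum_add_distrib, ← Finset.mul_sum, ← Finset.sum_mul]
    have e2 : ∑ j, δ i j * w j = w i := by simp [hδ]
    have e3 : ∑ j, δ j j = d := by simp [hδ]
    rw [e2, e3]
    have e4 : ∑ j, a i j * v j = w i := rfl
    rw [e4]
    linear_combination (-w i) * hcd
  have q1 : ∑ i, ∑ j, ∑ k, C i j k * b i j k = 3 * V := by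
    rw [pair b h12 h23 hbt, hV]
    congr 1
    refine Finset.sum_congr rfl fun k _ => ?_
    simp only [hv]; ring
  have q2 : ∑ i, ∑ j, ∑ k, C i j k * C i j k = 3 * (m * V + (2 - 2 * c) * W) := by
    rw [pair C C12 C23 Ct]
    congr 1
    have e1 : ∀ k, ∑ i, ∑ j, a i j * C k i j = m * v k + (2 - 2 * c) * ∑ j, a k j * w j := by
      intro k
      have e2 : ∑ i, ∑ j, a i j * C k i j = (∑ i, ∑ j, a k i * (a i j * v j)) + (∑ i, ∑ j, a i j ^ 2 * v k) +
          (∑ i, ∑ j, a k j * (a i j * v i)) - c * ((∑ i, ∑ j, δ k i * (a i j * w j)) +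
          (∑ i, ∑ j, δ i j * a i j * w k) + (∑ i, ∑ j, δ j k * (a i j * w i))) := by
        simp only [hC, Finset.mul_sum, ← Finset.sum_add_distrib, ← Finset.sum_sub_distrib]
        refine Finset.sum_congr rfl fun i _ => Finset.sum_congr rfl fun j _ => ?_
        rw [hs j k]
        ring
      have e3 : ∑ i, ∑ j, a k i * (a i j * v j) = ∑ j, a k j * w j := by
        refine Finset.sum_congr rfl fun i _ => ?_
        rw [← Finset.mul_sum]
      have e4 : ∑ i, ∑ j, a i j ^ 2 * v k = m * v k := by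
        simp_rw [← Finset.sum_mul]
        rfl
      have e5 : ∑ i, ∑ j, a k j * (a i j * v i) = ∑ j, a k j * w j := by
        rw [Finset.sum_comm]
        refine Finset.sum_congr rfl fun j _ => ?_
        rw [← Finset.mul_sum]
        congr 1
        simp only [hw]
        refine Finset.sum_congr rfl fun i _ => ?_
        rw [hs i j]
      have e6 : ∑ i, ∑ j, δ k i * (a i j * w j) = ∑ j, a k j * w j := by
        have : ∀ i, ∑ j, δ k i * (a i j * w j) = if k = i then ∑ j, a i j * w j else 0 := by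
          intro i; rw [← Finset.mul_sum]; simp only [hδ]; split_ifs <;> ring
        simp_rw [this]; simp
      have e7 : ∑ i, ∑ j, δ i j * a i j * w k = 0 := by
        have : ∀ i, ∑ j, δ i j * a i j * w k = a i i * w k := by
          intro i; simp [hδ]
        simp_rw [this, ← Finset.sum_mul, ht, zero_mul]
      have e8 : ∑ i, ∑ j, δ j k * (a i j * w i) = ∑ j, a k j * w j := by
        have : ∀ i, ∑ j, δ j k * (a i j * w i) = a i k * w i := by
          intro i; simp [hδ]
        simp_rw [this]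
        refine Finset.sum_congr rfl fun i _ => ?_
        rw [hs i k]
      rw [e2, e3, e4, e5, e6, e7, e8]
      ring
    simp_rw [e1, mul_add, Finset.sum_add_distrib]
    have e9 : ∑ k, v k * (m * v k) = m * V := by
      rw [hV, Finset.mul_sum]; refine Finset.sum_congr rfl fun k _ => ?_
      ring
    have e10 : ∑ k, v k * ((2 - 2 * c) * ∑ j, a k j * w j) = (2 - 2 * c) * W := by
      have e11 : W = ∑ k, v k * ∑ j, a k j * w j := by
        rw [hW]
        have : ∀ i, w i ^ 2 = ∑ j, v j * (a j i * w i) := by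
          intro i
          rw [sq]
          conv_lhs => rw [show w i = ∑ j, a i j * v j from rfl]
          rw [Finset.sum_mul]
          refine Finset.sum_congr rfl fun j _ => ?_
          rw [hs i j, show w i = ∑ j, a i j * v j from rfl]; ring
        simp_rw [this]
        rw [Finset.sum_comm]
        refine Finset.sum_congr rfl fun j _ => ?_
        rw [Finset.mul_sum]
      rw [e11, Finset.mul_sum]
      refine Finset.sum_congr rfl fun k _ => ?_
      ring
    rw [e9, e10]
  have hsq : ∀ s t : ℝ, 0 ≤ ∑ i, ∑ j, ∑ k, (s * b i j k - t * C i j k) ^ 2 := fun s t =>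
    Finset.sum_nonneg fun i _ => Finset.sum_nonneg fun j _ => Finset.sum_nonneg fun k _ => sq_nonneg _
  have e : ∀ s t : ℝ, ∑ i, ∑ j, ∑ k, (s * b i j k - t * C i j k) ^ 2 = s ^ 2 * n -
      2 * s * t * (3 * V) + t ^ 2 * (3 * (m * V + (2 - 2 * c) * W)) := by
    intro s t
    rw [← q1, ← q2, hn]
    simp only [Finset.mul_sum, ← Finset.sum_add_distrib, ← Finset.sum_sub_distrib]
    refine Finset.sum_congr rfl fun i _ => Finset.sum_congr rfl fun j _ =>
      Finset.sum_congr rfl fun k _ => ?_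
    ring
  have hV0 : 0 ≤ V := Finset.sum_nonneg fun i _ => sq_nonneg _
  have hW0 : 0 ≤ W := Finset.sum_nonneg fun i _ => sq_nonneg _
  have hm0 : 0 ≤ m := Finset.sum_nonneg fun i _ => Finset.sum_nonneg fun j _ => sq_nonneg _
  have hn0 : 0 ≤ n := Finset.sum_nonneg fun i _ => Finset.sum_nonneg fun j _ =>
    Finset.sum_nonneg fun k _ => sq_nonneg _
  have hWle : (d : ℝ) * W ≤ ((d : ℝ) - 1) * (m * V) := av_le hd a hs ht v
  -- Q := 3 (mV + (2-2c) W) ≤ 9 d/(d+2) m V
  set Q := 3 * (m * V + (2 - 2 * c) * W) with hQ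
  have hQle : Q * ((d : ℝ) + 2) ≤ 9 * d * (m * V) := by
    have h1 : (2 - 2 * c) * ((d : ℝ) + 2) = 2 * d := by linear_combination (-2) * hcd
    have h2 : Q * ((d : ℝ) + 2) = 3 * (m * V * ((d : ℝ) + 2) + ((2 - 2 * c) * ((d : ℝ) + 2)) * W) := by
      rw [hQ]; ring
    rw [h2, h1]
    nlinarith
  rcases hV0.eq_or_lt with hV' | hV'
  · rw [← hV']
    have : 0 ≤ (d : ℝ) * (m * n) := by positivity
    linarith
  · have h1 := hsq (3 * V) n
    rw [e] at h1
    -- 9V² n - 18 V² n + n² Q ≥ 0  => n (n Q - 9 V²) ≥ 0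
    rcases hn0.eq_or_lt with hn' | hn'
    · -- n = 0: then V = 0
      exfalso
      have h2 := hsq ((Q + 1) / (6 * V)) 1
      rw [e, ← hn'] at h2
      have h3 : 2 * ((Q + 1) / (6 * V)) * 1 * (3 * V) = Q + 1 := by
        field_simp
        ring
      rw [h3] at h2
      linarith
    · have h2 : 0 ≤ n * (n * Q - 9 * V ^ 2) := by nlinarith
      have h3 : 0 ≤ n * Q - 9 * V ^ 2 := by
        by_contra hcon
        push Not at hcon
        nlinarith
      have h4 : 9 * V ^ 2 * ((d : ℝ) + 2) ≤ n * (9 * d * (m * V)) := by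
        have h5 := mul_le_mul_of_nonneg_left hQle hn0
        have h6 : 9 * V ^ 2 * ((d : ℝ) + 2) ≤ n * Q * ((d : ℝ) + 2) := by
          have : 0 ≤ (d : ℝ) + 2 := by linarith
          nlinarith
        linarith
      have h5 : V * (((d : ℝ) + 2) * V) ≤ V * (d * (m * n)) := by nlinarith
      exact le_of_mul_le_mul_left h5 hV'

end KT

/-- RK1: the Kato inequality for symmetric trace-free forms -/
theorem kato (hd : 2 ≤ d) {A : Bil d} {B : Tri d} (hA : STF2 A) (hB : STF3 B) :
    ∑ k, (∑ i, ∑ j, A (bv i) (bv j) * B (bv k) (bv i) (bv j)) ^ 2 ≤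
      (d : ℝ) / (d + 2) * hs2 A * ∑ k, ∑ i, ∑ j, (B (bv k) (bv i) (bv j)) ^ 2 := by
  have h := KT.kato hd (fun i j => A (bv i) (bv j)) (fun i j => hA.symm _ _) hA.tr
    (fun i j k => B (bv i) (bv j) (bv k)) (fun i j k => hB.symm12 _ _ _)
    (fun i j k => hB.symm23 _ _ _) (fun i => hB.tr _)
  have hd2 : (0 : ℝ) < (d : ℝ) + 2 := by positivity
  unfold hs2
  rw [div_mul_eq_mul_div, div_mul_eq_mul_div, le_div_iff₀ hd2]
  calc _ = ((d : ℝ) + 2) * ∑ k, (∑ i, ∑ j, A (bv i) (bv j) * B (bv k) (bv i) (bv j)) ^ 2 := by ring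
    _ ≤ _ := h
    _ = _ := by ring

end Crest.Agent.R097
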