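import Crest.Agent.R097.RApri
import Crest.Agent.R097.RedKato
import Crest.Agent.R097.RedGrad
import Crest.Agent.R097.B1

/-!
# Row 97: the a priori inequality on regular minimising cones, no further hypotheses
-/

set_option autoImplicit false
open MeasureTheory Metric Set Filter Topology Laplacian InnerProductSpace
open scoped RealInnerProductSpace NNReal ContDiff Gradient

namespace Crest.Agent.R097
variable {d : ℕ}

theorem katoStmt (hd : 2 ≤ d) : KatoStmt d := fun _ _ hA hB => kato hd hA hB

theorem apriori_cone (hd : 2 ≤ d) {K : ℝ≥0} {u : E d → ℝ} (hu : LM u K) (hh : Hom1 u)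
    (hreg : ∀ y ∈ frontier (Om u), y ≠ 0 → RegPt u y) :
    ∀ x ∈ Om u, u x ^ 2 * hs2 (D2 u x) ≤ ((3 * d - 2) / (d + 2)) * (1 - ‖fderiv ℝ u x‖ ^ 2) := by
  have hH : Harm u (Om u) := hu.harm
  exact apriori (katoStmt hd) (by omega) hu.lip.continuous hh hH.1 hH.2 hreg
    (grad_le_one hd hu hh hH hreg)

end Crest.Agent.R097
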