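import Crest.Agent.R097.Red1
import Crest.Agent.R097.SExp
import Crest.Agent.R097.LapChain

/-!
# Row 97: the a priori inequality `u² |D²u|² ≤ ((3d-2)/(d+2)) (1 - |Du|²)` on a regular cone
-/

set_option autoImplicit false
open MeasureTheory Metric Set Filter Topology Laplacian InnerProductSpace
open scoped RealInnerProductSpace NNReal ContDiff Gradient

namespace Crest.Agent.R097
noncomputable section
variable {d : ℕ}

/-- Hilbert–Schmidt norm squared of a trilinear form -/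
def hs3 (B : Tri d) : ℝ := ∑ k, ∑ i, ∑ j, (B (bv k) (bv i) (bv j)) ^ 2

/-- contraction `A : B_k` -/
def ctr (A : Bil d) (B : Tri d) (k : Fin d) : ℝ := ∑ i, ∑ j, A (bv i) (bv j) * B (bv k) (bv i) (bv j)

/-- the Kato type inequality -/
def KatoStmt (d : ℕ) : Prop := ∀ (A : Bil d) (B : Tri d), STF2 A → STF3 B →
  ∑ k, (ctr A B k) ^ 2 ≤ (d : ℝ) / (d + 2) * hs2 A * hs3 B

lemma hs3_nonneg (B : Tri d) : 0 ≤ hs3 B :=
  Finset.sum_nonneg fun _ _ => Finset.sum_nonneg fun _ _ => Finset.sum_nonneg fun _ _ => sq_nonneg _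

namespace Hm

lemma lap_finsum {ι : Type*} (s : Finset ι) {f : ι → E d → ℝ} {x : E d}
    (hf : ∀ i ∈ s, ContDiffAt ℝ 2 (f i) x) :
    (Δ (fun y => ∑ i ∈ s, f i y)) x = ∑ i ∈ s, (Δ (f i)) x := by
  classical
  induction s using Finset.induction_on with
  | empty =>
    simp only [Finset.sum_empty]
    simp
  | insert a s ha ih =>
    simp only [Finset.sum_insert ha]
    rw [lap_add_at (hf a (Finset.mem_insert_self a s))
      (ContDiffAt.sum fun i hi => hf i (Finset.mem_insert_of_mem hi)),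
      ih fun i hi => hf i (Finset.mem_insert_of_mem hi)]

lemma lap_sq {g : E d → ℝ} {x : E d} (hg : ContDiffAt ℝ 2 g x) (h0 : (Δ g) x = 0) :
    (Δ (fun y => g y ^ 2)) x = 2 * ∑ i, (fderiv ℝ g x (bv i)) ^ 2 := by
  have h1 := lap_mul hg hg
  have h2 : (fun y => g y ^ 2) = fun y => g y * g y := by ext y; ring
  rw [h2, h1, h0]
  simp only [zero_mul, mul_zero, zero_add, add_zero]
  congr 1
  exact Finset.sum_congr rfl fun i _ => by ring

end Hm

section calc_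
variable {u : E d → ℝ} {x : E d} {U : Set (E d)}

/-- second derivatives as functions: derivative -/
lemma hasFDerivAt_D2e (hu : ContDiffAt ℝ ∞ u x) (i j : Fin d) :
    HasFDerivAt (fun y => D2 u y (bv i) (bv j)) (((D3 u x).flip (bv i)).flip (bv j)) x := by
  have hD1 : ContDiffAt ℝ ∞ (fderiv ℝ u) x := hu.fderiv_right (by simp)
  have hD2 : ContDiffAt ℝ ∞ (fderiv ℝ (fderiv ℝ u)) x := hD1.fderiv_right (by simp)
  exact Hm.hasFDerivAt_app2 (hD2.differentiableAt (by simp)).hasFDerivAt (bv i) (bv j)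

lemma contDiffAt_D2e (hu : ContDiffAt ℝ ∞ u x) (i j : Fin d) :
    ContDiffAt ℝ ∞ (fun y => D2 u y (bv i) (bv j)) x := by
  have hD1 : ContDiffAt ℝ ∞ (fderiv ℝ u) x := hu.fderiv_right (by simp)
  have hD2 : ContDiffAt ℝ ∞ (fderiv ℝ (fderiv ℝ u)) x := hD1.fderiv_right (by simp)
  exact (hD2.clm_apply contDiffAt_const).clm_apply contDiffAt_const

lemma contDiffAt_D1e (hu : ContDiffAt ℝ ∞ u x) (i : Fin d) :
    ContDiffAt ℝ ∞ (fun y => fderiv ℝ u y (bv i)) x := by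
  have hD1 : ContDiffAt ℝ ∞ (fderiv ℝ u) x := hu.fderiv_right (by simp)
  exact hD1.clm_apply contDiffAt_const

lemma lap_D1e (hU : IsOpen U) (hu : ContDiffOn ℝ ∞ u U) (h0 : ∀ y ∈ U, (Δ u) y = 0) (hx : x ∈ U)
    (i : Fin d) : (Δ (fun y => fderiv ℝ u y (bv i))) x = 0 := by
  have h1 := Hm.lap_fderiv hU hu h0 x hx
  have hD : ContDiffAt ℝ 2 (fderiv ℝ u) x :=
    contDiffOn_infty.mp (Hm.contDiffOn_fderiv hU hu) 2 |>.contDiffAt (hU.mem_nhds hx)
  have h2 := hD.laplacian_CLM_comp_left (l := ContinuousLinearMap.apply ℝ ℝ (bv i))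
  have h3 : (ContinuousLinearMap.apply ℝ ℝ (bv i)) ∘ (fderiv ℝ u) = fun y => fderiv ℝ u y (bv i) := rfl
  rw [h3] at h2
  rw [h2]
  simp [h1]

lemma lap_D2e (hU : IsOpen U) (hu : ContDiffOn ℝ ∞ u U) (h0 : ∀ y ∈ U, (Δ u) y = 0) (hx : x ∈ U)
    (i j : Fin d) : (Δ (fun y => D2 u y (bv i) (bv j))) x = 0 := by
  have hf1 := Hm.contDiffOn_fderiv hU hu
  have h1 := Hm.lap_fderiv hU hf1 (Hm.lap_fderiv hU hu h0) x hx
  have hD : ContDiffAt ℝ 2 (fderiv ℝ (fderiv ℝ u)) x :=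
    contDiffOn_infty.mp (Hm.contDiffOn_fderiv hU hf1) 2 |>.contDiffAt (hU.mem_nhds hx)
  have h2 := hD.laplacian_CLM_comp_left (l := ContinuousLinearMap.apply ℝ (E d →L[ℝ] ℝ) (bv i))
  have h3 : (ContinuousLinearMap.apply ℝ (E d →L[ℝ] ℝ) (bv i)) ∘ (fderiv ℝ (fderiv ℝ u))
    = fun y => fderiv ℝ (fderiv ℝ u) y (bv i) := rfl
  rw [h3] at h2
  have hD' : ContDiffAt ℝ 2 (fun y => fderiv ℝ (fderiv ℝ u) y (bv i)) x :=
    hD.clm_apply contDiffAt_const
  have h4 := hD'.laplacian_CLM_comp_left (l := ContinuousLinearMap.apply ℝ ℝ (bv j))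
  have h5 : (ContinuousLinearMap.apply ℝ ℝ (bv j)) ∘ (fun y => fderiv ℝ (fderiv ℝ u) y (bv i))
    = fun y => D2 u y (bv i) (bv j) := rfl
  rw [h5] at h4
  rw [h4, Function.comp_apply, h2]
  simp [h1]

/-- the jets of a harmonic function -/
lemma stf2_of_harm (hU : IsOpen U) (hu : ContDiffOn ℝ ∞ u U) (h0 : ∀ y ∈ U, (Δ u) y = 0)
    (hx : x ∈ U) : STF2 (D2 u x) := by
  refine ⟨fun a b => Hm.symm2 (hu.contDiffAt (hU.mem_nhds hx)) a b, ?_⟩
  have := h0 x hx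
  rw [Hm.lap_F] at this
  exact this

lemma stf3_of_harm (hU : IsOpen U) (hu : ContDiffOn ℝ ∞ u U) (h0 : ∀ y ∈ U, (Δ u) y = 0)
    (hx : x ∈ U) : STF3 (D3 u x) := by
  have hxa : ContDiffAt ℝ ∞ u x := hu.contDiffAt (hU.mem_nhds hx)
  have hD1x : ContDiffAt ℝ ∞ (fderiv ℝ u) x := hxa.fderiv_right (by simp)
  refine ⟨fun a b c => ?_, fun a b c => Hm.symm3 hxa a b c, ?_⟩
  · have := Hm.symm2 hD1x a b
    unfold D3
    rw [this]
  · intro a
    have h1 := Hm.lap_fderiv hU hu h0 x hx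
    rw [Hm.lap_F] at h1
    have h2 := congrArg (fun T : E d →L[ℝ] ℝ => T a) h1
    simp only [_root_.sum_apply, _root_.zero_apply] at h2
    rw [← h2]
    refine Finset.sum_congr rfl fun i _ => ?_
    unfold D3
    rw [Hm.symm3 hxa (bv i) (bv i) a, Hm.symm2 hD1x (bv i) a]

lemma lap_normsq_D1 (hU : IsOpen U) (hu : ContDiffOn ℝ ∞ u U) (h0 : ∀ y ∈ U, (Δ u) y = 0)
    (hx : x ∈ U) : (Δ (fun y => ∑ i, (fderiv ℝ u y (bv i)) ^ 2)) x = 2 * hs2 (D2 u x) := by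
  have hxa : ContDiffAt ℝ ∞ u x := hu.contDiffAt (hU.mem_nhds hx)
  have hD1 : ContDiffAt ℝ ∞ (fderiv ℝ u) x := hxa.fderiv_right (by simp)
  have hc : ∀ i : Fin d, ContDiffAt ℝ 2 (fun y => fderiv ℝ u y (bv i)) x :=
    fun i => contDiffAt_infty.mp (contDiffAt_D1e hxa i) 2
  rw [Hm.lap_finsum _ fun i _ => (hc i).pow 2]
  simp_rw [fun i => Hm.lap_sq (hc i) (lap_D1e hU hu h0 hx i)]
  rw [← Finset.mul_sum, hs2]
  congr 1
  refine Finset.sum_congr rfl fun i _ => Finset.sum_congr rfl fun j _ => ?_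
  have h1 := Hm.hasFDerivAt_app (hD1.differentiableAt (by simp)).hasFDerivAt (bv i)
  rw [h1.fderiv]
  have h2 : (fderiv ℝ (fderiv ℝ u) x).flip (bv i) (bv j) = D2 u x (bv j) (bv i) := rfl
  rw [h2, (stf2_of_harm hU hu h0 hx).symm]

lemma lap_hs2 (hU : IsOpen U) (hu : ContDiffOn ℝ ∞ u U) (h0 : ∀ y ∈ U, (Δ u) y = 0)
    (hx : x ∈ U) : (Δ (fun y => hs2 (D2 u y))) x = 2 * hs3 (D3 u x) := by
  have hxa : ContDiffAt ℝ ∞ u x := hu.contDiffAt (hU.mem_nhds hx)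
  have hc : ∀ i j : Fin d, ContDiffAt ℝ 2 (fun y => D2 u y (bv i) (bv j)) x :=
    fun i j => contDiffAt_infty.mp (contDiffAt_D2e hxa i j) 2
  unfold hs2
  rw [Hm.lap_finsum _ fun i _ => ContDiffAt.sum fun j _ => (hc i j).pow 2]
  have h1 : ∀ i : Fin d, (Δ (fun y => ∑ j, (D2 u y (bv i) (bv j)) ^ 2)) x
      = ∑ j, 2 * ∑ k, (D3 u x (bv k) (bv i) (bv j)) ^ 2 := by
    intro i
    rw [Hm.lap_finsum _ fun j _ => (hc i j).pow 2]
    refine Finset.sum_congr rfl fun j _ => ?_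
    rw [Hm.lap_sq (hc i j) (lap_D2e hU hu h0 hx i j), (hasFDerivAt_D2e hxa i j).fderiv]
    rfl
  simp_rw [h1]
  unfold hs3
  simp_rw [← Finset.mul_sum]
  congr 1
  rw [Finset.sum_congr rfl fun i _ => Finset.sum_comm]
  rw [Finset.sum_comm]

/-- the auxiliary function `1 - |Du|² - c u² |D²u|²` -/
def Fap (u : E d → ℝ) (c : ℝ) (y : E d) : ℝ :=
  1 - ∑ i, (fderiv ℝ u y (bv i)) ^ 2 - c * (u y ^ 2 * hs2 (D2 u y))

lemma contDiffAt_Fap {c : ℝ} (hxa : ContDiffAt ℝ ∞ u x) : ContDiffAt ℝ 2 (Fap u c) x := by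
  have hc : ∀ i : Fin d, ContDiffAt ℝ 2 (fun y => fderiv ℝ u y (bv i)) x :=
    fun i => contDiffAt_infty.mp (contDiffAt_D1e hxa i) 2
  have hc2 : ∀ i j : Fin d, ContDiffAt ℝ 2 (fun y => D2 u y (bv i) (bv j)) x :=
    fun i j => contDiffAt_infty.mp (contDiffAt_D2e hxa i j) 2
  have hu2 : ContDiffAt ℝ 2 u x := contDiffAt_infty.mp hxa 2
  unfold Fap hs2
  exact (contDiffAt_const.sub (ContDiffAt.sum fun i _ => (hc i).pow 2)).sub
    (contDiffAt_const.mul ((hu2.pow 2).mul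
      (ContDiffAt.sum fun i _ => ContDiffAt.sum fun j _ => (hc2 i j).pow 2)))

lemma lap_Fap {c : ℝ} (hU : IsOpen U) (hu : ContDiffOn ℝ ∞ u U) (h0 : ∀ y ∈ U, (Δ u) y = 0)
    (hx : x ∈ U) : (Δ (Fap u c)) x = - (2 * hs2 (D2 u x))
      - c * (2 * (∑ i, (fderiv ℝ u x (bv i)) ^ 2) * hs2 (D2 u x)
        + 8 * u x * (∑ k, fderiv ℝ u x (bv k) * ctr (D2 u x) (D3 u x) k)
        + 2 * u x ^ 2 * hs3 (D3 u x)) := by
  have hxa : ContDiffAt ℝ ∞ u x := hu.contDiffAt (hU.mem_nhds hx)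
  have hu2 : ContDiffAt ℝ 2 u x := contDiffAt_infty.mp hxa 2
  have hc : ∀ i : Fin d, ContDiffAt ℝ 2 (fun y => fderiv ℝ u y (bv i)) x :=
    fun i => contDiffAt_infty.mp (contDiffAt_D1e hxa i) 2
  have hc2 : ∀ i j : Fin d, ContDiffAt ℝ 2 (fun y => D2 u y (bv i) (bv j)) x :=
    fun i j => contDiffAt_infty.mp (contDiffAt_D2e hxa i j) 2
  have hA : ContDiffAt ℝ 2 (fun y => ∑ i, (fderiv ℝ u y (bv i)) ^ 2) x :=
    ContDiffAt.sum fun i _ => (hc i).pow 2
  have hB : ContDiffAt ℝ 2 (fun y => hs2 (D2 u y)) x := by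
    unfold hs2
    exact ContDiffAt.sum fun i _ => ContDiffAt.sum fun j _ => (hc2 i j).pow 2
  have hC : ContDiffAt ℝ 2 (fun y => u y ^ 2 * hs2 (D2 u y)) x := (hu2.pow 2).mul hB
  have e1 : Fap u c = fun y => (1 + -(∑ i, (fderiv ℝ u y (bv i)) ^ 2))
      + (-c) * (u y ^ 2 * hs2 (D2 u y)) := by
    ext y; unfold Fap; ring
  rw [e1, Hm.lap_add_at (contDiffAt_const.add hA.neg) (contDiffAt_const.mul hC),
    Hm.lap_add_at contDiffAt_const hA.neg, Hm.lap_neg, lap_normsq_D1 hU hu h0 hx,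
    Hm.lap_const_mul_at (-c) hC, Hm.lap_mul (hu2.pow 2) hB, lap_hs2 hU hu h0 hx,
    Hm.lap_sq hu2 (h0 x hx)]
  have e2 : (Δ (fun _ : E d => (1:ℝ))) x = 0 := by simp
  rw [e2]
  have hd1 : HasFDerivAt u (fderiv ℝ u x) x := (hu2.differentiableAt (by norm_num)).hasFDerivAt
  have e3 : ∀ k : Fin d, fderiv ℝ (fun y => u y ^ 2) x (bv k) * fderiv ℝ (fun y => hs2 (D2 u y)) x (bv k)
      = 4 * u x * (fderiv ℝ u x (bv k) * ctr (D2 u x) (D3 u x) k) := by
    intro k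
    have hD2 : DifferentiableAt ℝ (D2 u) x := by
      have hD1 : ContDiffAt ℝ ∞ (fderiv ℝ u) x := hxa.fderiv_right (by simp)
      have hD2 : ContDiffAt ℝ ∞ (fderiv ℝ (fderiv ℝ u)) x := hD1.fderiv_right (by simp)
      exact hD2.differentiableAt (by simp)
    rw [fderiv_m hD2]
    have h1 : fderiv ℝ (fun y => u y ^ 2) x (bv k) = 2 * u x * fderiv ℝ u x (bv k) := by
      rw [(hd1.pow 2).fderiv]
      simp
    rw [h1]
    unfold ctr
    have h2 : ∑ i, ∑ j, 2 * D2 u x (bv i) (bv j) * D3 u x (bv k) (bv i) (bv j)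
        = 2 * ∑ i, ∑ j, D2 u x (bv i) (bv j) * D3 u x (bv k) (bv i) (bv j) := by
      rw [Finset.mul_sum]
      refine Finset.sum_congr rfl fun i _ => ?_
      rw [Finset.mul_sum]
      exact Finset.sum_congr rfl fun j _ => by ring
    rw [h2]
    ring
  simp_rw [e3]
  rw [← Finset.mul_sum]
  ring

/-- the differential inequality -/
lemma lap_Fap_le (hK : KatoStmt d) {c : ℝ} (hc0 : 0 ≤ c) (hU : IsOpen U) (hu : ContDiffOn ℝ ∞ u U)
    (h0 : ∀ y ∈ U, (Δ u) y = 0) (hx : x ∈ U) (hP : ∑ i, (fderiv ℝ u x (bv i)) ^ 2 ≤ 1) :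
    (Δ (Fap u c)) x ≤ - (hs2 (D2 u x) * (2 - c * ((6 * d - 4) / (d + 2))
      * (∑ i, (fderiv ℝ u x (bv i)) ^ 2))) := by
  have _ := hP
  rw [lap_Fap hU hu h0 hx]
  have hkato := hK _ _ (stf2_of_harm hU hu h0 hx) (stf3_of_harm hU hu h0 hx)
  set P2 := ∑ i, (fderiv ℝ u x (bv i)) ^ 2 with hP2
  set a := hs2 (D2 u x) with ha
  set b := hs3 (D3 u x) with hb
  set s := ∑ k, fderiv ℝ u x (bv k) * ctr (D2 u x) (D3 u x) k with hs
  have ha0 : 0 ≤ a := hs2_nonneg _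
  have hb0 : 0 ≤ b := hs3_nonneg _
  have hP20 : 0 ≤ P2 := Finset.sum_nonneg fun _ _ => sq_nonneg _
  set κ : ℝ := (d:ℝ) / (d + 2) with hκ
  have hκ0 : 0 ≤ κ := by positivity
  have hcs : s ^ 2 ≤ P2 * (κ * a * b) := by
    have h1 : s ^ 2 ≤ P2 * ∑ k, (ctr (D2 u x) (D3 u x) k) ^ 2 :=
      Finset.sum_mul_sq_le_sq_mul_sq _ _ _
    exact h1.trans (mul_le_mul_of_nonneg_left hkato hP20)
  have hX : 0 ≤ u x ^ 2 * b := by positivity
  have hY : 0 ≤ κ * P2 * a := by positivity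
  have hkey : 0 ≤ 2 * (u x ^ 2 * b) + 8 * (u x * s) + 8 * (κ * P2 * a) := by
    have h1 : (8 * (u x * s)) ^ 2 ≤ (2 * (u x ^ 2 * b) + 8 * (κ * P2 * a)) ^ 2 := by
      have h2 : (u x * s) ^ 2 ≤ (u x ^ 2 * b) * (κ * P2 * a) := by
        calc (u x * s) ^ 2 = u x ^ 2 * s ^ 2 := by ring
          _ ≤ u x ^ 2 * (P2 * (κ * a * b)) := mul_le_mul_of_nonneg_left hcs (by positivity)
          _ = _ := by ring
      nlinarith [sq_nonneg (2 * (u x ^ 2 * b) - 8 * (κ * P2 * a))]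
    have h2 := abs_le_of_sq_le_sq h1 (by positivity)
    linarith [(abs_le.mp (abs_le_of_sq_le_sq h1 (by positivity))).1]
  have hd2 : (0:ℝ) < d + 2 := by positivity
  have e : 2 - 8 * κ = -((6 * d - 4) / (d + 2)) := by
    rw [hκ]; field_simp; ring
  have h3 : c * (P2 * a * (2 - 8 * κ)) ≤ c * (2 * P2 * a + 8 * u x * s + 2 * u x ^ 2 * b) := by
    apply mul_le_mul_of_nonneg_left _ hc0
    nlinarith
  rw [e] at h3
  nlinarith

end calc_

/-! ### homogeneity -/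

lemma D1_hom {u : E d → ℝ} (hh : Hom1 u) {r : ℝ} (hr : 0 < r) (x : E d) :
    fderiv ℝ u (r • x) = fderiv ℝ u x := by
  have h1 : (fun y => u (r • y)) = fun y => r • u y := by ext y; exact hh r hr y
  have h2 : fderiv ℝ (fun y => u (r • y)) x = r • fderiv ℝ u (r • x) := fderiv_comp_smul (f := u) r
  have h3 : fderiv ℝ (fun y => r • u y) x = r • fderiv ℝ u x :=
    congrFun (fderiv_const_smul_field (R := ℝ) (𝕜 := ℝ) (f := u) r) x
  rw [h1, h3] at h2
  exact (smul_right_injective _ hr.ne' h2).symm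

lemma D2_hom {u : E d → ℝ} (hh : Hom1 u) {r : ℝ} (hr : 0 < r) (x : E d) :
    r • D2 u (r • x) = D2 u x := by
  have h1 : (fun y => fderiv ℝ u (r • y)) = fderiv ℝ u := by ext y; rw [D1_hom hh hr]
  have h2 : fderiv ℝ (fun y => fderiv ℝ u (r • y)) x = r • fderiv ℝ (fderiv ℝ u) (r • x) :=
    fderiv_comp_smul (f := fderiv ℝ u) r
  rw [h1] at h2
  exact h2.symm

lemma Fap_hom {u : E d → ℝ} (hh : Hom1 u) {c r : ℝ} (hr : 0 < r) (x : E d) :
    Fap u c (r • x) = Fap u c x := by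
  unfold Fap
  rw [D1_hom hh hr, hh r hr, ← D2_hom hh hr x]
  have h1 : hs2 (r • D2 u (r • x)) = r ^ 2 * hs2 (D2 u (r • x)) := by
    unfold hs2
    rw [Finset.mul_sum]
    refine Finset.sum_congr rfl fun i _ => ?_
    rw [Finset.mul_sum]
    refine Finset.sum_congr rfl fun j _ => ?_
    simp only [_root_.smul_apply, smul_eq_mul]
    ring
  rw [h1]
  ring

/-- `1 - |Du|² - c u² |D²u|²` vanishes at the regular free boundary points -/
lemma tendsto_Fap {u : E d → ℝ} (hcu : Continuous u) {c : ℝ} {y : E d} (hy : y ∈ frontier (Om u))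
    (hr : RegPt u y) : Tendsto (Fap u c) (𝓝[Om u] y) (𝓝 0) := by
  obtain ⟨e, A, B, hJ⟩ := hr
  have huy : u y = 0 := by
    have hop : IsOpen (Om u) := isOpen_lt continuous_const hcu
    have h1 : y ∉ Om u := by
      intro h
      rw [hop.frontier_eq] at hy
      exact hy.2 h
    have h2 : u y ≤ 0 := not_lt.mp h1
    have h3 : 0 ≤ u y := by
      have h4 : closure (Om u) ⊆ {x | 0 ≤ u x} :=
        closure_minimal (fun x hx => (show 0 < u x from hx).le) (isClosed_le continuous_const hcu)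
      exact h4 (frontier_subset_closure hy)
    linarith
  have h1 : Tendsto (fun x => ∑ i, (fderiv ℝ u x (bv i)) ^ 2) (𝓝[Om u] y)
      (𝓝 (∑ i, (innerSL ℝ e (bv i)) ^ 2)) := by
    apply tendsto_finsetSum
    intro i _
    exact (((ContinuousLinearMap.apply ℝ ℝ (bv i)).continuous.tendsto _).comp hJ.t1).pow 2
  have h2 : ∑ i : Fin d, (innerSL ℝ e (bv i)) ^ 2 = 1 := by
    rw [← normsq_eq_sum, innerSL_apply_norm, hJ.kk.norm_e, one_pow]
  rw [h2] at h1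
  have h3 : Tendsto (fun x => hs2 (D2 u x)) (𝓝[Om u] y) (𝓝 (hs2 A)) :=
    (contDiff_hs2.continuous.tendsto A).comp hJ.t2
  have h4 : Tendsto u (𝓝[Om u] y) (𝓝 0) := by
    have := (hcu.tendsto y).mono_left (nhdsWithin_le_nhds (s := Om u))
    rwa [huy] at this
  have h5 := (tendsto_const_nhds (x := (1:ℝ))).sub h1 |>.sub
    (((h4.pow 2).mul h3).const_mul c)
  have h6 : (1:ℝ) - 1 - c * (0 ^ 2 * hs2 A) = 0 := by ring
  rw [h6] at h5
  exact h5

theorem apriori_aux (hK : KatoStmt d) (hd : 1 ≤ d) {u : E d → ℝ} (hcu : Continuous u) (hh : Hom1 u)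
    (hsm : ContDiffOn ℝ ∞ u (Om u)) (h0 : ∀ x ∈ Om u, (Δ u) x = 0)
    (hreg : ∀ y ∈ frontier (Om u), y ≠ 0 → RegPt u y)
    (hP : ∀ x ∈ Om u, ‖fderiv ℝ u x‖ ≤ 1) {c : ℝ} (hc0 : 0 ≤ c) (hc : c * (3 * d - 2) < d + 2) :
    ∀ x ∈ Om u, 0 ≤ Fap u c x := by
  intro x1 hx1
  by_contra hcon
  push Not at hcon
  have hop : IsOpen (Om u) := isOpen_lt continuous_const hcu
  have hu0 : u 0 = 0 := by
    have := hh 2 (by norm_num) 0
    rw [smul_zero] at this
    linarith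
  have hne : ∀ x ∈ Om u, x ≠ 0 := by
    rintro x hx rfl
    have : 0 < u 0 := hx
    linarith
  have hOm : ∀ x ∈ Om u, ∀ r : ℝ, 0 < r → r • x ∈ Om u := by
    intro x hx r hr
    change 0 < u (r • x)
    rw [hh r hr]
    exact mul_pos hr hx
  classical
  set G : E d → ℝ := fun x => if x ∈ Om u then Fap u c x else 0 with hG
  have hGc : ContinuousOn G (sphere (0 : E d) 1) := by
    intro x hx
    apply ContinuousAt.continuousWithinAt
    have hx0 : x ≠ 0 := by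
      rintro rfl
      simp at hx
    by_cases hxO : x ∈ Om u
    · have h1 : ContinuousAt (Fap u c) x :=
        (contDiffAt_Fap (hsm.contDiffAt (hop.mem_nhds hxO))).continuousAt
      refine h1.congr ?_
      filter_upwards [hop.mem_nhds hxO] with y hy
      rw [hG]; simp only; rw [if_pos hy]
    · by_cases hxf : x ∈ frontier (Om u)
      · have h1 := tendsto_Fap hcu (c := c) hxf (hreg x hxf hx0)
        have hGx : G x = 0 := by rw [hG]; simp only; rw [if_neg hxO]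
        rw [ContinuousAt, hGx]
        rw [← nhdsWithin_univ, ← union_compl_self (Om u), nhdsWithin_union]
        apply Tendsto.sup
        · refine h1.congr' ?_
          filter_upwards [self_mem_nhdsWithin] with y hy
          rw [hG]; simp only; rw [if_pos hy]
        · refine tendsto_const_nhds.congr' ?_
          filter_upwards [self_mem_nhdsWithin] with y hy
          rw [hG]; simp only; rw [if_neg hy]
      · have h1 : x ∉ closure (Om u) := by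
          intro h
          exact hxf (by rw [hop.frontier_eq]; exact ⟨h, hxO⟩)
        have h2 : (fun _ : E d => (0:ℝ)) =ᶠ[𝓝 x] G := by
          filter_upwards [isClosed_closure.isOpen_compl.mem_nhds h1] with y hy
          rw [hG]; simp only; rw [if_neg (fun h => hy (subset_closure h))]
        exact continuousAt_const.congr h2
  -- normalise
  have hx1n : 0 < ‖x1‖ := norm_pos_iff.mpr (hne x1 hx1)
  set z : E d := ‖x1‖⁻¹ • x1 with hz
  have hzS : z ∈ sphere (0 : E d) 1 := by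
    rw [mem_sphere_zero_iff_norm, hz, norm_smul, norm_inv, norm_norm, inv_mul_cancel₀ hx1n.ne']
  have hzO : z ∈ Om u := hOm x1 hx1 _ (inv_pos.mpr hx1n)
  have hzF : Fap u c z < 0 := by rw [hz, Fap_hom hh (inv_pos.mpr hx1n)]; exact hcon
  obtain ⟨x0, hx0S, hx0min⟩ := (isCompact_sphere (0 : E d) 1).exists_isMinOn ⟨z, hzS⟩ hGc
  have hGz : G z = Fap u c z := by rw [hG]; simp only; rw [if_pos hzO]
  have hx0z : G x0 ≤ G z := hx0min hzS
  have hx0O : x0 ∈ Om u := by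
    by_contra h
    have : G x0 = 0 := by rw [hG]; simp only; rw [if_neg h]
    rw [this, hGz] at hx0z
    linarith
  have hGx0 : G x0 = Fap u c x0 := by rw [hG]; simp only; rw [if_pos hx0O]
  have hF0 : Fap u c x0 < 0 := by rw [← hGx0]; rw [hGz] at hx0z; linarith
  have hmin : ∀ x ∈ Om u, Fap u c x0 ≤ Fap u c x := by
    intro x hx
    have hxn : 0 < ‖x‖ := norm_pos_iff.mpr (hne x hx)
    have h1 : ‖x‖⁻¹ • x ∈ sphere (0 : E d) 1 := by
      rw [mem_sphere_zero_iff_norm, norm_smul, norm_inv, norm_norm, inv_mul_cancel₀ hxn.ne']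
    have h2 : ‖x‖⁻¹ • x ∈ Om u := hOm x hx _ (inv_pos.mpr hxn)
    have h3 : G x0 ≤ G (‖x‖⁻¹ • x) := hx0min h1
    have h4 : G (‖x‖⁻¹ • x) = Fap u c (‖x‖⁻¹ • x) := by rw [hG]; simp only; rw [if_pos h2]
    rw [hGx0, h4, Fap_hom hh (inv_pos.mpr hxn)] at h3
    exact h3
  have hloc : IsLocalMin (Fap u c) x0 := by
    filter_upwards [hop.mem_nhds hx0O] with y hy
    exact hmin y hy
  have hΔ0 := Crest.Agent.R077.laplacian_nonneg_of_isLocalMin
    (contDiffAt_Fap (c := c) (hsm.contDiffAt (hop.mem_nhds hx0O))) hloc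
  have hP0 : ∑ i, (fderiv ℝ u x0 (bv i)) ^ 2 ≤ 1 := by
    rw [← normsq_eq_sum]
    have := hP x0 hx0O
    nlinarith [norm_nonneg (fderiv ℝ u x0)]
  have hP00 : 0 ≤ ∑ i, (fderiv ℝ u x0 (bv i)) ^ 2 := Finset.sum_nonneg fun _ _ => sq_nonneg _
  have hle := lap_Fap_le hK hc0 hop hsm h0 hx0O hP0
  have hd1 : (1:ℝ) ≤ d := by exact_mod_cast hd
  have hpos : 0 < 2 - c * ((6 * d - 4) / (d + 2)) * (∑ i, (fderiv ℝ u x0 (bv i)) ^ 2) := by
    have h1 : c * ((6 * d - 4) / (d + 2)) < 2 := by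
      rw [mul_div_assoc', div_lt_iff₀ (by positivity)]
      linarith
    have h2 : 0 ≤ c * ((6 * d - 4) / (d + 2)) := by
      apply mul_nonneg hc0
      apply div_nonneg (by linarith) (by positivity)
    nlinarith
  have ha0 : 0 ≤ hs2 (D2 u x0) := hs2_nonneg _
  have ha : hs2 (D2 u x0) = 0 := by
    by_contra h
    have h1 : 0 < hs2 (D2 u x0) := lt_of_le_of_ne ha0 (Ne.symm h)
    have h2 := mul_pos h1 hpos
    linarith
  have : Fap u c x0 = 1 - ∑ i, (fderiv ℝ u x0 (bv i)) ^ 2 := by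
    unfold Fap
    rw [ha]; ring
  linarith

/-- the a priori inequality -/
theorem apriori (hK : KatoStmt d) (hd : 1 ≤ d) {u : E d → ℝ} (hcu : Continuous u) (hh : Hom1 u)
    (hsm : ContDiffOn ℝ ∞ u (Om u)) (h0 : ∀ x ∈ Om u, (Δ u) x = 0)
    (hreg : ∀ y ∈ frontier (Om u), y ≠ 0 → RegPt u y)
    (hP : ∀ x ∈ Om u, ‖fderiv ℝ u x‖ ≤ 1) :
    ∀ x ∈ Om u, u x ^ 2 * hs2 (D2 u x) ≤ ((3 * d - 2) / (d + 2)) * (1 - ‖fderiv ℝ u x‖ ^ 2) := by
  intro x hx
  have hd1 : (1:ℝ) ≤ d := by exact_mod_cast hd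
  have h3 : (0:ℝ) < 3 * d - 2 := by linarith
  set c0 : ℝ := (d + 2) / (3 * d - 2) with hc0
  have hc0p : 0 < c0 := by positivity
  have hlim : Tendsto (fun c : ℝ => Fap u c x) (𝓝[<] c0) (𝓝 (Fap u c0 x)) := by
    apply Tendsto.mono_left _ nhdsWithin_le_nhds
    apply Continuous.tendsto
    unfold Fap
    fun_prop
  have h1 : 0 ≤ Fap u c0 x := by
    refine ge_of_tendsto hlim ?_
    filter_upwards [Ioo_mem_nhdsLT hc0p] with c hc
    refine apriori_aux hK hd hcu hh hsm h0 hreg hP hc.1.le ?_ x hx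
    have := hc.2
    rw [hc0, lt_div_iff₀ h3] at this
    exact this
  unfold Fap at h1
  rw [← normsq_eq_sum] at h1
  have h2 : c0 * (u x ^ 2 * hs2 (D2 u x)) ≤ 1 - ‖fderiv ℝ u x‖ ^ 2 := by linarith
  have h4 : ((3 * (d:ℝ) - 2) / (d + 2)) * (c0 * (u x ^ 2 * hs2 (D2 u x)))
      = u x ^ 2 * hs2 (D2 u x) := by
    rw [hc0]; field_simp
  rw [← h4]
  exact mul_le_mul_of_nonneg_left h2 (by positivity)

end
end Crest.Agent.R097
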