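import Mathlib

/-!
# Row 97: decoupling and elimination of the third derivatives (helper226)

Pure algebra.  `T` is a totally symmetric trace-free 3-tensor, `lam` the eigenvalues of the Hessian.
For the small-state class (`X = γ (M:T) + (y₀ + y₁ M + y₂ M²) q`) the certificate inequality follows
from one inequality in four real variables for every eigendirection `k`.
-/

set_option autoImplicit false
open Finset

namespace Crest.Agent.R097.Dec

variable {n : ℕ}

/-- `τ_k = ∑ λ_i T_iik` -/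
def tau (lam : Fin n → ℝ) (T : Fin n → Fin n → Fin n → ℝ) (k : Fin n) : ℝ := ∑ i, lam i * T i i k

/-- `τ2_k = ∑ λ_i² T_iik` -/
def tau2 (lam : Fin n → ℝ) (T : Fin n → Fin n → Fin n → ℝ) (k : Fin n) : ℝ :=
  ∑ i, lam i ^ 2 * T i i k

/-- Gram matrix entries (`m` dimension, `a = tr M²`, `c = tr M³`, `p = tr M⁴`, `x = λ_k`) -/
noncomputable def K11 (m a x : ℝ) : ℝ := (a + 2 * x ^ 2) / 3 - 4 * x ^ 2 / (3 * (m + 2))
/-- Gram matrix entry -/
noncomputable def K12 (m a c x : ℝ) : ℝ :=
  (c + 2 * x ^ 3) / 3 - 2 * x * (a + 2 * x ^ 2) / (3 * (m + 2))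
/-- Gram matrix entry -/
noncomputable def K22 (m a p x : ℝ) : ℝ :=
  (p + 2 * x ^ 4) / 3 - (a + 2 * x ^ 2) ^ 2 / (3 * (m + 2))

/-- projection onto two vectors for a weighted inner product -/
theorem exists_proj (D : Fin n → ℝ) (hD : ∀ i, 0 < D i) (v1 v2 t : Fin n → ℝ) :
    ∃ y1 y2 : ℝ,
      ∑ i, D i * v1 i * t i = (∑ i, D i * v1 i * v1 i) * y1 + (∑ i, D i * v1 i * v2 i) * y2 ∧
      ∑ i, D i * v2 i * t i = (∑ i, D i * v1 i * v2 i) * y1 + (∑ i, D i * v2 i * v2 i) * y2 ∧
      (∑ i, D i * v1 i * v1 i) * y1 ^ 2 + 2 * (∑ i, D i * v1 i * v2 i) * y1 * y2 +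
        (∑ i, D i * v2 i * v2 i) * y2 ^ 2 ≤ ∑ i, D i * t i * t i := by
  set A := ∑ i, D i * v1 i * v1 i with hA
  set B := ∑ i, D i * v1 i * v2 i with hB
  set C := ∑ i, D i * v2 i * v2 i with hC
  set s := ∑ i, D i * v1 i * t i with hs
  set r := ∑ i, D i * v2 i * t i with hr
  -- key positivity: for all y1 y2, the square of `t - y1 v1 - y2 v2`
  have key : ∀ z y1 y2 : ℝ, 0 ≤ z ^ 2 * ∑ i, D i * t i * t i - 2 * z * (s * y1 + r * y2) +
      (A * y1 ^ 2 + 2 * B * y1 * y2 + C * y2 ^ 2) := by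
    intro z y1 y2
    have h : z ^ 2 * ∑ i, D i * t i * t i - 2 * z * (s * y1 + r * y2) +
        (A * y1 ^ 2 + 2 * B * y1 * y2 + C * y2 ^ 2) =
        ∑ i, D i * (z * t i - y1 * v1 i - y2 * v2 i) ^ 2 := by
      rw [hA, hB, hC, hs, hr]
      simp only [Finset.mul_sum, Finset.sum_mul, ← Finset.sum_add_distrib, ← Finset.sum_sub_distrib]
      refine Finset.sum_congr rfl fun i _ => ?_
      ring
    rw [h]
    exact Finset.sum_nonneg fun i _ => mul_nonneg (hD i).le (sq_nonneg _)
  have hAn : 0 ≤ A := by have := key 0 1 0; linarith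
  have hCn : 0 ≤ C := by have := key 0 0 1; linarith
  set N := ∑ i, D i * t i * t i with hN
  -- vanishing of `s` when `A = 0`
  have zero_of : ∀ (w : Fin n → ℝ), ∑ i, D i * w i * w i = 0 → ∀ t' : Fin n → ℝ,
      ∑ i, D i * w i * t' i = 0 := by
    intro w hw t'
    have h0 : ∀ i, w i = 0 := by
      intro i
      have h1 := (Finset.sum_eq_zero_iff_of_nonneg fun i _ => by
        have := mul_self_nonneg (w i)
        have h2 := (hD i).le
        nlinarith : ∑ i, D i * w i * w i = 0 ↔ _).1 hw i (Finset.mem_univ i)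
      have h2 : w i * w i = 0 := by
        have h3 : D i * (w i * w i) = 0 := by linarith
        rcases mul_eq_zero.1 h3 with h | h
        · exact absurd h (hD i).ne'
        · exact h
      exact mul_self_eq_zero.1 h2
    exact Finset.sum_eq_zero fun i _ => by rw [h0 i]; ring
  rcases hAn.eq_or_lt with hA0 | hApos
  · -- `v1 = 0`
    have hs0 : s = 0 := zero_of v1 hA0.symm t
    have hB0 : B = 0 := zero_of v1 hA0.symm v2
    rcases hCn.eq_or_lt with hC0 | hCpos
    · have hr0 : r = 0 := zero_of v2 hC0.symm t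
      refine ⟨0, 0, by rw [hs0]; ring, by rw [hr0]; ring, ?_⟩
      have := key 1 0 0
      linarith
    · refine ⟨0, r / C, by rw [hs0, hB0]; ring, by field_simp; ring, ?_⟩
      have h1 := key 1 0 (r / C)
      have h2 : C * (r / C) ^ 2 = r * (r / C) := by field_simp
      rw [← hA0, hB0]
      nlinarith
  · -- `A > 0`
    by_cases hdet : A * C - B ^ 2 = 0
    · -- `v2 = (B/A) v1`
      set m := B / A with hm
      have hw : ∑ i, D i * (v2 i - m * v1 i) * (v2 i - m * v1 i) = 0 := by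
        have h1 : ∑ i, D i * (v2 i - m * v1 i) * (v2 i - m * v1 i) = C - 2 * m * B + m ^ 2 * A := by
          rw [hA, hB, hC]
          simp only [Finset.mul_sum, ← Finset.sum_add_distrib, ← Finset.sum_sub_distrib]
          refine Finset.sum_congr rfl fun i _ => ?_
          ring
        rw [h1, hm]
        field_simp
        nlinarith
      have hr' : r = m * s := by
        have h1 := zero_of _ hw t
        have h2 : ∑ i, D i * (v2 i - m * v1 i) * t i = r - m * s := by
          rw [hr, hs]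
          simp only [Finset.mul_sum, ← Finset.sum_sub_distrib]
          refine Finset.sum_congr rfl fun i _ => ?_
          ring
        linarith
      refine ⟨s / A, 0, by field_simp; ring, by rw [hr', hm]; field_simp; ring, ?_⟩
      have h1 := key 1 (s / A) 0
      have h2 : A * (s / A) ^ 2 = s * (s / A) := by field_simp
      nlinarith
    · have hdetpos : 0 < A * C - B ^ 2 := by
        refine lt_of_le_of_ne ?_ (Ne.symm hdet)
        have h1 := key 0 (-B) A
        nlinarith
      set Δ := A * C - B ^ 2 with hΔ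
      refine ⟨(C * s - B * r) / Δ, (A * r - B * s) / Δ, ?_, ?_, ?_⟩
      · field_simp; rw [hΔ]; ring
      · field_simp; rw [hΔ]; ring
      · have e1 : A * ((C * s - B * r) / Δ) + B * ((A * r - B * s) / Δ) = s := by
          field_simp; rw [hΔ]; ring
        have e2 : B * ((C * s - B * r) / Δ) + C * ((A * r - B * s) / Δ) = r := by
          field_simp; rw [hΔ]; ring
        have h1 := key 1 ((C * s - B * r) / Δ) ((A * r - B * s) / Δ)
        generalize (C * s - B * r) / Δ = y1 at *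
        generalize (A * r - B * s) / Δ = y2 at *
        have h3 : A * y1 ^ 2 + 2 * B * y1 * y2 + C * y2 ^ 2 = s * y1 + r * y2 := by
          rw [← e1, ← e2]; ring
        nlinarith

/-- elimination of the third derivatives in direction `k` -/
theorem elim (hn : 0 < n) {lam t : Fin n → ℝ} (h1 : ∑ i, lam i = 0) (ht : ∑ i, t i = 0) (k : Fin n)
    {a c p : ℝ} (ha : ∑ i, lam i ^ 2 = a) (hc : ∑ i, lam i ^ 3 = c) (hp : ∑ i, lam i ^ 4 = p) :
    ∃ y1 y2 : ℝ,
      ∑ i, lam i * t i = K11 n a (lam k) * y1 + K12 n a c (lam k) * y2 ∧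
      ∑ i, lam i ^ 2 * t i = K12 n a c (lam k) * y1 + K22 n a p (lam k) * y2 ∧
      K11 n a (lam k) * y1 ^ 2 + 2 * K12 n a c (lam k) * y1 * y2 + K22 n a p (lam k) * y2 ^ 2 ≤
        ∑ i, (if i = k then 1 else 3) * t i ^ 2 := by
  set x := lam k with hx
  have hn' : (0 : ℝ) < n := by exact_mod_cast hn
  set D : Fin n → ℝ := fun i => if i = k then 1 else 3 with hD
  have hDpos : ∀ i, 0 < D i := by
    intro i; rw [hD]; dsimp only; split_ifs <;> norm_num
  set μ1 : ℝ := 2 * x / (n + 2) with hμ1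
  set μ2 : ℝ := (a + 2 * x ^ 2) / (n + 2) with hμ2
  -- sums of f_i / D_i
  have hsum : ∀ f : Fin n → ℝ, ∑ i, f i / D i = (∑ i, f i + 2 * f k) / 3 := by
    intro f
    have h2 : ∀ i, f i / D i = f i / 3 + (if i = k then 2 * f k / 3 else 0) := by
      intro i
      rw [hD]; dsimp only
      split_ifs with h
      · rw [h]; ring
      · ring
    simp only [h2]
    rw [Finset.sum_add_distrib, Finset.sum_ite_eq', if_pos (Finset.mem_univ k), ← Finset.sum_div]
    ring
  have hcard : ∑ _i : Fin n, (1 : ℝ) = n := by simp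
  obtain ⟨y1, y2, e1, e2, e3⟩ := exists_proj D hDpos (fun i => (lam i - μ1) / D i)
    (fun i => (lam i ^ 2 - μ2) / D i) t
  have hDne : ∀ i, D i ≠ 0 := fun i => (hDpos i).ne'
  have f1 : ∑ i, D i * ((lam i - μ1) / D i) * t i = ∑ i, lam i * t i := by
    have : ∀ i, D i * ((lam i - μ1) / D i) * t i = lam i * t i - μ1 * t i := by
      intro i; have := hDne i; field_simp
    simp only [this]
    rw [Finset.sum_sub_distrib, ← Finset.mul_sum, ht]; ring
  have f2 : ∑ i, D i * ((lam i ^ 2 - μ2) / D i) * t i = ∑ i, lam i ^ 2 * t i := by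
    have : ∀ i, D i * ((lam i ^ 2 - μ2) / D i) * t i = lam i ^ 2 * t i - μ2 * t i := by
      intro i; have := hDne i; field_simp
    simp only [this]
    rw [Finset.sum_sub_distrib, ← Finset.mul_sum, ht]; ring
  have g1 : ∑ i, D i * ((lam i - μ1) / D i) * ((lam i - μ1) / D i) = K11 n a x := by
    have : ∀ i, D i * ((lam i - μ1) / D i) * ((lam i - μ1) / D i) =
        (lam i ^ 2 - 2 * μ1 * lam i + μ1 ^ 2) / D i := by
      intro i; have := hDne i; field_simp; ring
    simp only [this]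
    rw [hsum]
    simp only [Finset.sum_add_distrib, Finset.sum_sub_distrib, ← Finset.mul_sum]
    rw [h1, ha, Finset.sum_const, Finset.card_univ, Fintype.card_fin, nsmul_eq_mul, hμ1, K11, ← hx]
    field_simp
    ring
  have g2 : ∑ i, D i * ((lam i - μ1) / D i) * ((lam i ^ 2 - μ2) / D i) = K12 n a c x := by
    have : ∀ i, D i * ((lam i - μ1) / D i) * ((lam i ^ 2 - μ2) / D i) =
        (lam i ^ 3 - μ1 * lam i ^ 2 - μ2 * lam i + μ1 * μ2) / D i := by
      intro i; have := hDne i; field_simp; ring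
    simp only [this]
    rw [hsum]
    simp only [Finset.sum_add_distrib, Finset.sum_sub_distrib, ← Finset.mul_sum]
    rw [h1, ha, hc, Finset.sum_const, Finset.card_univ, Fintype.card_fin, nsmul_eq_mul, hμ1, hμ2,
      K12, ← hx]
    field_simp
    ring
  have g3 : ∑ i, D i * ((lam i ^ 2 - μ2) / D i) * ((lam i ^ 2 - μ2) / D i) = K22 n a p x := by
    have : ∀ i, D i * ((lam i ^ 2 - μ2) / D i) * ((lam i ^ 2 - μ2) / D i) =
        (lam i ^ 4 - 2 * μ2 * lam i ^ 2 + μ2 ^ 2) / D i := by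
      intro i; have := hDne i; field_simp; ring
    simp only [this]
    rw [hsum]
    simp only [Finset.sum_add_distrib, Finset.sum_sub_distrib, ← Finset.mul_sum]
    rw [ha, hp, Finset.sum_const, Finset.card_univ, Fintype.card_fin, nsmul_eq_mul, hμ2,
      K22, ← hx]
    field_simp
    ring
  rw [f1, g1, g2] at e1
  rw [f2, g2, g3] at e2
  rw [g1, g2, g3] at e3
  refine ⟨y1, y2, e1, e2, e3.trans (le_of_eq ?_)⟩
  refine Finset.sum_congr rfl fun i _ => ?_
  rw [hD]; dsimp only
  ring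

/-- the norm of a totally symmetric tensor -/
theorem norm_sq_ge {T : Fin n → Fin n → Fin n → ℝ} (h12 : ∀ i j k, T i j k = T j i k)
    (h23 : ∀ i j k, T i j k = T i k j) :
    ∑ k, ∑ i, (if i = k then 1 else 3) * T i i k ^ 2 ≤ ∑ i, ∑ j, ∑ k, T i j k ^ 2 := by
  have h1 : ∀ i j k, (if i = j then T i i k ^ 2 else 0) +
      (if j = k ∧ i ≠ j then T j j i ^ 2 else 0) + (if i = k ∧ j ≠ i then T i i j ^ 2 else 0) ≤
      T i j k ^ 2 := by
    intro i j k
    by_cases hij : i = j
    · subst hij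
      simp
    · by_cases hjk : j = k
      · subst hjk
        have e : T j j i = T i j j := by rw [h23 j j i, h12 j i j]
        simp [hij, e]
      · by_cases hik : i = k
        · subst hik
          have e : T i i j = T i j i := h23 i i j
          simp [hij, Ne.symm hij, e]
        · simp [hij, hjk, hik, sq_nonneg]
  have h2 := Finset.sum_le_sum fun i (_ : i ∈ Finset.univ) => Finset.sum_le_sum fun j
    (_ : j ∈ Finset.univ) => Finset.sum_le_sum fun k (_ : k ∈ Finset.univ) => h1 i j k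
  refine le_trans (le_of_eq ?_) h2
  simp only [Finset.sum_add_distrib]
  have a1 : ∑ i, ∑ j, ∑ k, (if i = j then T i i k ^ 2 else 0) = ∑ k, ∑ i, T i i k ^ 2 := by
    have : ∀ i, ∑ j, ∑ k, (if i = j then T i i k ^ 2 else 0) = ∑ k, T i i k ^ 2 := by
      intro i
      rw [Finset.sum_comm]
      refine Finset.sum_congr rfl fun k _ => ?_
      rw [Finset.sum_ite_eq, if_pos (Finset.mem_univ i)]
    simp only [this]
    rw [Finset.sum_comm]
  have a2 : ∑ i, ∑ j, ∑ k, (if j = k ∧ i ≠ j then T j j i ^ 2 else 0) =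
      ∑ i, ∑ j, (if i ≠ j then T j j i ^ 2 else 0) := by
    refine Finset.sum_congr rfl fun i _ => Finset.sum_congr rfl fun j _ => ?_
    by_cases h : i = j
    · simp [h]
    · simp [h]
  have a3 : ∑ i, ∑ j, ∑ k, (if i = k ∧ j ≠ i then T i i j ^ 2 else 0) =
      ∑ i, ∑ j, (if j ≠ i then T i i j ^ 2 else 0) := by
    refine Finset.sum_congr rfl fun i _ => Finset.sum_congr rfl fun j _ => ?_
    by_cases h : j = i
    · simp [h]
    · simp [h]
  rw [a1, a2, a3]
  rw [Finset.sum_comm (f := fun i j => if j ≠ i then T i i j ^ 2 else 0)]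
  rw [← Finset.sum_add_distrib, ← Finset.sum_add_distrib]
  refine Finset.sum_congr rfl fun k _ => ?_
  rw [← Finset.sum_add_distrib, ← Finset.sum_add_distrib]
  refine Finset.sum_congr rfl fun i _ => ?_
  by_cases h : i = k
  · subst h; simp
  · simp [h, Ne.symm h]; ring

/-- **decoupling**: from one inequality in four variables for every eigendirection to the
inequality for all trace-free totally symmetric `T` -/
theorem decouple (hn : 0 < n) {lam g : Fin n → ℝ} {T : Fin n → Fin n → Fin n → ℝ}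
    (h12 : ∀ i j k, T i j k = T j i k) (h23 : ∀ i j k, T i j k = T i k j)
    (htr : ∀ k, ∑ i, T i i k = 0) (h1 : ∑ i, lam i = 0) {a c p q : ℝ}
    (ha : ∑ i, lam i ^ 2 = a) (hc : ∑ i, lam i ^ 3 = c) (hp : ∑ i, lam i ^ 4 = p)
    (hq : ∑ i, g i ^ 2 = q) {γ C0 : ℝ} (hγ : 0 ≤ γ) (Φ : Fin n → ℝ → ℝ → ℝ → ℝ)
    (hΦ : ∀ k, Φ k 0 0 0 = 0)
    (hk : ∀ k, ∀ σ y1 y2 : ℝ, 0 ≤ σ ^ 2 * C0 +
      Φ k (√q * σ) (K11 n a (lam k) * y1 + K12 n a c (lam k) * y2)
        (K12 n a c (lam k) * y1 + K22 n a p (lam k) * y2) +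
      γ * (K11 n a (lam k) * y1 ^ 2 + 2 * K12 n a c (lam k) * y1 * y2 +
        K22 n a p (lam k) * y2 ^ 2)) :
    0 ≤ C0 + ∑ k, Φ k (g k) (tau lam T k) (tau2 lam T k) + γ * ∑ i, ∑ j, ∑ k, T i j k ^ 2 := by
  have hel : ∀ k, ∃ y1 y2 : ℝ,
      tau lam T k = K11 n a (lam k) * y1 + K12 n a c (lam k) * y2 ∧
      tau2 lam T k = K12 n a c (lam k) * y1 + K22 n a p (lam k) * y2 ∧
      K11 n a (lam k) * y1 ^ 2 + 2 * K12 n a c (lam k) * y1 * y2 + K22 n a p (lam k) * y2 ^ 2 ≤
        ∑ i, (if i = k then 1 else 3) * T i i k ^ 2 := fun k =>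
    elim hn h1 (htr k) k ha hc hp
  choose y1 y2 e1 e2 e3 using hel
  have hT := mul_le_mul_of_nonneg_left (norm_sq_ge h12 h23) hγ
  have hsum : γ * ∑ k, (K11 n a (lam k) * y1 k ^ 2 + 2 * K12 n a c (lam k) * y1 k * y2 k +
      K22 n a p (lam k) * y2 k ^ 2) ≤ γ * ∑ k, ∑ i, (if i = k then 1 else 3) * T i i k ^ 2 :=
    mul_le_mul_of_nonneg_left (Finset.sum_le_sum fun k _ => e3 k) hγ
  have hq0 : 0 ≤ q := by rw [← hq]; exact Finset.sum_nonneg fun i _ => sq_nonneg _
  rcases hq0.eq_or_lt with hz | hpos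
  · -- `g = 0`
    have hg : ∀ k, g k = 0 := by
      intro k
      have h2 := (Finset.sum_eq_zero_iff_of_nonneg fun i _ => sq_nonneg (g i)).1
        (hq.trans hz.symm) k (Finset.mem_univ k)
      exact pow_eq_zero_iff (two_ne_zero) |>.1 h2
    have hC0 : 0 ≤ C0 := by
      have h3 := hk ⟨0, hn⟩ 1 0 0
      rw [← hz] at h3
      simp only [Real.sqrt_zero, mul_zero, add_zero, zero_mul, one_pow, one_mul] at h3
      have h4 := hΦ ⟨0, hn⟩
      simp only [ne_eq, OfNat.ofNat_ne_zero, not_false_eq_true, zero_pow, mul_zero, add_zero] at h3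
      rw [h4] at h3
      linarith
    have h5 : 0 ≤ ∑ k, (Φ k (g k) (tau lam T k) (tau2 lam T k) +
        γ * (K11 n a (lam k) * y1 k ^ 2 + 2 * K12 n a c (lam k) * y1 k * y2 k +
          K22 n a p (lam k) * y2 k ^ 2)) := by
      refine Finset.sum_nonneg fun k _ => ?_
      have h6 := hk k 0 (y1 k) (y2 k)
      rw [← e1, ← e2, mul_zero] at h6
      rw [hg k]
      linarith
    rw [Finset.sum_add_distrib, ← Finset.mul_sum] at h5
    linarith
  · have hsq : √q ^ 2 = q := Real.sq_sqrt hq0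
    have hsqpos : 0 < √q := Real.sqrt_pos.2 hpos
    have hσ : ∑ k, (g k / √q) ^ 2 = 1 := by
      simp only [div_pow, hsq]
      rw [← Finset.sum_div, hq, div_self hpos.ne']
    have h5 : 0 ≤ ∑ k, ((g k / √q) ^ 2 * C0 + Φ k (g k) (tau lam T k) (tau2 lam T k) +
        γ * (K11 n a (lam k) * y1 k ^ 2 + 2 * K12 n a c (lam k) * y1 k * y2 k +
          K22 n a p (lam k) * y2 k ^ 2)) := by
      refine Finset.sum_nonneg fun k _ => ?_
      have h6 := hk k (g k / √q) (y1 k) (y2 k)
      rw [← e1, ← e2, mul_div_cancel₀ _ hsqpos.ne'] at h6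
      exact h6
    rw [Finset.sum_add_distrib, Finset.sum_add_distrib, ← Finset.mul_sum, ← Finset.sum_mul, hσ,
      one_mul] at h5
    linarith

end Crest.Agent.R097.Dec
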