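import Crest.Agent.R097.RState
import Crest.Agent.R097.RedDec
import Crest.Agent.R097.RAprFin

/-!
# Row 97: helper619's a priori inequality
`u² |D²u|² ≤ (n/(2(n+2))) (1 - |Du|⁴)` in dimension `d = n+1`
-/

set_option autoImplicit false
set_option synthInstance.maxHeartbeats 400000
open MeasureTheory Metric Set Filter Topology Laplacian InnerProductSpace
open scoped RealInnerProductSpace NNReal ContDiff Gradient

namespace Crest.Agent.R097
noncomputable section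

namespace AP2

/-! ### algebra -/

variable {n : ℕ}

/-- a trace-free spectrum: `λ_k² ≤ ((n-1)/n) ∑ λ²` -/
lemma sq_le_of_tr (lam : Fin n → ℝ) (h : ∑ i, lam i = 0) (k : Fin n) :
    n * lam k ^ 2 ≤ (n - 1) * ∑ i, lam i ^ 2 := by
  classical
  have h1 : ∑ i ∈ Finset.univ.erase k, lam i = - lam k := by
    have := Finset.add_sum_erase Finset.univ lam (Finset.mem_univ k)
    linarith
  have h2 : ∑ i ∈ Finset.univ.erase k, lam i ^ 2 = ∑ i, lam i ^ 2 - lam k ^ 2 := by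
    have := Finset.add_sum_erase Finset.univ (fun i => lam i ^ 2) (Finset.mem_univ k)
    linarith
  have h3 := sq_sum_le_card_mul_sum_sq (s := Finset.univ.erase k) (f := lam)
  rw [h1, h2, Finset.card_erase_of_mem (Finset.mem_univ k), Finset.card_univ, Fintype.card_fin] at h3
  have hn : 0 < n := Fin.pos k
  have h4 : ((n - 1 : ℕ) : ℝ) = (n : ℝ) - 1 := by
    rw [Nat.cast_sub hn]; simp
  rw [h4] at h3
  nlinarith

/-- weighted Cauchy–Schwarz for a trace-free vector -/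
lemma cs_k (lam t : Fin n → ℝ) (ht : ∑ i, t i = 0) (hl : ∑ i, lam i = 0) (k : Fin n) :
    (∑ i, lam i * t i) ^ 2 ≤ ((∑ i, lam i ^ 2) + 2 * n / (n + 2) * lam k ^ 2) / 3
      * ∑ i, (if i = k then 1 else 3) * t i ^ 2 := by
  classical
  set μ : ℝ := 2 * lam k / (n + 2) with hμ
  have hn2 : (0:ℝ) < n + 2 := by positivity
  have h1 : ∑ i, lam i * t i = ∑ i, (lam i - μ) * t i := by
    simp_rw [sub_mul]
    rw [Finset.sum_sub_distrib, ← Finset.mul_sum, ht, mul_zero, sub_zero]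
  -- weights
  have h2 : (∑ i, (lam i - μ) * t i) ^ 2 ≤ (∑ i, (lam i - μ) ^ 2 / (if i = k then 1 else 3))
      * ∑ i, (if i = k then 1 else 3) * t i ^ 2 := by
    have h3 := Finset.sum_sq_le_sum_mul_sum_of_sq_le_mul Finset.univ
      (r := fun i => (lam i - μ) * t i)
      (f := fun i => (lam i - μ) ^ 2 / (if i = k then 1 else 3))
      (g := fun i => (if i = k then 1 else 3) * t i ^ 2)
      (fun i _ => by positivity) (fun i _ => by positivity)
      (fun i _ => le_of_eq (by split_ifs <;> ring))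
    exact h3
  rw [h1]
  refine h2.trans (le_of_eq ?_)
  congr 1
  have h4 : ∀ i, (lam i - μ) ^ 2 / (if i = k then (1:ℝ) else 3)
      = (lam i - μ) ^ 2 / 3 + (if i = k then (2 / 3) * (lam k - μ) ^ 2 else 0) := by
    intro i
    split_ifs with h
    · subst h; ring
    · ring
  simp_rw [h4]
  rw [Finset.sum_add_distrib, Finset.sum_ite_eq' Finset.univ k, if_pos (Finset.mem_univ _),
    ← Finset.sum_div]
  have h5 : ∑ i, (lam i - μ) ^ 2 = ∑ i, lam i ^ 2 + n * μ ^ 2 := by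
    have : ∀ i, (lam i - μ) ^ 2 = lam i ^ 2 - 2 * μ * lam i + μ ^ 2 := fun i => by ring
    simp_rw [this]
    rw [Finset.sum_add_distrib, Finset.sum_sub_distrib, ← Finset.mul_sum, hl]
    simp
  rw [h5, hμ]
  field_simp
  ring

/-- the key inequality of 619's proof -/
lemma key619 (hn : 2 ≤ n) (lam g : Fin n → ℝ) (s c : ℝ) (τ : Fin n → Fin n → Fin n → ℝ)
    (hc : c = n / (n + 2)) (hs : 0 < s) (hτ : STF τ) (hl : ∑ i, lam i = 0)
    (hP : 0 < ∑ i, lam i ^ 2)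
    (hgr : ∀ k, s ^ 2 * (∑ a, lam a * τ a a k)
      = -(c * ((∑ i, g i ^ 2) + s ^ 2) * lam k + s * ∑ i, lam i ^ 2) * g k) :
    -(2 * c * ((∑ i, g i ^ 2) + s ^ 2) * ∑ i, lam i ^ 2) - 4 * c * (∑ k, lam k ^ 2 * g k ^ 2)
      - 2 * (∑ i, g i ^ 2) * (∑ i, lam i ^ 2) - 8 * s * (∑ k, g k * ∑ a, lam a * τ a a k)
      - 2 * s ^ 2 * (∑ a, ∑ b, ∑ c, τ a b c ^ 2) < 0 := by
  set P := ∑ i, lam i ^ 2 with hPd
  set q := ∑ i, g i ^ 2 with hq
  set Q := q + s ^ 2 with hQ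
  have hn' : (2:ℝ) ≤ n := by exact_mod_cast hn
  have hc0 : 0 < c := by rw [hc]; positivity
  have hc1 : c * (n + 2) = n := by rw [hc]; field_simp
  have hb : 2 * (n:ℝ) / (n + 2) = 2 * c := by rw [hc]; ring
  set N : Fin n → ℝ := fun k => ∑ i, (if i = k then 1 else 3) * τ i i k ^ 2 with hN
  set W : Fin n → ℝ := fun k => ∑ a, lam a * τ a a k with hW
  have hT : ∑ k, N k ≤ ∑ a, ∑ b, ∑ c, τ a b c ^ 2 := Dec.norm_sq_ge hτ.s12 hτ.s23
  -- per direction
  have hk : ∀ k, - (4 * c * (lam k ^ 2 * g k ^ 2)) - 2 * g k ^ 2 * P - 8 * s * (g k * W k)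
      - 2 * s ^ 2 * N k ≤ 2 * c * P * g k ^ 2 := by
    intro k
    set Λ := lam k ^ 2 with hΛ
    have hΛ0 : 0 ≤ Λ := sq_nonneg _
    set D := P + 2 * c * Λ with hD
    have hD0 : 0 < D := by positivity
    have hcs := cs_k lam (fun i => τ i i k) (hτ.tr k) hl k
    rw [hb] at hcs
    have hcs' : W k ^ 2 ≤ D / 3 * N k := hcs
    set Y := c * Q * lam k / s with hY
    have hη : s * W k = -(Y + P) * g k := by
      have h1 := hgr k
      have h2 : s * (s * W k) = s * (-(Y + P) * g k) := by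
        rw [hY]
        have : s * (s * W k) = s ^ 2 * W k := by ring
        rw [this]
        rw [h1]
        field_simp
      exact mul_left_cancel₀ hs.ne' h2
    -- `2 s² N ≥ 6 (sW)²/D`
    have h3 : 6 * ((Y + P) ^ 2 * g k ^ 2) ≤ D * (2 * s ^ 2 * N k) := by
      have h4 : (s * W k) ^ 2 ≤ s ^ 2 * (D / 3 * N k) := by
        rw [mul_pow]; exact mul_le_mul_of_nonneg_left hcs' (by positivity)
      rw [hη] at h4
      nlinarith
    -- the quadratic in `Y`
    have hX : 0 ≤ (n - 1) * P - n * Λ := by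
      have := sq_le_of_tr lam hl k
      linarith
    have h5 : 0 ≤ 6 * (Y + P) ^ 2 - ((6 - 2 * c) * P + 8 * Y - 4 * c * Λ) * D := by
      have h6 : 6 * (Y + P) ^ 2 - ((6 - 2 * c) * P + 8 * Y - 4 * c * Λ) * D
          = 6 * (Y + (P - 4 * c * Λ) / 3) ^ 2
            + (P ^ 2 * (2 * c - 2 / 3) + P * Λ * (4 * c ^ 2 - 8 * c / 3) - 8 / 3 * c ^ 2 * Λ ^ 2) := by
        rw [hD]; ring
      have h7 : (P ^ 2 * (2 * c - 2 / 3) + P * Λ * (4 * c ^ 2 - 8 * c / 3) - 8 / 3 * c ^ 2 * Λ ^ 2)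
          = ((n - 1) * P - n * Λ) * (4 / 3 * c * P + 8 / 3 * c ^ 2 * Λ) / n := by
        have hn0 : (n:ℝ) ≠ 0 := by positivity
        have hn2 : (n:ℝ) + 2 ≠ 0 := by positivity
        rw [hc]
        field_simp
        ring
      rw [h6, h7]
      have h8 : 0 ≤ ((n - 1) * P - n * Λ) * (4 / 3 * c * P + 8 / 3 * c ^ 2 * Λ) / n := by
        apply div_nonneg (mul_nonneg hX (by positivity)) (by positivity)
      nlinarith [sq_nonneg (Y + (P - 4 * c * Λ) / 3)]
    have h9 : 0 ≤ D * (2 * c * P * g k ^ 2 - (- (4 * c * (Λ * g k ^ 2)) - 2 * g k ^ 2 * P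
        - 8 * s * (g k * W k) - 2 * s ^ 2 * N k)) := by
      have h10 : 8 * s * (g k * W k) = -(8 * (Y + P) * g k ^ 2) := by
        calc 8 * s * (g k * W k) = 8 * g k * (s * W k) := by ring
          _ = _ := by rw [hη]; ring
      rw [h10]
      have h11 := mul_nonneg h5 (sq_nonneg (g k))
      nlinarith
    have h12 := nonneg_of_mul_nonneg_right h9 hD0
    linarith
  have hsum := Finset.sum_le_sum fun k (_ : k ∈ Finset.univ) => hk k
  have e1 : ∑ k, (- (4 * c * (lam k ^ 2 * g k ^ 2)) - 2 * g k ^ 2 * P - 8 * s * (g k * W k)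
      - 2 * s ^ 2 * N k) = - (4 * c * ∑ k, lam k ^ 2 * g k ^ 2) - 2 * q * P
      - 8 * s * (∑ k, g k * W k) - 2 * s ^ 2 * ∑ k, N k := by
    rw [Finset.sum_sub_distrib, Finset.sum_sub_distrib, Finset.sum_sub_distrib,
      Finset.sum_neg_distrib, ← Finset.mul_sum, ← Finset.mul_sum, ← Finset.mul_sum,
      ← Finset.sum_mul, ← Finset.mul_sum]
  have e2 : ∑ k, 2 * c * P * g k ^ 2 = 2 * c * P * q := by rw [← Finset.mul_sum]
  rw [e1, e2] at hsum
  have h13 : 2 * s ^ 2 * ∑ k, N k ≤ 2 * s ^ 2 * ∑ a, ∑ b, ∑ c, τ a b c ^ 2 :=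
    mul_le_mul_of_nonneg_left hT (by positivity)
  have h14 : 0 < 2 * c * s ^ 2 * P := by positivity
  have h15 : 2 * c * Q * P = 2 * c * P * q + 2 * c * s ^ 2 * P := by rw [hQ]; ring
  linarith

/-! ### minimum principle on a cone -/

variable {d : ℕ}

lemma cone_min {u : E d → ℝ} (hcu : Continuous u) (hh : Hom1 u) {G0 : E d → ℝ}
    (hc : ∀ x ∈ Om u, ContinuousAt G0 x) (hG0 : ∀ x, ∀ r : ℝ, 0 < r → G0 (r • x) = G0 x)
    (hb : ∀ y ∈ frontier (Om u), y ≠ 0 → Tendsto G0 (𝓝[Om u] y) (𝓝 0))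
    {x1 : E d} (hx1 : x1 ∈ Om u) (h1 : G0 x1 < 0) :
    ∃ x0 ∈ Om u, G0 x0 < 0 ∧ ∀ x ∈ Om u, G0 x0 ≤ G0 x := by
  have hop : IsOpen (Om u) := isOpen_lt continuous_const hcu
  have hu0 : u 0 = 0 := by
    have := hh 2 (by norm_num) 0
    rw [smul_zero] at this
    linarith
  have hne : ∀ x ∈ Om u, x ≠ 0 := by
    rintro x hx rfl
    have : 0 < u 0 := hx
    linarith
  have hOm : ∀ x ∈ Om u, ∀ r : ℝ, 0 < r → r • x ∈ Om u := by
    intro x hx r hr
    change 0 < u (r • x)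
    rw [hh r hr]
    exact mul_pos hr hx
  classical
  set G : E d → ℝ := fun x => if x ∈ Om u then G0 x else 0 with hG
  have hGc : ContinuousOn G (sphere (0 : E d) 1) := by
    intro x hx
    apply ContinuousAt.continuousWithinAt
    have hx0 : x ≠ 0 := by
      rintro rfl
      simp at hx
    by_cases hxO : x ∈ Om u
    · refine (hc x hxO).congr ?_
      filter_upwards [hop.mem_nhds hxO] with y hy
      rw [hG]; simp only; rw [if_pos hy]
    · by_cases hxf : x ∈ frontier (Om u)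
      · have h1 := hb x hxf hx0
        have hGx : G x = 0 := by rw [hG]; simp only; rw [if_neg hxO]
        rw [ContinuousAt, hGx]
        rw [← nhdsWithin_univ, ← union_compl_self (Om u), nhdsWithin_union]
        apply Tendsto.sup
        · refine h1.congr' ?_
          filter_upwards [self_mem_nhdsWithin] with y hy
          rw [hG]; simp only; rw [if_pos hy]
        · refine tendsto_const_nhds.congr' ?_
          filter_upwards [self_mem_nhdsWithin] with y hy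
          rw [hG]; simp only; rw [if_neg hy]
      · have h1 : x ∉ closure (Om u) := by
          intro h
          exact hxf (by rw [hop.frontier_eq]; exact ⟨h, hxO⟩)
        have h2 : (fun _ : E d => (0:ℝ)) =ᶠ[𝓝 x] G := by
          filter_upwards [isClosed_closure.isOpen_compl.mem_nhds h1] with y hy
          rw [hG]; simp only; rw [if_neg (fun h => hy (subset_closure h))]
        exact continuousAt_const.congr h2
  have hx1n : 0 < ‖x1‖ := norm_pos_iff.mpr (hne x1 hx1)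
  set z : E d := ‖x1‖⁻¹ • x1 with hz
  have hzS : z ∈ sphere (0 : E d) 1 := by
    rw [mem_sphere_zero_iff_norm, hz, norm_smul, norm_inv, norm_norm, inv_mul_cancel₀ hx1n.ne']
  have hzO : z ∈ Om u := hOm x1 hx1 _ (inv_pos.mpr hx1n)
  have hzF : G0 z < 0 := by rw [hz, hG0 _ _ (inv_pos.mpr hx1n)]; exact h1
  obtain ⟨x0, hx0S, hx0min⟩ := (isCompact_sphere (0 : E d) 1).exists_isMinOn ⟨z, hzS⟩ hGc
  have hGz : G z = G0 z := by rw [hG]; simp only; rw [if_pos hzO]
  have hx0z : G x0 ≤ G z := hx0min hzS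
  have hx0O : x0 ∈ Om u := by
    by_contra h
    have : G x0 = 0 := by rw [hG]; simp only; rw [if_neg h]
    rw [this, hGz] at hx0z
    linarith
  have hGx0 : G x0 = G0 x0 := by rw [hG]; simp only; rw [if_pos hx0O]
  refine ⟨x0, hx0O, by rw [← hGx0]; rw [hGz] at hx0z; linarith, ?_⟩
  intro x hx
  have hxn : 0 < ‖x‖ := norm_pos_iff.mpr (hne x hx)
  have h1 : ‖x‖⁻¹ • x ∈ sphere (0 : E d) 1 := by
    rw [mem_sphere_zero_iff_norm, norm_smul, norm_inv, norm_norm, inv_mul_cancel₀ hxn.ne']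
  have h2 : ‖x‖⁻¹ • x ∈ Om u := hOm x hx _ (inv_pos.mpr hxn)
  have h3 : G x0 ≤ G (‖x‖⁻¹ • x) := hx0min h1
  have h4 : G (‖x‖⁻¹ • x) = G0 (‖x‖⁻¹ • x) := by rw [hG]; simp only; rw [if_pos h2]
  rw [hGx0, h4, hG0 _ _ (inv_pos.mpr hxn)] at h3
  exact h3

/-! ### calculus -/

/-- `|Du|²` -/
def Sq (u : E d → ℝ) (y : E d) : ℝ := ∑ i, (fderiv ℝ u y (bv i)) ^ 2

/-- the contraction `M:T` as a functional -/
def ctrL (A : Bil d) (B : Tri d) : E d →L[ℝ] ℝ :=
  ∑ i, ∑ j, (A (bv i) (bv j)) • ((B.flip (bv i)).flip (bv j))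

lemma ctrL_apply (A : Bil d) (B : Tri d) (v : E d) :
    ctrL A B v = ∑ i, ∑ j, A (bv i) (bv j) * B v (bv i) (bv j) := by
  unfold ctrL
  rw [sum_apply]
  refine Finset.sum_congr rfl fun i _ => ?_
  rw [sum_apply]
  rfl

/-- the function of 619 -/
def Ph (u : E d → ℝ) (c : ℝ) (y : E d) : ℝ := c / 2 * (1 - Sq u y * Sq u y) - u y ^ 2 * hs2 (D2 u y)

variable {u : E d → ℝ} {x : E d}

lemma cSq (H : HC u) (hx : x ∈ Om u) : ContDiffAt ℝ 2 (Sq u) x := by
  have hxa : ContDiffAt ℝ ∞ u x := H.sm.contDiffAt (H.isOpen.mem_nhds hx)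
  exact ContDiffAt.sum fun i _ => (contDiffAt_infty.mp (contDiffAt_D1e hxa i) 2).pow 2

lemma chs (H : HC u) (hx : x ∈ Om u) : ContDiffAt ℝ 2 (fun y => hs2 (D2 u y)) x := by
  have hxa : ContDiffAt ℝ ∞ u x := H.sm.contDiffAt (H.isOpen.mem_nhds hx)
  unfold hs2
  exact ContDiffAt.sum fun i _ => ContDiffAt.sum fun j _ =>
    (contDiffAt_infty.mp (contDiffAt_D2e hxa i j) 2).pow 2

lemma cu2 (H : HC u) (hx : x ∈ Om u) : ContDiffAt ℝ 2 u x :=
  contDiffAt_infty.mp (H.sm.contDiffAt (H.isOpen.mem_nhds hx)) 2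

lemma cPh (H : HC u) (c : ℝ) (hx : x ∈ Om u) : ContDiffAt ℝ 2 (Ph u c) x :=
  (contDiffAt_const.mul (contDiffAt_const.sub ((cSq H hx).mul (cSq H hx)))).sub
    (((cu2 H hx).pow 2).mul (chs H hx))

lemma hasSq (H : HC u) (hx : x ∈ Om u) :
    HasFDerivAt (Sq u) ((2 : ℝ) • ((D2 u x).flip (∇ u x))) x := by
  have h := hasFDerivAt_normsq (cu2 H hx)
  have e : (fun y => ‖fderiv ℝ u y‖ ^ 2) = Sq u := by
    ext y; rw [normsq_eq_sum]; rfl
  rwa [e] at h

lemma hashs (H : HC u) (hx : x ∈ Om u) :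
    HasFDerivAt (fun y => hs2 (D2 u y)) ((2 : ℝ) • ctrL (D2 u x) (D3 u x)) x := by
  have h1 := ((chs H hx).differentiableAt (by norm_num)).hasFDerivAt
  have h2 : fderiv ℝ (fun y => hs2 (D2 u y)) x = (2 : ℝ) • ctrL (D2 u x) (D3 u x) := by
    ext v
    rw [fderiv_m (H.hasD3 hx).differentiableAt, _root_.smul_apply, ctrL_apply, smul_eq_mul,
      Finset.mul_sum]
    refine Finset.sum_congr rfl fun i _ => ?_
    rw [Finset.mul_sum]
    exact Finset.sum_congr rfl fun j _ => by ring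
  rwa [h2] at h1

lemma fderiv_Ph (H : HC u) (c : ℝ) (hx : x ∈ Om u) (v : E d) :
    fderiv ℝ (Ph u c) x v = -(2 * c * Sq u x * D2 u x v (∇ u x))
      - (2 * u x * fderiv ℝ u x v * hs2 (D2 u x) + 2 * u x ^ 2 * ctrL (D2 u x) (D3 u x) v) := by
  have h1 := hasSq H hx
  have h2 := hashs H hx
  have h3 := H.hasD1 hx
  have h4 := (((hasFDerivAt_const (1:ℝ) x).sub (h1.mul h1)).const_mul (c / 2)).sub
    ((h3.pow 2).mul h2)
  have h5 : fderiv ℝ (Ph u c) x = _ := h4.fderiv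
  rw [h5]
  simp only [_root_.sub_apply, _root_.add_apply, _root_.smul_apply, smul_eq_mul,
    _root_.zero_apply, ContinuousLinearMap.flip_apply]
  push_cast
  ring

lemma lap_Ph (H : HC u) (c : ℝ) (hx : x ∈ Om u) :
    (Δ (Ph u c)) x = -(2 * c * Sq u x * hs2 (D2 u x)) - 4 * c * (∑ i, (D2 u x (bv i) (∇ u x)) ^ 2)
      - (2 * Sq u x * hs2 (D2 u x) + 8 * u x * (∑ k, fderiv ℝ u x (bv k) * ctrL (D2 u x) (D3 u x) (bv k))
        + 2 * u x ^ 2 * hs3 (D3 u x)) := by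
  have hS := cSq H hx
  have hA := chs H hx
  have hu := cu2 H hx
  have hlS : (Δ (Sq u)) x = 2 * hs2 (D2 u x) := lap_normsq_D1 H.isOpen H.sm H.ha hx
  have hlA : (Δ (fun y => hs2 (D2 u y))) x = 2 * hs3 (D3 u x) := lap_hs2 H.isOpen H.sm H.ha hx
  have e1 : Ph u c = fun y => (c / 2 + (-(c / 2)) * (Sq u y * Sq u y)) + -(u y ^ 2 * hs2 (D2 u y)) := by
    ext y; unfold Ph; ring
  rw [e1, Hm.lap_add_at (contDiffAt_const.add (contDiffAt_const.mul (hS.mul hS)))
      ((hu.pow 2).mul hA).neg, Hm.lap_neg,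
    Hm.lap_add_at contDiffAt_const (contDiffAt_const.mul (hS.mul hS)),
    Hm.lap_const_mul_at (-(c / 2)) (hS.mul hS), Hm.lap_mul hS hS, Hm.lap_mul (hu.pow 2) hA, hlS, hlA,
    Hm.lap_sq hu (H.ha x hx)]
  have e2 : (Δ (fun _ : E d => c / 2)) x = 0 := by simp
  rw [e2, (hasSq H hx).fderiv, (hashs H hx).fderiv, ((H.hasD1 hx).pow 2).fderiv]
  simp only [_root_.smul_apply, smul_eq_mul, ContinuousLinearMap.flip_apply]
  have e3 : ∑ i, 2 * D2 u x (bv i) (∇ u x) * (2 * D2 u x (bv i) (∇ u x))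
      = 4 * ∑ i, (D2 u x (bv i) (∇ u x)) ^ 2 := by
    rw [Finset.mul_sum]
    exact Finset.sum_congr rfl fun i _ => by ring
  have e4 : ∑ i, ((2:ℕ) : ℝ) * u x ^ (2 - 1) * fderiv ℝ u x (bv i)
      * (2 * ctrL (D2 u x) (D3 u x) (bv i))
      = 4 * u x * ∑ k, fderiv ℝ u x (bv k) * ctrL (D2 u x) (D3 u x) (bv k) := by
    rw [Finset.mul_sum]
    refine Finset.sum_congr rfl fun i _ => ?_
    push_cast
    ring
  have e5 : ∀ t : ℝ, t = t := fun _ => rfl
  rw [e3]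
  have e6 : ∑ i, (2 • u x ^ (2 - 1)) * fderiv ℝ u x (bv i) * (2 * ctrL (D2 u x) (D3 u x) (bv i))
      = 4 * u x * ∑ k, fderiv ℝ u x (bv k) * ctrL (D2 u x) (D3 u x) (bv k) := by
    rw [Finset.mul_sum]
    refine Finset.sum_congr rfl fun i _ => ?_
    simp
    ring
  rw [e6]
  unfold Sq
  ring

end AP2
end
end Crest.Agent.R097
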