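import Crest.Agent.R097.RJ0

/-!
# Row 97, jet calculus: adapted orthonormal eigenbases
-/

set_option autoImplicit false
set_option synthInstance.maxHeartbeats 400000
open MeasureTheory Metric Set Filter Topology InnerProductSpace
open scoped RealInnerProductSpace NNReal ENNReal Gradient Laplacian Pointwise

namespace Crest.Agent.R097

section abstract
variable {V : Type*} [NormedAddCommGroup V] [InnerProductSpace ℝ V] [FiniteDimensional ℝ V]

/-- prepend a unit vector to an orthonormal basis of its orthogonal complement -/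
lemma cons_onb {m : ℕ} (hV : Module.finrank ℝ V = m + 1) (v : V) (hv : ‖v‖ = 1)
    (f : OrthonormalBasis (Fin m) ℝ (ℝ ∙ v)ᗮ) :
    ∃ e : OrthonormalBasis (Fin (m + 1)) ℝ V, e 0 = v ∧ ∀ k : Fin m, e k.succ = (f k : V) := by
  set g : Fin (m + 1) → V := Fin.cons v (fun k => (f k : V)) with hg
  have hvf : ∀ k, ⟪v, (f k : V)⟫_ℝ = 0 := fun k =>
    (Submodule.mem_orthogonal_singleton_iff_inner_right.1 (f k).2)
  have hff : ∀ k l, ⟪(f k : V), (f l : V)⟫_ℝ = if k = l then 1 else 0 := by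
    intro k l
    have := orthonormal_iff_ite.1 f.orthonormal k l
    simpa using this
  have hon : Orthonormal ℝ g := by
    rw [orthonormal_iff_ite]
    intro i j
    refine Fin.cases ?_ (fun i => ?_) i
    · refine Fin.cases ?_ (fun j => ?_) j
      · simp [hg, real_inner_self_eq_norm_sq, hv]
      · simp [hg, hvf]
        intro h
        exact absurd h.symm (Fin.succ_ne_zero _)
    · refine Fin.cases ?_ (fun j => ?_) j
      · simp [hg]
        rw [real_inner_comm]; exact hvf _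
      · simp [hg, hff]
  have hcard : Fintype.card (Fin (m + 1)) = Module.finrank ℝ V := by simp [hV]
  have hb : ⇑(basisOfOrthonormalOfCardEqFinrank hon hcard) = g :=
    coe_basisOfOrthonormalOfCardEqFinrank hon hcard
  refine ⟨(basisOfOrthonormalOfCardEqFinrank hon hcard).toOrthonormalBasis (by rw [hb]; exact hon),
    ?_, fun k => ?_⟩
  · rw [Module.Basis.coe_toOrthonormalBasis, hb]; rfl
  · rw [Module.Basis.coe_toOrthonormalBasis, hb]; rfl

lemma perp_invariant {T : V →ₗ[ℝ] V} (hT : T.IsSymmetric) {v : V} {c : ℝ} (hTv : T v = c • v) :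
    ∀ x ∈ (ℝ ∙ v)ᗮ, T x ∈ (ℝ ∙ v)ᗮ := by
  intro x hx
  rw [Submodule.mem_orthogonal_singleton_iff_inner_right] at hx ⊢
  rw [← hT v x, hTv, inner_smul_left, hx, mul_zero]

lemma finrank_perp {m : ℕ} (hV : Module.finrank ℝ V = m + 1) {v : V} (hv : ‖v‖ = 1) :
    Module.finrank ℝ (ℝ ∙ v)ᗮ = m := by
  haveI : Fact (Module.finrank ℝ V = m + 1) := ⟨hV⟩
  exact Submodule.finrank_orthogonal_span_singleton (n := m) (by
    intro h; rw [h, norm_zero] at hv; exact zero_ne_one hv)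

/-- eigenbasis containing a given unit eigenvector -/
theorem eig_ext1 {m : ℕ} (hV : Module.finrank ℝ V = m + 1) (T : V →ₗ[ℝ] V) (hT : T.IsSymmetric)
    (v : V) (hv : ‖v‖ = 1) (c : ℝ) (hTv : T v = c • v) :
    ∃ (e : OrthonormalBasis (Fin (m + 1)) ℝ V) (lam : Fin m → ℝ), e 0 = v ∧
      ∀ k : Fin m, T (e k.succ) = lam k • e k.succ := by
  have hinv := perp_invariant hT hTv
  have hTr := hT.restrict_invariant hinv
  have hfr := finrank_perp hV hv
  obtain ⟨e, he0, hek⟩ := cons_onb hV v hv (hTr.eigenvectorBasis hfr)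
  refine ⟨e, hTr.eigenvalues hfr, he0, fun k => ?_⟩
  rw [hek]
  have := congrArg (Subtype.val) (hTr.apply_eigenvectorBasis hfr k)
  exact this

/-- eigenbasis containing two given orthonormal eigenvectors -/
theorem eig_ext2 {m : ℕ} (hV : Module.finrank ℝ V = m + 2) (T : V →ₗ[ℝ] V) (hT : T.IsSymmetric)
    (v ν : V) (hv : ‖v‖ = 1) (hν : ‖ν‖ = 1) (hvν : ⟪v, ν⟫_ℝ = 0) (c c' : ℝ) (hTv : T v = c • v)
    (hTν : T ν = c' • ν) :
    ∃ (e : OrthonormalBasis (Fin (m + 2)) ℝ V) (lam : Fin m → ℝ), e 0 = v ∧ e 1 = ν ∧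
      ∀ k : Fin m, T (e k.succ.succ) = lam k • e k.succ.succ := by
  have hinv := perp_invariant hT hTv
  have hTr := hT.restrict_invariant hinv
  have hfr : Module.finrank ℝ (ℝ ∙ v)ᗮ = m + 1 := finrank_perp (m := m + 1) hV hv
  have hνm : ν ∈ (ℝ ∙ v)ᗮ := Submodule.mem_orthogonal_singleton_iff_inner_right.2 hvν
  obtain ⟨f, lam, hf0, hfk⟩ := eig_ext1 hfr (T.restrict hinv) hTr ⟨ν, hνm⟩ hν c' (by
    apply Subtype.ext
    simpa using hTν)
  obtain ⟨e, he0, hek⟩ := cons_onb (m := m + 1) hV v hv f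
  refine ⟨e, lam, he0, ?_, fun k => ?_⟩
  · have := hek 0
    rw [hf0] at this
    exact this
  · rw [hek]
    have := congrArg (Subtype.val) (hfk k)
    simpa using this

end abstract

variable {d : ℕ} {u : E d → ℝ}

/-- the operator `|y| D²u(y)` -/
noncomputable def Nop (u : E d → ℝ) (y : E d) : E d →L[ℝ] E d :=
  ∑ i, (‖y‖ • D2 u y (bv i)).smulRight (bv i)

lemma inner_eq_sum (w v : E d) : ⟪w, v⟫_ℝ = ∑ i, w i * v i := by
  conv_lhs => rw [← sum_bv w, sum_inner]
  refine Finset.sum_congr rfl fun i _ => ?_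
  rw [inner_smul_left, inner_bv]; simp

lemma bil_sum (B : Bil d) (w v : E d) : B w v = ∑ i, w i * B (bv i) v := by
  conv_lhs => rw [← sum_bv w, map_sum]
  rw [sum_apply]
  refine Finset.sum_congr rfl fun i _ => ?_
  rw [map_smul, smul_apply, smul_eq_mul]

lemma inner_Nop (y w v : E d) : ⟪w, Nop u y v⟫_ℝ = ‖y‖ * D2 u y w v := by
  rw [bil_sum (D2 u y) w v, Finset.mul_sum]
  unfold Nop
  rw [sum_apply, inner_sum]
  refine Finset.sum_congr rfl fun i _ => ?_
  rw [ContinuousLinearMap.smulRight_apply, inner_smul_right, inner_bv', smul_apply, smul_eq_mul]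
  ring

lemma Nop_symm (H : HC u) {x : E d} (hx : x ∈ Om u) : (Nop u x).toLinearMap.IsSymmetric := by
  intro v w
  show ⟪Nop u x v, w⟫_ℝ = ⟪v, Nop u x w⟫_ℝ
  rw [real_inner_comm, inner_Nop, inner_Nop, H.symm2 hx]

lemma Nop_rad (H : HC u) {x : E d} (hx : x ∈ Om u) : Nop u x x = 0 := by
  refine ext_inner_left ℝ fun w => ?_
  rw [inner_Nop, H.euler2' hx, mul_zero, inner_zero_right]

/-- adapted frames at a point -/
structure Frame {n : ℕ} (u : E (n + 1) → ℝ) (x : E (n + 1)) where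
  e : OrthonormalBasis (Fin (n + 1)) ℝ (E (n + 1))
  lam : Fin n → ℝ
  e0 : e 0 = ‖x‖⁻¹ • x
  eig : ∀ k : Fin n, Nop u x (e k.succ) = lam k • e k.succ

theorem exists_frame {n : ℕ} {u : E (n + 1) → ℝ} (H : HC u) {x : E (n + 1)} (hx : x ∈ Om u) :
    Nonempty (Frame u x) := by
  have hx0 := H.ne_zero hx
  have hn : ‖x‖ ≠ 0 := norm_ne_zero_iff.2 hx0
  obtain ⟨e, lam, h0, hk⟩ := eig_ext1 (V := E (n + 1)) (m := n) (by simp)
    (Nop u x).toLinearMap (Nop_symm H hx) (‖x‖⁻¹ • x)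
    (by rw [norm_smul, norm_inv, norm_norm, inv_mul_cancel₀ hn]) 0 (by
      show Nop u x (‖x‖⁻¹ • x) = _
      rw [map_smul, Nop_rad H hx]; simp)
  exact ⟨⟨e, lam, h0, hk⟩⟩

end Crest.Agent.R097
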