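import Crest.Agent.R097.RCert
import Crest.Agent.R097.RJ1

/-!
# Row 97: the field and the test function of a certificate, as functions on `E d`
-/

set_option autoImplicit false
set_option synthInstance.maxHeartbeats 400000
open MeasureTheory Metric Set Filter Topology InnerProductSpace
open scoped RealInnerProductSpace NNReal ENNReal Gradient Laplacian

namespace Crest.Agent.R097

variable {d : ℕ}

/-- `tr A³` -/
noncomputable def tr3 (A : Bil d) : ℝ :=
  ∑ i, ∑ j, ∑ k, A (bv i) (bv j) * A (bv j) (bv k) * A (bv k) (bv i)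

/-- `s = u/|y|` -/
noncomputable def sN (u : E d → ℝ) (y : E d) : ℝ := u y / ‖y‖

/-- `q = |Du|² - s²` -/
noncomputable def qN (u : E d → ℝ) (y : E d) : ℝ := ‖∇ u y‖ ^ 2 - (u y / ‖y‖) ^ 2

/-- the arguments `(P₂, P₃, q, s)` -/
noncomputable def zN (u : E d → ℝ) (y : E d) : Fin 4 → ℝ :=
  ![‖y‖ ^ 2 * hs2 (D2 u y), ‖y‖ ^ 3 * tr3 (D2 u y), qN u y, sN u y]

/-- tangential gradient `g = Du - (u/|y|²) y` -/
noncomputable def gN (u : E d → ℝ) (y : E d) : E d := ∇ u y - (u y / ‖y‖ ^ 2) • y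

/-- the vector `M:T` -/
noncomputable def TM (A : Bil d) (B : Tri d) : E d :=
  ∑ k, (∑ i, ∑ j, B (bv k) (bv i) (bv j) * A (bv i) (bv j)) • bv k

/-- `W₁ = ½ ∇(|y|² |D²u|²)` -/
noncomputable def W1f (u : E d → ℝ) (y : E d) : E d :=
  ‖y‖ ^ 2 • TM (D2 u y) (D3 u y) + hs2 (D2 u y) • y

/-- the vector field of a certificate -/
noncomputable def XC (C : CertData) (u : E d → ℝ) (y : E d) : E d :=
  C.ga.f (zN u y) • W1f u y + (C.y0.f (zN u y) * ‖y‖⁻¹) • gN u y +
    C.y1.f (zN u y) • Zf u y + (C.y2.f (zN u y) * ‖y‖) • act (D2 u y) (Zf u y) +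
    (C.y3.f (zN u y) * ‖y‖ ^ 2) • act (D2 u y) (act (D2 u y) (Zf u y))

/-- the test function of a certificate -/
noncomputable def wC (C : CertData) (u : E d → ℝ) (y : E d) : ℝ := Real.sqrt (C.Z.f (zN u y))

/-- tangential gradient components in a frame -/
noncomputable def Frame.g {n : ℕ} {u : E (n + 1) → ℝ} {x : E (n + 1)} (F : Frame u x)
    (k : Fin n) : ℝ := fderiv ℝ u x (F.e k.succ)

/-- tangential 3-tensor in a frame -/
noncomputable def Frame.tau {n : ℕ} {u : E (n + 1) → ℝ} {x : E (n + 1)} (F : Frame u x)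
    (a b c : Fin n) : ℝ := ‖x‖ ^ 2 * D3 u x (F.e a.succ) (F.e b.succ) (F.e c.succ)

/-- the remaining facts on the cone used by the reduction: `|Du| ≤ 1` and 619's inequality -/
structure Apr {d : ℕ} (u : E d → ℝ) : Prop where
  grad : ∀ x ∈ Om u, ‖fderiv ℝ u x‖ ≤ 1
  ap : ∀ x ∈ Om u, u x ^ 2 * hs2 (D2 u x) ≤
    (((d : ℝ) - 1) / (2 * (d + 1))) * (1 - ‖fderiv ℝ u x‖ ^ 4)

end Crest.Agent.R097
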