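import Crest.Agent.R097.Red6

/-!
# Row 97, jet calculus: symmetry, trace and homogeneity identities for `D²u, D³u, D⁴u`
-/

set_option autoImplicit false
set_option synthInstance.maxHeartbeats 400000
open MeasureTheory Metric Set Filter Topology InnerProductSpace
open scoped RealInnerProductSpace NNReal ENNReal Gradient Laplacian Pointwise

namespace Crest.Agent.R097

variable {d : ℕ} {u : E d → ℝ}

lemma two_le_top' : (2 : WithTop ℕ∞) ≤ ((⊤ : ℕ∞) : WithTop ℕ∞) :=
  WithTop.coe_le_coe.2 (le_top : (2 : ℕ∞) ≤ ⊤)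

/-- harmonic cones (smooth where positive) -/
structure HC (u : E d → ℝ) : Prop where
  cont : Continuous u
  sm : ContDiffOn ℝ (⊤ : ℕ∞) u (Om u)
  ha : ∀ x ∈ Om u, (Δ u) x = 0
  hh : Hom1 u

/-- quadrilinear forms -/
abbrev Quad (d : ℕ) := E d →L[ℝ] E d →L[ℝ] E d →L[ℝ] E d →L[ℝ] ℝ

/-- fourth derivative -/
noncomputable def D4 (u : E d → ℝ) (x : E d) : Quad d := fderiv ℝ (D3 u) x

lemma HC.isOpen (H : HC u) : IsOpen (Om u) := isOpen_lt continuous_const H.cont

lemma HC.u0 (H : HC u) : u 0 = 0 := by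
  have := H.hh 2 (by norm_num) 0
  rw [smul_zero] at this
  linarith

lemma HC.ne_zero (H : HC u) {x : E d} (hx : x ∈ Om u) : x ≠ 0 := by
  rintro rfl
  have : 0 < u 0 := hx
  rw [H.u0] at this
  exact lt_irrefl _ this

lemma HC.smD1 (H : HC u) : ContDiffOn ℝ (⊤ : ℕ∞) (fderiv ℝ u) (Om u) := smooth_fderiv H.isOpen H.sm
lemma HC.smD2 (H : HC u) : ContDiffOn ℝ (⊤ : ℕ∞) (D2 u) (Om u) := smooth_D2 H.isOpen H.sm
lemma HC.smD3 (H : HC u) : ContDiffOn ℝ (⊤ : ℕ∞) (D3 u) (Om u) := smooth_D3 H.isOpen H.sm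

lemma HC.hasD1 (H : HC u) {x : E d} (hx : x ∈ Om u) : HasFDerivAt u (fderiv ℝ u x) x :=
  ((H.sm.contDiffAt (H.isOpen.mem_nhds hx)).differentiableAt (by simp)).hasFDerivAt
lemma HC.hasD2 (H : HC u) {x : E d} (hx : x ∈ Om u) : HasFDerivAt (fderiv ℝ u) (D2 u x) x :=
  ((H.smD1.contDiffAt (H.isOpen.mem_nhds hx)).differentiableAt (by simp)).hasFDerivAt
lemma HC.hasD3 (H : HC u) {x : E d} (hx : x ∈ Om u) : HasFDerivAt (D2 u) (D3 u x) x :=
  ((H.smD2.contDiffAt (H.isOpen.mem_nhds hx)).differentiableAt (by simp)).hasFDerivAt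
lemma HC.hasD4 (H : HC u) {x : E d} (hx : x ∈ Om u) : HasFDerivAt (D3 u) (D4 u x) x :=
  ((H.smD3.contDiffAt (H.isOpen.mem_nhds hx)).differentiableAt (by simp)).hasFDerivAt

/-- derivative of a constant argument application (one slot) -/
lemma had_app1 {F G : Type*} [NormedAddCommGroup F] [NormedSpace ℝ F] [NormedAddCommGroup G]
    [NormedSpace ℝ G] {f : E d → (F →L[ℝ] G)}
    {L : E d →L[ℝ] (F →L[ℝ] G)} {x : E d} (h : HasFDerivAt f L x) (a : F) :
    HasFDerivAt (fun y => f y a) (L.flip a) x := by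
  have := h.clm_apply (hasFDerivAt_const a x)
  refine this.congr_fderiv ?_
  ext v
  simp

/-- derivative along a line of a function equal to another near `x` -/
lemma eq_of_had {G : Type*} [NormedAddCommGroup G] [NormedSpace ℝ G] {f g : E d → G}
    {f' g' : E d →L[ℝ] G} {x : E d} (hf : HasFDerivAt f f' x) (hg : HasFDerivAt g g' x)
    (h : f =ᶠ[𝓝 x] g) : f' = g' :=
  (hf.unique (hg.congr_of_eventuallyEq h))

lemma HC.ev (H : HC u) {x : E d} (hx : x ∈ Om u) : ∀ᶠ y in 𝓝 x, y ∈ Om u := H.isOpen.mem_nhds hx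

lemma HC.symm2 (H : HC u) {x : E d} (hx : x ∈ Om u) (v w : E d) : D2 u x v w = D2 u x w v := by
  have h : IsSymmSndFDerivAt ℝ u x :=
    (H.sm.contDiffAt (H.isOpen.mem_nhds hx)).isSymmSndFDerivAt (by simpa using two_le_top')
  exact h v w

lemma HC.symm3a (H : HC u) {x : E d} (hx : x ∈ Om u) (v w a : E d) :
    D3 u x v w a = D3 u x w v a := by
  have h : IsSymmSndFDerivAt ℝ (fderiv ℝ u) x :=
    (H.smD1.contDiffAt (H.isOpen.mem_nhds hx)).isSymmSndFDerivAt (by simpa using two_le_top')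
  exact congrArg (fun L => L a) (h v w)

lemma HC.symm4a (H : HC u) {x : E d} (hx : x ∈ Om u) (v w a b : E d) :
    D4 u x v w a b = D4 u x w v a b := by
  have h : IsSymmSndFDerivAt ℝ (D2 u) x :=
    (H.smD2.contDiffAt (H.isOpen.mem_nhds hx)).isSymmSndFDerivAt (by simpa using two_le_top')
  exact congrArg (fun L => L a b) (h v w)

lemma HC.hasD2e (H : HC u) {x : E d} (hx : x ∈ Om u) (a b : E d) :
    HasFDerivAt (fun y => D2 u y a b) (((D3 u x).flip a).flip b) x :=
  had_app1 (had_app1 (H.hasD3 hx) a) b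

lemma HC.hasD3e (H : HC u) {x : E d} (hx : x ∈ Om u) (a b c : E d) :
    HasFDerivAt (fun y => D3 u y a b c) ((((D4 u x).flip a).flip b).flip c) x :=
  had_app1 (had_app1 (had_app1 (H.hasD4 hx) a) b) c

lemma HC.symm3b (H : HC u) {x : E d} (hx : x ∈ Om u) (v a b : E d) :
    D3 u x v a b = D3 u x v b a := by
  have h := eq_of_had (H.hasD2e hx a b) (H.hasD2e hx b a) (by
    filter_upwards [H.ev hx] with y hy using H.symm2 hy a b)
  exact congrArg (fun L => L v) h

lemma HC.symm4b (H : HC u) {x : E d} (hx : x ∈ Om u) (v a b c : E d) :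
    D4 u x v a b c = D4 u x v b a c := by
  have h := eq_of_had (H.hasD3e hx a b c) (H.hasD3e hx b a c) (by
    filter_upwards [H.ev hx] with y hy using H.symm3a hy a b c)
  exact congrArg (fun L => L v) h

lemma HC.symm4c (H : HC u) {x : E d} (hx : x ∈ Om u) (v a b c : E d) :
    D4 u x v a b c = D4 u x v a c b := by
  have h := eq_of_had (H.hasD3e hx a b c) (H.hasD3e hx a c b) (by
    filter_upwards [H.ev hx] with y hy using H.symm3b hy a b c)
  exact congrArg (fun L => L v) h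

lemma HC.tr2 (H : HC u) {x : E d} (hx : x ∈ Om u) : ∑ i, D2 u x (bv i) (bv i) = 0 := by
  have h1 := laplacian_eq_sum (f := u) (x := x)
    ((H.sm.contDiffAt (H.isOpen.mem_nhds hx)).of_le two_le_top')
  rw [H.ha x hx] at h1
  rw [h1]
  refine Finset.sum_congr rfl fun i _ => ?_
  rw [(had_app1 (H.hasD2 hx) (bv i)).fderiv]
  rfl

lemma HC.tr3 (H : HC u) {x : E d} (hx : x ∈ Om u) (v : E d) :
    ∑ i, D3 u x v (bv i) (bv i) = 0 := by
  have h1 : HasFDerivAt (fun y => ∑ i, D2 u y (bv i) (bv i))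
      (∑ i, ((D3 u x).flip (bv i)).flip (bv i)) x :=
    HasFDerivAt.fun_sum fun i _ => H.hasD2e hx (bv i) (bv i)
  have h := eq_of_had h1 (hasFDerivAt_const (0 : ℝ) x) (by
    filter_upwards [H.ev hx] with y hy using H.tr2 hy)
  have h2 := congrArg (fun L : E d →L[ℝ] ℝ => L v) h
  simpa using h2

lemma HC.tr4 (H : HC u) {x : E d} (hx : x ∈ Om u) (v w : E d) :
    ∑ i, D4 u x v w (bv i) (bv i) = 0 := by
  have h1 : HasFDerivAt (fun y => ∑ i, D3 u y w (bv i) (bv i))
      (∑ i, (((D4 u x).flip w).flip (bv i)).flip (bv i)) x :=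
    HasFDerivAt.fun_sum fun i _ => H.hasD3e hx w (bv i) (bv i)
  have h := eq_of_had h1 (hasFDerivAt_const (0 : ℝ) x) (by
    filter_upwards [H.ev hx] with y hy using H.tr3 hy w)
  have h2 := congrArg (fun L : E d →L[ℝ] ℝ => L v) h
  simpa using h2

lemma HC.symm4_perm (H : HC u) {x : E d} (hx : x ∈ Om u) (k a b : E d) :
    D4 u x k k a b = D4 u x a b k k := by
  rw [H.symm4b hx k k a b, H.symm4a hx k a k b, H.symm4c hx a k k b, H.symm4b hx a k b k]

/-- homogeneity -/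
lemma HC.euler1 (H : HC u) {x : E d} (hx : x ∈ Om u) : fderiv ℝ u x x = u x := by
  have h1 : HasDerivAt (fun t : ℝ => u (t • x)) (fderiv ℝ u ((1 : ℝ) • x) x) 1 := by
    have h2 : HasDerivAt (fun t : ℝ => t • x) x 1 := by
      simpa using (hasDerivAt_id (1 : ℝ)).smul_const x
    have h3 : HasFDerivAt u (fderiv ℝ u ((1 : ℝ) • x)) ((1 : ℝ) • x) := by
      rw [one_smul]; exact H.hasD1 hx
    exact h3.comp_hasDerivAt 1 h2
  have h4 : HasDerivAt (fun t : ℝ => t * u x) (u x) 1 := by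
    simpa using (hasDerivAt_id (1 : ℝ)).mul_const (u x)
  have h5 : (fun t : ℝ => u (t • x)) =ᶠ[𝓝 1] fun t => t * u x := by
    filter_upwards [Ioi_mem_nhds (zero_lt_one' ℝ)] with t ht using H.hh t ht x
  have := h1.unique (h4.congr_of_eventuallyEq h5)
  rwa [one_smul] at this

/-- derivative in the radial direction of a homogeneous map -/
lemma radial_deriv {G : Type*} [NormedAddCommGroup G] [NormedSpace ℝ G] {f : E d → G}
    {L : E d →L[ℝ] G} {x : E d} (hf : HasFDerivAt f L x) {c : ℝ → ℝ} {c' : ℝ}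
    (hc : HasDerivAt c c' 1) (h : ∀ t : ℝ, 0 < t → f (t • x) = c t • f x) : L x = c' • f x := by
  have h1 : HasDerivAt (fun t : ℝ => f (t • x)) (L x) 1 := by
    have h2 : HasDerivAt (fun t : ℝ => t • x) x 1 := by
      simpa using (hasDerivAt_id (1 : ℝ)).smul_const x
    have h3 : HasFDerivAt f L ((1 : ℝ) • x) := by rw [one_smul]; exact hf
    exact h3.comp_hasDerivAt 1 h2
  have h4 : HasDerivAt (fun t : ℝ => c t • f x) (c' • f x) 1 := hc.smul_const (f x)
  have h5 : (fun t : ℝ => f (t • x)) =ᶠ[𝓝 1] fun t => c t • f x := by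
    filter_upwards [Ioi_mem_nhds (zero_lt_one' ℝ)] with t ht using h t ht
  exact h1.unique (h4.congr_of_eventuallyEq h5)

lemma HC.euler2 (H : HC u) {x : E d} (hx : x ∈ Om u) : D2 u x x = 0 := by
  have h := radial_deriv (H.hasD2 hx) (c := fun _ => 1) (c' := 0) (hasDerivAt_const _ _)
    (fun t ht => by rw [hom_fderiv H.hh ht, one_smul])
  rw [h, zero_smul]

lemma HC.euler2' (H : HC u) {x : E d} (hx : x ∈ Om u) (v : E d) : D2 u x v x = 0 := by
  rw [H.symm2 hx, H.euler2 hx]; simp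

lemma HC.euler3 (H : HC u) {x : E d} (hx : x ∈ Om u) : D3 u x x = - D2 u x := by
  have hc : HasDerivAt (fun t : ℝ => t⁻¹) (-1) 1 := by
    have := hasDerivAt_inv (one_ne_zero (α := ℝ))
    simpa using this
  have h := radial_deriv (H.hasD3 hx) hc (fun t ht => hom_D2 H.hh ht x)
  rw [h, neg_one_smul]

lemma HC.euler3a (H : HC u) {x : E d} (hx : x ∈ Om u) (v w : E d) :
    D3 u x v x w = - D2 u x v w := by
  rw [H.symm3a hx, H.euler3 hx]; rfl

lemma HC.euler3b (H : HC u) {x : E d} (hx : x ∈ Om u) (v w : E d) :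
    D3 u x v w x = - D2 u x v w := by
  rw [H.symm3b hx, H.euler3a hx]

/-! ### traces in an orthonormal basis -/

lemma tr_onb {ι : Type*} [Fintype ι] (e : OrthonormalBasis ι ℝ (E d)) (B : Bil d) :
    ∑ c, B (e c) (e c) = ∑ i, B (bv i) (bv i) := by
  have h1 : ∀ c, B (e c) (e c) = ∑ i, ∑ j, ⟪bv i, e c⟫_ℝ * ⟪bv j, e c⟫_ℝ * B (bv i) (bv j) := by
    intro c
    have hx : e c = ∑ i, ⟪bv i, e c⟫_ℝ • bv i := by
      conv_lhs => rw [← sum_bv (e c)]
      simp_rw [inner_bv]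
    have h0 : ∀ w, B (e c) w = ∑ i, ⟪bv i, e c⟫_ℝ * B (bv i) w := by
      intro w
      conv_lhs => rw [hx]
      rw [map_sum, sum_apply]
      refine Finset.sum_congr rfl fun i _ => ?_
      rw [map_smul, smul_apply, smul_eq_mul]
    have h0' : ∀ w, B w (e c) = ∑ i, ⟪bv i, e c⟫_ℝ * B w (bv i) := by
      intro w
      conv_lhs => rw [hx]
      rw [map_sum]
      refine Finset.sum_congr rfl fun i _ => ?_
      rw [map_smul, smul_eq_mul]
    rw [h0]
    refine Finset.sum_congr rfl fun i _ => ?_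
    rw [h0', Finset.mul_sum]
    refine Finset.sum_congr rfl fun j _ => ?_
    ring
  simp_rw [h1]
  rw [Finset.sum_comm]
  refine Finset.sum_congr rfl fun i _ => ?_
  rw [Finset.sum_comm]
  have h2 : ∀ j, ∑ c, ⟪bv i, e c⟫_ℝ * ⟪bv j, e c⟫_ℝ * B (bv i) (bv j) =
      ⟪bv i, bv j⟫_ℝ * B (bv i) (bv j) := by
    intro j
    rw [← Finset.sum_mul]
    congr 1
    rw [← e.sum_inner_mul_inner (bv i) (bv j)]
    refine Finset.sum_congr rfl fun c _ => ?_
    rw [real_inner_comm (e c) (bv j)]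
  simp_rw [h2]
  rw [Finset.sum_eq_single i]
  · rw [inner_bv]; simp [bv]
  · intro j _ hj
    rw [inner_bv]
    simp [bv, hj.symm]
  · simp

/-- divergence in an orthonormal basis -/
lemma dv_onb {ι : Type*} [Fintype ι] (e : OrthonormalBasis ι ℝ (E d)) (Y : E d → E d) (x : E d) :
    dv Y x = ∑ c, ⟪e c, fderiv ℝ Y x (e c)⟫_ℝ := by
  have h := tr_onb e ((innerSL ℝ).flip.comp (fderiv ℝ Y x))
  have h1 : ∀ v w : E d, ((innerSL ℝ).flip.comp (fderiv ℝ Y x)) v w = ⟪w, fderiv ℝ Y x v⟫_ℝ := by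
    intro v w; rfl
  simp_rw [h1] at h
  rw [h]
  unfold dv
  refine Finset.sum_congr rfl fun i _ => ?_
  rw [inner_bv]

end Crest.Agent.R097
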