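import Crest.Agent.R097.RFld0

/-!
# Row 97, jet calculus: values and traces in a frame, derivatives of the invariants
-/

set_option autoImplicit false
set_option synthInstance.maxHeartbeats 400000
open MeasureTheory Metric Set Filter Topology InnerProductSpace
open scoped RealInnerProductSpace NNReal ENNReal Gradient Laplacian

namespace Crest.Agent.R097

/-! ### basis independence -/
section basis
variable {d : ℕ} {ι : Type*} [Fintype ι] (e : OrthonormalBasis ι ℝ (E d))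

lemma jsum_mul_onb (φ ψ : E d →L[ℝ] ℝ) : ∑ c, φ (e c) * ψ (e c) = ∑ i, φ (bv i) * ψ (bv i) := by
  have h := tr_onb e (φ.smulRight ψ)
  simpa using h

lemma sum_sq_onb (φ : E d →L[ℝ] ℝ) : ∑ c, φ (e c) ^ 2 = ∑ i, φ (bv i) ^ 2 := by
  have h := jsum_mul_onb e φ φ
  simpa [sq] using h

lemma norm_sq_onb (φ : E d →L[ℝ] ℝ) : ‖φ‖ ^ 2 = ∑ c, φ (e c) ^ 2 := by
  obtain ⟨v, hv⟩ : ∃ v : E d, φ = toDual ℝ (E d) v := ⟨(toDual ℝ (E d)).symm φ, by simp⟩
  rw [hv, LinearIsometryEquiv.norm_map]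
  have h := e.sum_inner_mul_inner v v
  rw [← real_inner_self_eq_norm_sq, ← h]
  refine Finset.sum_congr rfl fun c _ => ?_
  simp only [toDual_apply_apply]
  rw [real_inner_comm (e c) v]; ring

lemma apply_onb (φ : E d →L[ℝ] ℝ) (v : E d) : φ v = ∑ c, ⟪e c, v⟫_ℝ * φ (e c) := by
  conv_lhs => rw [← e.sum_repr' v]
  rw [map_sum]
  refine Finset.sum_congr rfl fun c _ => ?_
  rw [map_smul, smul_eq_mul]

/-- double sums of products of bilinear forms -/
lemma jsum2_onb (A B : Bil d) : ∑ a, ∑ b, A (e a) (e b) * B (e a) (e b) =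
    ∑ i, ∑ j, A (bv i) (bv j) * B (bv i) (bv j) := by
  have h1 : ∀ a, ∑ b, A (e a) (e b) * B (e a) (e b) = ∑ j, A (e a) (bv j) * B (e a) (bv j) :=
    fun a => jsum_mul_onb e (A (e a)) (B (e a))
  simp_rw [h1]
  rw [Finset.sum_comm]
  have h2 : ∀ j, ∑ a, A (e a) (bv j) * B (e a) (bv j) = ∑ i, A (bv i) (bv j) * B (bv i) (bv j) :=
    fun j => jsum_mul_onb e (A.flip (bv j)) (B.flip (bv j))
  simp_rw [h2]
  rw [Finset.sum_comm]

lemma jhs2_onb (A : Bil d) : hs2 A = ∑ a, ∑ b, A (e a) (e b) ^ 2 := by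
  unfold hs2
  simp_rw [sq]
  rw [jsum2_onb e A A]

/-- triple sums of squares of a trilinear form -/
noncomputable def hs3' (B : Tri d) : ℝ := ∑ k, ∑ i, ∑ j, B (bv k) (bv i) (bv j) ^ 2

lemma hs3_onb (B : Tri d) : hs3' B = ∑ c, ∑ a, ∑ b, B (e c) (e a) (e b) ^ 2 := by
  unfold hs3'
  have h1 : ∀ c, ∑ a, ∑ b, B (e c) (e a) (e b) ^ 2 = ∑ i, ∑ j, B (e c) (bv i) (bv j) ^ 2 := by
    intro c
    have := jsum2_onb e (B (e c)) (B (e c))
    simpa [sq] using this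
  simp_rw [h1]
  have h2 : ∀ i j : Fin d, ∑ c, B (e c) (bv i) (bv j) ^ 2 = ∑ k, B (bv k) (bv i) (bv j) ^ 2 := by
    intro i j
    exact sum_sq_onb e ((B.flip (bv i)).flip (bv j))
  symm
  calc ∑ c, ∑ i, ∑ j, B (e c) (bv i) (bv j) ^ 2 = ∑ i, ∑ j, ∑ c, B (e c) (bv i) (bv j) ^ 2 := by
        rw [Finset.sum_comm]
        refine Finset.sum_congr rfl fun i _ => ?_
        rw [Finset.sum_comm]
    _ = ∑ i, ∑ j, ∑ k, B (bv k) (bv i) (bv j) ^ 2 := by simp_rw [h2]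
    _ = _ := by
        symm
        rw [Finset.sum_comm]
        refine Finset.sum_congr rfl fun i _ => ?_
        rw [Finset.sum_comm]

/-- `tr (ABC)`-type sums -/
lemma jsum3_onb (A B C : Bil d) :
    ∑ a, ∑ b, ∑ c, A (e a) (e b) * B (e b) (e c) * C (e c) (e a) =
    ∑ i, ∑ j, ∑ k, A (bv i) (bv j) * B (bv j) (bv k) * C (bv k) (bv i) := by
  have h1 : ∀ a b, ∑ c, A (e a) (e b) * B (e b) (e c) * C (e c) (e a) =
      ∑ k, A (e a) (e b) * B (e b) (bv k) * C (bv k) (e a) := by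
    intro a b
    have := jsum_mul_onb e (B (e b)) (C.flip (e a))
    simp only [ContinuousLinearMap.flip_apply] at this
    simp_rw [mul_assoc, ← Finset.mul_sum, this]
  simp_rw [h1]
  have h2 : ∀ a, ∑ b, ∑ k, A (e a) (e b) * B (e b) (bv k) * C (bv k) (e a) =
      ∑ j, ∑ k, A (e a) (bv j) * B (bv j) (bv k) * C (bv k) (e a) := by
    intro a
    rw [Finset.sum_comm]
    rw [Finset.sum_comm (s := Finset.univ) (t := Finset.univ)
      (f := fun j k => A (e a) (bv j) * B (bv j) (bv k) * C (bv k) (e a))]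
    refine Finset.sum_congr rfl fun k _ => ?_
    have := jsum_mul_onb e (A (e a)) (B.flip (bv k))
    simp only [ContinuousLinearMap.flip_apply] at this
    simp_rw [← Finset.sum_mul, this]
  simp_rw [h2]
  have h3 : ∀ j k : Fin d, ∑ a, A (e a) (bv j) * B (bv j) (bv k) * C (bv k) (e a) =
      ∑ i, A (bv i) (bv j) * B (bv j) (bv k) * C (bv k) (bv i) := by
    intro j k
    have := jsum_mul_onb e (A.flip (bv j)) (C (bv k))
    simp only [ContinuousLinearMap.flip_apply] at this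
    have e1 : ∀ v w : E d, A v (bv j) * B (bv j) (bv k) * C (bv k) w =
        B (bv j) (bv k) * (A v (bv j) * C (bv k) w) := fun v w => by ring
    simp_rw [e1, ← Finset.mul_sum, this]
  calc ∑ a, ∑ j, ∑ k, A (e a) (bv j) * B (bv j) (bv k) * C (bv k) (e a)
      = ∑ j, ∑ k, ∑ a, A (e a) (bv j) * B (bv j) (bv k) * C (bv k) (e a) := by
        rw [Finset.sum_comm]
        refine Finset.sum_congr rfl fun j _ => ?_
        rw [Finset.sum_comm]
    _ = ∑ j, ∑ k, ∑ i, A (bv i) (bv j) * B (bv j) (bv k) * C (bv k) (bv i) := by simp_rw [h3]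
    _ = _ := by
        symm
        rw [Finset.sum_comm]
        refine Finset.sum_congr rfl fun j _ => ?_
        rw [Finset.sum_comm]

lemma jtr3_onb (A : Bil d) : tr3 A = ∑ a, ∑ b, ∑ c, A (e a) (e b) * A (e b) (e c) * A (e c) (e a) :=
  (jsum3_onb e A A A).symm

end basis

/-! ### values in a frame -/
section frame
variable {n : ℕ} {u : E (n + 1) → ℝ} {x : E (n + 1)}

lemma Frame.jD2_succ (F : Frame u x) (hx0 : x ≠ 0) (a b : Fin n) :
    D2 u x (F.e a.succ) (F.e b.succ) = if a = b then F.lam a / ‖x‖ else 0 := by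
  have hn : ‖x‖ ≠ 0 := norm_ne_zero_iff.2 hx0
  have h := inner_Nop (u := u) x (F.e a.succ) (F.e b.succ)
  rw [F.eig, inner_smul_right, orthonormal_iff_ite.1 F.e.orthonormal] at h
  by_cases hab : a = b
  · subst hab
    simp only [if_true, mul_one] at h ⊢
    rw [h]; field_simp
  · rw [if_neg (fun h' => hab (Fin.succ_injective _ h')), mul_zero] at h
    rw [if_neg hab]
    rcases mul_eq_zero.1 h.symm with h' | h'
    · exact absurd h' hn
    · exact h'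

lemma Frame.jD2_zero (H : HC u) (hx : x ∈ Om u) (F : Frame u x) (v : E (n + 1)) :
    D2 u x (F.e 0) v = 0 := by
  rw [F.e0, map_smul, H.euler2 hx]; simp

lemma Frame.jD2_zero' (H : HC u) (hx : x ∈ Om u) (F : Frame u x) (v : E (n + 1)) :
    D2 u x v (F.e 0) = 0 := by
  rw [H.symm2 hx, F.jD2_zero H hx]

lemma Frame.D3_zero (H : HC u) (hx : x ∈ Om u) (F : Frame u x) (v w : E (n + 1)) :
    D3 u x (F.e 0) v w = - (D2 u x v w / ‖x‖) := by
  rw [F.e0, map_smul, H.euler3 hx]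
  simp only [smul_apply, neg_apply, smul_eq_mul]
  ring

lemma Frame.D3_zero' (H : HC u) (hx : x ∈ Om u) (F : Frame u x) (v w : E (n + 1)) :
    D3 u x v (F.e 0) w = - (D2 u x v w / ‖x‖) := by
  rw [H.symm3a hx, F.D3_zero H hx]

lemma Frame.D3_zero'' (H : HC u) (hx : x ∈ Om u) (F : Frame u x) (v w : E (n + 1)) :
    D3 u x v w (F.e 0) = - (D2 u x v w / ‖x‖) := by
  rw [H.symm3b hx, F.D3_zero' H hx]

lemma Frame.D3_succ (hx0 : x ≠ 0) (F : Frame u x) (a b c : Fin n) :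
    D3 u x (F.e a.succ) (F.e b.succ) (F.e c.succ) = F.tau a b c / ‖x‖ ^ 2 := by
  have hn : ‖x‖ ≠ 0 := norm_ne_zero_iff.2 hx0
  unfold Frame.tau
  field_simp

lemma Frame.jD1_zero (H : HC u) (hx : x ∈ Om u) (F : Frame u x) :
    fderiv ℝ u x (F.e 0) = sN u x := by
  rw [F.e0, map_smul, H.euler1 hx, smul_eq_mul]
  unfold sN; ring

/-- `M:T` evaluated in a frame -/
lemma Frame.sum_MT (H : HC u) (hx : x ∈ Om u) (F : Frame u x) (v : E (n + 1)) :
    ∑ i, ∑ j, D2 u x (bv i) (bv j) * D3 u x v (bv i) (bv j) =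
      ∑ a, F.lam a / ‖x‖ * D3 u x v (F.e a.succ) (F.e a.succ) := by
  rw [← jsum2_onb F.e (D2 u x) (D3 u x v), Fin.sum_univ_succ]
  have h0 : ∑ b, D2 u x (F.e 0) (F.e b) * D3 u x v (F.e 0) (F.e b) = 0 :=
    Finset.sum_eq_zero fun b _ => by rw [F.jD2_zero H hx, zero_mul]
  rw [h0, zero_add]
  refine Finset.sum_congr rfl fun a _ => ?_
  rw [Fin.sum_univ_succ, F.jD2_zero' H hx, zero_mul, zero_add, Finset.sum_eq_single a]
  · rw [F.jD2_succ (H.ne_zero hx), if_pos rfl]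
  · intro b _ hb
    rw [F.jD2_succ (H.ne_zero hx), if_neg (Ne.symm hb), zero_mul]
  · intro h; exact absurd (Finset.mem_univ a) h

lemma Frame.sum_MT_succ (H : HC u) (hx : x ∈ Om u) (F : Frame u x) (k : Fin n) :
    ∑ i, ∑ j, D2 u x (bv i) (bv j) * D3 u x (F.e k.succ) (bv i) (bv j) =
      (∑ a, F.lam a * F.tau a a k) / ‖x‖ ^ 3 := by
  rw [F.sum_MT H hx, Finset.sum_div]
  refine Finset.sum_congr rfl fun a _ => ?_
  rw [H.symm3a hx, H.symm3b hx, F.D3_succ (H.ne_zero hx)]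
  have hn : ‖x‖ ≠ 0 := norm_ne_zero_iff.2 (H.ne_zero hx)
  field_simp

lemma Frame.hs2_eq (H : HC u) (hx : x ∈ Om u) (F : Frame u x) :
    hs2 (D2 u x) = (∑ a, F.lam a ^ 2) / ‖x‖ ^ 2 := by
  rw [jhs2_onb F.e, Fin.sum_univ_succ]
  have h0 : ∑ b, D2 u x (F.e 0) (F.e b) ^ 2 = 0 :=
    Finset.sum_eq_zero fun b _ => by rw [F.jD2_zero H hx]; simp
  rw [h0, zero_add, Finset.sum_div]
  refine Finset.sum_congr rfl fun a _ => ?_
  rw [Fin.sum_univ_succ, F.jD2_zero' H hx, Finset.sum_eq_single a]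
  · rw [F.jD2_succ (H.ne_zero hx), if_pos rfl, div_pow]; simp
  · intro b _ hb
    rw [F.jD2_succ (H.ne_zero hx), if_neg (Ne.symm hb)]; simp
  · intro h; exact absurd (Finset.mem_univ a) h

/-- `∑ T(v,i,j) M_{jk} M_{ki}` in a frame -/
lemma Frame.sum_MMT (H : HC u) (hx : x ∈ Om u) (F : Frame u x) (B : Bil (n + 1)) :
    ∑ i, ∑ j, ∑ k, B (bv i) (bv j) * D2 u x (bv j) (bv k) * D2 u x (bv k) (bv i) =
      ∑ a, (F.lam a / ‖x‖) ^ 2 * B (F.e a.succ) (F.e a.succ) := by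
  rw [← jsum3_onb F.e B (D2 u x) (D2 u x), Fin.sum_univ_succ]
  have h0 : ∑ b, ∑ c, B (F.e 0) (F.e b) * D2 u x (F.e b) (F.e c) * D2 u x (F.e c) (F.e 0) = 0 :=
    Finset.sum_eq_zero fun b _ => Finset.sum_eq_zero fun c _ => by
      rw [F.jD2_zero' H hx, mul_zero]
  rw [h0, zero_add]
  refine Finset.sum_congr rfl fun a _ => ?_
  rw [Fin.sum_univ_succ]
  have h1 : ∑ c, B (F.e a.succ) (F.e 0) * D2 u x (F.e 0) (F.e c) * D2 u x (F.e c) (F.e a.succ) = 0 :=
    Finset.sum_eq_zero fun c _ => by rw [F.jD2_zero H hx]; ring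
  rw [h1, zero_add]
  have h2 : ∀ b : Fin n, ∑ c, B (F.e a.succ) (F.e b.succ) * D2 u x (F.e b.succ) (F.e c) *
      D2 u x (F.e c) (F.e a.succ) = if a = b then
        (F.lam a / ‖x‖) ^ 2 * B (F.e a.succ) (F.e a.succ) else 0 := by
    intro b
    rw [Fin.sum_univ_succ, F.jD2_zero H hx, mul_zero, zero_add]
    rw [Finset.sum_eq_single a]
    · rw [F.jD2_succ (H.ne_zero hx), F.jD2_succ (H.ne_zero hx), if_pos rfl]
      by_cases hab : a = b
      · subst hab; simp; ring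
      · rw [if_neg hab, if_neg (Ne.symm hab)]; ring
    · intro c _ hc
      rw [F.jD2_succ (H.ne_zero hx) c a, if_neg hc, mul_zero]
    · intro h; exact absurd (Finset.mem_univ a) h
  simp_rw [h2]
  simp

lemma Frame.tr3_eq (H : HC u) (hx : x ∈ Om u) (F : Frame u x) :
    tr3 (D2 u x) = (∑ a, F.lam a ^ 3) / ‖x‖ ^ 3 := by
  unfold tr3
  rw [F.sum_MMT H hx (D2 u x), Finset.sum_div]
  refine Finset.sum_congr rfl fun a _ => ?_
  rw [F.jD2_succ (H.ne_zero hx), if_pos rfl]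
  ring

/-- the full norm of `D³u` in a frame -/
lemma Frame.hs3_eq (H : HC u) (hx : x ∈ Om u) (F : Frame u x) :
    hs3' (D3 u x) = (∑ a, ∑ b, ∑ c, F.tau a b c ^ 2) / ‖x‖ ^ 4 +
      3 * hs2 (D2 u x) / ‖x‖ ^ 2 := by
  have hn : ‖x‖ ≠ 0 := norm_ne_zero_iff.2 (H.ne_zero hx)
  rw [hs3_onb F.e, Fin.sum_univ_succ]
  have h0 : ∑ a, ∑ b, D3 u x (F.e 0) (F.e a) (F.e b) ^ 2 = hs2 (D2 u x) / ‖x‖ ^ 2 := by
    rw [jhs2_onb F.e, Finset.sum_div]
    refine Finset.sum_congr rfl fun a _ => ?_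
    rw [Finset.sum_div]
    refine Finset.sum_congr rfl fun b _ => ?_
    rw [F.D3_zero H hx, neg_sq, div_pow]
  have h1 : ∀ c : Fin n, ∑ a, ∑ b, D3 u x (F.e c.succ) (F.e a) (F.e b) ^ 2 =
      2 * ((∑ b : Fin n, D2 u x (F.e c.succ) (F.e b.succ) ^ 2) / ‖x‖ ^ 2) +
      ∑ a : Fin n, ∑ b : Fin n, F.tau c a b ^ 2 / ‖x‖ ^ 4 := by
    intro c
    rw [Fin.sum_univ_succ]
    have k0 : ∑ b, D3 u x (F.e c.succ) (F.e 0) (F.e b) ^ 2 =
        (∑ b : Fin n, D2 u x (F.e c.succ) (F.e b.succ) ^ 2) / ‖x‖ ^ 2 := by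
      rw [Fin.sum_univ_succ, F.D3_zero' H hx, F.jD2_zero' H hx, Finset.sum_div]
      simp only [zero_div, neg_zero, ne_eq, OfNat.ofNat_ne_zero, not_false_eq_true, zero_pow,
        zero_add]
      refine Finset.sum_congr rfl fun b _ => ?_
      rw [F.D3_zero' H hx, neg_sq, div_pow]
    have k1 : ∀ a : Fin n, ∑ b, D3 u x (F.e c.succ) (F.e a.succ) (F.e b) ^ 2 =
        D2 u x (F.e c.succ) (F.e a.succ) ^ 2 / ‖x‖ ^ 2 +
          ∑ b : Fin n, F.tau c a b ^ 2 / ‖x‖ ^ 4 := by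
      intro a
      rw [Fin.sum_univ_succ, F.D3_zero'' H hx, neg_sq, div_pow]
      congr 1
      refine Finset.sum_congr rfl fun b _ => ?_
      rw [F.D3_succ (H.ne_zero hx)]
      ring
    rw [k0]
    simp_rw [k1]
    rw [Finset.sum_add_distrib, ← Finset.sum_div]
    ring
  rw [h0]
  simp_rw [h1]
  rw [Finset.sum_add_distrib, ← Finset.mul_sum, ← Finset.sum_div]
  have h2 : ∑ c : Fin n, ∑ b : Fin n, D2 u x (F.e c.succ) (F.e b.succ) ^ 2 = hs2 (D2 u x) := by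
    rw [jhs2_onb F.e, Fin.sum_univ_succ]
    have z0 : ∑ b, D2 u x (F.e 0) (F.e b) ^ 2 = 0 :=
      Finset.sum_eq_zero fun b _ => by rw [F.jD2_zero H hx]; simp
    rw [z0, zero_add]
    refine Finset.sum_congr rfl fun a _ => ?_
    rw [Fin.sum_univ_succ, F.jD2_zero' H hx]; simp
  rw [h2, Finset.sum_div]
  have h3 : ∀ c : Fin n, (∑ a : Fin n, ∑ b : Fin n, F.tau c a b ^ 2) / ‖x‖ ^ 4 =
      ∑ a : Fin n, ∑ b : Fin n, F.tau c a b ^ 2 / ‖x‖ ^ 4 := by
    intro c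
    rw [Finset.sum_div]
    refine Finset.sum_congr rfl fun a _ => ?_
    rw [Finset.sum_div]
  simp_rw [h3]
  ring

end frame

end Crest.Agent.R097
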