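import Crest.Agent.R097.RJ2

/-!
# Row 97, jet calculus: derivatives of the invariants `(P₂, P₃, q, s)` in a frame
-/

set_option autoImplicit false
set_option synthInstance.maxHeartbeats 400000
open MeasureTheory Metric Set Filter Topology InnerProductSpace
open scoped RealInnerProductSpace NNReal ENNReal Gradient Laplacian

namespace Crest.Agent.R097

section general
variable {d : ℕ}

lemma hasFDerivAt_norm' {x : E d} (hx : x ≠ 0) :
    HasFDerivAt (fun y : E d => ‖y‖) (‖x‖⁻¹ • innerSL ℝ x) x := by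
  have hn : 0 < ‖x‖ := norm_pos_iff.2 hx
  have h := hasFDerivAt_radial (f := Real.exp) hx (Real.hasDerivAt_exp _)
  have h2 : (fun y : E d => Real.exp (Real.log ‖y‖)) =ᶠ[𝓝 x] fun y => ‖y‖ := by
    filter_upwards [isOpen_ne.mem_nhds hx] with y hy
    exact Real.exp_log (norm_pos_iff.2 hy)
  refine (h.congr_of_eventuallyEq h2.symm).congr_fderiv ?_
  rw [Real.exp_log hn]
  congr 1
  field_simp

lemma hasFDerivAt_normsq' (x : E d) :
    HasFDerivAt (fun y : E d => ‖y‖ ^ 2) ((2 : ℝ) • innerSL ℝ x) x := by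
  have := (hasStrictFDerivAt_norm_sq (F := E d) x).hasFDerivAt
  refine this.congr_fderiv ?_
  ext v
  simp [two_smul]

end general

section frame
variable {n : ℕ} {u : E (n + 1) → ℝ} {x : E (n + 1)}

lemma Frame.inner_succ (hx0 : x ≠ 0) (F : Frame u x) (k : Fin n) : ⟪x, F.e k.succ⟫_ℝ = 0 := by
  have hn : ‖x‖ ≠ 0 := norm_ne_zero_iff.2 hx0
  have h : x = ‖x‖ • F.e 0 := by rw [F.e0, smul_smul, mul_inv_cancel₀ hn, one_smul]
  have h2 : ⟪‖x‖ • F.e 0, F.e k.succ⟫_ℝ = 0 := by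
    rw [inner_smul_left, orthonormal_iff_ite.1 F.e.orthonormal,
      if_neg (Fin.succ_ne_zero k).symm, mul_zero]
  exact (congrArg (fun z => ⟪z, F.e k.succ⟫_ℝ) h).trans h2

lemma Frame.inner_zero (hx0 : x ≠ 0) (F : Frame u x) : ⟪x, F.e 0⟫_ℝ = ‖x‖ := by
  have hn : ‖x‖ ≠ 0 := norm_ne_zero_iff.2 hx0
  rw [F.e0, inner_smul_right, real_inner_self_eq_norm_sq]
  field_simp

lemma Frame.grad_succ (F : Frame u x) (k : Fin n) : ⟪∇ u x, F.e k.succ⟫_ℝ = F.g k := by
  rw [inner_gradient]; rfl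

lemma Frame.grad_zero (H : HC u) (hx : x ∈ Om u) (F : Frame u x) : ⟪∇ u x, F.e 0⟫_ℝ = sN u x := by
  rw [inner_gradient, F.jD1_zero H hx]

/-- `D²u(x)(e_k, Du)` -/
lemma Frame.D2_grad (H : HC u) (hx : x ∈ Om u) (F : Frame u x) (k : Fin n) :
    D2 u x (F.e k.succ) (∇ u x) = F.lam k * F.g k / ‖x‖ := by
  rw [apply_onb F.e (D2 u x (F.e k.succ)) (∇ u x), Fin.sum_univ_succ, F.jD2_zero' H hx, mul_zero,
    zero_add, Finset.sum_eq_single k]
  · rw [F.jD2_succ (H.ne_zero hx), if_pos rfl, real_inner_comm, F.grad_succ]; ring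
  · intro b _ hb
    rw [F.jD2_succ (H.ne_zero hx), if_neg (Ne.symm hb), mul_zero]
  · intro h; exact absurd (Finset.mem_univ k) h

lemma Frame.qN_eq (H : HC u) (hx : x ∈ Om u) (F : Frame u x) :
    qN u x = ∑ k, F.g k ^ 2 := by
  unfold qN
  rw [norm_gradient, norm_sq_onb F.e, Fin.sum_univ_succ, F.jD1_zero H hx]
  unfold sN Frame.g
  ring

lemma Frame.jzN_eq (H : HC u) (hx : x ∈ Om u) (F : Frame u x) :
    zN u x = zv F.lam F.g (sN u x) := by
  have hn : ‖x‖ ≠ 0 := norm_ne_zero_iff.2 (H.ne_zero hx)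
  unfold zN zv
  rw [F.hs2_eq H hx, F.tr3_eq H hx, F.qN_eq H hx]
  congr 1
  · field_simp
  · congr 1
    field_simp

/-- derivative of `s` -/
lemma has_s (H : HC u) (hx : x ∈ Om u) :
    HasFDerivAt (sN u) (‖x‖⁻¹ • fderiv ℝ u x - (u x / ‖x‖ ^ 3) • innerSL ℝ x) x := by
  have hx0 := H.ne_zero hx
  have hn : ‖x‖ ≠ 0 := norm_ne_zero_iff.2 hx0
  have hi : HasFDerivAt (fun y : E (n + 1) => ‖y‖⁻¹) _ x :=
    (hasDerivAt_inv hn).comp_hasFDerivAt x (hasFDerivAt_norm' hx0)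
  have h := (H.hasD1 hx).mul hi
  refine (h.congr_of_eventuallyEq (Eventually.of_forall fun y => ?_)).congr_fderiv ?_
  · unfold sN; rw [div_eq_mul_inv]; rfl
  · ext v
    simp only [sub_apply, smul_apply, add_apply, smul_eq_mul, innerSL_apply_apply]
    field_simp
    ring

/-- derivative of `q` -/
lemma has_q (H : HC u) (hx : x ∈ Om u) :
    ∃ L : E (n + 1) →L[ℝ] ℝ, HasFDerivAt (qN u) L x ∧ ∀ v, L v = 2 * D2 u x v (∇ u x) -
      2 * sN u x * (‖x‖⁻¹ * fderiv ℝ u x v - (u x / ‖x‖ ^ 3) * ⟪x, v⟫_ℝ) := by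
  have h1 : HasFDerivAt (fun y => ‖∇ u y‖ ^ 2) ((2 : ℝ) • ((D2 u x).flip (∇ u x))) x := by
    have h2 : ∀ i : Fin (n + 1), HasFDerivAt (fun y => (fderiv ℝ u y (bv i)) ^ 2)
        ((2 * fderiv ℝ u x (bv i)) • (D2 u x).flip (bv i)) x := by
      intro i
      have := (had_app1 (H.hasD2 hx) (bv i)).pow 2
      refine this.congr_fderiv ?_
      ext v; simp
    have h3 : HasFDerivAt (fun y => ∑ i, (fderiv ℝ u y (bv i)) ^ 2)
        (∑ i, (2 * fderiv ℝ u x (bv i)) • (D2 u x).flip (bv i)) x :=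
      HasFDerivAt.fun_sum fun i _ => h2 i
    refine (h3.congr_of_eventuallyEq (Eventually.of_forall fun y => ?_)).congr_fderiv ?_
    · simp only []
      rw [EuclideanSpace.norm_sq_eq]
      refine Finset.sum_congr rfl fun i _ => ?_
      rw [gradient_coord, Real.norm_eq_abs, sq_abs]
    · ext v
      simp only [sum_apply, smul_apply, ContinuousLinearMap.flip_apply, smul_eq_mul]
      have h4 : D2 u x v (∇ u x) = ∑ i, (∇ u x) i * D2 u x v (bv i) := by
        conv_lhs => rw [← sum_bv (∇ u x), map_sum]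
        simp [smul_eq_mul]
      rw [h4, Finset.mul_sum]
      refine Finset.sum_congr rfl fun i _ => ?_
      rw [gradient_coord]; ring
  have h5 := (has_s H hx).pow 2
  refine ⟨_, (h1.sub h5).congr_of_eventuallyEq (Eventually.of_forall fun y => ?_), fun v => ?_⟩
  · rfl
  · simp only [sub_apply, smul_apply, ContinuousLinearMap.flip_apply, smul_eq_mul, nsmul_eq_mul,
      innerSL_apply_apply]
    push_cast
    ring

/-- derivative of `P₂` -/
lemma has_P2 (H : HC u) (hx : x ∈ Om u) :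
    ∃ L : E (n + 1) →L[ℝ] ℝ, HasFDerivAt (fun y => ‖y‖ ^ 2 * hs2 (D2 u y)) L x ∧
      ∀ v, L v = 2 * ⟪x, v⟫_ℝ * hs2 (D2 u x) +
        ‖x‖ ^ 2 * (2 * ∑ i, ∑ j, D2 u x (bv i) (bv j) * D3 u x v (bv i) (bv j)) := by
  have hm : DifferentiableAt ℝ (fun y => hs2 (D2 u y)) x :=
    ((smooth_m H.isOpen H.sm).contDiffAt (H.isOpen.mem_nhds hx)).differentiableAt (by simp)
  refine ⟨_, (hasFDerivAt_normsq' x).mul hm.hasFDerivAt, fun v => ?_⟩
  simp only [add_apply, smul_apply, smul_eq_mul, innerSL_apply_apply]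
  rw [fderiv_m (H.hasD3 hx).differentiableAt, Finset.mul_sum]
  simp_rw [Finset.mul_sum]
  rw [add_comm]
  congr 1
  · ring
  · refine Finset.sum_congr rfl fun i _ => ?_
    refine Finset.sum_congr rfl fun j _ => ?_
    ring

lemma has_tr3 (H : HC u) (hx : x ∈ Om u) :
    ∃ L : E (n + 1) →L[ℝ] ℝ, HasFDerivAt (fun y => tr3 (D2 u y)) L x ∧
      ∀ v, L v = 3 * ∑ i, ∑ j, ∑ k, D3 u x v (bv i) (bv j) * D2 u x (bv j) (bv k) *
        D2 u x (bv k) (bv i) := by
  have h0 := fun i j k : Fin (n + 1) => ((H.hasD2e hx (bv i) (bv j)).mul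
    (H.hasD2e hx (bv j) (bv k))).mul (H.hasD2e hx (bv k) (bv i))
  have h1 : HasFDerivAt (fun y => tr3 (D2 u y)) _ x :=
    HasFDerivAt.fun_sum fun i _ => HasFDerivAt.fun_sum fun j _ => HasFDerivAt.fun_sum fun k _ =>
      h0 i j k
  refine ⟨_, h1, fun v => ?_⟩
  simp only [sum_apply, add_apply, smul_apply, smul_eq_mul, ContinuousLinearMap.flip_apply,
    mul_add, Finset.sum_add_distrib, Pi.mul_apply]
  set A := fun i j : Fin (n + 1) => D2 u x (bv i) (bv j) with hA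
  set B := fun i j : Fin (n + 1) => D3 u x v (bv i) (bv j) with hB
  have e0 : ∀ i j, D2 u x (bv i) (bv j) = A i j := fun _ _ => rfl
  have e1 : ∀ i j, D3 u x v (bv i) (bv j) = B i j := fun _ _ => rfl
  simp_rw [e0, e1]
  have c1 : ∑ i, ∑ j, ∑ k, A i j * A j k * B k i = ∑ i, ∑ j, ∑ k, B i j * A j k * A k i := by
    calc ∑ i, ∑ j, ∑ k, A i j * A j k * B k i = ∑ i, ∑ k, ∑ j, A i j * A j k * B k i := by
          refine Finset.sum_congr rfl fun i _ => ?_
          rw [Finset.sum_comm]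
      _ = ∑ k, ∑ i, ∑ j, A i j * A j k * B k i := by rw [Finset.sum_comm]
      _ = _ := by
          refine Finset.sum_congr rfl fun k _ => Finset.sum_congr rfl fun i _ =>
            Finset.sum_congr rfl fun j _ => ?_
          ring
  have c2 : ∑ i, ∑ j, ∑ k, A k i * (A i j * B j k) = ∑ i, ∑ j, ∑ k, B i j * A j k * A k i := by
    calc ∑ i, ∑ j, ∑ k, A k i * (A i j * B j k) = ∑ j, ∑ i, ∑ k, A k i * (A i j * B j k) := by
          rw [Finset.sum_comm]
      _ = ∑ j, ∑ k, ∑ i, A k i * (A i j * B j k) := by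
          refine Finset.sum_congr rfl fun j _ => ?_
          rw [Finset.sum_comm]
      _ = _ := by
          refine Finset.sum_congr rfl fun j _ => Finset.sum_congr rfl fun k _ =>
            Finset.sum_congr rfl fun i _ => ?_
          ring
  have c3 : ∑ i, ∑ j, ∑ k, A k i * (A j k * B i j) = ∑ i, ∑ j, ∑ k, B i j * A j k * A k i := by
    refine Finset.sum_congr rfl fun j _ => Finset.sum_congr rfl fun k _ =>
      Finset.sum_congr rfl fun i _ => ?_
    ring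
  rw [c1, c2, c3]
  ring

/-- derivative of `P₃` -/
lemma has_P3 (H : HC u) (hx : x ∈ Om u) :
    ∃ L : E (n + 1) →L[ℝ] ℝ, HasFDerivAt (fun y => ‖y‖ ^ 3 * tr3 (D2 u y)) L x ∧
      ∀ v, L v = 3 * ‖x‖ * ⟪x, v⟫_ℝ * tr3 (D2 u x) +
        ‖x‖ ^ 3 * (3 * ∑ i, ∑ j, ∑ k, D3 u x v (bv i) (bv j) * D2 u x (bv j) (bv k) *
        D2 u x (bv k) (bv i)) := by
  have hx0 := H.ne_zero hx
  have hn : ‖x‖ ≠ 0 := norm_ne_zero_iff.2 hx0
  obtain ⟨L, h1, h2⟩ := has_tr3 H hx
  refine ⟨_, ((hasFDerivAt_norm' hx0).pow 3).mul h1, fun v => ?_⟩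
  simp only [add_apply, smul_apply, smul_eq_mul, innerSL_apply_apply, h2, nsmul_eq_mul]
  push_cast
  field_simp
  ring

/-- **derivative of the vector of invariants** in a frame -/
theorem Frame.has_z (H : HC u) (hx : x ∈ Om u) (F : Frame u x) :
    ∃ L : Fin 4 → (E (n + 1) →L[ℝ] ℝ), HasFDerivAt (zN u) (ContinuousLinearMap.pi L) x ∧
      (∀ i, L i (F.e 0) = 0) ∧
      (∀ k : Fin n, L 0 (F.e k.succ) = ‖x‖⁻¹ * (2 * ∑ a, F.lam a * F.tau a a k)) ∧
      (∀ k : Fin n, L 1 (F.e k.succ) = ‖x‖⁻¹ * (3 * ∑ a, F.lam a ^ 2 * F.tau a a k)) ∧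
      (∀ k : Fin n, L 2 (F.e k.succ) = ‖x‖⁻¹ * (2 * (F.lam k - sN u x) * F.g k)) ∧
      (∀ k : Fin n, L 3 (F.e k.succ) = ‖x‖⁻¹ * F.g k) := by
  have hx0 := H.ne_zero hx
  have hn : ‖x‖ ≠ 0 := norm_ne_zero_iff.2 hx0
  obtain ⟨L0, a0, b0⟩ := has_P2 H hx
  obtain ⟨L1, a1, b1⟩ := has_P3 H hx
  obtain ⟨L2, a2, b2⟩ := has_q H hx
  have a3 := has_s H hx
  set L3 := ‖x‖⁻¹ • fderiv ℝ u x - (u x / ‖x‖ ^ 3) • innerSL ℝ x with hL3
  have hinn0 : ⟪x, F.e 0⟫_ℝ = ‖x‖ := F.inner_zero hx0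
  have hMT0 : ∑ i, ∑ j, D2 u x (bv i) (bv j) * D3 u x (F.e 0) (bv i) (bv j) =
      - (hs2 (D2 u x) / ‖x‖) := by
    unfold hs2
    rw [Finset.sum_div, ← Finset.sum_neg_distrib]
    refine Finset.sum_congr rfl fun i _ => ?_
    rw [Finset.sum_div, ← Finset.sum_neg_distrib]
    refine Finset.sum_congr rfl fun j _ => ?_
    rw [F.D3_zero H hx]; ring
  have hMMT0 : ∑ i, ∑ j, ∑ k, D3 u x (F.e 0) (bv i) (bv j) * D2 u x (bv j) (bv k) *
      D2 u x (bv k) (bv i) = - (tr3 (D2 u x) / ‖x‖) := by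
    unfold tr3
    simp_rw [F.D3_zero H hx, Finset.sum_div, ← Finset.sum_neg_distrib]
    refine Finset.sum_congr rfl fun i _ => Finset.sum_congr rfl fun j _ =>
      Finset.sum_congr rfl fun k _ => ?_
    ring
  refine ⟨![L0, L1, L2, L3], ?_, ?_, fun k => ?_, fun k => ?_, fun k => ?_, fun k => ?_⟩
  · rw [hasFDerivAt_pi']
    intro i
    fin_cases i
    · exact a0.congr_fderiv (by ext v; simp)
    · exact a1.congr_fderiv (by ext v; simp)
    · exact a2.congr_fderiv (by ext v; simp)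
    · exact a3.congr_fderiv (by ext v; simp)
  · intro i
    fin_cases i
    · show L0 (F.e 0) = 0
      rw [b0, hMT0, hinn0]
      field_simp
      ring
    · show L1 (F.e 0) = 0
      rw [b1, hMMT0, hinn0]
      field_simp
      ring
    · show L2 (F.e 0) = 0
      rw [b2, F.jD2_zero H hx, hinn0, F.jD1_zero H hx]
      unfold sN
      field_simp
      ring
    · show L3 (F.e 0) = 0
      rw [hL3]
      simp only [sub_apply, smul_apply, smul_eq_mul, innerSL_apply_apply]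
      rw [hinn0, F.jD1_zero H hx]
      unfold sN
      field_simp
      ring
  · show L0 (F.e k.succ) = _
    rw [b0, F.sum_MT_succ H hx, F.inner_succ hx0]
    field_simp
    ring
  · show L1 (F.e k.succ) = _
    rw [b1, F.sum_MMT H hx (D3 u x (F.e k.succ)), F.inner_succ hx0]
    have e1 : ∀ a : Fin n, (F.lam a / ‖x‖) ^ 2 * D3 u x (F.e k.succ) (F.e a.succ) (F.e a.succ) =
        F.lam a ^ 2 * F.tau a a k / ‖x‖ ^ 4 := by
      intro a
      rw [H.symm3a hx, H.symm3b hx, F.D3_succ hx0]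
      field_simp
    simp_rw [e1]
    rw [← Finset.sum_div]
    field_simp
    ring
  · show L2 (F.e k.succ) = _
    rw [b2, F.D2_grad H hx, F.inner_succ hx0]
    have e1 : fderiv ℝ u x (F.e k.succ) = F.g k := rfl
    rw [e1]
    field_simp
    ring
  · show L3 (F.e k.succ) = _
    rw [hL3]
    simp only [sub_apply, smul_apply, smul_eq_mul, innerSL_apply_apply]
    rw [F.inner_succ hx0]
    have e1 : fderiv ℝ u x (F.e k.succ) = F.g k := rfl
    rw [e1]; ring

/-- derivative of a coefficient function in a frame -/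
theorem Frame.has_coef (H : HC u) (hx : x ∈ Wn u) (F : Frame u x) {c : Coef} (hc : c.Ok) :
    ∃ L : E (n + 1) →L[ℝ] ℝ, HasFDerivAt (fun y => c.f (zN u y)) L x ∧ L (F.e 0) = 0 ∧
      ∀ k : Fin n, L (F.e k.succ) = ‖x‖⁻¹ * c.D F.lam F.g (sN u x) F.tau k := by
  have hx0 := H.ne_zero hx.1
  have hn : 0 < ‖x‖ := norm_pos_iff.2 hx0
  obtain ⟨L, h, h0, e0, e1, e2, e3⟩ := F.has_z H hx.1
  have hz0 : 0 < zN u x 0 := by
    show 0 < ‖x‖ ^ 2 * hs2 (D2 u x)
    exact mul_pos (by positivity) hx.2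
  have hc1 := hc.has (zN u x) hz0
  refine ⟨_, hc1.comp x h, ?_, fun k => ?_⟩
  · simp only [ContinuousLinearMap.comp_apply, sum_apply, smul_apply, smul_eq_mul,
      ContinuousLinearMap.proj_apply, ContinuousLinearMap.pi_apply, h0, mul_zero,
      Finset.sum_const_zero]
  · simp only [ContinuousLinearMap.comp_apply, sum_apply, smul_apply, smul_eq_mul,
      ContinuousLinearMap.proj_apply, ContinuousLinearMap.pi_apply]
    rw [Fin.sum_univ_four, e0, e1, e2, e3, F.jzN_eq H hx.1]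
    unfold Coef.D
    ring

end frame

end Crest.Agent.R097
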