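import Crest.Agent.R097.RJ3

/-!
# Row 97, jet calculus: the basic fields, their components and divergences in a frame
-/

set_option autoImplicit false
set_option synthInstance.maxHeartbeats 400000
open MeasureTheory Metric Set Filter Topology InnerProductSpace
open scoped RealInnerProductSpace NNReal ENNReal Gradient Laplacian

namespace Crest.Agent.R097

section general
variable {d : ℕ}

lemma inner_act (A : Bil d) (v w : E d) : ⟪w, act A v⟫_ℝ = A v w := by
  unfold act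
  rw [inner_sum]
  conv_rhs => rw [← sum_bv w, map_sum]
  refine Finset.sum_congr rfl fun i _ => ?_
  rw [inner_smul_right, inner_bv', map_smul, smul_eq_mul]; ring

lemma act_apply (A : Bil d) (v : E d) (i : Fin d) : (act A v) i = A v (bv i) := by
  rw [← inner_bv, inner_act]

lemma inner_TM (A : Bil d) (B : Tri d) (w : E d) :
    ⟪w, TM A B⟫_ℝ = ∑ i, ∑ j, A (bv i) (bv j) * B w (bv i) (bv j) := by
  unfold TM
  rw [inner_sum]
  have h : ∀ i j : Fin d, B w (bv i) (bv j) = ∑ k, w k * B (bv k) (bv i) (bv j) := by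
    intro i j
    conv_lhs => rw [← sum_bv w, map_sum]
    rw [sum_apply, sum_apply]
    refine Finset.sum_congr rfl fun k _ => ?_
    rw [map_smul, smul_apply, smul_apply, smul_eq_mul]
  simp_rw [h, Finset.mul_sum]
  calc ∑ k, ⟪w, (∑ i, ∑ j, B (bv k) (bv i) (bv j) * A (bv i) (bv j)) • bv k⟫_ℝ
      = ∑ k, ∑ i, ∑ j, A (bv i) (bv j) * (w k * B (bv k) (bv i) (bv j)) := by
        refine Finset.sum_congr rfl fun k _ => ?_
        rw [inner_smul_right, inner_bv', Finset.sum_mul]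
        refine Finset.sum_congr rfl fun i _ => ?_
        rw [Finset.sum_mul]
        refine Finset.sum_congr rfl fun j _ => ?_
        ring
    _ = _ := by
        rw [Finset.sum_comm]
        refine Finset.sum_congr rfl fun i _ => ?_
        rw [Finset.sum_comm]

lemma TM_apply (A : Bil d) (B : Tri d) (k : Fin d) :
    (TM A B) k = ∑ i, ∑ j, A (bv i) (bv j) * B (bv k) (bv i) (bv j) := by
  rw [← inner_bv, inner_TM]

/-- divergence from the derivatives of the components -/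
lemma dv_of_comp {Y : E d → E d} {x : E d} {L : Fin d → (E d →L[ℝ] ℝ)}
    (h : ∀ k, HasFDerivAt (fun y => Y y k) (L k) x) :
    DifferentiableAt ℝ Y x ∧ dv Y x = ∑ k, L k (bv k) := by
  have hd : DifferentiableAt ℝ Y x := by
    rw [differentiableAt_euclidean]
    intro k; exact (h k).differentiableAt
  refine ⟨hd, ?_⟩
  unfold dv
  refine Finset.sum_congr rfl fun k _ => ?_
  have h1 : HasFDerivAt (fun y => (Y y) k)
      ((EuclideanSpace.proj k : E d →L[ℝ] ℝ).comp (fderiv ℝ Y x)) x :=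
    (EuclideanSpace.proj k : E d →L[ℝ] ℝ).hasFDerivAt.comp x hd.hasFDerivAt
  rw [(h k).unique h1]; rfl

lemma dv_id (x : E d) : dv (fun y : E d => y) x = d := by
  simp [dv, bv]

end general

section fields
variable {d : ℕ} {u : E d → ℝ} {x : E d}

/-- derivative of the gradient components -/
lemma has_grad (H : HC u) (hx : x ∈ Om u) :
    HasFDerivAt (fun y => ∇ u y) (∑ i, ((D2 u x).flip (bv i)).smulRight (bv i)) x := by
  have h : ∀ i : Fin d, HasFDerivAt (fun y => (fderiv ℝ u y (bv i)) • bv i)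
      (((D2 u x).flip (bv i)).smulRight (bv i)) x := fun i =>
    (had_app1 (H.hasD2 hx) (bv i)).smul_const (bv i)
  refine (HasFDerivAt.fun_sum fun i _ => h i).congr_of_eventuallyEq
    (Eventually.of_forall fun y => ?_)
  simp only []
  conv_lhs => rw [← sum_bv (∇ u y)]
  refine Finset.sum_congr rfl fun i _ => ?_
  rw [gradient_coord]

lemma grad_deriv_inner (v w : E d) :
    ⟪w, (∑ i, ((D2 u x).flip (bv i)).smulRight (bv i)) v⟫_ℝ = D2 u x v w := by
  rw [sum_apply, inner_sum]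
  conv_rhs => rw [← sum_bv w, map_sum]
  refine Finset.sum_congr rfl fun i _ => ?_
  rw [ContinuousLinearMap.smulRight_apply, inner_smul_right, inner_bv', map_smul, smul_eq_mul]
  simp only [ContinuousLinearMap.flip_apply]
  ring

lemma dv_grad (H : HC u) (hx : x ∈ Om u) : dv (fun y => ∇ u y) x = 0 := by
  rw [dv_gradient ((H.sm.contDiffAt (H.isOpen.mem_nhds hx)).of_le two_le_top')]
  exact H.ha x hx

/-- `D_v (D²u p) · w` -/
lemma has_Zf (H : HC u) (hx : x ∈ Om u) :
    ∃ L : E d →L[ℝ] E d, HasFDerivAt (Zf u) L x ∧ ∀ v w, ⟪w, L v⟫_ℝ =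
      D3 u x v (∇ u x) w + ∑ i, D2 u x v (bv i) * D2 u x (bv i) w := by
  have h0 := (H.hasD3 hx).clm_apply (has_grad H hx)
  have h : ∀ i : Fin d, HasFDerivAt (fun y => (D2 u y (∇ u y) (bv i)) • bv i) _ x := fun i =>
    (had_app1 h0 (bv i)).smul_const (bv i)
  have h1 : HasFDerivAt (Zf u) _ x :=
    (HasFDerivAt.fun_sum (u := Finset.univ) fun i _ => h i).congr_of_eventuallyEq
      (Eventually.of_forall fun y => rfl)
  refine ⟨_, h1, fun v w => ?_⟩
  rw [sum_apply, inner_sum]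
  have e1 : ∀ c : E d, D2 u x ((∑ i, ((D2 u x).flip (bv i)).smulRight (bv i)) v) c =
      ∑ i, D2 u x v (bv i) * D2 u x (bv i) c := by
    intro c
    rw [sum_apply, map_sum, sum_apply]
    refine Finset.sum_congr rfl fun i _ => ?_
    rw [ContinuousLinearMap.smulRight_apply, map_smul, smul_apply, smul_eq_mul]; rfl
  have e2 : D3 u x v (∇ u x) w + ∑ i, D2 u x v (bv i) * D2 u x (bv i) w =
      ∑ j, w j * (D3 u x v (∇ u x) (bv j) + ∑ i, D2 u x v (bv i) * D2 u x (bv i) (bv j)) := by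
    have a1 : D3 u x v (∇ u x) w = ∑ j, w j * D3 u x v (∇ u x) (bv j) := by
      conv_lhs => rw [← sum_bv w, map_sum]
      simp [smul_eq_mul]
    have a2 : ∀ i, D2 u x (bv i) w = ∑ j, w j * D2 u x (bv i) (bv j) := by
      intro i
      conv_lhs => rw [← sum_bv w, map_sum]
      simp [smul_eq_mul]
    rw [a1]
    simp_rw [a2, mul_add, Finset.sum_add_distrib, Finset.mul_sum]
    congr 1
    rw [Finset.sum_comm]
    refine Finset.sum_congr rfl fun i _ => Finset.sum_congr rfl fun j _ => ?_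
    ring
  rw [e2]
  refine Finset.sum_congr rfl fun j _ => ?_
  rw [ContinuousLinearMap.smulRight_apply, inner_smul_right, inner_bv']
  simp only [ContinuousLinearMap.flip_apply, add_apply, ContinuousLinearMap.comp_apply]
  rw [e1]
  ring

lemma TrD3 (H : HC u) (hx : x ∈ Om u) (v : E d) : ∑ k, D3 u x (bv k) v (bv k) = 0 := by
  rw [← H.tr3 hx v]
  refine Finset.sum_congr rfl fun k _ => ?_
  rw [H.symm3a hx]

/-- divergence of `D²u p` -/
lemma dv_Zf (H : HC u) (hx : x ∈ Om u) : dv (Zf u) x = hs2 (D2 u x) := by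
  obtain ⟨L, h, hL⟩ := has_Zf H hx
  have : dv (Zf u) x = ∑ k, ⟪bv k, L (bv k)⟫_ℝ := by
    unfold dv
    rw [h.fderiv]
    exact Finset.sum_congr rfl fun k _ => (inner_bv k _).symm
  rw [this]
  simp_rw [hL, Finset.sum_add_distrib]
  rw [TrD3 H hx, zero_add]
  unfold hs2
  refine Finset.sum_congr rfl fun k _ => Finset.sum_congr rfl fun i _ => ?_
  rw [H.symm2 hx (bv i) (bv k)]; ring

/-- divergence of `D²u D²u p` -/
lemma dv_actZf (H : HC u) (hx : x ∈ Om u) :
    DifferentiableAt ℝ (fun y => act (D2 u y) (Zf u y)) x ∧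
    dv (fun y => act (D2 u y) (Zf u y)) x =
      (∑ i, ∑ j, D2 u x (bv i) (bv j) * D3 u x (∇ u x) (bv i) (bv j)) + tr3 (D2 u x) := by
  obtain ⟨L, h, hL⟩ := has_Zf H hx
  have h0 := (H.hasD3 hx).clm_apply h
  have h1 : ∀ k : Fin d, HasFDerivAt (fun y => (act (D2 u y) (Zf u y)) k) _ x := fun k => by
    simp_rw [act_apply]
    exact had_app1 h0 (bv k)
  obtain ⟨hd, hdv⟩ := dv_of_comp h1
  refine ⟨hd, ?_⟩
  rw [hdv]
  simp only [ContinuousLinearMap.flip_apply, add_apply, ContinuousLinearMap.comp_apply]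
  rw [Finset.sum_add_distrib, add_comm]
  have e0 : ∑ k, D3 u x (bv k) (Zf u x) (bv k) = 0 := TrD3 H hx _
  rw [e0, zero_add]
  have e1 : ∀ k, D2 u x (L (bv k)) (bv k) = ∑ j, D2 u x (bv k) (bv j) *
      (D3 u x (bv k) (∇ u x) (bv j) + ∑ i, D2 u x (bv k) (bv i) * D2 u x (bv i) (bv j)) := by
    intro k
    rw [bil_sum (D2 u x) (L (bv k)) (bv k)]
    refine Finset.sum_congr rfl fun j _ => ?_
    rw [← inner_bv, hL, H.symm2 hx (bv j) (bv k)]; ring
  simp_rw [e1, mul_add, Finset.sum_add_distrib]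
  congr 1
  · refine Finset.sum_congr rfl fun k _ => Finset.sum_congr rfl fun j _ => ?_
    rw [H.symm3a hx (bv k) (∇ u x) (bv j)]
  · unfold tr3
    refine Finset.sum_congr rfl fun k _ => ?_
    simp_rw [Finset.mul_sum]
    rw [Finset.sum_comm]
    refine Finset.sum_congr rfl fun i _ => Finset.sum_congr rfl fun j _ => ?_
    rw [H.symm2 hx (bv j) (bv k)]; ring

/-- divergence of `M:T` -/
lemma dv_TM (H : HC u) (hx : x ∈ Om u) :
    DifferentiableAt ℝ (fun y => TM (D2 u y) (D3 u y)) x ∧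
    dv (fun y => TM (D2 u y) (D3 u y)) x = hs3' (D3 u x) := by
  have h1 : ∀ k : Fin d, HasFDerivAt (fun y => (TM (D2 u y) (D3 u y)) k)
      (∑ i, ∑ j, (D2 u x (bv i) (bv j) • ((((D4 u x).flip (bv k)).flip (bv i)).flip (bv j)) +
        D3 u x (bv k) (bv i) (bv j) • (((D3 u x).flip (bv i)).flip (bv j)))) x := fun k => by
    simp_rw [TM_apply]
    exact HasFDerivAt.fun_sum fun i _ => HasFDerivAt.fun_sum fun j _ =>
      (H.hasD2e hx (bv i) (bv j)).mul (H.hasD3e hx (bv k) (bv i) (bv j))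
  obtain ⟨hd, hdv⟩ := dv_of_comp h1
  refine ⟨hd, ?_⟩
  rw [hdv]
  simp only [sum_apply, add_apply, smul_apply, smul_eq_mul, ContinuousLinearMap.flip_apply,
    Finset.sum_add_distrib]
  have e0 : ∑ k, ∑ i, ∑ j, D2 u x (bv i) (bv j) * D4 u x (bv k) (bv k) (bv i) (bv j) = 0 := by
    calc ∑ k, ∑ i, ∑ j, D2 u x (bv i) (bv j) * D4 u x (bv k) (bv k) (bv i) (bv j)
        = ∑ i, ∑ j, ∑ k, D2 u x (bv i) (bv j) * D4 u x (bv k) (bv k) (bv i) (bv j) := by
          rw [Finset.sum_comm]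
          refine Finset.sum_congr rfl fun i _ => ?_
          rw [Finset.sum_comm]
      _ = 0 := by
          refine Finset.sum_eq_zero fun i _ => Finset.sum_eq_zero fun j _ => ?_
          rw [← Finset.mul_sum]
          simp_rw [H.symm4_perm hx]
          rw [H.tr4 hx, mul_zero]
  rw [e0, zero_add]
  unfold hs3'
  refine Finset.sum_congr rfl fun k _ => Finset.sum_congr rfl fun i _ =>
    Finset.sum_congr rfl fun j _ => ?_
  ring

/-- divergence of `W₁` -/
lemma dv_W1f (H : HC u) (hx : x ∈ Om u) :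
    DifferentiableAt ℝ (W1f u) x ∧
    dv (W1f u) x = ‖x‖ ^ 2 * hs3' (D3 u x) + ((d : ℝ) - 4) * hs2 (D2 u x) := by
  obtain ⟨h1, h2⟩ := dv_TM H hx
  have hm : DifferentiableAt ℝ (fun y => hs2 (D2 u y)) x :=
    ((smooth_m H.isOpen H.sm).contDiffAt (H.isOpen.mem_nhds hx)).differentiableAt (by simp)
  have hn2 : DifferentiableAt ℝ (fun y : E d => ‖y‖ ^ 2) x :=
    (hasFDerivAt_normsq' x).differentiableAt
  have d1 : DifferentiableAt ℝ (fun y => ‖y‖ ^ 2 • TM (D2 u y) (D3 u y)) x := hn2.smul h1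
  have d2 : DifferentiableAt ℝ (fun y => hs2 (D2 u y) • y) x := hm.smul differentiableAt_id
  refine ⟨d1.add d2, ?_⟩
  have e0 : dv (W1f u) x = dv (fun y => ‖y‖ ^ 2 • TM (D2 u y) (D3 u y)) x +
      dv (fun y => hs2 (D2 u y) • y) x := dv_add d1 d2
  have d3 : DifferentiableAt ℝ (fun y : E d => y) x := differentiableAt_id
  rw [e0, dv_smul hn2 h1, dv_smul hm d3, h2, dv_id, (hasFDerivAt_normsq' x).fderiv,
    fderiv_m (H.hasD3 hx).differentiableAt]
  simp only [smul_apply, innerSL_apply_apply, smul_eq_mul]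
  rw [inner_TM]
  have e1 : ∑ i, ∑ j, D2 u x (bv i) (bv j) * D3 u x x (bv i) (bv j) = - hs2 (D2 u x) := by
    unfold hs2
    rw [H.euler3 hx, ← Finset.sum_neg_distrib]
    refine Finset.sum_congr rfl fun i _ => ?_
    rw [← Finset.sum_neg_distrib]
    refine Finset.sum_congr rfl fun j _ => ?_
    simp only [neg_apply]; ring
  have e2 : ∑ i, ∑ j, 2 * D2 u x (bv i) (bv j) * D3 u x x (bv i) (bv j) = - 2 * hs2 (D2 u x) := by
    have : ∑ i, ∑ j, 2 * D2 u x (bv i) (bv j) * D3 u x x (bv i) (bv j) =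
        2 * ∑ i, ∑ j, D2 u x (bv i) (bv j) * D3 u x x (bv i) (bv j) := by
      simp_rw [Finset.mul_sum, mul_assoc]
    rw [this, e1]; ring
  rw [e1, e2]
  ring

/-- divergence of `g/|y|` -/
lemma dv_V0 (H : HC u) (hx : x ∈ Om u) :
    DifferentiableAt ℝ (fun y => ‖y‖⁻¹ • gN u y) x ∧
    dv (fun y => ‖y‖⁻¹ • gN u y) x = - (((d : ℝ) - 1) * u x / ‖x‖ ^ 3) := by
  have hx0 := H.ne_zero hx
  have hn : ‖x‖ ≠ 0 := norm_ne_zero_iff.2 hx0
  have hi : HasFDerivAt (fun y : E d => ‖y‖⁻¹) _ x :=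
    (hasDerivAt_inv hn).comp_hasFDerivAt x (hasFDerivAt_norm' hx0)
  have hi2 : HasFDerivAt (fun y : E d => (‖y‖ ^ 2)⁻¹) _ x :=
    (hasDerivAt_inv (pow_ne_zero 2 hn)).comp_hasFDerivAt x (hasFDerivAt_normsq' x)
  have hf : HasFDerivAt (fun y => u y / ‖y‖ ^ 2) _ x := (H.hasD1 hx).mul hi2
  have d3 : DifferentiableAt ℝ (fun y : E d => y) x := differentiableAt_id
  have d4 : DifferentiableAt ℝ (fun y => (u y / ‖y‖ ^ 2) • y) x := hf.differentiableAt.smul d3
  have d5 : DifferentiableAt ℝ (fun y => ∇ u y) x := (has_grad H hx).differentiableAt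
  have d6 : DifferentiableAt ℝ (gN u) x := d5.sub d4
  refine ⟨hi.differentiableAt.smul d6, ?_⟩
  have e0 : dv (gN u) x = dv (fun y => ∇ u y) x - dv (fun y => (u y / ‖y‖ ^ 2) • y) x := dv_sub d5 d4
  rw [dv_smul hi.differentiableAt d6, hi.fderiv, e0, dv_grad H hx, dv_smul hf.differentiableAt d3,
    dv_id, hf.fderiv]
  simp only [smul_apply, innerSL_apply_apply, smul_eq_mul, add_apply, neg_apply]
  have e1 : ⟪x, gN u x⟫_ℝ = 0 := by
    unfold gN
    rw [inner_sub_right, inner_smul_right, real_inner_self_eq_norm_sq, real_inner_comm,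
      inner_gradient, H.euler1 hx]
    field_simp
    ring
  rw [e1, H.euler1 hx, real_inner_self_eq_norm_sq]
  field_simp
  ring

/-- divergence of `|y| D²u D²u p` -/
lemma dv_V2 (H : HC u) (hx : x ∈ Om u) :
    DifferentiableAt ℝ (fun y => ‖y‖ • act (D2 u y) (Zf u y)) x ∧
    dv (fun y => ‖y‖ • act (D2 u y) (Zf u y)) x =
      ‖x‖ * ((∑ i, ∑ j, D2 u x (bv i) (bv j) * D3 u x (∇ u x) (bv i) (bv j)) +
        tr3 (D2 u x)) := by
  have hx0 := H.ne_zero hx
  have hn : ‖x‖ ≠ 0 := norm_ne_zero_iff.2 hx0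
  obtain ⟨h1, h2⟩ := dv_actZf H hx
  have hN := hasFDerivAt_norm' hx0
  refine ⟨hN.differentiableAt.smul h1, ?_⟩
  rw [dv_smul hN.differentiableAt h1, h2, hN.fderiv]
  simp only [smul_apply, innerSL_apply_apply, smul_eq_mul]
  rw [inner_act, H.euler2' hx]
  ring

/-- derivative of `D²u Y` -/
lemma has_act (H : HC u) (hx : x ∈ Om u) {Y : E d → E d} {L : E d →L[ℝ] E d}
    (hY : HasFDerivAt Y L x) :
    ∃ L' : E d →L[ℝ] E d, HasFDerivAt (fun y => act (D2 u y) (Y y)) L' x ∧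
      ∀ v w, ⟪w, L' v⟫_ℝ = D3 u x v (Y x) w + D2 u x (L v) w := by
  have h0 := (H.hasD3 hx).clm_apply hY
  have h : ∀ i : Fin d, HasFDerivAt (fun y => (D2 u y (Y y) (bv i)) • bv i) _ x := fun i =>
    (had_app1 h0 (bv i)).smul_const (bv i)
  have h1 : HasFDerivAt (fun y => act (D2 u y) (Y y)) _ x :=
    (HasFDerivAt.fun_sum (u := Finset.univ) fun i _ => h i).congr_of_eventuallyEq
      (Eventually.of_forall fun y => rfl)
  refine ⟨_, h1, fun v w => ?_⟩
  rw [sum_apply, inner_sum]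
  have e2 : D3 u x v (Y x) w + D2 u x (L v) w =
      ∑ j, w j * (D3 u x v (Y x) (bv j) + D2 u x (L v) (bv j)) := by
    have a1 : D3 u x v (Y x) w = ∑ j, w j * D3 u x v (Y x) (bv j) := by
      conv_lhs => rw [← sum_bv w, map_sum]
      simp [smul_eq_mul]
    have a2 : D2 u x (L v) w = ∑ j, w j * D2 u x (L v) (bv j) := by
      conv_lhs => rw [← sum_bv w, map_sum]
      simp [smul_eq_mul]
    rw [a1, a2, ← Finset.sum_add_distrib]
    exact Finset.sum_congr rfl fun j _ => by ring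
  rw [e2]
  refine Finset.sum_congr rfl fun j _ => ?_
  rw [ContinuousLinearMap.smulRight_apply, inner_smul_right, inner_bv']
  simp only [ContinuousLinearMap.flip_apply, add_apply, ContinuousLinearMap.comp_apply]
  ring

/-- divergence of `|y|² D²u D²u D²u p` reduces to that of `D²u D²u D²u p` -/
lemma dv_V3 (H : HC u) (hx : x ∈ Om u) :
    DifferentiableAt ℝ (fun y => ‖y‖ ^ 2 • act (D2 u y) (act (D2 u y) (Zf u y))) x ∧
    dv (fun y => ‖y‖ ^ 2 • act (D2 u y) (act (D2 u y) (Zf u y))) x =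
      ‖x‖ ^ 2 * dv (fun y => act (D2 u y) (act (D2 u y) (Zf u y))) x := by
  obtain ⟨L, h, -⟩ := has_Zf H hx
  obtain ⟨L2, h2, -⟩ := has_act H hx h
  obtain ⟨L3, h3, -⟩ := has_act H hx h2
  have hN := hasFDerivAt_normsq' x
  refine ⟨hN.differentiableAt.smul h3.differentiableAt, ?_⟩
  rw [dv_smul hN.differentiableAt h3.differentiableAt, hN.fderiv]
  simp only [smul_apply, innerSL_apply_apply, smul_eq_mul]
  rw [inner_act, H.euler2' hx]
  ring

end fields

end Crest.Agent.R097
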