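import Crest.Agent.R097.RJ4

/-!
# Row 97, jet calculus: `div X = |x|⁻² divE` and `|Dw|² = |x|⁻² ∑ (D_k Z)²/(4Z)`
-/

set_option autoImplicit false
set_option synthInstance.maxHeartbeats 400000
open MeasureTheory Metric Set Filter Topology InnerProductSpace
open scoped RealInnerProductSpace NNReal ENNReal Gradient Laplacian

namespace Crest.Agent.R097

variable {n : ℕ} {u : E (n + 1) → ℝ} {x : E (n + 1)}

lemma Frame.jW1_succ (H : HC u) (hx : x ∈ Om u) (F : Frame u x) (k : Fin n) :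
    ⟪F.e k.succ, W1f u x⟫_ℝ = ‖x‖⁻¹ * ∑ a, F.lam a * F.tau a a k := by
  have hx0 := H.ne_zero hx
  have hn : ‖x‖ ≠ 0 := norm_ne_zero_iff.2 hx0
  unfold W1f
  rw [inner_add_right, inner_smul_right, inner_smul_right, inner_TM, F.sum_MT_succ H hx,
    real_inner_comm, F.inner_succ hx0]
  field_simp
  ring

lemma Frame.jV0_succ (H : HC u) (hx : x ∈ Om u) (F : Frame u x) (k : Fin n) :
    ⟪F.e k.succ, ‖x‖⁻¹ • gN u x⟫_ℝ = ‖x‖⁻¹ * F.g k := by
  have hx0 := H.ne_zero hx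
  unfold gN
  rw [inner_smul_right, inner_sub_right, inner_smul_right, real_inner_comm, F.grad_succ,
    real_inner_comm, F.inner_succ hx0]
  ring

lemma Frame.jZf_succ (H : HC u) (hx : x ∈ Om u) (F : Frame u x) (k : Fin n) :
    ⟪F.e k.succ, Zf u x⟫_ℝ = ‖x‖⁻¹ * (F.lam k * F.g k) := by
  unfold Zf
  rw [inner_act, H.symm2 hx, F.D2_grad H hx]
  ring

lemma Frame.jV2_succ (H : HC u) (hx : x ∈ Om u) (F : Frame u x) (k : Fin n) :
    ⟪F.e k.succ, ‖x‖ • act (D2 u x) (Zf u x)⟫_ℝ = ‖x‖⁻¹ * (F.lam k ^ 2 * F.g k) := by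
  have hx0 := H.ne_zero hx
  have hn : ‖x‖ ≠ 0 := norm_ne_zero_iff.2 hx0
  rw [inner_smul_right, inner_act, H.symm2 hx, apply_onb F.e (D2 u x (F.e k.succ)) (Zf u x),
    Fin.sum_univ_succ, F.jD2_zero' H hx, mul_zero, zero_add, Finset.sum_eq_single k]
  · rw [F.jD2_succ hx0, if_pos rfl, F.jZf_succ H hx]
    field_simp
  · intro b _ hb
    rw [F.jD2_succ hx0, if_neg (Ne.symm hb), mul_zero]
  · intro h; exact absurd (Finset.mem_univ k) h

/-- application of a linear map to a vector in a frame -/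
lemma Frame.D2_act (H : HC u) (hx : x ∈ Om u) (F : Frame u x) (k : Fin n) (v : E (n + 1)) :
    D2 u x v (F.e k.succ) = F.lam k / ‖x‖ * ⟪F.e k.succ, v⟫_ℝ := by
  have hx0 := H.ne_zero hx
  rw [H.symm2 hx, apply_onb F.e (D2 u x (F.e k.succ)) v, Fin.sum_univ_succ, F.jD2_zero' H hx,
    mul_zero, zero_add, Finset.sum_eq_single k]
  · rw [F.jD2_succ hx0, if_pos rfl]; ring
  · intro b _ hb
    rw [F.jD2_succ hx0, if_neg (Ne.symm hb), mul_zero]
  · intro h; exact absurd (Finset.mem_univ k) h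

lemma Frame.jV3_succ (H : HC u) (hx : x ∈ Om u) (F : Frame u x) (k : Fin n) :
    ⟪F.e k.succ, ‖x‖ ^ 2 • act (D2 u x) (act (D2 u x) (Zf u x))⟫_ℝ =
      ‖x‖⁻¹ * (F.lam k ^ 3 * F.g k) := by
  have hx0 := H.ne_zero hx
  have hn : ‖x‖ ≠ 0 := norm_ne_zero_iff.2 hx0
  rw [inner_smul_right, inner_act, F.D2_act H hx, inner_act, F.D2_act H hx, F.jZf_succ H hx]
  field_simp

/-- `D³u(v, e_a, e_a)` in a frame -/
lemma Frame.D3_diag (H : HC u) (hx : x ∈ Om u) (F : Frame u x) (v : E (n + 1)) (a : Fin n) :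
    D3 u x (F.e a.succ) v (F.e a.succ) =
      - (⟪F.e 0, v⟫_ℝ * F.lam a) / ‖x‖ ^ 2 +
      (∑ k : Fin n, ⟪F.e k.succ, v⟫_ℝ * F.tau a a k) / ‖x‖ ^ 2 := by
  have hx0 := H.ne_zero hx
  have hn : ‖x‖ ≠ 0 := norm_ne_zero_iff.2 hx0
  rw [H.symm3b hx, apply_onb F.e (D3 u x (F.e a.succ) (F.e a.succ)) v, Fin.sum_univ_succ,
    F.D3_zero'' H hx, F.jD2_succ hx0, if_pos rfl, Finset.sum_div]
  congr 1
  · field_simp
  · refine Finset.sum_congr rfl fun k _ => ?_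
    rw [F.D3_succ hx0]; ring

/-- divergence of `|y|² D²u D²u D²u p` in a frame -/
lemma Frame.dv_V3 (H : HC u) (hx : x ∈ Om u) (F : Frame u x) :
    dv (fun y => ‖y‖ ^ 2 • act (D2 u y) (act (D2 u y) (Zf u y))) x = (‖x‖ ^ 2)⁻¹ *
      ((∑ k, F.g k * ∑ a, (F.lam a ^ 2 + F.lam a * F.lam k) * F.tau a a k) +
        (∑ a, F.lam a ^ 4) - sN u x * ∑ a, F.lam a ^ 3) := by
  have hx0 := H.ne_zero hx
  have hn : ‖x‖ ≠ 0 := norm_ne_zero_iff.2 hx0
  obtain ⟨L, h, hL⟩ := has_Zf H hx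
  obtain ⟨L2, h2, hL2⟩ := has_act H hx h
  obtain ⟨L3, h3, hL3⟩ := has_act H hx h2
  rw [(_root_.Crest.Agent.R097.dv_V3 H hx).2, dv_onb F.e, h3.fderiv]
  simp_rw [hL3, Finset.sum_add_distrib]
  have e0 : ∑ c, D3 u x (F.e c) (act (D2 u x) (Zf u x)) (F.e c) = 0 := by
    have h1 := tr_onb F.e ((D3 u x).flip (act (D2 u x) (Zf u x)))
    simp only [ContinuousLinearMap.flip_apply] at h1
    rw [h1]; exact TrD3 H hx _
  rw [e0, zero_add, Fin.sum_univ_succ, F.jD2_zero' H hx, zero_add]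
  have e1 : ∀ a : Fin n, D2 u x (L2 (F.e a.succ)) (F.e a.succ) =
      F.lam a / ‖x‖ * (D3 u x (F.e a.succ) (Zf u x) (F.e a.succ) +
        F.lam a / ‖x‖ * (D3 u x (F.e a.succ) (∇ u x) (F.e a.succ) + F.lam a ^ 2 / ‖x‖ ^ 2)) := by
    intro a
    have h4 : ∑ i, D2 u x (F.e a.succ) (bv i) * D2 u x (bv i) (F.e a.succ) =
        F.lam a ^ 2 / ‖x‖ ^ 2 := by
      have h5 : ∀ i : Fin (n + 1), D2 u x (bv i) (F.e a.succ) = D2 u x (F.e a.succ) (bv i) :=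
        fun i => H.symm2 hx _ _
      simp_rw [h5]
      rw [← jsum_mul_onb F.e (D2 u x (F.e a.succ)) (D2 u x (F.e a.succ)), Fin.sum_univ_succ,
        F.jD2_zero' H hx, mul_zero, zero_add, Finset.sum_eq_single a]
      · rw [F.jD2_succ hx0, if_pos rfl]; field_simp
      · intro b _ hb
        rw [F.jD2_succ hx0, if_neg (Ne.symm hb), mul_zero]
      · intro h; exact absurd (Finset.mem_univ a) h
    rw [F.D2_act H hx, hL2, F.D2_act H hx, hL, h4]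
  simp_rw [e1, F.D3_diag H hx, F.jZf_succ H hx]
  have e2 : ⟪F.e 0, Zf u x⟫_ℝ = 0 := by
    unfold Zf; rw [inner_act, F.jD2_zero' H hx]
  have e3 : ⟪F.e 0, ∇ u x⟫_ℝ = sN u x := by rw [real_inner_comm, F.grad_zero H hx]
  have e4 : ∀ k : Fin n, ⟪F.e k.succ, ∇ u x⟫_ℝ = F.g k := fun k => by
    rw [real_inner_comm, F.grad_succ]
  simp_rw [e2, e3, e4]
  have e5 : (∑ k, F.g k * ∑ a, (F.lam a ^ 2 + F.lam a * F.lam k) * F.tau a a k) =
      ∑ a, ∑ k, (F.g k * (F.lam a ^ 2 * F.tau a a k) +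
        F.lam a * (F.lam k * F.g k * F.tau a a k)) := by
    rw [Finset.sum_comm]
    refine Finset.sum_congr rfl fun k _ => ?_
    rw [Finset.mul_sum]
    exact Finset.sum_congr rfl fun a _ => by ring
  rw [e5, Finset.mul_sum, Finset.mul_sum, ← Finset.sum_add_distrib, ← Finset.sum_sub_distrib,
    Finset.mul_sum]
  refine Finset.sum_congr rfl fun a _ => ?_
  rw [Finset.sum_add_distrib]
  have e6 : ∑ k, ‖x‖⁻¹ * (F.lam k * F.g k) * F.tau a a k =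
      ‖x‖⁻¹ * ∑ k, F.lam k * F.g k * F.tau a a k := by
    rw [Finset.mul_sum]
    exact Finset.sum_congr rfl fun k _ => by ring
  have e7 : ∑ k, F.g k * (F.lam a ^ 2 * F.tau a a k) =
      F.lam a ^ 2 * ∑ k, F.g k * F.tau a a k := by
    rw [Finset.mul_sum]
    exact Finset.sum_congr rfl fun k _ => by ring
  rw [e6, e7, ← Finset.mul_sum]
  field_simp
  ring

/-- pairing of the derivative of a coefficient with a field -/
lemma Frame.pair {L : E (n + 1) →L[ℝ] ℝ} (F : Frame u x) (h0 : L (F.e 0) = 0)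
    {D : Fin n → ℝ} (h1 : ∀ k : Fin n, L (F.e k.succ) = ‖x‖⁻¹ * D k) {V : E (n + 1)}
    {c : Fin n → ℝ} (hV : ∀ k : Fin n, ⟪F.e k.succ, V⟫_ℝ = ‖x‖⁻¹ * c k) :
    L V = (‖x‖ ^ 2)⁻¹ * ∑ k, D k * c k := by
  rw [apply_onb F.e L V, Fin.sum_univ_succ, h0, mul_zero, zero_add, Finset.mul_sum]
  refine Finset.sum_congr rfl fun k _ => ?_
  rw [h1, hV]
  ring

lemma Frame.sum_MT_grad (H : HC u) (hx : x ∈ Om u) (F : Frame u x) :
    ∑ i, ∑ j, D2 u x (bv i) (bv j) * D3 u x (∇ u x) (bv i) (bv j) =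
      (∑ k, F.g k * ∑ a, F.lam a * F.tau a a k) / ‖x‖ ^ 3 - sN u x * hs2 (D2 u x) / ‖x‖ := by
  have hx0 := H.ne_zero hx
  have hn : ‖x‖ ≠ 0 := norm_ne_zero_iff.2 hx0
  rw [← inner_TM, real_inner_comm]
  have h1 : ⟪TM (D2 u x) (D3 u x), ∇ u x⟫_ℝ =
      ∑ c, ⟪F.e c, ∇ u x⟫_ℝ * ⟪TM (D2 u x) (D3 u x), F.e c⟫_ℝ := by
    have := apply_onb F.e (innerSL ℝ (TM (D2 u x) (D3 u x))) (∇ u x)
    simpa using this
  rw [h1, Fin.sum_univ_succ, real_inner_comm (∇ u x) (F.e 0), F.grad_zero H hx,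
    real_inner_comm (F.e 0), inner_TM]
  have e0 : ∑ i, ∑ j, D2 u x (bv i) (bv j) * D3 u x (F.e 0) (bv i) (bv j) =
      - (hs2 (D2 u x) / ‖x‖) := by
    unfold hs2
    rw [Finset.sum_div, ← Finset.sum_neg_distrib]
    refine Finset.sum_congr rfl fun i _ => ?_
    rw [Finset.sum_div, ← Finset.sum_neg_distrib]
    refine Finset.sum_congr rfl fun j _ => ?_
    rw [F.D3_zero H hx]; ring
  rw [e0, Finset.sum_div]
  have e1 : ∀ k : Fin n, ⟪F.e k.succ, ∇ u x⟫_ℝ * ⟪TM (D2 u x) (D3 u x), F.e k.succ⟫_ℝ =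
      F.g k * (∑ a, F.lam a * F.tau a a k) / ‖x‖ ^ 3 := by
    intro k
    rw [real_inner_comm, F.grad_succ, real_inner_comm (F.e k.succ), inner_TM,
      F.sum_MT_succ H hx]
    ring
  simp_rw [e1]
  ring

/-- **the divergence of the field of a certificate** -/
theorem Frame.dv_XC (H : HC u) (hx : x ∈ Wn u) (F : Frame u x) {C : CertData} (hga : C.ga.Ok)
    (h0 : C.y0.Ok) (h1 : C.y1.Ok) (h2 : C.y2.Ok) (h3 : C.y3.Ok) :
    dv (XC C u) x = (‖x‖ ^ 2)⁻¹ * C.divE F.lam F.g (sN u x) F.tau := by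
  have hxO : x ∈ Om u := hx.1
  have hx0 := H.ne_zero hxO
  have hn : ‖x‖ ≠ 0 := norm_ne_zero_iff.2 hx0
  obtain ⟨Lg, ag, bg, cg⟩ := F.has_coef H hx hga
  obtain ⟨L0, a0, b0, c0⟩ := F.has_coef H hx h0
  obtain ⟨L1, a1, b1, c1⟩ := F.has_coef H hx h1
  obtain ⟨L2, a2, b2, c2⟩ := F.has_coef H hx h2
  obtain ⟨L3, a3, b3, c3⟩ := F.has_coef H hx h3
  obtain ⟨v1, w1⟩ := dv_W1f H hxO
  obtain ⟨v0, w0⟩ := dv_V0 H hxO
  obtain ⟨v2, w2⟩ := dv_V2 H hxO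
  have v3 := (_root_.Crest.Agent.R097.dv_V3 H hxO).1
  have w3 := F.dv_V3 H hxO
  have vZ : DifferentiableAt ℝ (Zf u) x := by
    obtain ⟨L, h, -⟩ := has_Zf H hxO
    exact h.differentiableAt
  have hfun : XC C u = fun y => (((C.ga.f (zN u y) • W1f u y +
      C.y0.f (zN u y) • (‖y‖⁻¹ • gN u y)) + C.y1.f (zN u y) • Zf u y) +
      C.y2.f (zN u y) • (‖y‖ • act (D2 u y) (Zf u y))) +
      C.y3.f (zN u y) • (‖y‖ ^ 2 • act (D2 u y) (act (D2 u y) (Zf u y))) := by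
    funext y
    unfold XC
    rw [smul_smul, smul_smul, smul_smul]
  have dg : DifferentiableAt ℝ (fun y => C.ga.f (zN u y) • W1f u y) x :=
    ag.differentiableAt.smul v1
  have d0 : DifferentiableAt ℝ (fun y => C.y0.f (zN u y) • (‖y‖⁻¹ • gN u y)) x :=
    a0.differentiableAt.smul v0
  have d1 : DifferentiableAt ℝ (fun y => C.y1.f (zN u y) • Zf u y) x :=
    a1.differentiableAt.smul vZ
  have d2 : DifferentiableAt ℝ (fun y => C.y2.f (zN u y) • (‖y‖ • act (D2 u y) (Zf u y))) x :=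
    a2.differentiableAt.smul v2
  have d3 : DifferentiableAt ℝ (fun y => C.y3.f (zN u y) •
      (‖y‖ ^ 2 • act (D2 u y) (act (D2 u y) (Zf u y)))) x :=
    a3.differentiableAt.smul v3
  have d0' : DifferentiableAt ℝ (fun y => C.ga.f (zN u y) • W1f u y +
      C.y0.f (zN u y) • (‖y‖⁻¹ • gN u y)) x := dg.add d0
  have d1' : DifferentiableAt ℝ (fun y => (C.ga.f (zN u y) • W1f u y +
      C.y0.f (zN u y) • (‖y‖⁻¹ • gN u y)) + C.y1.f (zN u y) • Zf u y) x := d0'.add d1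
  have d2' : DifferentiableAt ℝ (fun y => ((C.ga.f (zN u y) • W1f u y +
      C.y0.f (zN u y) • (‖y‖⁻¹ • gN u y)) + C.y1.f (zN u y) • Zf u y) +
      C.y2.f (zN u y) • (‖y‖ • act (D2 u y) (Zf u y))) x := d1'.add d2
  rw [hfun, dv_add d2' d3, dv_add d1' d2, dv_add d0' d1, dv_add dg d0,
    dv_smul ag.differentiableAt v1,
    dv_smul a0.differentiableAt v0, dv_smul a1.differentiableAt vZ,
    dv_smul a2.differentiableAt v2, dv_smul a3.differentiableAt v3,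
    ag.fderiv, a0.fderiv, a1.fderiv, a2.fderiv, a3.fderiv, w1, w0, w2, w3,
    dv_Zf H hxO, F.pair bg cg (F.jW1_succ H hxO), F.pair b0 c0 (F.jV0_succ H hxO),
    F.pair b1 c1 (F.jZf_succ H hxO), F.pair b2 c2 (F.jV2_succ H hxO),
    F.pair b3 c3 (F.jV3_succ H hxO), F.sum_MT_grad H hxO,
    F.hs3_eq H hxO, F.hs2_eq H hxO, F.tr3_eq H hxO, F.jzN_eq H hxO]
  unfold CertData.divE
  have hs : u x = sN u x * ‖x‖ := by unfold sN; field_simp
  rw [hs]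
  push_cast
  field_simp
  ring

/-- the gradient of the test function -/
theorem Frame.grad_wC (H : HC u) (hx : x ∈ Wn u) (F : Frame u x) {C : CertData} (hZ : C.Z.Ok)
    (hpos : 0 < C.Z.f (zv F.lam F.g (sN u x))) :
    DifferentiableAt ℝ (wC C u) x ∧ fderiv ℝ (wC C u) x x = 0 ∧
    ‖fderiv ℝ (wC C u) x‖ ^ 2 = (‖x‖ ^ 2)⁻¹ *
      ((∑ k, C.Z.D F.lam F.g (sN u x) F.tau k ^ 2) / (4 * C.Z.f (zv F.lam F.g (sN u x)))) := by
  have hxO : x ∈ Om u := hx.1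
  have hx0 := H.ne_zero hxO
  have hn : ‖x‖ ≠ 0 := norm_ne_zero_iff.2 hx0
  obtain ⟨L, a, b, c⟩ := F.has_coef H hx hZ
  have hpos' : 0 < C.Z.f (zN u x) := by rw [F.jzN_eq H hxO]; exact hpos
  have hs : HasFDerivAt (wC C u) ((1 / (2 * Real.sqrt (C.Z.f (zN u x)))) • L) x :=
    a.sqrt hpos'.ne'
  refine ⟨hs.differentiableAt, ?_, ?_⟩
  · rw [hs.fderiv, smul_apply]
    have h1 : L x = 0 := by
      have h2 : x = ‖x‖ • F.e 0 := by rw [F.e0, smul_smul, mul_inv_cancel₀ hn, one_smul]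
      have h3 : L (‖x‖ • F.e 0) = 0 := by rw [map_smul, b, smul_zero]
      exact (congrArg L h2).trans h3
    rw [h1, smul_zero]
  · rw [norm_sq_onb F.e, Fin.sum_univ_succ, hs.fderiv]
    simp only [smul_apply, smul_eq_mul]
    rw [b]
    simp_rw [c]
    have hsq : Real.sqrt (C.Z.f (zN u x)) ^ 2 = C.Z.f (zN u x) := Real.sq_sqrt hpos'.le
    have hz := F.jzN_eq H hxO
    have e1 : ∀ k : Fin n, (1 / (2 * Real.sqrt (C.Z.f (zN u x))) *
        (‖x‖⁻¹ * C.Z.D F.lam F.g (sN u x) F.tau k)) ^ 2 =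
        (‖x‖ ^ 2)⁻¹ * (C.Z.D F.lam F.g (sN u x) F.tau k ^ 2 /
          (4 * C.Z.f (zv F.lam F.g (sN u x)))) := by
      intro k
      rw [mul_pow, mul_pow, div_pow, mul_pow, hsq, hz]
      field_simp
      ring
    simp_rw [e1]
    rw [← Finset.mul_sum, Finset.sum_div]
    ring

end Crest.Agent.R097
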