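import Crest.Agent.R097.RJ5

/-! (merged into RJ4/RJ5: `has_act`, `Frame.dv_V3`, `Frame.jV3_succ`) -/
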