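import Crest.Agent.R097.Iface

/-!
# Row 97, reduction "certificate ⟹ flat": definitions and radial cut-offs
-/

set_option autoImplicit false
open MeasureTheory Metric Set Filter Topology InnerProductSpace
open scoped RealInnerProductSpace NNReal ENNReal Gradient Laplacian

namespace Crest.Agent.R097

variable {d : ℕ}

/-- Hilbert–Schmidt norm squared of a bilinear form -/
noncomputable def hs2 (A : Bil d) : ℝ := ∑ i, ∑ j, (A (bv i) (bv j)) ^ 2

/-- the vector `A v` -/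
noncomputable def act (A : Bil d) (v : E d) : E d := ∑ i, (A v (bv i)) • bv i

/-- closed annulus -/
def Ann (d : ℕ) (a b : ℝ) : Set (E d) := {x | a ≤ ‖x‖ ∧ ‖x‖ ≤ b}

/-- the set where `u > 0` and `D²u ≠ 0` -/
def Wn (u : E d → ℝ) : Set (E d) := {x | 0 < u x ∧ 0 < hs2 (D2 u x)}

/-- the field `D²u Du` -/
noncomputable def Zf (u : E d → ℝ) (x : E d) : E d := act (D2 u x) (∇ u x)

/-- the flux inequality on `S` -/
def FluxS (u : E d → ℝ) (S : Set (E d)) : Prop :=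
  ∀ F : E d → E d, ContDiffOn ℝ 1 F (Om u) → (∀ x ∉ S, F x = 0) →
    (∃ C : ℝ, ∀ x ∈ Om u, ‖F x‖ ≤ C ∧ |dv F x| ≤ C) →
    (∀ y ∈ frontier (Om u), y ∈ S → ∀ ε > 0, ∀ᶠ x in 𝓝[Om u] y, -ε ≤ fderiv ℝ u x (F x)) →
    ∫ x in Om u, dv F x ≤ 0

/-- the stability inequality on `S` -/
def StabS (u : E d → ℝ) (S : Set (E d)) : Prop :=
  ∀ φ : E d → ℝ, ContDiffOn ℝ 1 φ (Om u) → (∀ x, 0 ≤ φ x) → (∀ x ∉ S, φ x = 0) →
    (∃ C : ℝ, ∀ x ∈ Om u, φ x ≤ C ∧ ‖fderiv ℝ φ x‖ ≤ C) →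
    ∫ x in Om u, (φ x ^ 2 * hs2 (D2 u x) + 2 * φ x * fderiv ℝ φ x (Zf u x)) ≤
      ∫ x in Om u, ‖fderiv ℝ φ x‖ ^ 2

lemma isCompact_Ann (a b : ℝ) : IsCompact (Ann d a b) := by
  refine (isCompact_closedBall (0 : E d) b).of_isClosed_subset ?_ ?_
  · exact (isClosed_le continuous_const continuous_norm).inter
      (isClosed_le continuous_norm continuous_const)
  · intro x hx
    simpa using hx.2

lemma measurableSet_Ann (a b : ℝ) : MeasurableSet (Ann d a b) := (isCompact_Ann a b).measurableSet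

/-- radial functions `f (log ‖x‖)` -/
lemma hasFDerivAt_radial {f : ℝ → ℝ} {f' : ℝ} {x : E d} (hx : x ≠ 0)
    (hf : HasDerivAt f f' (Real.log ‖x‖)) :
    HasFDerivAt (fun y : E d => f (Real.log ‖y‖)) ((f' / ‖x‖ ^ 2) • innerSL ℝ x) x := by
  have hn : ‖x‖ ≠ 0 := norm_ne_zero_iff.2 hx
  have h1 : HasFDerivAt (fun y : E d => ‖y‖ ^ 2) (2 • (innerSL ℝ x)) x := by
    have := (hasStrictFDerivAt_norm_sq (F := E d) x).hasFDerivAt
    simpa using this
  have h2 : HasFDerivAt (fun y : E d => Real.log (‖y‖ ^ 2)) ((‖x‖ ^ 2)⁻¹ • (2 • (innerSL ℝ x))) x :=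
    h1.log (by positivity)
  have h3 : HasFDerivAt (fun y : E d => Real.log ‖y‖) ((‖x‖ ^ 2)⁻¹ • (innerSL ℝ x)) x := by
    have h4 := h2.const_mul (1 / 2 : ℝ)
    have e1 : (fun y : E d => (1 / 2 : ℝ) * Real.log (‖y‖ ^ 2)) = fun y => Real.log ‖y‖ := by
      ext y
      rw [Real.log_pow]; push_cast; ring
    rw [e1] at h4
    refine h4.congr_fderiv ?_
    ext v
    simp only [smul_apply, innerSL_apply_apply, smul_eq_mul, nsmul_eq_mul]
    push_cast; ring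
  have h5 : HasFDerivAt (fun y : E d => f (Real.log ‖y‖)) _ x := hf.comp_hasFDerivAt x h3
  refine h5.congr_fderiv ?_
  ext v
  simp only [smul_apply, innerSL_apply_apply, smul_eq_mul]
  ring

end Crest.Agent.R097
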