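import Crest.Agent.R097.Red0

/-!
# Row 97, reduction: smoothness of jets, divergence calculus, `χ`-cut-off
-/

set_option autoImplicit false
open MeasureTheory Metric Set Filter Topology InnerProductSpace
open scoped RealInnerProductSpace NNReal ENNReal Gradient Laplacian

namespace Crest.Agent.R097

variable {d : ℕ}

/-! ### divergence calculus -/

lemma dv_congr {Y Y' : E d → E d} {x : E d} (h : Y =ᶠ[𝓝 x] Y') : dv Y x = dv Y' x := by
  unfold dv; rw [h.fderiv_eq]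

lemma dv_sub {Y Y' : E d → E d} {x : E d} (h : DifferentiableAt ℝ Y x)
    (h' : DifferentiableAt ℝ Y' x) : dv (fun y => Y y - Y' y) x = dv Y x - dv Y' x := by
  unfold dv
  rw [fderiv_fun_sub h h', ← Finset.sum_sub_distrib]
  rfl

lemma dv_add {Y Y' : E d → E d} {x : E d} (h : DifferentiableAt ℝ Y x)
    (h' : DifferentiableAt ℝ Y' x) : dv (fun y => Y y + Y' y) x = dv Y x + dv Y' x := by
  unfold dv
  rw [fderiv_fun_add h h', ← Finset.sum_add_distrib]
  rfl

lemma dv_smul {f : E d → ℝ} {Y : E d → E d} {x : E d} (hf : DifferentiableAt ℝ f x)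
    (h : DifferentiableAt ℝ Y x) :
    dv (fun y => f y • Y y) x = fderiv ℝ f x (Y x) + f x * dv Y x := by
  unfold dv
  rw [fderiv_fun_smul hf h, Finset.mul_sum]
  have e1 : fderiv ℝ f x (Y x) = ∑ i, Y x i * fderiv ℝ f x (bv i) := by
    conv_lhs => rw [← sum_bv (Y x), map_sum]
    simp [smul_eq_mul]
  rw [e1, ← Finset.sum_add_distrib]
  refine Finset.sum_congr rfl fun i _ => ?_
  simp
  ring

lemma dv_zero_of_eventually {Y : E d → E d} {x : E d} (h : Y =ᶠ[𝓝 x] fun _ => 0) : dv Y x = 0 := by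
  rw [dv_congr h]; simp [dv]

lemma continuousOn_dv {Y : E d → E d} {s : Set (E d)} (hs : IsOpen s) (hY : ContDiffOn ℝ 1 Y s) :
    ContinuousOn (dv Y) s := by
  unfold dv
  have h := hY.continuousOn_fderiv_of_isOpen hs le_rfl
  refine continuousOn_finsetSum _ fun i _ => ?_
  have h2 : ContinuousOn (fun x => fderiv ℝ Y x (bv i)) s := h.clm_apply continuousOn_const
  exact (EuclideanSpace.proj i : E d →L[ℝ] ℝ).continuous.comp_continuousOn h2

/-! ### smoothness of the jets -/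

lemma smooth_fderiv {F : Type*} [NormedAddCommGroup F] [NormedSpace ℝ F] {f : E d → F}
    {s : Set (E d)} (hs : IsOpen s)
    (hf : ContDiffOn ℝ (⊤ : ℕ∞) f s) : ContDiffOn ℝ (⊤ : ℕ∞) (fderiv ℝ f) s :=
  hf.fderiv_of_isOpen hs (by simp)

lemma smooth_D2 {u : E d → ℝ} {s : Set (E d)} (hs : IsOpen s)
    (hu : ContDiffOn ℝ (⊤ : ℕ∞) u s) : ContDiffOn ℝ (⊤ : ℕ∞) (D2 u) s :=
  smooth_fderiv hs (smooth_fderiv hs hu)

lemma smooth_D3 {u : E d → ℝ} {s : Set (E d)} (hs : IsOpen s)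
    (hu : ContDiffOn ℝ (⊤ : ℕ∞) u s) : ContDiffOn ℝ (⊤ : ℕ∞) (D3 u) s :=
  smooth_fderiv hs (smooth_D2 hs hu)

lemma contDiff_hs2 : ContDiff ℝ (⊤ : ℕ∞) (hs2 : Bil d → ℝ) := by
  unfold hs2
  refine ContDiff.sum fun i _ => ContDiff.sum fun j _ => ContDiff.pow ?_ 2
  exact (contDiff_id.clm_apply contDiff_const).clm_apply contDiff_const

lemma smooth_m {u : E d → ℝ} {s : Set (E d)} (hs : IsOpen s)
    (hu : ContDiffOn ℝ (⊤ : ℕ∞) u s) : ContDiffOn ℝ (⊤ : ℕ∞) (fun x => hs2 (D2 u x)) s :=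
  contDiff_hs2.comp_contDiffOn (smooth_D2 hs hu)

lemma hs2_nonneg (A : Bil d) : 0 ≤ hs2 A :=
  Finset.sum_nonneg fun i _ => Finset.sum_nonneg fun j _ => sq_nonneg _

lemma fderiv_m {u : E d → ℝ} {x : E d} (h : DifferentiableAt ℝ (D2 u) x) (v : E d) :
    fderiv ℝ (fun x => hs2 (D2 u x)) x v =
      ∑ i, ∑ j, 2 * D2 u x (bv i) (bv j) * D3 u x v (bv i) (bv j) := by
  have h1 : HasFDerivAt (D2 u) (D3 u x) x := h.hasFDerivAt
  have h2 : ∀ i j : Fin d, HasFDerivAt (fun y => D2 u y (bv i) (bv j))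
      (((D3 u x).flip (bv i)).flip (bv j)) x := by
    intro i j
    have a1 := (h1.clm_apply (hasFDerivAt_const (bv i) x)).clm_apply (hasFDerivAt_const (bv j) x)
    refine a1.congr_fderiv ?_
    ext w
    simp
  have h3 : HasFDerivAt (fun y => hs2 (D2 u y))
      (∑ i, ∑ j, (2 * D2 u x (bv i) (bv j)) • (((D3 u x).flip (bv i)).flip (bv j))) x := by
    unfold hs2
    refine HasFDerivAt.fun_sum fun i _ => HasFDerivAt.fun_sum fun j _ => ?_
    have := (h2 i j).pow 2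
    refine this.congr_fderiv ?_
    ext w
    simp
  rw [h3.fderiv]
  simp

lemma tri_le (T : Tri d) (v : E d) (i j : Fin d) : |T v (bv i) (bv j)| ≤ ‖T‖ * ‖v‖ := by
  have h1 := (T v (bv i)).le_opNorm (bv j)
  have h2 := (T v).le_opNorm (bv i)
  have h3 := T.le_opNorm v
  rw [norm_bv, mul_one] at h1 h2
  calc |T v (bv i) (bv j)| = ‖T v (bv i) (bv j)‖ := rfl
    _ ≤ _ := h1.trans (h2.trans h3)

lemma norm_fderiv_m_le {u : E d → ℝ} {x : E d} (h : DifferentiableAt ℝ (D2 u) x) :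
    ‖fderiv ℝ (fun x => hs2 (D2 u x)) x‖ ≤ 2 * d * Real.sqrt (hs2 (D2 u x)) * ‖D3 u x‖ := by
  refine ContinuousLinearMap.opNorm_le_bound _ (by positivity) fun v => ?_
  rw [fderiv_m h, Real.norm_eq_abs]
  have hm := hs2_nonneg (D2 u x)
  have h1 : (∑ i : Fin d, ∑ j : Fin d, |D2 u x (bv i) (bv j)|) ≤ d * Real.sqrt (hs2 (D2 u x)) := by
    have h2 : (∑ i : Fin d, ∑ j : Fin d, |D2 u x (bv i) (bv j)|) ^ 2 ≤
        (d : ℝ) ^ 2 * hs2 (D2 u x) := by
      have h3 := sq_sum_le_card_mul_sum_sq (s := (Finset.univ : Finset (Fin d × Fin d)))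
        (f := fun q => |D2 u x (bv q.1) (bv q.2)|)
      rw [Fintype.sum_prod_type, Fintype.sum_prod_type] at h3
      simp only [sq_abs, Finset.card_univ, Fintype.card_prod, Fintype.card_fin] at h3
      refine h3.trans (le_of_eq ?_)
      unfold hs2
      push_cast; ring
    have h4 : 0 ≤ ∑ i : Fin d, ∑ j : Fin d, |D2 u x (bv i) (bv j)| :=
      Finset.sum_nonneg fun i _ => Finset.sum_nonneg fun j _ => abs_nonneg _
    have h5 : 0 ≤ d * Real.sqrt (hs2 (D2 u x)) := by positivity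
    refine abs_le_of_sq_le_sq' ?_ h5 |>.2
    rw [mul_pow, Real.sq_sqrt hm]; exact h2
  calc |∑ i, ∑ j, 2 * D2 u x (bv i) (bv j) * D3 u x v (bv i) (bv j)|
      ≤ ∑ i, ∑ j, |2 * D2 u x (bv i) (bv j) * D3 u x v (bv i) (bv j)| :=
        (Finset.abs_sum_le_sum_abs _ _).trans
          (Finset.sum_le_sum fun i _ => Finset.abs_sum_le_sum_abs _ _)
    _ ≤ ∑ i : Fin d, ∑ j : Fin d, |D2 u x (bv i) (bv j)| * (2 * (‖D3 u x‖ * ‖v‖)) := by
        refine Finset.sum_le_sum fun i _ => Finset.sum_le_sum fun j _ => ?_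
        rw [abs_mul, abs_mul, abs_two]
        have := tri_le (D3 u x) v i j
        nlinarith [abs_nonneg (D2 u x (bv i) (bv j))]
    _ = (∑ i : Fin d, ∑ j : Fin d, |D2 u x (bv i) (bv j)|) * (2 * (‖D3 u x‖ * ‖v‖)) := by
        simp_rw [Finset.sum_mul]
    _ ≤ (d * Real.sqrt (hs2 (D2 u x))) * (2 * (‖D3 u x‖ * ‖v‖)) :=
        mul_le_mul_of_nonneg_right h1 (by positivity)
    _ = _ := by ring

/-! ### the cut-off `χ` -/

/-- bound for the derivative of `Real.smoothTransition` -/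
lemma exists_smoothTransition_bound : ∃ C : ℝ, 0 < C ∧ ∀ s, |deriv Real.smoothTransition s| ≤ C := by
  have hc : Continuous (deriv Real.smoothTransition) :=
    (Real.smoothTransition.contDiff (n := 1)).continuous_deriv le_rfl
  obtain ⟨C, hC⟩ := (isCompact_Icc (a := (0 : ℝ)) (b := 1)).exists_bound_of_continuousOn hc.continuousOn
  refine ⟨max C 1, by positivity, fun s => ?_⟩
  by_cases hs : s ∈ Icc (0 : ℝ) 1
  · exact (hC s hs).trans (le_max_left _ _)
  · have h0 : deriv Real.smoothTransition s = 0 := by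
      rcases lt_or_ge s 0 with h | h
      · have : Real.smoothTransition =ᶠ[𝓝 s] fun _ => 0 := by
          filter_upwards [Iio_mem_nhds h] with y hy
          exact Real.smoothTransition.zero_of_nonpos (le_of_lt hy)
        rw [this.deriv_eq]; simp
      · have h1 : 1 < s := by
          by_contra h2
          exact hs ⟨h, not_lt.1 h2⟩
        have : Real.smoothTransition =ᶠ[𝓝 s] fun _ => 1 := by
          filter_upwards [Ioi_mem_nhds h1] with y hy
          exact Real.smoothTransition.one_of_one_le (le_of_lt hy)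
        rw [this.deriv_eq]; simp
    rw [h0]; simp

lemma deriv_smoothTransition_eq_zero {s : ℝ} (hs : s < 0 ∨ 1 < s) :
    deriv Real.smoothTransition s = 0 := by
  rcases hs with h | h
  · have : Real.smoothTransition =ᶠ[𝓝 s] fun _ => 0 := by
      filter_upwards [Iio_mem_nhds h] with y hy
      exact Real.smoothTransition.zero_of_nonpos (le_of_lt hy)
    rw [this.deriv_eq]; simp
  · have : Real.smoothTransition =ᶠ[𝓝 s] fun _ => 1 := by
      filter_upwards [Ioi_mem_nhds h] with y hy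
      exact Real.smoothTransition.one_of_one_le (le_of_lt hy)
    rw [this.deriv_eq]; simp

/-- the cut-off near `D²u = 0` -/
noncomputable def chi (u : E d → ℝ) (ε : ℝ) (x : E d) : ℝ :=
  Real.smoothTransition (hs2 (D2 u x) / ε - 1)

lemma chi_nonneg (u : E d → ℝ) (ε : ℝ) (x : E d) : 0 ≤ chi u ε x := Real.smoothTransition.nonneg _
lemma chi_le_one (u : E d → ℝ) (ε : ℝ) (x : E d) : chi u ε x ≤ 1 := Real.smoothTransition.le_one _

lemma chi_zero {u : E d → ℝ} {ε : ℝ} (hε : 0 < ε) {x : E d} (h : hs2 (D2 u x) ≤ ε) :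
    chi u ε x = 0 := by
  refine Real.smoothTransition.zero_of_nonpos ?_
  have := (div_le_one hε).2 h
  linarith

lemma chi_one {u : E d → ℝ} {ε : ℝ} (hε : 0 < ε) {x : E d} (h : 2 * ε ≤ hs2 (D2 u x)) :
    chi u ε x = 1 := by
  refine Real.smoothTransition.one_of_one_le ?_
  have := (le_div_iff₀ hε).2 h
  linarith

lemma contDiffOn_chi {u : E d → ℝ} {s : Set (E d)} (hs : IsOpen s)
    (hu : ContDiffOn ℝ (⊤ : ℕ∞) u s) (ε : ℝ) : ContDiffOn ℝ (⊤ : ℕ∞) (chi u ε) s := by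
  have h1 : ContDiffOn ℝ (⊤ : ℕ∞) (fun x => hs2 (D2 u x) / ε - 1) s :=
    ((smooth_m hs hu).div_const ε).sub contDiffOn_const
  exact (Real.smoothTransition.contDiff (n := (⊤ : ℕ∞))).comp_contDiffOn h1

/-- constant in the derivative bound of `chi` -/
lemma exists_chi_bound (d : ℕ) : ∃ C : ℝ, 0 < C ∧ ∀ (u : E d → ℝ) (ε : ℝ), 0 < ε → ∀ x : E d,
    DifferentiableAt ℝ (D2 u) x → 0 < hs2 (D2 u x) →
    ‖fderiv ℝ (chi u ε) x‖ * Real.sqrt (hs2 (D2 u x)) ≤ C * ‖D3 u x‖ ∧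
    (2 * ε < hs2 (D2 u x) → fderiv ℝ (chi u ε) x = 0) := by
  obtain ⟨C0, hC0, hC⟩ := exists_smoothTransition_bound
  refine ⟨4 * (d + 1) * C0, by positivity, fun u ε hε x hx hm => ?_⟩
  have hm' : DifferentiableAt ℝ (fun y => hs2 (D2 u y)) x :=
    (contDiff_hs2.differentiable (by simp)).differentiableAt.comp x hx
  have h1 : HasFDerivAt (fun y => hs2 (D2 u y) / ε - 1)
      ((ε⁻¹) • fderiv ℝ (fun y => hs2 (D2 u y)) x) x := by
    have := (hm'.hasFDerivAt.const_mul ε⁻¹).sub_const 1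
    refine this.congr_of_eventuallyEq (Eventually.of_forall fun y => ?_)
    simp only []; rw [div_eq_inv_mul]
  have h2 : HasDerivAt Real.smoothTransition
      (deriv Real.smoothTransition (hs2 (D2 u x) / ε - 1)) (hs2 (D2 u x) / ε - 1) :=
    ((Real.smoothTransition.contDiff (n := 1)).differentiable (by simp) _).hasDerivAt
  have h3 : HasFDerivAt (chi u ε) (deriv Real.smoothTransition (hs2 (D2 u x) / ε - 1) •
      (ε⁻¹) • fderiv ℝ (fun y => hs2 (D2 u y)) x) x := h2.comp_hasFDerivAt x h1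
  have hz : 2 * ε < hs2 (D2 u x) → fderiv ℝ (chi u ε) x = 0 := by
    intro h
    rw [h3.fderiv, deriv_smoothTransition_eq_zero, zero_smul]
    right
    have := (lt_div_iff₀ hε).2 h
    linarith
  refine ⟨?_, hz⟩
  by_cases hcase : 2 * ε < hs2 (D2 u x)
  · rw [hz hcase]; simp; positivity
  · have hle : hs2 (D2 u x) ≤ 2 * ε := not_lt.1 hcase
    rw [h3.fderiv, norm_smul, norm_smul, Real.norm_eq_abs, Real.norm_of_nonneg (by positivity)]
    have h4 := norm_fderiv_m_le hx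
    have h5 := hC (hs2 (D2 u x) / ε - 1)
    have hs : Real.sqrt (hs2 (D2 u x)) * Real.sqrt (hs2 (D2 u x)) = hs2 (D2 u x) :=
      Real.mul_self_sqrt hm.le
    calc |deriv Real.smoothTransition (hs2 (D2 u x) / ε - 1)| *
          (ε⁻¹ * ‖fderiv ℝ (fun y => hs2 (D2 u y)) x‖) * Real.sqrt (hs2 (D2 u x))
        ≤ C0 * (ε⁻¹ * (2 * d * Real.sqrt (hs2 (D2 u x)) * ‖D3 u x‖)) *
            Real.sqrt (hs2 (D2 u x)) := by gcongr
      _ = C0 * ε⁻¹ * (2 * d) * ‖D3 u x‖ * (Real.sqrt (hs2 (D2 u x)) * Real.sqrt (hs2 (D2 u x))) := by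
          ring
      _ ≤ C0 * ε⁻¹ * (2 * d) * ‖D3 u x‖ * (2 * ε) := by
          rw [hs]; gcongr
      _ = 4 * d * C0 * ‖D3 u x‖ := by field_simp; ring
      _ ≤ _ := by
          have : (0:ℝ) ≤ C0 * ‖D3 u x‖ := by positivity
          nlinarith

end Crest.Agent.R097
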