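import Crest.Agent.R097.Red1

/-!
# Row 97, reduction: the abstract integrated inequality
-/

set_option autoImplicit false
open MeasureTheory Metric Set Filter Topology InnerProductSpace
open scoped RealInnerProductSpace NNReal ENNReal Gradient Laplacian

namespace Crest.Agent.R097

variable {d : ℕ}

/-- Hypotheses of the abstract reduction: `u` (smooth cone data), test function `w`, field `X`. -/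
structure RedHyp (u w : E d → ℝ) (X : E d → E d) (Lam : ℝ) : Prop where
  cont : Continuous u
  u0 : u 0 = 0
  sm : ContDiffOn ℝ (⊤ : ℕ∞) u (Om u)
  bd : ∀ a b : ℝ, 0 < a → ∃ C : ℝ, ∀ x ∈ Om u, x ∈ Ann d a b →
    hs2 (D2 u x) ≤ C ∧ ‖D3 u x‖ ≤ C ∧ ‖Zf u x‖ ≤ C
  divZ : ∀ x ∈ Om u, dv (Zf u) x = hs2 (D2 u x)
  flux : ∀ a b : ℝ, 0 < a → FluxS u (Ann d a b)
  stab : ∀ a b : ℝ, 0 < a → StabS u (Ann d a b)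
  wC : ContDiffOn ℝ 1 w (Wn u)
  wpos : ∀ x ∈ Wn u, 0 < w x
  wrad : ∀ x ∈ Wn u, fderiv ℝ w x x = 0
  XC : ContDiffOn ℝ 1 X (Wn u)
  Xtan : ∀ x ∈ Wn u, ⟪x, X x⟫_ℝ = 0
  int : ∀ x ∈ Wn u, ‖fderiv ℝ w x‖ ^ 2 + Lam * w x ^ 2 / ‖x‖ ^ 2 ≤ dv X x
  bdry : ∀ y ∈ frontier (Om u), y ≠ 0 → ∀ ε > 0, ∀ δ > 0, ∀ᶠ x in 𝓝[Om u] y,
    δ ≤ hs2 (D2 u x) → -ε ≤ fderiv ℝ u x (X x - w x ^ 2 • Zf u x)
  wbd : ∀ a b : ℝ, 0 < a → ∃ C : ℝ, ∀ x ∈ Wn u, x ∈ Ann d a b → w x ≤ C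
  bdW : ∀ a b δ : ℝ, 0 < a → 0 < δ → ∃ C : ℝ, ∀ x ∈ Wn u, x ∈ Ann d a b → δ ≤ hs2 (D2 u x) →
    ‖fderiv ℝ w x‖ ≤ C ∧ ‖X x‖ ≤ C ∧ |dv X x| ≤ C
  energy : ∀ a b : ℝ, 0 < a → ∃ e : E d → ℝ, IntegrableOn e (Wn u ∩ Ann d a b) ∧
    ∀ x ∈ Wn u, x ∈ Ann d a b →
      w x ^ 2 * ‖D3 u x‖ ^ 2 ≤ e x * hs2 (D2 u x) ∧
      w x * ‖fderiv ℝ w x‖ * ‖D3 u x‖ ≤ e x * Real.sqrt (hs2 (D2 u x)) ∧
      ‖X x‖ * ‖D3 u x‖ ≤ e x * Real.sqrt (hs2 (D2 u x)) ∧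
      w x ^ 2 * ‖D3 u x‖ ≤ e x * Real.sqrt (hs2 (D2 u x))

variable {u w : E d → ℝ} {X : E d → E d} {Lam : ℝ}

lemma RedHyp.isOpen_Om (H : RedHyp u w X Lam) : IsOpen (Om u) :=
  isOpen_lt continuous_const H.cont

lemma RedHyp.isOpen_Wn (H : RedHyp u w X Lam) : IsOpen (Wn u) := by
  have h := (smooth_m H.isOpen_Om H.sm).continuousOn.isOpen_inter_preimage H.isOpen_Om
    (isOpen_Ioi (a := (0 : ℝ)))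
  exact h

lemma Wn_sub_Om (u : E d → ℝ) : Wn u ⊆ Om u := fun _ h => h.1

lemma RedHyp.ne_zero (H : RedHyp u w X Lam) {x : E d} (hx : x ∈ Om u) : x ≠ 0 := by
  rintro rfl
  have : 0 < u 0 := hx
  rw [H.u0] at this
  exact lt_irrefl _ this

lemma RedHyp.diffD2 (H : RedHyp u w X Lam) {x : E d} (hx : x ∈ Om u) :
    DifferentiableAt ℝ (D2 u) x :=
  ((smooth_D2 H.isOpen_Om H.sm).contDiffAt (H.isOpen_Om.mem_nhds hx)).differentiableAt (by simp)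

lemma RedHyp.contDiffOn_Z (H : RedHyp u w X Lam) : ContDiffOn ℝ (⊤ : ℕ∞) (Zf u) (Om u) := by
  have h1 := smooth_fderiv H.isOpen_Om H.sm
  have h2 := smooth_D2 H.isOpen_Om H.sm
  have h3 : ContDiffOn ℝ (⊤ : ℕ∞) (fun x => ∇ u x) (Om u) := by
    rw [contDiffOn_euclidean]
    intro i
    simp_rw [gradient_coord]
    exact h1.clm_apply contDiffOn_const
  unfold Zf act
  refine ContDiffOn.sum fun i _ => ?_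
  have h4 : ContDiffOn ℝ (⊤ : ℕ∞) (fun x => D2 u x (∇ u x) (bv i)) (Om u) :=
    (h2.clm_apply h3).clm_apply contDiffOn_const
  exact h4.smul (contDiffOn_const (c := bv i))

/-- the pointwise algebra of the cut-off identity (vectors: `a = ∇w`, `c = ∇E`, `b = ∇χ`). -/
lemma pointwise_algebra (a b c Xx : E d) (w0 E0 χ0 dX Lam r2 : ℝ)
    (hac : ⟪a, c⟫_ℝ = 0) (hcX : ⟪c, Xx⟫_ℝ = 0) (hint : ‖a‖ ^ 2 + Lam * w0 ^ 2 / r2 ≤ dX) :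
    ‖(E0 * χ0) • a + w0 • (χ0 • c + E0 • b)‖ ^ 2
      - 2 * (E0 * χ0) * ⟪χ0 • c + E0 • b, Xx⟫_ℝ - (E0 * χ0) ^ 2 * dX ≤
    χ0 ^ 2 * (w0 ^ 2 * (‖c‖ ^ 2 - Lam * E0 ^ 2 / r2)) +
      (2 * (E0 * χ0) * w0 * E0 * ⟪a, b⟫_ℝ + 2 * w0 ^ 2 * χ0 * E0 * ⟪c, b⟫_ℝ +
        w0 ^ 2 * E0 ^ 2 * ‖b‖ ^ 2 - 2 * (E0 * χ0) * E0 * ⟪b, Xx⟫_ℝ) := by
  have e1 : ‖(E0 * χ0) • a + w0 • (χ0 • c + E0 • b)‖ ^ 2 =
      (E0 * χ0) ^ 2 * ‖a‖ ^ 2 + 2 * (E0 * χ0) * w0 * E0 * ⟪a, b⟫_ℝ +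
      w0 ^ 2 * (χ0 ^ 2 * ‖c‖ ^ 2 + 2 * χ0 * E0 * ⟪c, b⟫_ℝ + E0 ^ 2 * ‖b‖ ^ 2) := by
    rw [@norm_add_sq_real, norm_smul, norm_smul, mul_pow, mul_pow, @norm_add_sq_real, norm_smul,
      norm_smul, mul_pow, mul_pow, inner_smul_left, inner_smul_right, inner_add_right,
      inner_smul_right, inner_smul_right, inner_smul_left, inner_smul_right, hac]
    simp only [Real.norm_eq_abs, sq_abs, conj_trivial]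
    ring
  have e2 : ⟪χ0 • c + E0 • b, Xx⟫_ℝ = E0 * ⟪b, Xx⟫_ℝ := by
    rw [inner_add_left, inner_smul_left, inner_smul_left, hcX]
    simp
  rw [e1, e2]
  have h3 : (E0 * χ0) ^ 2 * (‖a‖ ^ 2 + Lam * w0 ^ 2 / r2) ≤ (E0 * χ0) ^ 2 * dX :=
    mul_le_mul_of_nonneg_left hint (sq_nonneg _)
  have e3 : (E0 * χ0) ^ 2 * (‖a‖ ^ 2 + Lam * w0 ^ 2 / r2) =
      (E0 * χ0) ^ 2 * ‖a‖ ^ 2 + χ0 ^ 2 * (w0 ^ 2 * (Lam * E0 ^ 2 / r2)) := by ring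
  rw [e3] at h3
  nlinarith [h3]

/-- The remainder estimate. -/
lemma remainder_le {a b c Xx : E d} {w0 E0 χ0 Cc B T s e : ℝ} (hw : 0 ≤ w0) (hE : |E0| ≤ B)
    (hχ : 0 ≤ χ0) (hχ1 : χ0 ≤ 1) (hc : ‖c‖ ≤ B) (hs : 0 < s) (hT : 0 ≤ T) (hCc : 0 ≤ Cc)
    (hb : ‖b‖ * s ≤ Cc * T)
    (h1 : w0 ^ 2 * T ^ 2 ≤ e * s ^ 2) (h2 : w0 * ‖a‖ * T ≤ e * s) (h3 : ‖Xx‖ * T ≤ e * s)
    (h4 : w0 ^ 2 * T ≤ e * s) :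
    2 * (E0 * χ0) * w0 * E0 * ⟪a, b⟫_ℝ + 2 * w0 ^ 2 * χ0 * E0 * ⟪c, b⟫_ℝ +
        w0 ^ 2 * E0 ^ 2 * ‖b‖ ^ 2 - 2 * (E0 * χ0) * E0 * ⟪b, Xx⟫_ℝ ≤
      (B ^ 2 * (6 * Cc + Cc ^ 2)) * e := by
  have hB : 0 ≤ B := (abs_nonneg _).trans hE
  have hE2 : E0 ^ 2 ≤ B ^ 2 := by rw [← sq_abs]; exact pow_le_pow_left₀ (abs_nonneg _) hE 2
  have hE0 : 0 ≤ E0 ^ 2 := sq_nonneg _
  have he : 0 ≤ e := by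
    by_contra h
    have : e * s < 0 := mul_neg_of_neg_of_pos (not_le.1 h) hs
    have : 0 ≤ w0 ^ 2 * T := by positivity
    linarith
  -- each term
  have hb' : ‖b‖ ≤ Cc * T / s := (le_div_iff₀ hs).2 hb
  have t1 : w0 * ‖a‖ * ‖b‖ ≤ Cc * e := by
    calc w0 * ‖a‖ * ‖b‖ ≤ w0 * ‖a‖ * (Cc * T / s) := by gcongr
      _ = Cc * (w0 * ‖a‖ * T) / s := by ring
      _ ≤ Cc * (e * s) / s := by gcongr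
      _ = Cc * e := by field_simp
  have t2 : w0 ^ 2 * ‖b‖ ≤ Cc * e := by
    calc w0 ^ 2 * ‖b‖ ≤ w0 ^ 2 * (Cc * T / s) := by gcongr
      _ = Cc * (w0 ^ 2 * T) / s := by ring
      _ ≤ Cc * (e * s) / s := by gcongr
      _ = Cc * e := by field_simp
  have t3 : w0 ^ 2 * ‖b‖ ^ 2 ≤ Cc ^ 2 * e := by
    calc w0 ^ 2 * ‖b‖ ^ 2 ≤ w0 ^ 2 * (Cc * T / s) ^ 2 := by gcongr
      _ = Cc ^ 2 * (w0 ^ 2 * T ^ 2) / s ^ 2 := by field_simp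
      _ ≤ Cc ^ 2 * (e * s ^ 2) / s ^ 2 := by gcongr
      _ = Cc ^ 2 * e := by field_simp
  have t4 : ‖b‖ * ‖Xx‖ ≤ Cc * e := by
    calc ‖b‖ * ‖Xx‖ ≤ (Cc * T / s) * ‖Xx‖ := by gcongr
      _ = Cc * (‖Xx‖ * T) / s := by ring
      _ ≤ Cc * (e * s) / s := by gcongr
      _ = Cc * e := by field_simp
  have i1 : 2 * (E0 * χ0) * w0 * E0 * ⟪a, b⟫_ℝ ≤ 2 * B ^ 2 * (Cc * e) := by
    have h := real_inner_le_norm a b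
    calc 2 * (E0 * χ0) * w0 * E0 * ⟪a, b⟫_ℝ = (2 * E0 ^ 2 * χ0 * w0) * ⟪a, b⟫_ℝ := by ring
      _ ≤ (2 * E0 ^ 2 * χ0 * w0) * (‖a‖ * ‖b‖) := by gcongr
      _ = 2 * E0 ^ 2 * χ0 * (w0 * ‖a‖ * ‖b‖) := by ring
      _ ≤ 2 * B ^ 2 * 1 * (Cc * e) := by gcongr
      _ = _ := by ring
  have i2 : 2 * w0 ^ 2 * χ0 * E0 * ⟪c, b⟫_ℝ ≤ 2 * B ^ 2 * (Cc * e) := by
    calc 2 * w0 ^ 2 * χ0 * E0 * ⟪c, b⟫_ℝ ≤ |2 * w0 ^ 2 * χ0 * E0 * ⟪c, b⟫_ℝ| := le_abs_self _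
      _ = 2 * w0 ^ 2 * χ0 * |E0| * |⟪c, b⟫_ℝ| := by
          rw [abs_mul, abs_mul, abs_of_nonneg (by positivity : 0 ≤ 2 * w0 ^ 2 * χ0)]
      _ ≤ 2 * w0 ^ 2 * χ0 * |E0| * (‖c‖ * ‖b‖) := by
          gcongr; exact abs_real_inner_le_norm c b
      _ = 2 * χ0 * |E0| * ‖c‖ * (w0 ^ 2 * ‖b‖) := by ring
      _ ≤ 2 * 1 * B * B * (Cc * e) := by gcongr
      _ = _ := by ring
  have i3 : w0 ^ 2 * E0 ^ 2 * ‖b‖ ^ 2 ≤ B ^ 2 * (Cc ^ 2 * e) := by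
    calc w0 ^ 2 * E0 ^ 2 * ‖b‖ ^ 2 = E0 ^ 2 * (w0 ^ 2 * ‖b‖ ^ 2) := by ring
      _ ≤ B ^ 2 * (Cc ^ 2 * e) := by gcongr
  have i4 : -(2 * (E0 * χ0) * E0 * ⟪b, Xx⟫_ℝ) ≤ 2 * B ^ 2 * (Cc * e) := by
    have h : -⟪b, Xx⟫_ℝ ≤ ‖b‖ * ‖Xx‖ := by
      have := abs_real_inner_le_norm b Xx
      have h2 := neg_abs_le ⟪b, Xx⟫_ℝ
      linarith
    calc -(2 * (E0 * χ0) * E0 * ⟪b, Xx⟫_ℝ) = (2 * E0 ^ 2 * χ0) * (-⟪b, Xx⟫_ℝ) := by ring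
      _ ≤ (2 * E0 ^ 2 * χ0) * (‖b‖ * ‖Xx‖) := by gcongr
      _ ≤ (2 * B ^ 2 * 1) * (Cc * e) := by gcongr
      _ = _ := by ring
  calc _ ≤ 2 * B ^ 2 * (Cc * e) + 2 * B ^ 2 * (Cc * e) + B ^ 2 * (Cc ^ 2 * e)
        + 2 * B ^ 2 * (Cc * e) := by linarith
    _ = _ := by ring

end Crest.Agent.R097
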