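import Crest.Agent.R097.Red2

/-!
# Row 97, reduction: the cut-off identity for fixed `ε`
-/

set_option autoImplicit false
open MeasureTheory Metric Set Filter Topology InnerProductSpace
open scoped RealInnerProductSpace NNReal ENNReal Gradient Laplacian

namespace Crest.Agent.R097

variable {d : ℕ}

/-- radial cut-off times `chi` -/
noncomputable def kk (u : E d → ℝ) (Ef : ℝ → ℝ) (ε : ℝ) (x : E d) : ℝ :=
  Ef (Real.log ‖x‖) * chi u ε x

open Classical in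
/-- the test function -/
noncomputable def phi (u w : E d → ℝ) (Ef : ℝ → ℝ) (ε : ℝ) (x : E d) : ℝ :=
  if x ∈ Wn u then kk u Ef ε x * w x else 0

open Classical in
/-- the field -/
noncomputable def FF (u w : E d → ℝ) (X : E d → E d) (Ef : ℝ → ℝ) (ε : ℝ) (x : E d) : E d :=
  if x ∈ Wn u then (kk u Ef ε x) ^ 2 • (X x - w x ^ 2 • Zf u x) else 0

lemma grad_eq_of_hasFDerivAt {f : E d → ℝ} {L : E d →L[ℝ] ℝ} {x g : E d}
    (h : HasFDerivAt f L x) (hL : ∀ v, L v = ⟪g, v⟫_ℝ) : ∇ f x = g := by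
  refine ext_inner_right ℝ fun v => ?_
  rw [inner_gradient, h.fderiv, hL]

variable {u w : E d → ℝ} {X : E d → E d} {Lam : ℝ} {Ef : ℝ → ℝ} {R ε : ℝ}

lemma log_notin {x : E d} (hx : x ≠ 0) (h : x ∉ Ann d (Real.exp (-R)) (Real.exp R)) :
    R < |Real.log ‖x‖| := by
  have hn : 0 < ‖x‖ := norm_pos_iff.2 hx
  by_contra hc
  rw [not_lt, abs_le] at hc
  apply h
  constructor
  · rw [← Real.exp_log hn]; exact Real.exp_le_exp.2 hc.1
  · rw [← Real.exp_log hn]; exact Real.exp_le_exp.2 hc.2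

lemma kk_zero_out (H : RedHyp u w X Lam) (hR : ∀ s, R < |s| → Ef s = 0) {x : E d} (hx : x ∈ Wn u)
    (h : x ∉ Ann d (Real.exp (-R)) (Real.exp R)) : kk u Ef ε x = 0 := by
  unfold kk
  rw [hR _ (log_notin (H.ne_zero hx.1) h), zero_mul]

lemma kk_zero_small (hε : 0 < ε) {x : E d} (h : hs2 (D2 u x) ≤ ε) : kk u Ef ε x = 0 := by
  unfold kk; rw [chi_zero hε h, mul_zero]

lemma phi_of_mem {x : E d} (hx : x ∈ Wn u) : phi u w Ef ε x = kk u Ef ε x * w x := by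
  unfold phi; rw [if_pos hx]

lemma phi_of_notMem {x : E d} (hx : x ∉ Wn u) : phi u w Ef ε x = 0 := by
  unfold phi; rw [if_neg hx]

lemma FF_of_mem {x : E d} (hx : x ∈ Wn u) :
    FF u w X Ef ε x = (kk u Ef ε x) ^ 2 • (X x - w x ^ 2 • Zf u x) := by
  unfold FF; rw [if_pos hx]

lemma FF_of_notMem {x : E d} (hx : x ∉ Wn u) : FF u w X Ef ε x = 0 := by
  unfold FF; rw [if_neg hx]

lemma phi_zero_of_kk {x : E d} (h : kk u Ef ε x = 0) : phi u w Ef ε x = 0 := by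
  by_cases hx : x ∈ Wn u
  · rw [phi_of_mem hx, h, zero_mul]
  · exact phi_of_notMem hx

lemma FF_zero_of_kk {x : E d} (h : kk u Ef ε x = 0) : FF u w X Ef ε x = 0 := by
  by_cases hx : x ∈ Wn u
  · rw [FF_of_mem hx, h]; simp
  · exact FF_of_notMem hx

lemma phi_zero_out (H : RedHyp u w X Lam) (hR : ∀ s, R < |s| → Ef s = 0) {x : E d}
    (h : x ∉ Ann d (Real.exp (-R)) (Real.exp R)) : phi u w Ef ε x = 0 := by
  by_cases hx : x ∈ Wn u
  · exact phi_zero_of_kk (kk_zero_out H hR hx h)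
  · exact phi_of_notMem hx

lemma FF_zero_out (H : RedHyp u w X Lam) (hR : ∀ s, R < |s| → Ef s = 0) {x : E d}
    (h : x ∉ Ann d (Real.exp (-R)) (Real.exp R)) : FF u w X Ef ε x = 0 := by
  by_cases hx : x ∈ Wn u
  · exact FF_zero_of_kk (kk_zero_out H hR hx h)
  · exact FF_of_notMem hx

/-- near a point of `Om` with small Hessian the cut-off functions vanish -/
lemma ev_small (H : RedHyp u w X Lam) (hε : 0 < ε) {x : E d} (hx : x ∈ Om u)
    (h : hs2 (D2 u x) < ε) : ∀ᶠ y in 𝓝 x, kk u Ef ε y = 0 := by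
  have hc : ContinuousAt (fun y => hs2 (D2 u y)) x :=
    ((smooth_m H.isOpen_Om H.sm).contDiffAt (H.isOpen_Om.mem_nhds hx)).continuousAt
  filter_upwards [hc.eventually (Iio_mem_nhds h)] with y hy
  exact kk_zero_small hε (le_of_lt hy)

lemma ev_out (H : RedHyp u w X Lam) (hR : ∀ s, R < |s| → Ef s = 0) {x : E d}
    (h : x ∉ Ann d (Real.exp (-R)) (Real.exp R)) :
    (∀ᶠ y in 𝓝 x, phi u w Ef ε y = 0) ∧ ∀ᶠ y in 𝓝 x, FF u w X Ef ε y = 0 := by
  have ho : IsOpen (Ann d (Real.exp (-R)) (Real.exp R))ᶜ := (isCompact_Ann _ _).isClosed.isOpen_compl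
  constructor
  · filter_upwards [ho.mem_nhds h] with y hy using phi_zero_out H hR hy
  · filter_upwards [ho.mem_nhds h] with y hy using FF_zero_out H hR hy

lemma hasFDerivAt_kk (H : RedHyp u w X Lam) (hE : ContDiff ℝ 1 Ef) {x : E d} (hx : x ∈ Om u) :
    HasFDerivAt (kk u Ef ε) (Ef (Real.log ‖x‖) • fderiv ℝ (chi u ε) x +
      chi u ε x • ((deriv Ef (Real.log ‖x‖) / ‖x‖ ^ 2) • innerSL ℝ x)) x := by
  have h1 := hasFDerivAt_radial (f := Ef) (H.ne_zero hx)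
    ((hE.differentiable (by simp) _).hasDerivAt)
  have h2 : HasFDerivAt (chi u ε) (fderiv ℝ (chi u ε) x) x :=
    (((contDiffOn_chi H.isOpen_Om H.sm ε).contDiffAt (H.isOpen_Om.mem_nhds hx)).differentiableAt
      (by simp)).hasFDerivAt
  exact h1.mul h2

lemma grad_kk (H : RedHyp u w X Lam) (hE : ContDiff ℝ 1 Ef) {x : E d} (hx : x ∈ Om u) :
    ∇ (kk u Ef ε) x = chi u ε x • ((deriv Ef (Real.log ‖x‖) / ‖x‖ ^ 2) • x) +
      Ef (Real.log ‖x‖) • ∇ (chi u ε) x := by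
  refine grad_eq_of_hasFDerivAt (hasFDerivAt_kk H hE hx) fun v => ?_
  simp only [add_apply, smul_apply, innerSL_apply_apply, smul_eq_mul, inner_add_left,
    inner_smul_left, inner_gradient, conj_trivial]
  ring

lemma kk_diff (H : RedHyp u w X Lam) (hE : ContDiff ℝ 1 Ef) {x : E d} (hx : x ∈ Om u) :
    DifferentiableAt ℝ (kk u Ef ε) x := (hasFDerivAt_kk H hE hx).differentiableAt

lemma w_diff (H : RedHyp u w X Lam) {x : E d} (hx : x ∈ Wn u) : DifferentiableAt ℝ w x :=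
  (H.wC.contDiffAt (H.isOpen_Wn.mem_nhds hx)).differentiableAt (by simp)

lemma X_diff (H : RedHyp u w X Lam) {x : E d} (hx : x ∈ Wn u) : DifferentiableAt ℝ X x :=
  (H.XC.contDiffAt (H.isOpen_Wn.mem_nhds hx)).differentiableAt (by simp)

lemma Z_diff (H : RedHyp u w X Lam) {x : E d} (hx : x ∈ Om u) : DifferentiableAt ℝ (Zf u) x :=
  (H.contDiffOn_Z.contDiffAt (H.isOpen_Om.mem_nhds hx)).differentiableAt (by simp)

lemma ev_Wn (H : RedHyp u w X Lam) {x : E d} (hx : x ∈ Wn u) :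
    phi u w Ef ε =ᶠ[𝓝 x] fun y => kk u Ef ε y * w y := by
  filter_upwards [H.isOpen_Wn.mem_nhds hx] with y hy using phi_of_mem hy

lemma ev_Wn' (H : RedHyp u w X Lam) {x : E d} (hx : x ∈ Wn u) :
    FF u w X Ef ε =ᶠ[𝓝 x] fun y => (kk u Ef ε y) ^ 2 • (X y - w y ^ 2 • Zf u y) := by
  filter_upwards [H.isOpen_Wn.mem_nhds hx] with y hy using FF_of_mem hy

lemma grad_phi (H : RedHyp u w X Lam) (hE : ContDiff ℝ 1 Ef) {x : E d} (hx : x ∈ Wn u) :
    ∇ (phi u w Ef ε) x = kk u Ef ε x • ∇ w x + w x • ∇ (kk u Ef ε) x := by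
  have h1 : HasFDerivAt (fun y => kk u Ef ε y * w y) _ x :=
    (kk_diff H hE hx.1).hasFDerivAt.mul (w_diff H hx).hasFDerivAt
  refine grad_eq_of_hasFDerivAt (h1.congr_of_eventuallyEq (ev_Wn H hx)) fun v => ?_
  simp only [add_apply, smul_apply, smul_eq_mul, inner_add_left,
    inner_smul_left, inner_gradient, conj_trivial]

lemma dv_FF (H : RedHyp u w X Lam) (hE : ContDiff ℝ 1 Ef) {x : E d} (hx : x ∈ Wn u) :
    dv (FF u w X Ef ε) x = 2 * kk u Ef ε x * ⟪∇ (kk u Ef ε) x, X x - w x ^ 2 • Zf u x⟫_ℝ +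
      (kk u Ef ε x) ^ 2 * (dv X x - (2 * w x * ⟪∇ w x, Zf u x⟫_ℝ + w x ^ 2 * hs2 (D2 u x))) := by
  have hk := kk_diff (ε := ε) H hE hx.1
  have hw := w_diff H hx
  have hX := X_diff H hx
  have hZ := Z_diff H hx.1
  have hw2 : DifferentiableAt ℝ (fun y => w y ^ 2) x := hw.pow 2
  have hk2 : DifferentiableAt ℝ (fun y => (kk u Ef ε y) ^ 2) x := hk.pow 2
  have hwZ : DifferentiableAt ℝ (fun y => w y ^ 2 • Zf u y) x := hw2.smul hZ
  have hXZ : DifferentiableAt ℝ (fun y => X y - w y ^ 2 • Zf u y) x := hX.sub hwZ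
  rw [dv_congr (ev_Wn' H hx), dv_smul hk2 hXZ, dv_sub hX hwZ, dv_smul hw2 hZ,
    H.divZ x hx.1]
  have e1 : ∀ v, fderiv ℝ (fun y => (kk u Ef ε y) ^ 2) x v = 2 * kk u Ef ε x * ⟪∇ (kk u Ef ε) x, v⟫_ℝ := by
    intro v
    rw [(hk.hasFDerivAt.pow 2).fderiv, inner_gradient]
    simp
  have e2 : ∀ v, fderiv ℝ (fun y => (w y) ^ 2) x v = 2 * w x * ⟪∇ w x, v⟫_ℝ := by
    intro v
    rw [(hw.hasFDerivAt.pow 2).fderiv, inner_gradient]
    simp
  rw [e1, e2]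

/-- the pointwise inequality on `Wn` -/
lemma pointwise_Wn (H : RedHyp u w X Lam) (hE : ContDiff ℝ 1 Ef) {x : E d} (hx : x ∈ Wn u) :
    ‖fderiv ℝ (phi u w Ef ε) x‖ ^ 2 - (phi u w Ef ε x ^ 2 * hs2 (D2 u x) +
      2 * phi u w Ef ε x * fderiv ℝ (phi u w Ef ε) x (Zf u x)) - dv (FF u w X Ef ε) x ≤
    chi u ε x ^ 2 * (w x ^ 2 * (‖(deriv Ef (Real.log ‖x‖) / ‖x‖ ^ 2) • x‖ ^ 2 -
        Lam * Ef (Real.log ‖x‖) ^ 2 / ‖x‖ ^ 2)) +
      (2 * (Ef (Real.log ‖x‖) * chi u ε x) * w x * Ef (Real.log ‖x‖) * ⟪∇ w x, ∇ (chi u ε) x⟫_ℝ +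
        2 * w x ^ 2 * chi u ε x * Ef (Real.log ‖x‖) *
          ⟪(deriv Ef (Real.log ‖x‖) / ‖x‖ ^ 2) • x, ∇ (chi u ε) x⟫_ℝ +
        w x ^ 2 * Ef (Real.log ‖x‖) ^ 2 * ‖∇ (chi u ε) x‖ ^ 2 -
        2 * (Ef (Real.log ‖x‖) * chi u ε x) * Ef (Real.log ‖x‖) * ⟪∇ (chi u ε) x, X x⟫_ℝ) := by
  have hac : ⟪∇ w x, (deriv Ef (Real.log ‖x‖) / ‖x‖ ^ 2) • x⟫_ℝ = 0 := by
    rw [inner_smul_right, inner_gradient, H.wrad x hx, mul_zero]
  have hcX : ⟪(deriv Ef (Real.log ‖x‖) / ‖x‖ ^ 2) • x, X x⟫_ℝ = 0 := by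
    rw [inner_smul_left, H.Xtan x hx, mul_zero]
  have hint := H.int x hx
  rw [← norm_gradient w x] at hint
  have key := pointwise_algebra (∇ w x) (∇ (chi u ε) x)
    ((deriv Ef (Real.log ‖x‖) / ‖x‖ ^ 2) • x) (X x) (w x) (Ef (Real.log ‖x‖)) (chi u ε x)
    (dv X x) Lam (‖x‖ ^ 2) hac hcX hint
  refine le_trans (le_of_eq ?_) key
  rw [dv_FF H hE hx, ← inner_gradient (phi u w Ef ε), ← norm_gradient (phi u w Ef ε),
    grad_phi H hE hx, ← grad_kk H hE hx.1, phi_of_mem hx]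
  have ek : Ef (Real.log ‖x‖) * chi u ε x = kk u Ef ε x := rfl
  rw [ek, inner_sub_right, inner_smul_right, inner_add_left, inner_smul_left, inner_smul_left]
  simp only [conj_trivial]
  ring

end Crest.Agent.R097
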