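import Crest.Agent.R097.Red3

/-!
# Row 97, reduction: the integrated inequality for fixed `ε`
-/

set_option autoImplicit false
open MeasureTheory Metric Set Filter Topology InnerProductSpace
open scoped RealInnerProductSpace NNReal ENNReal Gradient Laplacian

namespace Crest.Agent.R097

variable {d : ℕ} {u w : E d → ℝ} {X : E d → E d} {Lam : ℝ} {Ef : ℝ → ℝ} {R ε : ℝ}

lemma kk_contDiffOn (H : RedHyp u w X Lam) (hE : ContDiff ℝ 1 Ef) :
    ContDiffOn ℝ 1 (kk u Ef ε) (Om u) := by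
  unfold kk
  have h1 : ContDiffOn ℝ 1 (fun x : E d => Ef (Real.log ‖x‖)) (Om u) := by
    intro x hx
    have hx0 := H.ne_zero hx
    have h2 : ContDiffAt ℝ 1 (fun x : E d => Real.log ‖x‖) x :=
      (contDiffAt_norm ℝ hx0).log (norm_ne_zero_iff.2 hx0)
    exact (hE.contDiffAt.comp x h2).contDiffWithinAt
  exact h1.mul ((contDiffOn_chi H.isOpen_Om H.sm ε).of_le (by exact_mod_cast le_top))

lemma phi_contDiffOn (H : RedHyp u w X Lam) (hE : ContDiff ℝ 1 Ef) (hε : 0 < ε) :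
    ContDiffOn ℝ 1 (phi u w Ef ε) (Om u) := by
  intro x hx
  refine ContDiffAt.contDiffWithinAt ?_
  by_cases hm : hs2 (D2 u x) < ε
  · have : phi u w Ef ε =ᶠ[𝓝 x] fun _ => 0 := by
      filter_upwards [ev_small (Ef := Ef) H hε hx hm] with y hy using phi_zero_of_kk hy
    exact contDiffAt_const.congr_of_eventuallyEq this
  · have hxW : x ∈ Wn u := ⟨hx, hε.trans_le (not_lt.1 hm)⟩
    exact (((kk_contDiffOn H hE).contDiffAt (H.isOpen_Om.mem_nhds hx)).mul
      (H.wC.contDiffAt (H.isOpen_Wn.mem_nhds hxW))).congr_of_eventuallyEq (ev_Wn H hxW)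

lemma FF_contDiffOn (H : RedHyp u w X Lam) (hE : ContDiff ℝ 1 Ef) (hε : 0 < ε) :
    ContDiffOn ℝ 1 (FF u w X Ef ε) (Om u) := by
  intro x hx
  refine ContDiffAt.contDiffWithinAt ?_
  by_cases hm : hs2 (D2 u x) < ε
  · have : FF u w X Ef ε =ᶠ[𝓝 x] fun _ => 0 := by
      filter_upwards [ev_small (Ef := Ef) H hε hx hm] with y hy using FF_zero_of_kk hy
    exact contDiffAt_const.congr_of_eventuallyEq this
  · have hxW : x ∈ Wn u := ⟨hx, hε.trans_le (not_lt.1 hm)⟩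
    have h1 := (kk_contDiffOn (ε := ε) H hE).contDiffAt (H.isOpen_Om.mem_nhds hx)
    have h2 := H.wC.contDiffAt (H.isOpen_Wn.mem_nhds hxW)
    have h3 := H.XC.contDiffAt (H.isOpen_Wn.mem_nhds hxW)
    have h4 : ContDiffAt ℝ 1 (Zf u) x :=
      (H.contDiffOn_Z.contDiffAt (H.isOpen_Om.mem_nhds hx)).of_le (by exact_mod_cast le_top)
    exact ((h1.pow 2).smul (h3.sub ((h2.pow 2).smul h4))).congr_of_eventuallyEq (ev_Wn' H hxW)

lemma exists_Ef_bound (hE : ContDiff ℝ 1 Ef) (hR : ∀ s, R < |s| → Ef s = 0) :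
    ∃ B : ℝ, 0 < B ∧ ∀ s, |Ef s| ≤ B ∧ |deriv Ef s| ≤ B := by
  have hc := hE.continuous
  have hc' := hE.continuous_deriv le_rfl
  obtain ⟨B1, h1⟩ := (isCompact_Icc (a := -(R + 1)) (b := R + 1)).exists_bound_of_continuousOn
    hc.continuousOn
  obtain ⟨B2, h2⟩ := (isCompact_Icc (a := -(R + 1)) (b := R + 1)).exists_bound_of_continuousOn
    hc'.continuousOn
  refine ⟨max 1 (max B1 B2), by positivity, fun s => ?_⟩
  by_cases hs : s ∈ Icc (-(R + 1)) (R + 1)
  · exact ⟨(h1 s hs).trans ((le_max_left _ _).trans (le_max_right _ _)),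
      (h2 s hs).trans ((le_max_right _ _).trans (le_max_right _ _))⟩
  · have hs' : R < |s| := by
      by_contra hcon
      rw [not_lt, abs_le] at hcon
      exact hs ⟨by linarith [hcon.1], by linarith [hcon.2]⟩
    have hev : Ef =ᶠ[𝓝 s] fun _ => 0 := by
      filter_upwards [(continuous_abs.isOpen_preimage _ isOpen_Ioi).mem_nhds hs'] with y hy
        using hR y hy
    rw [hR s hs', hev.deriv_eq]
    simp

/-- bounds of the cut-off objects -/
lemma exists_bounds (H : RedHyp u w X Lam) (hE : ContDiff ℝ 1 Ef) (hR : ∀ s, R < |s| → Ef s = 0)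
    (hε : 0 < ε) : ∃ C : ℝ, ∀ x ∈ Om u, phi u w Ef ε x ≤ C ∧ |phi u w Ef ε x| ≤ C ∧
      ‖fderiv ℝ (phi u w Ef ε) x‖ ≤ C ∧
      ‖FF u w X Ef ε x‖ ≤ C ∧ |dv (FF u w X Ef ε) x| ≤ C := by
  set a := Real.exp (-R) with ha
  set b := Real.exp R with hb
  have ha0 : 0 < a := Real.exp_pos _
  obtain ⟨C1, h1⟩ := H.bd a b ha0
  obtain ⟨C2, h2⟩ := H.wbd a b ha0
  obtain ⟨C3, h3⟩ := H.bdW a b ε ha0 hε
  obtain ⟨Cc, hCc, h4⟩ := exists_chi_bound d
  obtain ⟨B, hB, hBb⟩ := exists_Ef_bound hE hR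
  set D1 := max C1 0 with hD1
  set D2' := max C2 0 with hD2
  set D3' := max C3 0 with hD3
  set C4 := Cc * D1 / Real.sqrt ε with hC4
  set C5 := B / a + B * C4 with hC5
  have hD1' : 0 ≤ D1 := le_max_right _ _
  have hD2' : 0 ≤ D2' := le_max_right _ _
  have hD3' : 0 ≤ D3' := le_max_right _ _
  have hsε : 0 < Real.sqrt ε := Real.sqrt_pos.2 hε
  have hC4' : 0 ≤ C4 := by positivity
  have hC5' : 0 ≤ C5 := by positivity
  set Y := D3' + D2' ^ 2 * D1 with hY
  have hY' : 0 ≤ Y := by positivity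
  refine ⟨B * D2' + (B * D3' + D2' * C5) + B ^ 2 * Y + (2 * B * (C5 * Y) + B ^ 2 * (D3' +
    (2 * D2' * (D3' * D1) + D2' ^ 2 * D1))), fun x hx => ?_⟩
  have hp1 : 0 ≤ B * D2' := by positivity
  have hp2 : 0 ≤ B * D3' + D2' * C5 := by positivity
  have hp3 : 0 ≤ B ^ 2 * Y := by positivity
  have hp4 : 0 ≤ 2 * B * (C5 * Y) + B ^ 2 * (D3' +
    (2 * D2' * (D3' * D1) + D2' ^ 2 * D1)) := by positivity
  have hzero : (∀ᶠ y in 𝓝 x, phi u w Ef ε y = 0) → (∀ᶠ y in 𝓝 x, FF u w X Ef ε y = 0) →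
      phi u w Ef ε x ≤ 0 ∧ |phi u w Ef ε x| ≤ 0 ∧ ‖fderiv ℝ (phi u w Ef ε) x‖ ≤ 0 ∧
      ‖FF u w X Ef ε x‖ ≤ 0 ∧ |dv (FF u w X Ef ε) x| ≤ 0 := by
    intro g1 g2
    have g1' : phi u w Ef ε =ᶠ[𝓝 x] fun _ => 0 := g1
    have g2' : FF u w X Ef ε =ᶠ[𝓝 x] fun _ => 0 := g2
    refine ⟨g1.self_of_nhds.le, by rw [g1.self_of_nhds]; simp, by rw [g1'.fderiv_eq]; simp,
      by rw [g2.self_of_nhds]; simp, by rw [dv_zero_of_eventually g2']; simp⟩
  by_cases hS : x ∈ Ann d a b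
  · by_cases hm : hs2 (D2 u x) < ε
    · have hk := ev_small (Ef := Ef) H hε hx hm
      obtain ⟨z1, z2, z3, z4, z5⟩ := hzero (hk.mono fun y hy => phi_zero_of_kk hy)
        (hk.mono fun y hy => FF_zero_of_kk hy)
      exact ⟨by linarith, by linarith, by linarith, by linarith, by linarith⟩
    · have hm' := not_lt.1 hm
      have hxW : x ∈ Wn u := ⟨hx, hε.trans_le hm'⟩
      obtain ⟨b1, b2, b3⟩ := h1 x hx hS
      have b4 := h2 x hxW hS
      obtain ⟨b5, b6, b7⟩ := h3 x hxW hS hm'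
      have b1' : hs2 (D2 u x) ≤ D1 := b1.trans (le_max_left _ _)
      have b2' : ‖D3 u x‖ ≤ D1 := b2.trans (le_max_left _ _)
      have b3' : ‖Zf u x‖ ≤ D1 := b3.trans (le_max_left _ _)
      have b4' : w x ≤ D2' := b4.trans (le_max_left _ _)
      have b5' : ‖∇ w x‖ ≤ D3' := by rw [norm_gradient]; exact b5.trans (le_max_left _ _)
      have b6' : ‖X x‖ ≤ D3' := b6.trans (le_max_left _ _)
      have b7' : |dv X x| ≤ D3' := b7.trans (le_max_left _ _)
      have hw0 : 0 ≤ w x := (H.wpos x hxW).le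
      have hm0 : 0 ≤ hs2 (D2 u x) := hs2_nonneg _
      have hE1 := (hBb (Real.log ‖x‖)).1
      have hE2 := (hBb (Real.log ‖x‖)).2
      have hχ0 := chi_nonneg u ε x
      have hχ1 := chi_le_one u ε x
      have hxn : 0 < ‖x‖ := ha0.trans_le hS.1
      have hk : |kk u Ef ε x| ≤ B := by
        unfold kk
        rw [abs_mul, abs_of_nonneg hχ0]
        calc |Ef (Real.log ‖x‖)| * chi u ε x ≤ B * 1 := by gcongr
          _ = B := mul_one B
      have hχg : ‖∇ (chi u ε) x‖ ≤ C4 := by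
        rw [norm_gradient, hC4, le_div_iff₀ hsε]
        have g1 := (h4 u ε hε x (H.diffD2 hx) hxW.2).1
        calc ‖fderiv ℝ (chi u ε) x‖ * Real.sqrt ε
            ≤ ‖fderiv ℝ (chi u ε) x‖ * Real.sqrt (hs2 (D2 u x)) := by gcongr
          _ ≤ Cc * ‖D3 u x‖ := g1
          _ ≤ Cc * D1 := by gcongr
      have hkg : ‖∇ (kk u Ef ε) x‖ ≤ C5 := by
        rw [grad_kk H hE hx]
        refine (norm_add_le _ _).trans ?_
        rw [norm_smul, norm_smul, norm_smul, Real.norm_eq_abs, Real.norm_eq_abs, Real.norm_eq_abs,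
          abs_of_nonneg hχ0, abs_div, abs_of_nonneg (sq_nonneg ‖x‖)]
        have e1 : |deriv Ef (Real.log ‖x‖)| / ‖x‖ ^ 2 * ‖x‖ = |deriv Ef (Real.log ‖x‖)| / ‖x‖ := by
          field_simp
        rw [e1]
        have e2 : |deriv Ef (Real.log ‖x‖)| / ‖x‖ ≤ B / a := by
          have := hS.1
          gcongr
        calc chi u ε x * (|deriv Ef (Real.log ‖x‖)| / ‖x‖) + |Ef (Real.log ‖x‖)| * ‖∇ (chi u ε) x‖
            ≤ 1 * (B / a) + B * C4 := by gcongr
          _ = C5 := by rw [hC5]; ring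
      have hXZ : ‖X x - w x ^ 2 • Zf u x‖ ≤ Y := by
        refine (norm_sub_le _ _).trans ?_
        rw [norm_smul, Real.norm_of_nonneg (sq_nonneg _), hY]
        gcongr
      have r1 : |phi u w Ef ε x| ≤ B * D2' := by
        rw [phi_of_mem hxW, abs_mul, abs_of_nonneg hw0]
        gcongr
      have r2 : ‖fderiv ℝ (phi u w Ef ε) x‖ ≤ B * D3' + D2' * C5 := by
        rw [← norm_gradient, grad_phi H hE hxW]
        refine (norm_add_le _ _).trans ?_
        rw [norm_smul, norm_smul, Real.norm_eq_abs, Real.norm_of_nonneg hw0]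
        gcongr
      have r3 : ‖FF u w X Ef ε x‖ ≤ B ^ 2 * Y := by
        rw [FF_of_mem hxW, norm_smul, norm_pow, Real.norm_eq_abs]
        gcongr
      have r4 : |dv (FF u w X Ef ε) x| ≤ 2 * B * (C5 * Y) + B ^ 2 * (D3' +
          (2 * D2' * (D3' * D1) + D2' ^ 2 * D1)) := by
        rw [dv_FF H hE hxW]
        refine (abs_add_le _ _).trans ?_
        rw [abs_mul, abs_mul, abs_mul, abs_pow, abs_two]
        have s1 : |⟪∇ (kk u Ef ε) x, X x - w x ^ 2 • Zf u x⟫_ℝ| ≤ C5 * Y :=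
          (abs_real_inner_le_norm _ _).trans (by gcongr)
        have s2 : |dv X x - (2 * w x * ⟪∇ w x, Zf u x⟫_ℝ + w x ^ 2 * hs2 (D2 u x))| ≤
            D3' + (2 * D2' * (D3' * D1) + D2' ^ 2 * D1) := by
          refine (abs_sub _ _).trans ?_
          refine add_le_add b7' ((abs_add_le _ _).trans ?_)
          rw [abs_mul, abs_mul, abs_two, abs_of_nonneg hw0, abs_mul, abs_of_nonneg hm0, abs_pow,
            abs_of_nonneg hw0]
          have s3 : |⟪∇ w x, Zf u x⟫_ℝ| ≤ D3' * D1 :=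
            (abs_real_inner_le_norm _ _).trans (by gcongr)
          gcongr
        gcongr
      refine ⟨?_, ?_, ?_, ?_, ?_⟩
      · have := le_abs_self (phi u w Ef ε x); linarith
      · linarith
      · linarith
      · linarith
      · linarith
  · obtain ⟨o1, o2⟩ := ev_out (ε := ε) H hR hS
    obtain ⟨z1, z2, z3, z4, z5⟩ := hzero o1 o2
    exact ⟨by linarith, by linarith, by linarith, by linarith, by linarith⟩

end Crest.Agent.R097
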