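import Crest.Agent.R097.RedKato
import Crest.Agent.R097.SExp
import Crest.Agent.R097.HarmReg

/-!
# Row 97, reduction: pointwise facts for `|D²u|²` and `|D³u|²`, the cubic boundary identity
-/

set_option autoImplicit false
open MeasureTheory Metric Set Filter Topology InnerProductSpace
open scoped RealInnerProductSpace NNReal ENNReal Gradient Laplacian

namespace Crest.Agent.R097

variable {d : ℕ}

namespace KT

/-- Hilbert–Schmidt norm squared of a trilinear form -/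
noncomputable def hs3 (T : Tri d) : ℝ := ∑ k, ∑ i, ∑ j, (T (bv k) (bv i) (bv j)) ^ 2

/-- the contraction `A : T(v)` -/
noncomputable def mt (A : Bil d) (T : Tri d) (v : E d) : ℝ :=
  ∑ i, ∑ j, A (bv i) (bv j) * T v (bv i) (bv j)

lemma hs3_nonneg (T : Tri d) : 0 ≤ hs3 T :=
  Finset.sum_nonneg fun _ _ => Finset.sum_nonneg fun _ _ => Finset.sum_nonneg fun _ _ => sq_nonneg _


lemma norm_sq_le_hs2 (A : Bil d) : ‖A‖ ^ 2 ≤ hs2 A := by
  have h0 := hs2_nonneg A
  have h1 : ‖A‖ ≤ Real.sqrt (hs2 A) := by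
    refine A.opNorm_le_bound (Real.sqrt_nonneg _) fun v => ?_
    have h2 : ‖A v‖ ^ 2 ≤ hs2 A * ‖v‖ ^ 2 := by
      rw [normsq_eq_sum, EuclideanSpace.norm_sq_eq]
      have h3 : ∀ j : Fin d, (A v (bv j)) ^ 2 ≤ (∑ i, (A (bv i) (bv j)) ^ 2) * ∑ i, v i ^ 2 := by
        intro j
        have h4 : A v (bv j) = ∑ i, A (bv i) (bv j) * v i := by
          have : (A.flip (bv j)) v = ∑ i, v i * (A.flip (bv j)) (bv i) := apply_eq_sum _ v
          rw [ContinuousLinearMap.flip_apply] at this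
          rw [this]
          refine Finset.sum_congr rfl fun i _ => ?_
          rw [ContinuousLinearMap.flip_apply]; ring
        rw [h4]
        exact Finset.sum_mul_sq_le_sq_mul_sq _ _ _
      calc ∑ j, (A v (bv j)) ^ 2 ≤ ∑ j, (∑ i, (A (bv i) (bv j)) ^ 2) * ∑ i, v i ^ 2 :=
            Finset.sum_le_sum fun j _ => h3 j
        _ = (∑ i, ∑ j, (A (bv i) (bv j)) ^ 2) * ∑ i, v i ^ 2 := by
            rw [← Finset.sum_mul, Finset.sum_comm]
        _ = hs2 A * ∑ i, ‖v i‖ ^ 2 := by simp [hs2]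
    have h5 : ‖A v‖ ^ 2 ≤ (Real.sqrt (hs2 A) * ‖v‖) ^ 2 := by
      rw [mul_pow, Real.sq_sqrt h0]; exact h2
    exact (abs_le_of_sq_le_sq' h5 (by positivity)).2
  calc ‖A‖ ^ 2 ≤ (Real.sqrt (hs2 A)) ^ 2 := pow_le_pow_left₀ (norm_nonneg _) h1 2
    _ = hs2 A := Real.sq_sqrt h0

lemma norm_sq_le_hs3 (T : Tri d) : ‖T‖ ^ 2 ≤ hs3 T := by
  have h0 := hs3_nonneg T
  have h1 : ‖T‖ ≤ Real.sqrt (hs3 T) := by
    refine T.opNorm_le_bound (Real.sqrt_nonneg _) fun v => ?_
    have h2 : ‖T v‖ ^ 2 ≤ hs3 T * ‖v‖ ^ 2 := by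
      refine (norm_sq_le_hs2 (T v)).trans ?_
      rw [EuclideanSpace.norm_sq_eq]
      have h3 : ∀ i j : Fin d, (T v (bv i) (bv j)) ^ 2 ≤
          (∑ k, (T (bv k) (bv i) (bv j)) ^ 2) * ∑ k, v k ^ 2 := by
        intro i j
        have h4 : T v (bv i) (bv j) = ∑ k, T (bv k) (bv i) (bv j) * v k := by
          have : ((T.flip (bv i)).flip (bv j)) v = ∑ k, v k * ((T.flip (bv i)).flip (bv j)) (bv k) :=
            apply_eq_sum _ v
          simp only [ContinuousLinearMap.flip_apply] at this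
          rw [this]
          refine Finset.sum_congr rfl fun k _ => ?_
          ring
        rw [h4]
        exact Finset.sum_mul_sq_le_sq_mul_sq _ _ _
      calc hs2 (T v) = ∑ i, ∑ j, (T v (bv i) (bv j)) ^ 2 := rfl
        _ ≤ ∑ i, ∑ j, (∑ k, (T (bv k) (bv i) (bv j)) ^ 2) * ∑ k, v k ^ 2 :=
            Finset.sum_le_sum fun i _ => Finset.sum_le_sum fun j _ => h3 i j
        _ = hs3 T * ∑ k, v k ^ 2 := by
            unfold hs3
            simp_rw [← Finset.sum_mul]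
            congr 1
            exact (Finset.sum_congr rfl fun i _ => Finset.sum_comm).trans Finset.sum_comm
        _ = hs3 T * ∑ i, ‖v i‖ ^ 2 := by simp
    have h5 : ‖T v‖ ^ 2 ≤ (Real.sqrt (hs3 T) * ‖v‖) ^ 2 := by
      rw [mul_pow, Real.sq_sqrt h0]; exact h2
    exact (abs_le_of_sq_le_sq' h5 (by positivity)).2
  calc ‖T‖ ^ 2 ≤ (Real.sqrt (hs3 T)) ^ 2 := pow_le_pow_left₀ (norm_nonneg _) h1 2
    _ = hs3 T := Real.sq_sqrt h0

lemma hs3_le (T : Tri d) : hs3 T ≤ (d : ℝ) ^ 3 * ‖T‖ ^ 2 := by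
  have h1 : ∀ k i j : Fin d, (T (bv k) (bv i) (bv j)) ^ 2 ≤ ‖T‖ ^ 2 := by
    intro k i j
    rw [← sq_abs]
    refine pow_le_pow_left₀ (abs_nonneg _) ?_ 2
    have := tri_le T (bv k) i j
    rw [norm_bv, mul_one] at this
    exact this
  calc hs3 T ≤ ∑ _k : Fin d, ∑ _i : Fin d, ∑ _j : Fin d, ‖T‖ ^ 2 :=
        Finset.sum_le_sum fun k _ => Finset.sum_le_sum fun i _ => Finset.sum_le_sum fun j _ => h1 k i j
    _ = (d : ℝ) ^ 3 * ‖T‖ ^ 2 := by simp; ring

lemma hs2_le' (A : Bil d) : hs2 A ≤ (d : ℝ) ^ 2 * ‖A‖ ^ 2 := by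
  have h1 : ∀ i j : Fin d, (A (bv i) (bv j)) ^ 2 ≤ ‖A‖ ^ 2 := by
    intro i j
    rw [← sq_abs]
    refine pow_le_pow_left₀ (abs_nonneg _) ?_ 2
    have := abs_bil_le (A := A) le_rfl (norm_bv i).le (norm_bv j).le
    linarith
  calc hs2 A ≤ ∑ _i : Fin d, ∑ _j : Fin d, ‖A‖ ^ 2 :=
        Finset.sum_le_sum fun i _ => Finset.sum_le_sum fun j _ => h1 i j
    _ = (d : ℝ) ^ 2 * ‖A‖ ^ 2 := by simp; ring

variable {u : E d → ℝ} {O : Set (E d)}

lemma stf2 (hO : IsOpen O) (hsm : ContDiffOn ℝ (⊤ : ℕ∞) u O) (hha : ∀ x ∈ O, (Δ u) x = 0) {x : E d}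
    (hx : x ∈ O) : STF2 (D2 u x) := by
  have ha : ContDiffAt ℝ (⊤ : ℕ∞) u x := hsm.contDiffAt (hO.mem_nhds hx)
  refine ⟨fun a b => Hm.symm2 ha a b, ?_⟩
  have := Hm.lap_F (f := u) (x := x)
  rw [hha x hx] at this
  exact this.symm

lemma stf3 (hO : IsOpen O) (hsm : ContDiffOn ℝ (⊤ : ℕ∞) u O) (hha : ∀ x ∈ O, (Δ u) x = 0) {x : E d}
    (hx : x ∈ O) : STF3 (D3 u x) := by
  have ha : ContDiffAt ℝ (⊤ : ℕ∞) u x := hsm.contDiffAt (hO.mem_nhds hx)
  have ha1 : ContDiffAt ℝ (⊤ : ℕ∞) (fderiv ℝ u) x := ha.fderiv_right (by simp)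
  have s12 : ∀ a b c, D3 u x a b c = D3 u x b a c := by
    intro a b c
    have := Hm.symm2 ha1 a b
    exact congrArg (fun L : E d →L[ℝ] ℝ => L c) this
  have s23 : ∀ a b c, D3 u x a b c = D3 u x a c b := fun a b c => Hm.symm3 ha a b c
  refine ⟨s12, s23, fun v => ?_⟩
  have h1 := Hm.lap_fderiv hO hsm hha x hx
  rw [Hm.lap_F] at h1
  have h2 := congrArg (fun L : E d →L[ℝ] ℝ => L v) h1
  simp only [sum_apply, _root_.zero_apply] at h2
  rw [← h2]
  refine Finset.sum_congr rfl fun i _ => ?_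
  rw [s12 v (bv i) (bv i), s23 (bv i) v (bv i)]
  rfl

/-- the Laplacian of `|D²u|²` -/
lemma lap_m (hO : IsOpen O) (hsm : ContDiffOn ℝ (⊤ : ℕ∞) u O) (hha : ∀ x ∈ O, (Δ u) x = 0) {x : E d}
    (hx : x ∈ O) : (Δ (fun y => hs2 (D2 u y))) x = 2 * hs3 (D3 u x) := by
  have hnb := hO.mem_nhds hx
  have hm : ContDiffAt ℝ 2 (fun y => hs2 (D2 u y)) x :=
    ((smooth_m hO hsm).contDiffAt hnb).of_le two_le_smooth
  have h2 : HasFDerivAt (D2 u) (D3 u x) x :=
    (((smooth_D2 hO hsm).contDiffAt hnb).differentiableAt (by simp)).hasFDerivAt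
  have h3 : HasFDerivAt (D3 u) (fderiv ℝ (D3 u) x) x :=
    (((smooth_D3 hO hsm).contDiffAt hnb).differentiableAt (by simp)).hasFDerivAt
  set T4 := fderiv ℝ (D3 u) x with hT4
  rw [laplacian_eq_sum hm]
  have e1 : ∀ k : Fin d, fderiv ℝ (fun y => fderiv ℝ (fun z => hs2 (D2 u z)) y (bv k)) x (bv k) =
      ∑ i, ∑ j, (2 * (D3 u x (bv k) (bv i) (bv j)) ^ 2 +
        2 * D2 u x (bv i) (bv j) * T4 (bv k) (bv k) (bv i) (bv j)) := by
    intro k
    have e2 : (fun y => fderiv ℝ (fun z => hs2 (D2 u z)) y (bv k)) =ᶠ[𝓝 x]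
        fun y => ∑ i, ∑ j, 2 * D2 u y (bv i) (bv j) * D3 u y (bv k) (bv i) (bv j) := by
      filter_upwards [hnb] with y hy
      exact fderiv_m (((smooth_D2 hO hsm).contDiffAt (hO.mem_nhds hy)).differentiableAt (by simp)) _
    rw [e2.fderiv_eq]
    have g2 : ∀ i j : Fin d, HasFDerivAt (fun y => D2 u y (bv i) (bv j))
        (((D3 u x).flip (bv i)).flip (bv j)) x := fun i j => Hm.hasFDerivAt_app2 h2 (bv i) (bv j)
    have g3 : ∀ i j : Fin d, HasFDerivAt (fun y => D3 u y (bv k) (bv i) (bv j))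
        (((T4.flip (bv k)).flip (bv i)).flip (bv j)) x := fun i j =>
      Hm.hasFDerivAt_app (F := ℝ) (Hm.hasFDerivAt_app2 (F := E d →L[ℝ] ℝ) h3 (bv k) (bv i)) (bv j)
    have g4 : HasFDerivAt (fun y => ∑ i, ∑ j, 2 * D2 u y (bv i) (bv j) * D3 u y (bv k) (bv i) (bv j))
        (∑ i : Fin d, ∑ j : Fin d, ((2 * D2 u x (bv i) (bv j)) • (((T4.flip (bv k)).flip (bv i)).flip (bv j)) +
          (D3 u x (bv k) (bv i) (bv j)) • ((2 : ℝ) • (((D3 u x).flip (bv i)).flip (bv j))))) x := by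
      refine HasFDerivAt.fun_sum fun i _ => HasFDerivAt.fun_sum fun j _ => ?_
      exact ((g2 i j).const_mul 2).mul (g3 i j)
    rw [g4.fderiv]
    simp only [sum_apply, add_apply, smul_apply, ContinuousLinearMap.flip_apply, smul_eq_mul]
    refine Finset.sum_congr rfl fun i _ => Finset.sum_congr rfl fun j _ => ?_
    ring
  simp_rw [e1, Finset.sum_add_distrib]
  have ha1 : ∀ y ∈ O, (Δ (fderiv ℝ u)) y = 0 := Hm.lap_fderiv hO hsm hha
  have ha2 : (Δ (D2 u)) x = 0 := Hm.lap_fderiv hO (smooth_fderiv hO hsm) ha1 x hx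
  rw [Hm.lap_F] at ha2
  have e3 : ∑ k : Fin d, ∑ i : Fin d, ∑ j : Fin d,
      2 * D2 u x (bv i) (bv j) * T4 (bv k) (bv k) (bv i) (bv j) = 0 := by
    rw [Finset.sum_comm]
    refine Finset.sum_eq_zero fun i _ => ?_
    rw [Finset.sum_comm]
    refine Finset.sum_eq_zero fun j _ => ?_
    rw [← Finset.mul_sum]
    have h4 := congrArg (fun L : Bil d => L (bv i) (bv j)) ha2
    simp only [sum_apply, _root_.zero_apply] at h4
    have h5 : ∑ k : Fin d, T4 (bv k) (bv k) (bv i) (bv j) = 0 := h4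
    rw [h5, mul_zero]
  rw [e3, add_zero]
  unfold hs3
  simp only [Finset.mul_sum]

lemma fderiv_m' {x : E d} (h : DifferentiableAt ℝ (D2 u) x) (v : E d) :
    fderiv ℝ (fun x => hs2 (D2 u x)) x v = 2 * mt (D2 u x) (D3 u x) v := by
  rw [fderiv_m h]
  unfold mt
  simp only [Finset.mul_sum]
  refine Finset.sum_congr rfl fun i _ => Finset.sum_congr rfl fun j _ => ?_
  ring

/-- Kato for `|D²u|²` -/
lemma norm_grad_m (hd : 2 ≤ d) (hO : IsOpen O) (hsm : ContDiffOn ℝ (⊤ : ℕ∞) u O)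
    (hha : ∀ x ∈ O, (Δ u) x = 0) {x : E d} (hx : x ∈ O) :
    ‖∇ (fun y => hs2 (D2 u y)) x‖ ^ 2 ≤
      4 * ((d : ℝ) / (d + 2)) * hs2 (D2 u x) * hs3 (D3 u x) := by
  have hdiff : DifferentiableAt ℝ (D2 u) x :=
    ((smooth_D2 hO hsm).contDiffAt (hO.mem_nhds hx)).differentiableAt (by simp)
  rw [norm_gradient, normsq_eq_sum]
  simp_rw [fderiv_m' hdiff, mul_pow, ← Finset.mul_sum]
  have h := Crest.Agent.R097.kato hd (stf2 hO hsm hha hx) (stf3 hO hsm hha hx)
  unfold mt hs3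
  nlinarith

/-- bilinear forms vanishing on the orthogonal complement of `e` -/
lemma bil_decomp {R : Bil d} (hR : ∀ x y, R x y = R y x) {e : E d} (he : ‖e‖ = 1)
    (h0 : ∀ t, ⟪e, t⟫_ℝ = 0 → R t t = 0) (x y : E d) :
    R x y = ⟪e, x⟫_ℝ * R e y + ⟪e, y⟫_ℝ * R x e - ⟪e, x⟫_ℝ * ⟪e, y⟫_ℝ * R e e := by
  have key : ∀ t s, ⟪e, t⟫_ℝ = 0 → ⟪e, s⟫_ℝ = 0 → R t s = 0 := by
    intro t s ht hs
    have h1 := h0 (t + s) (by rw [inner_add_right, ht, hs, add_zero])
    have h2 := h0 t ht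
    have h3 := h0 s hs
    simp only [map_add, add_apply] at h1
    rw [hR s t] at h1
    linarith
  have hx : ⟪e, x - ⟪e, x⟫_ℝ • e⟫_ℝ = 0 := by
    rw [inner_sub_right, inner_smul_right, real_inner_self_eq_norm_sq, he]; ring
  have hy : ⟪e, y - ⟪e, y⟫_ℝ • e⟫_ℝ = 0 := by
    rw [inner_sub_right, inner_smul_right, real_inner_self_eq_norm_sq, he]; ring
  have h1 := key _ _ hx hy
  simp only [map_sub, map_smul, sub_apply, smul_apply, smul_eq_mul] at h1
  linarith

/-- the square of a bilinear form -/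
noncomputable def sqB (A : Bil d) : Bil d := ∑ i : Fin d, (A.flip (bv i)).smulRight (A.flip (bv i))

lemma sqB_apply (A : Bil d) (x y : E d) : sqB A x y = ∑ i, A x (bv i) * A y (bv i) := by
  unfold sqB
  simp [sum_apply]

/-- the contraction at regular free boundary points -/
lemma kk_cubic {e : E d} {A : Bil d} {B : Tri d} (h : KK e A B) :
    mt A B e = 2 * A e e * hs2 A - ∑ i, ∑ j, A (bv i) (bv j) * sqB A (bv i) (bv j) := by
  set R : Bil d := B e - (A e e) • A + sqB A with hRdef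
  have hR : ∀ x y, R x y = B e x y - A e e * A x y + sqB A x y := by
    intro x y; simp [hRdef]
  have hRs : ∀ x y, R x y = R y x := by
    intro x y
    rw [hR, hR, h.stfB.symm23 e x y, h.stfA.symm x y, sqB_apply, sqB_apply]
    congr 1
    exact Finset.sum_congr rfl fun i _ => mul_comm _ _
  have hR0 : ∀ t, ⟪e, t⟫_ℝ = 0 → R t t = 0 := by
    intro t ht
    have h1 := h.bdry t ht
    rw [hR, sqB_apply, h.stfB.symm12 e t t, h.stfB.symm23 t e t, h1]
    have : ∑ i, A t (bv i) * A t (bv i) = ∑ i, (A t (bv i)) ^ 2 :=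
      Finset.sum_congr rfl fun i _ => (sq _).symm
    rw [this]; ring
  have hdec := bil_decomp hRs h.norm_e hR0
  have hin : ∀ i : Fin d, ⟪e, bv i⟫_ℝ = e i := fun i => inner_bv' i e
  have hsum : ∀ L : E d →L[ℝ] ℝ, ∑ i, e i * L (bv i) = L e := fun L => (apply_eq_sum L e).symm
  have hAe : ∀ v, A e v = A e e * ⟪e, v⟫_ℝ := h.A_apply
  have hne : ∑ i, e i * e i = 1 := by
    have h1 := h.norm_e
    have h2 : ‖e‖ ^ 2 = 1 := by rw [h1]; norm_num
    rw [EuclideanSpace.norm_sq_eq] at h2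
    rw [← h2]
    refine Finset.sum_congr rfl fun i _ => ?_
    rw [Real.norm_eq_abs, sq_abs]; ring
  -- trace of R
  have t1 : ∑ i, R (bv i) (bv i) = R e e := by
    have e1 : ∀ i : Fin d, R (bv i) (bv i) = 2 * (e i * R e (bv i)) - (e i * e i) * R e e := by
      intro i; rw [hdec, hin, hRs (bv i) e]; ring
    simp_rw [e1]
    rw [Finset.sum_sub_distrib, ← Finset.mul_sum, hsum (R e), ← Finset.sum_mul, hne]
    ring
  have hsq : ∑ i, sqB A (bv i) (bv i) = hs2 A := by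
    unfold hs2
    refine Finset.sum_congr rfl fun i _ => ?_
    rw [sqB_apply]
    exact Finset.sum_congr rfl fun j _ => (sq _).symm
  have t2 : ∑ i, R (bv i) (bv i) = hs2 A := by
    simp_rw [hR]
    rw [Finset.sum_add_distrib, Finset.sum_sub_distrib, ← Finset.mul_sum, h.stfB.tr e, h.stfA.tr, hsq]
    ring
  -- contraction of A and R
  have t3 : ∑ i, ∑ j, A (bv i) (bv j) * R (bv i) (bv j) = A e e * R e e := by
    have e1 : ∀ i j : Fin d, A (bv i) (bv j) * R (bv i) (bv j) =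
        e i * A (bv i) (bv j) * R e (bv j) + A (bv i) (bv j) * e j * R (bv i) e -
        (e i * A (bv i) (bv j)) * e j * R e e := by
      intro i j; rw [hdec, hin, hin]; ring
    have e2 : ∀ j : Fin d, ∑ i, e i * A (bv i) (bv j) = A e e * e j := by
      intro j
      have := hsum (A.flip (bv j))
      simp only [ContinuousLinearMap.flip_apply] at this
      rw [this, hAe, hin]
    have e3 : ∀ i : Fin d, ∑ j, A (bv i) (bv j) * e j = A e e * e i := by
      intro i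
      have := hsum (A (bv i))
      rw [← hin i, ← hAe, h.stfA.symm e (bv i), ← this]
      exact Finset.sum_congr rfl fun j _ => mul_comm _ _
    simp_rw [e1]
    simp_rw [Finset.sum_sub_distrib, Finset.sum_add_distrib]
    have e4 : ∑ i, ∑ j, e i * A (bv i) (bv j) * R e (bv j) = A e e * R e e := by
      rw [Finset.sum_comm]
      simp_rw [← Finset.sum_mul, e2]
      rw [← hsum (R e), Finset.mul_sum]
      exact Finset.sum_congr rfl fun j _ => by ring
    have e5 : ∑ i, ∑ j, A (bv i) (bv j) * e j * R (bv i) e = A e e * R e e := by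
      simp_rw [← Finset.sum_mul, e3]
      have := hsum (R.flip e)
      simp only [ContinuousLinearMap.flip_apply] at this
      rw [← this, Finset.mul_sum]
      exact Finset.sum_congr rfl fun j _ => by ring
    have e6 : ∑ i, ∑ j, (e i * A (bv i) (bv j)) * e j * R e e = A e e * R e e := by
      rw [Finset.sum_comm]
      simp_rw [← Finset.sum_mul, e2]
      have : ∑ j, A e e * e j * e j = A e e := by
        have e7 : ∀ j : Fin d, A e e * e j * e j = A e e * (e j * e j) := fun j => by ring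
        simp_rw [e7, ← Finset.mul_sum, hne, mul_one]
      rw [this]
    rw [e4, e5, e6]; ring
  have t4 : ∑ i, ∑ j, A (bv i) (bv j) * R (bv i) (bv j) = mt A B e - A e e * hs2 A +
      ∑ i, ∑ j, A (bv i) (bv j) * sqB A (bv i) (bv j) := by
    unfold mt hs2
    simp only [hR, Finset.mul_sum, ← Finset.sum_add_distrib, ← Finset.sum_sub_distrib]
    refine Finset.sum_congr rfl fun i _ => Finset.sum_congr rfl fun j _ => ?_
    ring
  have t5 : R e e = hs2 A := t1.symm.trans t2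
  rw [t3, t5] at t4
  linarith

/-- the bound of the contraction at regular free boundary points -/
lemma kk_bound {e : E d} {A : Bil d} {B : Tri d} (h : KK e A B) :
    |mt A B e| ≤ 3 * (Real.sqrt (hs2 A) * hs2 A) := by
  have hm := hs2_nonneg A
  set s := Real.sqrt (hs2 A) with hs
  have hs0 : 0 ≤ s := Real.sqrt_nonneg _
  have hss : s ^ 2 = hs2 A := Real.sq_sqrt hm
  have h1 : |A e e| ≤ s := by
    have h2 := (A e).le_opNorm e
    have h3 := A.le_opNorm e
    rw [h.norm_e, mul_one] at h2 h3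
    have h4 : ‖A‖ ≤ s := by
      have h5 : ‖A‖ ^ 2 ≤ s ^ 2 := by rw [hss]; exact norm_sq_le_hs2 A
      exact (abs_le_of_sq_le_sq' h5 hs0).2
    rw [← Real.norm_eq_abs]
    linarith
  have h2 : |∑ i, ∑ j, A (bv i) (bv j) * sqB A (bv i) (bv j)| ≤ s * hs2 A := by
    have h3 : (∑ i, ∑ j, A (bv i) (bv j) * sqB A (bv i) (bv j)) ^ 2 ≤
        hs2 A * hs2 (sqB A) := by
      unfold hs2
      have := Finset.sum_mul_sq_le_sq_mul_sq (Finset.univ : Finset (Fin d × Fin d))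
        (fun q => A (bv q.1) (bv q.2)) (fun q => sqB A (bv q.1) (bv q.2))
      simpa only [Fintype.sum_prod_type] using this
    have h4 : hs2 (sqB A) ≤ hs2 A * hs2 A := by
      have h5 : ∀ i j : Fin d, (sqB A (bv i) (bv j)) ^ 2 ≤
          (∑ k, (A (bv i) (bv k)) ^ 2) * (∑ k, (A (bv j) (bv k)) ^ 2) := by
        intro i j
        rw [sqB_apply]
        exact Finset.sum_mul_sq_le_sq_mul_sq _ _ _
      calc hs2 (sqB A) ≤ ∑ i, ∑ j, (∑ k, (A (bv i) (bv k)) ^ 2) * (∑ k, (A (bv j) (bv k)) ^ 2) :=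
            Finset.sum_le_sum fun i _ => Finset.sum_le_sum fun j _ => h5 i j
        _ = hs2 A * hs2 A := by
            rw [← Finset.sum_mul_sum]; rfl
    have h6 : (∑ i, ∑ j, A (bv i) (bv j) * sqB A (bv i) (bv j)) ^ 2 ≤ (s * hs2 A) ^ 2 := by
      rw [mul_pow, hss]
      nlinarith
    exact abs_le_of_sq_le_sq h6 (by positivity)
  rw [kk_cubic h]
  have h7 : |2 * A e e * hs2 A| ≤ 2 * s * hs2 A := by
    rw [abs_mul, abs_mul, abs_two, abs_of_nonneg hm]
    gcongr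
  calc _ ≤ |2 * A e e * hs2 A| + |∑ i, ∑ j, A (bv i) (bv j) * sqB A (bv i) (bv j)| := abs_sub _ _
    _ ≤ 2 * s * hs2 A + s * hs2 A := add_le_add h7 h2
    _ = 3 * (s * hs2 A) := by ring

end KT

end Crest.Agent.R097
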