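import Crest.Agent.R097.RedDec

/-!
# Row 97: the pointwise inequality (PJ) for the small class `{γ, y0, y1, y2, Z}` from 4×4 blocks

`X = γ (M : T) + (y0 + y1 M + y2 M²) g`, test function `√Z`, all coefficients functions of
`(P₂, P₃, q, s)`.  Pure linear algebra at one point, in an eigenbasis of `N = |x| D²u` restricted to
`x^⊥`.
-/

set_option autoImplicit false
open Finset

namespace Crest.Agent.R097.Dec

variable {n : ℕ}

/-- value and first partial derivatives (in `P₂, P₃, q, s`) of a coefficient function at a point -/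
structure Jet where
  v : ℝ
  d2 : ℝ
  d3 : ℝ
  dq : ℝ
  ds : ℝ

/-- the covariant derivative `f_{;k}` of `f(P₂,P₃,q,s)` on the link -/
noncomputable def Jet.D (J : Jet) (lam g : Fin n → ℝ) (T : Fin n → Fin n → Fin n → ℝ) (s : ℝ)
    (k : Fin n) : ℝ :=
  J.d2 * (2 * tau lam T k) + J.d3 * (3 * tau2 lam T k) + (2 * J.dq * (lam k - s) + J.ds) * g k

/-- (PJ) for the class `{γ, y0, y1, y2, Z}` -/
def PJs (lam g : Fin n → ℝ) (T : Fin n → Fin n → Fin n → ℝ) (s Lam : ℝ)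
    (γ y0 y1 y2 Z : Jet) : Prop :=
  (∑ k, Z.D lam g T s k ^ 2) / (4 * Z.v) + Lam * Z.v ≤
    y0.v * (-(s * n)) + y1.v * ∑ i, lam i ^ 2
      + y2.v * (∑ l, tau lam T l * g l + ∑ i, lam i ^ 3 - s * ∑ i, lam i ^ 2)
      + ∑ k, (y0.D lam g T s k + y1.D lam g T s k * lam k + y2.D lam g T s k * lam k ^ 2) * g k
      + γ.v * (n * ∑ i, lam i ^ 2 + ∑ i, ∑ j, ∑ k, T i j k ^ 2)
      + ∑ k, γ.D lam g T s k * tau lam T k

/-- zero order coefficient -/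
noncomputable def C0 (m a c s Lam : ℝ) (γ y0 y1 y2 Z : Jet) : ℝ :=
  m * γ.v * a - m * s * y0.v + y1.v * a + y2.v * (c - s * a) - Lam * Z.v

/-- coefficient of `g_k²` -/
noncomputable def Ck (x s : ℝ) (y0 y1 y2 : Jet) : ℝ :=
  (2 * y0.dq * (x - s) + y0.ds) + (2 * y1.dq * (x - s) + y1.ds) * x +
    (2 * y2.dq * (x - s) + y2.ds) * x ^ 2

/-- coefficient of `g_k τ_k` -/
noncomputable def L1 (x s : ℝ) (γ y0 y1 y2 : Jet) : ℝ :=
  y2.v + 2 * (y0.d2 + y1.d2 * x + y2.d2 * x ^ 2) + (2 * γ.dq * (x - s) + γ.ds)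

/-- coefficient of `g_k τ2_k` -/
noncomputable def L2 (x : ℝ) (y0 y1 y2 : Jet) : ℝ :=
  3 * (y0.d3 + y1.d3 * x + y2.d3 * x ^ 2)

/-- coefficient of `g_k` in `Z_{;k}` -/
noncomputable def ZE (x s : ℝ) (Z : Jet) : ℝ := 2 * Z.dq * (x - s) + Z.ds

/-- the block form in `(σ, y1, y2, w)` for the eigendirection with eigenvalue `x` -/
noncomputable def Blk (m x a c p q s Lam : ℝ) (γ y0 y1 y2 Z : Jet) (σ t1 t2 w : ℝ) : ℝ :=
  let t := K11 m a x * t1 + K12 m a c x * t2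
  let t' := K12 m a c x * t1 + K22 m a p x * t2
  σ ^ 2 * (C0 m a c s Lam γ y0 y1 y2 Z + q * Ck x s y0 y1 y2)
    + √q * σ * (L1 x s γ y0 y1 y2 * t + L2 x y0 y1 y2 * t')
    + 2 * γ.d2 * t ^ 2 + 3 * γ.d3 * t * t'
    + γ.v * (K11 m a x * t1 ^ 2 + 2 * K12 m a c x * t1 * t2 + K22 m a p x * t2 ^ 2)
    + w * (2 * Z.d2 * t + 3 * Z.d3 * t' + √q * σ * ZE x s Z) + Z.v * w ^ 2

theorem pjs_of_blocks (hn : 0 < n) {lam g : Fin n → ℝ} {T : Fin n → Fin n → Fin n → ℝ}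
    (h12 : ∀ i j k, T i j k = T j i k) (h23 : ∀ i j k, T i j k = T i k j)
    (htr : ∀ k, ∑ i, T i i k = 0) (h1 : ∑ i, lam i = 0) {a c p q s Lam : ℝ}
    (ha : ∑ i, lam i ^ 2 = a) (hc : ∑ i, lam i ^ 3 = c) (hp : ∑ i, lam i ^ 4 = p)
    (hq : ∑ i, g i ^ 2 = q) {γ y0 y1 y2 Z : Jet} (hγ : 0 ≤ γ.v) (hZ : 0 < Z.v)
    (hk : ∀ k, ∀ σ t1 t2 w : ℝ, 0 ≤ Blk n (lam k) a c p q s Lam γ y0 y1 y2 Z σ t1 t2 w) :
    PJs lam g T s Lam γ y0 y1 y2 Z := by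
  have hq0 : 0 ≤ q := by rw [← hq]; exact Finset.sum_nonneg fun i _ => sq_nonneg _
  have hsq : √q ^ 2 = q := Real.sq_sqrt hq0
  let Φ : Fin n → ℝ → ℝ → ℝ → ℝ := fun k x t t' =>
    x ^ 2 * Ck (lam k) s y0 y1 y2 + x * (L1 (lam k) s γ y0 y1 y2 * t + L2 (lam k) y0 y1 y2 * t')
      + 2 * γ.d2 * t ^ 2 + 3 * γ.d3 * t * t'
      - (2 * Z.d2 * t + 3 * Z.d3 * t' + x * ZE (lam k) s Z) ^ 2 / (4 * Z.v)
  have key := decouple hn h12 h23 htr h1 ha hc hp hq (γ := γ.v)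
    (C0 := C0 n a c s Lam γ y0 y1 y2 Z) hγ Φ (fun k => by simp [Φ]) ?_
  · unfold PJs
    rw [ha, hc]
    have e1 : ∑ k, Φ k (g k) (tau lam T k) (tau2 lam T k) =
        y2.v * ∑ l, tau lam T l * g l
        + ∑ k, (y0.D lam g T s k + y1.D lam g T s k * lam k + y2.D lam g T s k * lam k ^ 2) * g k
        + ∑ k, γ.D lam g T s k * tau lam T k - (∑ k, Z.D lam g T s k ^ 2) / (4 * Z.v) := by
      rw [Finset.mul_sum, Finset.sum_div, ← Finset.sum_add_distrib, ← Finset.sum_add_distrib,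
        ← Finset.sum_sub_distrib]
      refine Finset.sum_congr rfl fun k _ => ?_
      simp only [Φ, Ck, L1, L2, ZE, Jet.D]
      ring
    have e2 : C0 (n : ℝ) a c s Lam γ y0 y1 y2 Z =
      n * γ.v * a - n * s * y0.v + y1.v * a + y2.v * (c - s * a) - Lam * Z.v := rfl
    rw [e1, e2] at key
    nlinarith [key]
  · intro k σ t1 t2
    have h := hk k σ t1 t2 (-(2 * Z.d2 * (K11 n a (lam k) * t1 + K12 n a c (lam k) * t2) +
      3 * Z.d3 * (K12 n a c (lam k) * t1 + K22 n a p (lam k) * t2) +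
      √q * σ * ZE (lam k) s Z) / (2 * Z.v))
    have hZ' := hZ.ne'
    have hw : ∀ z : ℝ, (-z / (2 * Z.v)) * z + Z.v * (-z / (2 * Z.v)) ^ 2 = - z ^ 2 / (4 * Z.v) := by
      intro z; field_simp; ring
    have hw1 := hw (2 * Z.d2 * (K11 n a (lam k) * t1 + K12 n a c (lam k) * t2) +
      3 * Z.d3 * (K12 n a c (lam k) * t1 + K22 n a p (lam k) * t2) +
      √q * σ * ZE (lam k) s Z)
    refine le_of_le_of_eq h ?_
    simp only [Blk, Φ]
    linear_combination hw1 - σ ^ 2 * Ck (lam k) s y0 y1 y2 * hsq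

end Crest.Agent.R097.Dec
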