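import Crest.Agent.R097.Iface
import Crest.Agent.R097.Defs

/-!
# Row 97: regular points and scaling
-/

set_option autoImplicit false
open MeasureTheory Metric Set Filter Topology InnerProductSpace
open scoped RealInnerProductSpace NNReal ENNReal Gradient Laplacian ContDiff

namespace Crest.Agent.R097

variable {d : ℕ}

set_option synthInstance.maxHeartbeats 400000 in
noncomputable instance instAMBil : AddMonoid (E d →L[ℝ] E d →L[ℝ] ℝ) := inferInstance
noncomputable instance instNACGTri : NormedAddCommGroup (E d →L[ℝ] E d →L[ℝ] E d →L[ℝ] ℝ) :=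
  inferInstance
noncomputable instance instNSTri : NormedSpace ℝ (E d →L[ℝ] E d →L[ℝ] E d →L[ℝ] ℝ) :=
  inferInstance

lemma KK.scale {e : E d} {A : Bil d} {B : Tri d} (h : KK e A B) (s : ℝ) :
    KK e (s • A) ((s ^ 2) • B) where
  norm_e := h.norm_e
  stfA := ⟨fun x y => by simp [h.stfA.symm x y], by
    simp only [FunLike.coe_smul, Pi.smul_apply, smul_eq_mul, ← Finset.mul_sum,
      h.stfA.tr, mul_zero]⟩
  stfB := ⟨fun x y z => by simp [h.stfB.symm12 x y z], fun x y z => by simp [h.stfB.symm23 x y z],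
    fun x => by
      simp only [FunLike.coe_smul, Pi.smul_apply, smul_eq_mul, ← Finset.mul_sum,
        h.stfB.tr, mul_zero]⟩
  eig := fun t ht => by simp [h.eig t ht]
  bdry := fun t ht => by
    have := h.bdry t ht
    simp only [FunLike.coe_smul, Pi.smul_apply, smul_eq_mul, this]
    rw [mul_sub, Finset.mul_sum]
    congr 1
    · ring
    · refine Finset.sum_congr rfl fun i _ => ?_
      ring

lemma fderiv_affine {F : Type*} [NormedAddCommGroup F] [NormedSpace ℝ F] (f : E d → F)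
    (x0 : E d) (r : ℝ) (x : E d) :
    fderiv ℝ (fun x => f (x0 + r • x)) x = r • fderiv ℝ f (x0 + r • x) := by
  have h1 := fderiv_comp_smul (𝕜 := ℝ) (f := fun z => f (x0 + z)) (x := x) r
  rw [fderiv_comp_add_left] at h1
  exact h1

lemma fderiv_smul_gen {F : Type*} [NormedAddCommGroup F] [NormedSpace ℝ F] (g : E d → F)
    (r : ℝ) (x : E d) : fderiv ℝ (r • g) x = r • fderiv ℝ g x := by
  rw [fderiv_const_smul_field]; rfl

lemma fderiv_blow (u : E d → ℝ) (x0 : E d) {r : ℝ} (hr : r ≠ 0) :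
    fderiv ℝ (blow u x0 r) = fun x => fderiv ℝ u (x0 + r • x) := by
  ext1 x
  have h1 : blow u x0 r = r⁻¹ • (fun y => u (x0 + r • y)) := by
    ext y; simp [blow, div_eq_inv_mul]
  rw [h1, fderiv_const_smul_field, Pi.smul_apply, fderiv_affine, smul_smul, inv_mul_cancel₀ hr, one_smul]

lemma D2_blow (u : E d → ℝ) (x0 : E d) {r : ℝ} (hr : r ≠ 0) :
    D2 (blow u x0 r) = fun x => r • D2 u (x0 + r • x) := by
  ext1 x
  unfold D2
  rw [fderiv_blow u x0 hr, fderiv_affine]

lemma D3_blow (u : E d → ℝ) (x0 : E d) {r : ℝ} (hr : r ≠ 0) :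
    D3 (blow u x0 r) = fun x => (r ^ 2) • D3 u (x0 + r • x) := by
  ext1 x
  have h0 : fderiv ℝ (fderiv ℝ (blow u x0 r)) = r • (fun x => D2 u (x0 + r • x)) := D2_blow u x0 hr
  unfold D3
  rw [h0, fderiv_smul_gen, fderiv_affine, smul_smul, pow_two]
  rfl

lemma regPt_of_blow {u : E d → ℝ} {x0 : E d} {r : ℝ} (hr : 0 < r)
    (h : RegPt (blow u x0 r) 0) : RegPt u x0 := by
  obtain ⟨e, A, B, hJ⟩ := h
  have hr0 : r ≠ 0 := hr.ne'
  set φ : E d → E d := fun z => r⁻¹ • (z - x0) with hφ
  have hφinv : ∀ z, x0 + r • φ z = z := by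
    intro z
    simp only [hφ, smul_smul, mul_inv_cancel₀ hr0, one_smul]
    abel
  have hT : Tendsto φ (𝓝[Om u] x0) (𝓝[Om (blow u x0 r)] 0) := by
    refine tendsto_nhdsWithin_iff.2 ⟨?_, ?_⟩
    · have hc : Continuous φ := by fun_prop
      have h1 : Tendsto φ (𝓝 x0) (𝓝 (φ x0)) := hc.tendsto x0
      have h2 : φ x0 = 0 := by simp [hφ]
      rw [h2] at h1
      exact h1.mono_left nhdsWithin_le_nhds
    · filter_upwards [self_mem_nhdsWithin] with z hz
      show 0 < blow u x0 r (φ z)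
      unfold blow
      rw [hφinv]
      exact div_pos hz hr
  refine ⟨e, r⁻¹ • A, (r⁻¹ ^ 2) • B, hJ.kk.scale _, ?_, ?_, ?_⟩
  · have h1 := hJ.t1.comp hT
    refine h1.congr fun z => ?_
    simp only [Function.comp_apply, fderiv_blow u x0 hr0, hφinv]
  · have h1 := (hJ.t2.comp hT).const_smul r⁻¹
    refine h1.congr fun z => ?_
    simp only [Function.comp_apply, D2_blow u x0 hr0, hφinv, smul_smul, inv_mul_cancel₀ hr0,
      one_smul]
  · have h1 := (hJ.t3.comp hT).const_smul (r⁻¹ ^ 2)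
    refine h1.congr fun z => ?_
    simp only [Function.comp_apply, D3_blow u x0 hr0, hφinv, smul_smul]
    rw [← mul_pow, inv_mul_cancel₀ hr0, one_pow, one_smul]

end Crest.Agent.R097
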