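import Crest.Agent.R097.LapChain

/-!
# Row 97, S0-d: Hopf type lower bound for nonnegative harmonic functions in a ball
-/

set_option autoImplicit false
open MeasureTheory Metric Set Filter Topology Laplacian InnerProductSpace
open scoped RealInnerProductSpace NNReal ContDiff Gradient

namespace Crest.Agent.R097
noncomputable section
variable {d : ℕ}

lemma bar_contDiff (c : E d) (β : ℝ) : ContDiff ℝ 2 (fun y : E d => Real.exp (-β * ‖y - c‖ ^ 2)) :=
  Real.contDiff_exp.comp (contDiff_const.mul ((contDiff_id.sub contDiff_const).norm_sq ℝ))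

lemma bar_lap (c : E d) (β : ℝ) (x : E d) :
    (Δ (fun y : E d => Real.exp (-β * ‖y - c‖ ^ 2))) x
      = Real.exp (-β * ‖x - c‖ ^ 2) * (2 * β) * (2 * β * ‖x - c‖ ^ 2 - d) := by
  have h := Crest.Agent.R077.lap_radial (n := d) (φ0 := fun t => Real.exp (-β * t))
    (φ1 := fun t => Real.exp (-β * t) * (-β)) (φ2 := fun t => Real.exp (-β * t) * (-β) * (-β))
    (x := c)
    (fun t _ => by
      have h1 : HasDerivAt (fun t => -β * t) (-β) t := by
        simpa using (hasDerivAt_id t).const_mul (-β)
      exact h1.exp)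
    (fun t _ => by
      have h1 : HasDerivAt (fun t => -β * t) (-β) t := by
        simpa using (hasDerivAt_id t).const_mul (-β)
      exact h1.exp.mul_const (-β))
    (by fun_prop) x
  rw [h]
  ring

theorem harm_barrier (d : ℕ) (hd : 0 < d) : ∃ c0 : ℝ, 0 < c0 ∧ ∀ (c : E d) (r : ℝ), 0 < r →
    ∀ V : E d → ℝ, Harm V (ball c r) → (∀ x ∈ ball c r, 0 ≤ V x) →
    ∀ x ∈ ball c r, c0 * V c * (r ^ 2 - ‖x - c‖ ^ 2) / r ^ 2 ≤ V x := by
  obtain ⟨C, hC1, hC⟩ := harnack d
  have hC0 : 0 < C := by linarith
  have hd' : (1:ℝ) ≤ d := by exact_mod_cast hd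
  set α : ℝ := 8 * d with hα
  have hα0 : 0 < α := by positivity
  have hαe : α * Real.exp (-α) ≤ 1 := by
    have h1 := Real.add_one_le_exp α
    rw [Real.exp_neg, mul_inv_le_iff₀ (Real.exp_pos α)]
    linarith
  refine ⟨α * Real.exp (-α) / C, by positivity, ?_⟩
  intro c r hr V hV hV0 x hx
  set a : ℝ := V c / C with ha
  have hVc : 0 ≤ V c := hV0 c (mem_ball_self hr)
  have ha0 : 0 ≤ a := by positivity
  have hxr : ‖x - c‖ < r := by rwa [mem_ball, dist_eq_norm] at hx
  have hin : ∀ y ∈ ball c (r / 2), a ≤ V y := by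
    intro y hy
    have := (hC V c r hr hV hV0 y hy).2
    rw [ha, div_le_iff₀ hC0]
    linarith
  set s : ℝ := ‖x - c‖ ^ 2 / r ^ 2 with hs
  have hs0 : 0 ≤ s := by positivity
  have hs1 : s < 1 := by
    rw [hs, div_lt_one (by positivity)]
    exact pow_lt_pow_left₀ hxr (norm_nonneg _) (by norm_num)
  have hgoal : α * Real.exp (-α) / C * V c * (r ^ 2 - ‖x - c‖ ^ 2) / r ^ 2
      = a * (α * Real.exp (-α)) * (1 - s) := by
    rw [ha, hs]
    field_simp
  rw [hgoal]
  by_cases hx4 : ‖x - c‖ ≤ r / 4
  · have h1 := hin x (by rw [mem_ball, dist_eq_norm]; linarith)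
    have h2 : a * (α * Real.exp (-α)) * (1 - s) ≤ a * 1 * 1 := by
      apply mul_le_mul _ (by linarith) (by linarith) (by positivity)
      exact mul_le_mul_of_nonneg_left hαe ha0
    linarith
  push Not at hx4
  -- the barrier in the annulus
  have hann : ∀ ρ, ‖x - c‖ < ρ → ρ < r →
      a * (Real.exp (-(α / r ^ 2) * ‖x - c‖ ^ 2) - Real.exp (-(α / r ^ 2) * ρ ^ 2)) ≤ V x := by
    intro ρ hxρ hρr
    set β : ℝ := α / r ^ 2 with hβ
    have hβ0 : 0 < β := by positivity
    set D : Set (E d) := ball c ρ \ closedBall c (r / 4) with hD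
    have hDo : IsOpen D := isOpen_ball.sdiff isClosed_closedBall
    have hDb : Bornology.IsBounded D := isBounded_ball.subset sdiff_subset
    have hclos : closure D ⊆ {y : E d | r / 4 ≤ ‖y - c‖ ∧ ‖y - c‖ ≤ ρ} := by
      have hcn : Continuous fun y : E d => ‖y - c‖ := by fun_prop
      apply closure_minimal
      · rintro y ⟨h1, h2⟩
        rw [mem_ball, dist_eq_norm] at h1
        rw [mem_closedBall, dist_eq_norm, not_le] at h2
        exact ⟨h2.le, h1.le⟩
      · exact (isClosed_le continuous_const hcn).inter (isClosed_le hcn continuous_const)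
    have hsub : closure D ⊆ ball c r := by
      intro y hy
      rw [mem_ball, dist_eq_norm]
      exact (hclos hy).2.trans_lt hρr
    have hVc : ContinuousOn V (closure D) := hV.1.continuousOn.mono hsub
    set w : E d → ℝ := fun y => a * Real.exp (-β * ‖y - c‖ ^ 2) + (-(a * Real.exp (-β * ρ ^ 2)))
      with hw
    have hwC : ContDiff ℝ 2 w := (contDiff_const.mul (bar_contDiff c β)).add contDiff_const
    have hmax := Hm.max_principle hd hDo hDb (h := fun y => w y + -V y) (M := 0)
      (hwC.continuous.continuousOn.add hVc.neg)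
      (hwC.contDiffOn.add (hV.contDiffOn_two.mono (subset_closure.trans hsub)).neg)
      (by
        intro y hy
        have hyr : y ∈ ball c r := hsub (subset_closure hy)
        have hV2 : ContDiffAt ℝ 2 V y := hV.contDiffOn_two.contDiffAt (isOpen_ball.mem_nhds hyr)
        rw [Hm.lap_add_at hwC.contDiffAt hV2.neg, Hm.lap_neg, hV.2 y hyr]
        have h1 : (Δ w) y = a * (Δ (fun y : E d => Real.exp (-β * ‖y - c‖ ^ 2))) y := by
          rw [hw, Hm.lap_add_at (contDiff_const.mul (bar_contDiff c β)).contDiffAt contDiffAt_const,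
            Hm.lap_const_mul_at a (bar_contDiff c β).contDiffAt]
          simp
        rw [h1, bar_lap]
        have h2 : r / 4 ≤ ‖y - c‖ := (hclos (subset_closure hy)).1
        have h3 : (r / 4) ^ 2 ≤ ‖y - c‖ ^ 2 := pow_le_pow_left₀ (by positivity) h2 2
        have h4 : (0:ℝ) ≤ 2 * β * ‖y - c‖ ^ 2 - d := by
          have h5 : 2 * β * (r / 4) ^ 2 = d := by
            rw [hβ, hα]
            field_simp
            norm_num
          have h6 := mul_le_mul_of_nonneg_left h3 (show (0:ℝ) ≤ 2 * β by positivity)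
          linarith
        have h7 : 0 ≤ Real.exp (-β * ‖y - c‖ ^ 2) * (2 * β) * (2 * β * ‖y - c‖ ^ 2 - d) :=
          mul_nonneg (by positivity) h4
        have h8 := mul_nonneg ha0 h7
        linarith)
      (by
        intro y hy
        have hyc := hclos (frontier_subset_closure hy)
        have hyD : y ∉ D := by
          intro h
          rw [hDo.frontier_eq] at hy
          exact hy.2 h
        have hVy : 0 ≤ V y := hV0 y (hsub (frontier_subset_closure hy))
        rw [hw]
        simp only
        by_cases hρ : ‖y - c‖ < ρ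
        · have h1 : ‖y - c‖ = r / 4 := by
            apply le_antisymm _ hyc.1
            by_contra hcon
            push Not at hcon
            exact hyD ⟨by rw [mem_ball, dist_eq_norm]; exact hρ,
              by rw [mem_closedBall, dist_eq_norm, not_le]; exact hcon⟩
          have h2 := hin y (by rw [mem_ball, dist_eq_norm]; linarith)
          have h3 : Real.exp (-β * ‖y - c‖ ^ 2) ≤ 1 := by
            rw [Real.exp_le_one_iff]
            nlinarith [sq_nonneg ‖y - c‖, hβ0]
          have h4 : 0 ≤ a * Real.exp (-β * ρ ^ 2) := by positivity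
          have h5 := mul_le_mul_of_nonneg_left h3 ha0
          linarith
        · have h1 : ‖y - c‖ = ρ := le_antisymm hyc.2 (not_lt.mp hρ)
          rw [h1]
          linarith)
    have hxD : x ∈ closure D := subset_closure
      ⟨by rw [mem_ball, dist_eq_norm]; exact hxρ, by rw [mem_closedBall, dist_eq_norm, not_le]; exact hx4⟩
    have := hmax x hxD
    simp only [hw] at this
    linarith
  -- let ρ → r
  have hlim : a * (Real.exp (-(α / r ^ 2) * ‖x - c‖ ^ 2) - Real.exp (-(α / r ^ 2) * r ^ 2)) ≤ V x := by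
    have h1 : Tendsto (fun ρ : ℝ => a * (Real.exp (-(α / r ^ 2) * ‖x - c‖ ^ 2)
        - Real.exp (-(α / r ^ 2) * ρ ^ 2))) (𝓝[<] r)
        (𝓝 (a * (Real.exp (-(α / r ^ 2) * ‖x - c‖ ^ 2) - Real.exp (-(α / r ^ 2) * r ^ 2)))) := by
      apply Tendsto.mono_left _ nhdsWithin_le_nhds
      apply Continuous.tendsto
      fun_prop
    refine le_of_tendsto h1 ?_
    filter_upwards [Ioo_mem_nhdsLT hxr] with ρ hρ
    exact hann ρ hρ.1 hρ.2
  have e1 : -(α / r ^ 2) * ‖x - c‖ ^ 2 = -α + α * (1 - s) := by
    rw [hs]; field_simp; ring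
  have e2 : -(α / r ^ 2) * r ^ 2 = -α := by
    field_simp
  rw [e1, e2, Real.exp_add] at hlim
  have h3 := Real.add_one_le_exp (α * (1 - s))
  have h4 : Real.exp (-α) * (α * (1 - s)) ≤ Real.exp (-α) * Real.exp (α * (1 - s)) - Real.exp (-α) := by
    have := mul_le_mul_of_nonneg_left h3 (Real.exp_pos (-α)).le
    linarith
  have h5 := mul_le_mul_of_nonneg_left h4 ha0
  linarith

end
end Crest.Agent.R097
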