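import Crest.Agent.R097.LapChain

/-!
# Row 97, S0-c: a harmonic function whose negative part has finite Hardy integral is nonnegative
-/

set_option autoImplicit false
open MeasureTheory Metric Set Filter Topology Laplacian InnerProductSpace
open scoped RealInnerProductSpace NNReal ContDiff Gradient

namespace Crest.Agent.R097
noncomputable section
variable {d : ℕ}

/-! ### monotonicity of ball averages of `C²` subharmonic functions -/

lemma Hm.MM_mono (k : ℕ) {h : E d → ℝ} {x : E d} {s t R : ℝ} (hs : 0 < s) (hst : s ≤ t) (htR : t < R)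
    (hh : ContDiffOn ℝ 2 h (ball x R)) (hΔ : ∀ y ∈ ball x t, 0 ≤ (Δ h) y) :
    Hm.MM k s h x ≤ Hm.MM k t h x := by
  have ht : 0 < t := hs.trans_le hst
  have hmono : MonotoneOn (fun s => Hm.MM k s h x) (Ioc 0 t) := by
    apply monotoneOn_of_deriv_nonneg (convex_Ioc 0 t)
    · intro a ha
      exact (Hm.hasDerivAt_MM_C2 k ha.1 (ha.2.trans_lt htR) hh).continuousAt.continuousWithinAt
    · intro a ha
      rw [interior_Ioc] at ha
      exact (Hm.hasDerivAt_MM_C2 k ha.1 (ha.2.trans htR) hh).differentiableAt.differentiableWithinAt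
    · intro a ha
      rw [interior_Ioc] at ha
      rw [(Hm.hasDerivAt_MM_C2 k ha.1 (ha.2.trans htR) hh).deriv]
      apply integral_nonneg
      intro y
      change 0 ≤ (Δ h) y * (-Hm.pot k a x y)
      by_cases hy : a ≤ ‖y - x‖
      · rw [Hm.pot_zero k ha.1 hy]; simp
      · apply mul_nonneg _ (by linarith [Hm.pot_nonpos k ha.1.le x y])
        apply hΔ
        rw [mem_ball, dist_eq_norm]
        push Not at hy
        linarith [ha.2]
  exact hmono ⟨hs, hst⟩ ⟨ht, le_rfl⟩ hst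

lemma Hm.ball_mono {h : E d → ℝ} {x : E d} {s t R : ℝ} (hs : 0 < s) (hst : s ≤ t) (htR : t < R)
    (hh : ContDiffOn ℝ 2 h (ball x R)) (hΔ : ∀ y ∈ ball x t, 0 ≤ (Δ h) y) :
    (s ^ d)⁻¹ * ∫ y in ball x s, h y ≤ (t ^ d)⁻¹ * ∫ y in ball x t, h y := by
  have ht : 0 < t := hs.trans_le hst
  have hI : ∀ a, a < R → IntegrableOn h (closedBall x a) := fun a ha =>
    (hh.continuousOn.mono (closedBall_subset_ball ha)).integrableOn_compact
      (isCompact_closedBall _ _)
  exact le_of_tendsto_of_tendsto' (Hm.tendsto_MM_k hs (hI s (hst.trans_lt htR)))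
    (Hm.tendsto_MM_k ht (hI t htR)) (fun k => Hm.MM_mono k hs hst htR hh hΔ)

/-! ### the truncation -/

/-- `t⁴/(1+t²)` for `t < 0` -/
def gam (t : ℝ) : ℝ := (min t 0) ^ 2 - 1 + (1 + (min t 0) ^ 2)⁻¹

lemma hasDerivAt_min_comp {F F' : ℝ → ℝ} (hF : ∀ t, HasDerivAt F (F' t) t) (h0 : F' 0 = 0) (t : ℝ) :
    HasDerivAt (fun t => F (min t 0)) (F' (min t 0)) t := by
  rcases lt_trichotomy t 0 with ht | ht | ht
  · rw [min_eq_left ht.le]
    refine (hF t).congr_of_eventuallyEq ?_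
    filter_upwards [Iio_mem_nhds ht] with s hs
    rw [min_eq_left (le_of_lt hs)]
  · subst ht
    rw [min_self, ← hasDerivWithinAt_univ, ← Iic_union_Ici (a := (0:ℝ))]
    apply HasDerivWithinAt.union
    · refine (hF 0).hasDerivWithinAt.congr (fun s hs => ?_) (by simp)
      rw [min_eq_left hs]
    · rw [h0]
      refine (hasDerivWithinAt_const (0:ℝ) (Ici (0:ℝ)) (F 0)).congr (fun s hs => ?_) (by simp)
      rw [min_eq_right hs]
  · rw [min_eq_right ht.le, h0]
    refine (hasDerivAt_const t (F 0)).congr_of_eventuallyEq ?_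
    filter_upwards [Ioi_mem_nhds ht] with s hs
    rw [min_eq_right (le_of_lt hs)]

/-- first derivative -/
def gam1 (t : ℝ) : ℝ := 2 * (min t 0) - 2 * (min t 0) * ((1 + (min t 0) ^ 2) ^ 2)⁻¹
/-- second derivative -/
def gam2 (t : ℝ) : ℝ := 2 - (2 - 6 * (min t 0) ^ 2) * ((1 + (min t 0) ^ 2) ^ 3)⁻¹

lemma hasDerivAt_gam (t : ℝ) : HasDerivAt gam (gam1 t) t := by
  refine hasDerivAt_min_comp (F := fun s => s ^ 2 - 1 + (1 + s ^ 2)⁻¹)
    (F' := fun s => 2 * s - 2 * s * ((1 + s ^ 2) ^ 2)⁻¹) (fun s => ?_) (by simp) t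
  have h0 : (1 + s ^ 2) ≠ 0 := by positivity
  have h1 : HasDerivAt (fun s : ℝ => 1 + s ^ 2) (2 * s) s := by
    simpa using (hasDerivAt_pow 2 s).const_add 1
  have h2 : HasDerivAt (fun s : ℝ => s ^ 2 - 1) (2 * s) s := by
    simpa using (hasDerivAt_pow 2 s).sub_const 1
  refine (h2.add (h1.inv h0)).congr_deriv ?_
  field_simp
  ring

lemma hasDerivAt_gam1 (t : ℝ) : HasDerivAt gam1 (gam2 t) t := by
  refine hasDerivAt_min_comp (F := fun s => 2 * s - 2 * s * ((1 + s ^ 2) ^ 2)⁻¹)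
    (F' := fun s => 2 - (2 - 6 * s ^ 2) * ((1 + s ^ 2) ^ 3)⁻¹) (fun s => ?_) (by norm_num) t
  have h0 : (1 + s ^ 2) ≠ 0 := by positivity
  have h00 : (1 + s ^ 2) ^ 2 ≠ 0 := by positivity
  have h1 : HasDerivAt (fun s : ℝ => 1 + s ^ 2) (2 * s) s := by
    simpa using (hasDerivAt_pow 2 s).const_add 1
  have h2 : HasDerivAt (fun s : ℝ => 2 * s) 2 s := by
    simpa using (hasDerivAt_id s).const_mul 2
  have h3 := (h1.pow 2).inv h00
  refine (h2.sub (h2.mul h3)).congr_deriv ?_
  simp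
  field_simp
  ring

lemma continuous_gam2 : Continuous gam2 := by
  have hm : Continuous fun t : ℝ => min t 0 := continuous_id.min continuous_const
  unfold gam2
  apply continuous_const.sub
  apply Continuous.mul (by fun_prop)
  apply Continuous.inv₀ (by fun_prop)
  intro t
  positivity

lemma contDiff_gam : ContDiff ℝ 2 gam := by
  rw [show (2 : WithTop ℕ∞) = 1 + 1 by norm_num, contDiff_succ_iff_deriv]
  refine ⟨fun t => (hasDerivAt_gam t).differentiableAt, by simp, ?_⟩
  have h1 : deriv gam = gam1 := funext fun t => (hasDerivAt_gam t).deriv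
  rw [h1, contDiff_one_iff_deriv]
  refine ⟨fun t => (hasDerivAt_gam1 t).differentiableAt, ?_⟩
  have h2 : deriv gam1 = gam2 := funext fun t => (hasDerivAt_gam1 t).deriv
  rw [h2]
  exact continuous_gam2

lemma gam2_nonneg (t : ℝ) : 0 ≤ gam2 t := by
  unfold gam2
  set m := (min t 0) ^ 2 with hm
  have h0 : 0 ≤ m := by positivity
  rw [sub_nonneg, mul_inv_le_iff₀ (by positivity)]
  nlinarith [pow_nonneg h0 2, pow_nonneg h0 3]

lemma gam_eq (t : ℝ) : gam t = (min t 0) ^ 4 / (1 + (min t 0) ^ 2) := by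
  unfold gam
  have h0 : 1 + (min t 0) ^ 2 ≠ 0 := by positivity
  field_simp
  ring

lemma gam_nonneg (t : ℝ) : 0 ≤ gam t := by
  rw [gam_eq]; positivity

lemma gam_le (t : ℝ) : gam t ≤ (min t 0) ^ 2 := by
  rw [gam_eq, div_le_iff₀ (by positivity)]
  nlinarith [sq_nonneg (min t 0)]

lemma gam_pos {t : ℝ} (ht : t < 0) : 0 < gam t := by
  rw [gam_eq, min_eq_left ht.le]
  have h1 : 0 < t ^ 4 := by
    have h2 : 0 < t ^ 2 := by nlinarith
    nlinarith
  positivity

theorem harm_nonneg_of_hardy (hd : 0 < d) {c : E d} {r : ℝ} (hr : 0 < r) {V : E d → ℝ}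
    (hV : Harm V (ball c r))
    (hI : IntegrableOn (fun x => (min (V x) 0) ^ 2 / (r ^ 2 - ‖x - c‖ ^ 2) ^ 2) (ball c r)) :
    ∀ x ∈ ball c r, 0 ≤ V x := by
  intro x0 hx0
  by_contra hcon
  push Not at hcon
  set f : E d → ℝ := fun x => gam (V x) with hf
  have hfC : ContDiffOn ℝ 2 f (ball c r) := contDiff_gam.comp_contDiffOn hV.contDiffOn_two
  have hf0 : ∀ x, 0 ≤ f x := fun x => gam_nonneg _
  have hfΔ : ∀ x ∈ ball c r, 0 ≤ (Δ f) x := by
    intro x hx
    have hVx : ContDiffAt ℝ 2 V x := hV.contDiffOn_two.contDiffAt (isOpen_ball.mem_nhds hx)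
    rw [hf, Hm.lap_comp contDiff_gam.contDiffAt hVx, hV.2 x hx]
    have h1 : deriv gam = gam1 := funext fun t => (hasDerivAt_gam t).deriv
    rw [h1, (hasDerivAt_gam1 _).deriv, mul_zero, add_zero]
    exact mul_nonneg (gam2_nonneg _) (by positivity)
  have hx0r : ‖x0 - c‖ < r := by rwa [mem_ball, dist_eq_norm] at hx0
  obtain ⟨s0, hs0, hs0r⟩ := exists_between hx0r
  have hs0p : 0 < s0 := (norm_nonneg _).trans_lt hs0
  have hIf : ∀ t, t < r → IntegrableOn f (ball c t) := fun t ht =>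
    ((hfC.continuousOn.mono (closedBall_subset_ball ht)).integrableOn_compact
      (isCompact_closedBall _ _)).mono_set ball_subset_closedBall
  set m0 : ℝ := (s0 ^ d)⁻¹ * ∫ y in ball c s0, f y with hm0
  have hm0p : 0 < m0 := by
    apply mul_pos (by positivity)
    rw [setIntegral_pos_iff_support_of_nonneg_ae (Eventually.of_forall fun x => hf0 x) (hIf s0 hs0r)]
    have hcf : ContinuousAt f x0 := hfC.continuousOn.continuousAt (isOpen_ball.mem_nhds hx0)
    have h1 : ∀ᶠ y in 𝓝 x0, 0 < f y := by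
      apply hcf.eventually
      exact Ioi_mem_nhds (gam_pos hcon)
    have h2 : ∀ᶠ y in 𝓝 x0, y ∈ ball c s0 :=
      isOpen_ball.mem_nhds (by rwa [mem_ball, dist_eq_norm])
    obtain ⟨U, hU1, hU2, hU3⟩ := _root_.mem_nhds_iff.mp (h1.and h2)
    exact (hU2.measure_pos volume ⟨x0, hU3⟩).trans_le
      (measure_mono fun y hy => ⟨(hU1 hy).1.ne', (hU1 hy).2⟩)
  set J : ℝ := ∫ x in ball c r, (min (V x) 0) ^ 2 / (r ^ 2 - ‖x - c‖ ^ 2) ^ 2 with hJ
  have hJ0 : 0 ≤ J := integral_nonneg fun x => by positivity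
  have key : ∀ s t, s0 ≤ s → s < t → t < r → (t ^ d - s ^ d) * m0 ≤ (r ^ 2 - s ^ 2) ^ 2 * J := by
    intro s t hs hst htr
    have hsp : 0 < s := hs0p.trans_le hs
    have htp : 0 < t := hsp.trans hst
    have a1 := Hm.ball_mono hs0p hs (hst.trans htr) hfC
      (fun y hy => hfΔ y (ball_subset_ball (hst.trans htr).le hy))
    have a2 := Hm.ball_mono hsp hst.le htr hfC
      (fun y hy => hfΔ y (ball_subset_ball htr.le hy))
    rw [← hm0] at a1
    set Is := ∫ y in ball c s, f y with hIs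
    set It := ∫ y in ball c t, f y with hIt
    have hsd : 0 < s ^ d := by positivity
    have htd : 0 < t ^ d := by positivity
    have a3 : s ^ d * m0 ≤ Is := by
      have := mul_le_mul_of_nonneg_left a1 hsd.le
      rwa [mul_inv_cancel_left₀ hsd.ne'] at this
    have a4 : t ^ d * ((s ^ d)⁻¹ * Is) ≤ It := by
      have := mul_le_mul_of_nonneg_left a2 htd.le
      rwa [mul_inv_cancel_left₀ htd.ne'] at this
    have hpow : s ^ d ≤ t ^ d := pow_le_pow_left₀ hsp.le hst.le d
    have a5 : (t ^ d - s ^ d) * m0 ≤ It - Is := by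
      have b1 : Is = s ^ d * ((s ^ d)⁻¹ * Is) := by rw [mul_inv_cancel_left₀ hsd.ne']
      have b2 : (t ^ d - s ^ d) * m0 ≤ (t ^ d - s ^ d) * ((s ^ d)⁻¹ * Is) :=
        mul_le_mul_of_nonneg_left a1 (sub_nonneg.mpr hpow)
      calc (t ^ d - s ^ d) * m0 ≤ (t ^ d - s ^ d) * ((s ^ d)⁻¹ * Is) := b2
        _ = t ^ d * ((s ^ d)⁻¹ * Is) - s ^ d * ((s ^ d)⁻¹ * Is) := by ring
        _ ≤ It - Is := by rw [← b1]; linarith
    have hsub : ball c s ⊆ ball c t := ball_subset_ball hst.le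
    have a6 : It - Is = ∫ y in ball c t \ ball c s, f y := by
      have := setIntegral_sdiff isOpen_ball.measurableSet (hIf t htr) hsub (μ := volume) (f := f)
        (t := ball c s) (s := ball c t)
      rw [this]
    have hannr : ball c t \ ball c s ⊆ ball c r := sdiff_subset.trans (ball_subset_ball htr.le)
    have hmeas : MeasurableSet (ball c t \ ball c s) :=
      measurableSet_ball.diff measurableSet_ball
    have a7 : (∫ y in ball c t \ ball c s, f y) ≤ ∫ y in ball c t \ ball c s,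
        (r ^ 2 - s ^ 2) ^ 2 * ((min (V y) 0) ^ 2 / (r ^ 2 - ‖y - c‖ ^ 2) ^ 2) := by
      apply setIntegral_mono_on ((hIf t htr).mono_set sdiff_subset)
        ((hI.mono_set hannr).const_mul _) hmeas
      intro y hy
      have hys : s ≤ ‖y - c‖ := by
        have := hy.2
        rwa [mem_ball, dist_eq_norm, not_lt] at this
      have hyt : ‖y - c‖ < t := by
        have := hy.1
        rwa [mem_ball, dist_eq_norm] at this
      have h1 : 0 < r ^ 2 - ‖y - c‖ ^ 2 := by nlinarith [norm_nonneg (y - c)]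
      have h2 : r ^ 2 - ‖y - c‖ ^ 2 ≤ r ^ 2 - s ^ 2 := by nlinarith
      have h3 : (r ^ 2 - ‖y - c‖ ^ 2) ^ 2 ≤ (r ^ 2 - s ^ 2) ^ 2 := pow_le_pow_left₀ h1.le h2 2
      have h4 : f y ≤ (min (V y) 0) ^ 2 := gam_le _
      rw [mul_div_assoc', le_div_iff₀ (by positivity)]
      calc f y * (r ^ 2 - ‖y - c‖ ^ 2) ^ 2 ≤ (min (V y) 0) ^ 2 * (r ^ 2 - s ^ 2) ^ 2 :=
            mul_le_mul h4 h3 (by positivity) (by positivity)
        _ = _ := by ring
    have a8 : (∫ y in ball c t \ ball c s,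
        (r ^ 2 - s ^ 2) ^ 2 * ((min (V y) 0) ^ 2 / (r ^ 2 - ‖y - c‖ ^ 2) ^ 2))
        ≤ (r ^ 2 - s ^ 2) ^ 2 * J := by
      rw [integral_const_mul]
      apply mul_le_mul_of_nonneg_left _ (by positivity)
      exact setIntegral_mono_set hI (Eventually.of_forall fun x => by positivity)
        (LE.le.eventuallyLE hannr)
    linarith
  have key2 : ∀ s, s0 ≤ s → s < r → r ^ (d - 1) * m0 ≤ (r - s) * (4 * r ^ 2 * J) := by
    intro s hs hsr
    have hsp : 0 < s := hs0p.trans_le hs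
    have hlim : (r ^ d - s ^ d) * m0 ≤ (r ^ 2 - s ^ 2) ^ 2 * J := by
      have h1 : Tendsto (fun t : ℝ => (t ^ d - s ^ d) * m0) (𝓝[<] r) (𝓝 ((r ^ d - s ^ d) * m0)) := by
        apply Tendsto.mono_left _ nhdsWithin_le_nhds
        apply Continuous.tendsto
        fun_prop
      refine le_of_tendsto h1 ?_
      filter_upwards [Ioo_mem_nhdsLT hsr] with t ht
      exact key s t hs ht.1 ht.2
    have e1 : r ^ d = r * r ^ (d - 1) := by
      rw [← pow_succ']; congr 1; omega
    have e2 : s ^ d ≤ s * r ^ (d - 1) := by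
      rw [show s ^ d = s * s ^ (d - 1) by rw [← pow_succ']; congr 1; omega]
      exact mul_le_mul_of_nonneg_left (pow_le_pow_left₀ hsp.le hsr.le _) hsp.le
    have e3 : (r - s) * (r ^ (d - 1) * m0) ≤ (r - s) * ((r - s) * (4 * r ^ 2 * J)) := by
      have h1 : (r - s) * (r ^ (d - 1) * m0) ≤ (r ^ d - s ^ d) * m0 := by
        rw [← mul_assoc]
        apply mul_le_mul_of_nonneg_right _ hm0p.le
        rw [e1]
        linarith
      have h2 : (r ^ 2 - s ^ 2) ^ 2 * J ≤ (r - s) * ((r - s) * (4 * r ^ 2 * J)) := by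
        have h3 : (r ^ 2 - s ^ 2) ^ 2 = (r - s) ^ 2 * (r + s) ^ 2 := by ring
        have h4 : (r + s) ^ 2 ≤ 4 * r ^ 2 := by nlinarith
        rw [h3]
        calc (r - s) ^ 2 * (r + s) ^ 2 * J ≤ (r - s) ^ 2 * (4 * r ^ 2) * J := by
              apply mul_le_mul_of_nonneg_right _ hJ0
              exact mul_le_mul_of_nonneg_left h4 (by positivity)
          _ = _ := by ring
      linarith
    exact le_of_mul_le_mul_left e3 (by linarith)
  have hfin : r ^ (d - 1) * m0 ≤ 0 := by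
    have h1 : Tendsto (fun s : ℝ => (r - s) * (4 * r ^ 2 * J)) (𝓝[<] r)
        (𝓝 ((r - r) * (4 * r ^ 2 * J))) := by
      apply Tendsto.mono_left _ nhdsWithin_le_nhds
      apply Continuous.tendsto
      fun_prop
    rw [sub_self, zero_mul] at h1
    refine ge_of_tendsto h1 ?_
    filter_upwards [Ioo_mem_nhdsLT hs0r] with s hs
    exact key2 s hs.1.le hs.2
  have : 0 < r ^ (d - 1) * m0 := by positivity
  linarith

end
end Crest.Agent.R097
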