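import Crest.Agent.R097.Harm
import Crest.Agent.R097.S0Proj
import Crest.Agent.R097.S0Bar
import Crest.Agent.R097.S0Neg

/-!
# Row 97, part S0: a large mean implies that a Sobolev minimiser is harmonic and positive (helper887)
-/

set_option autoImplicit false
open MeasureTheory Metric Set Filter Topology
open scoped RealInnerProductSpace NNReal ENNReal ContDiff Gradient

namespace Crest.Agent.R097

open Crest.AnalysisR.PDE.OnePhase

variable {d : ℕ}

theorem S0_lint_eq {α F : Type*} [MeasurableSpace α] {μ : Measure α} [NormedAddCommGroup F]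
    {f : α → F} (hf : MemLp f 2 μ) : ∫⁻ x, ‖f x‖ₑ ^ 2 ∂μ = ENNReal.ofReal (∫ x, ‖f x‖ ^ 2 ∂μ) := by
  have h1 : Integrable (fun x => ‖f x‖ ^ 2) μ := hf.integrable_norm_pow (by norm_num)
  rw [ofReal_integral_eq_lintegral_ofReal h1 (Eventually.of_forall fun x => by positivity)]
  refine lintegral_congr fun x => ?_
  rw [← ofReal_norm, ENNReal.ofReal_pow (norm_nonneg _)]

theorem S0_trace_congr {B : Set (E d)} {w w' : E d → ℝ} {g g' : E d → E d}
    (h : HasZeroTrace B w g) (h1 : w' =ᵐ[volume.restrict B] fun x => - w x)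
    (h2 : g' =ᵐ[volume.restrict B] fun x => - g x) : HasZeroTrace B w' g' := by
  intro ε hε
  obtain ⟨φ, hφ, hc, hs, e1, e2⟩ := h ε hε
  refine ⟨fun x => - φ x, hφ.neg, hc.comp_left (g := fun t : ℝ => -t) (by simp), ?_, ?_, ?_⟩
  · have : tsupport (fun x => - φ x) = tsupport φ := by
      unfold tsupport
      congr 1
      ext x
      simp
    rw [this]
    exact hs
  · refine lt_of_eq_of_lt (lintegral_congr_ae ?_) e1
    filter_upwards [h1] with x hx
    rw [hx, show - w x - - φ x = -(w x - φ x) by ring, enorm_neg]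
  · refine lt_of_eq_of_lt (lintegral_congr_ae ?_) e2
    filter_upwards [h2] with x hx
    have : ∇ (fun x => - φ x) x = - ∇ φ x := by
      unfold gradient
      rw [show (fun x => - φ x) = - φ from rfl, fderiv_neg, map_neg]
    rw [hx, this, show - g x - - ∇ φ x = -(g x - ∇ φ x) by abel, enorm_neg]

theorem S0_w_le {c x : E d} {r w : ℝ} (hx : x ∈ ball c r) (hr : 0 < r) :
    w ^ 2 ≤ r ^ 2 * (r ^ 2 * w ^ 2 / (r ^ 2 - ‖x - c‖ ^ 2) ^ 2) := by
  have hk : 0 < r ^ 2 - ‖x - c‖ ^ 2 := by
    rw [mem_ball, dist_eq_norm] at hx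
    have h0 := norm_nonneg (x - c)
    nlinarith
  have h3 : (r ^ 2 - ‖x - c‖ ^ 2) ^ 2 ≤ (r ^ 2) ^ 2 := by
    have h4 := sq_nonneg ‖x - c‖
    exact pow_le_pow_left₀ hk.le (by linarith) 2
  rw [← mul_div_assoc, le_div_iff₀ (pow_pos hk 2)]
  calc w ^ 2 * (r ^ 2 - ‖x - c‖ ^ 2) ^ 2 ≤ w ^ 2 * (r ^ 2) ^ 2 :=
        mul_le_mul_of_nonneg_left h3 (sq_nonneg _)
    _ = r ^ 2 * (r ^ 2 * w ^ 2) := by ring

/-- `L²` bounds on balls for minimisers -/
theorem S0_memLp {u : E d → ℝ} {G : E d → E d} (hu : IsGlobalMinimizer u G)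
    (h2 : LocallyIntegrable (fun x => u x ^ 2)) (c : E d) (r : ℝ) :
    MemLp u 2 (volume.restrict (ball c r)) ∧ MemLp G 2 (volume.restrict (ball c r)) := by
  have hm1 : AEStronglyMeasurable u volume := by
    have := hu.2.1.1
    rw [locallyIntegrableOn_univ] at this
    exact this.aestronglyMeasurable
  have hm2 : AEStronglyMeasurable G volume := by
    have := hu.2.1.2.1
    rw [locallyIntegrableOn_univ] at this
    exact this.aestronglyMeasurable
  constructor
  · rw [memLp_two_iff_integrable_sq hm1.restrict]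
    exact (h2.integrableOn_isCompact (isCompact_closedBall c r)).mono_set ball_subset_closedBall
  · rw [memLp_two_iff_integrable_sq_norm hm2.restrict]
    exact (hu.2.2.1.integrableOn_isCompact (isCompact_closedBall c r)).mono_set
      ball_subset_closedBall

theorem S0_wg_restrict {u : E d → ℝ} {G : E d → E d} (h : IsWeakGradOn Set.univ u G) (c : E d)
    (r : ℝ) : IsWeakGradOn (ball c r) u G := by
  refine ⟨h.1.mono_set (subset_univ _), h.2.1.mono_set (subset_univ _), ?_⟩
  intro φ h1 h2 h3 i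
  have h4 := h.2.2 φ h1 h2 (subset_univ _) i
  rw [Measure.restrict_univ] at h4
  have e1 : ∫ x in ball c r, u x * partialD φ i x = ∫ x, u x * partialD φ i x := by
    refine setIntegral_eq_integral_of_forall_compl_eq_zero (fun x hx => ?_)
    have : x ∉ tsupport (partialD φ i) := fun h => hx (h3 (tsupport_fderiv_apply_subset ℝ _ h))
    rw [image_eq_zero_of_notMem_tsupport this, mul_zero]
  have e2 : ∫ x in ball c r, G x i * φ x = ∫ x, G x i * φ x := by
    refine setIntegral_eq_integral_of_forall_compl_eq_zero (fun x hx => ?_)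
    have : x ∉ tsupport φ := fun h => hx (h3 h)
    rw [image_eq_zero_of_notMem_tsupport this, mul_zero]
  rw [e1, e2, h4]

theorem S0_coord_memLp {μ : Measure (E d)} {G : E d → E d} (hG : MemLp G 2 μ) (i : Fin d) :
    MemLp (fun x => G x i) 2 μ :=
  hG.continuousLinearMap_comp (EuclideanSpace.proj i : E d →L[ℝ] ℝ)

theorem S0_wg_sub {u w : E d → ℝ} {G g : E d → E d} {c : E d} {r : ℝ}
    (hu : MemLp u 2 (volume.restrict (ball c r))) (hw : MemLp w 2 (volume.restrict (ball c r)))
    (hG : MemLp G 2 (volume.restrict (ball c r))) (hg : MemLp g 2 (volume.restrict (ball c r)))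
    (h1 : IsWeakGradOn (ball c r) u G) (h2 : IsWeakGradOn (ball c r) w g) :
    IsWeakGradOn (ball c r) (fun x => u x - w x) (fun x => G x - g x) := by
  refine ⟨h1.1.sub h2.1, h1.2.1.sub h2.2.1, ?_⟩
  intro φ a1 a2 a3 i
  have hφ : IsTest φ (ball c r) := ⟨a1, a2, a3⟩
  have m1 : MemLp φ 2 (volume.restrict (ball c r)) := hφ.memLp 2 _
  have m2 : MemLp (partialD φ i) 2 (volume.restrict (ball c r)) := (hφ.partialD i).memLp 2 _
  have e1 : ∫ x in ball c r, (u x - w x) * partialD φ i x =
      (∫ x in ball c r, u x * partialD φ i x) - ∫ x in ball c r, w x * partialD φ i x := by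
    have i1 : Integrable (fun x => u x * partialD φ i x) (volume.restrict (ball c r)) :=
      hu.integrable_mul m2
    have i2 : Integrable (fun x => w x * partialD φ i x) (volume.restrict (ball c r)) :=
      hw.integrable_mul m2
    rw [← integral_sub i1 i2]
    refine integral_congr_ae (Eventually.of_forall fun x => ?_)
    simp only
    ring
  have e2 : ∫ x in ball c r, (G x - g x) i * φ x =
      (∫ x in ball c r, G x i * φ x) - ∫ x in ball c r, g x i * φ x := by
    have i1 : Integrable (fun x => G x i * φ x) (volume.restrict (ball c r)) :=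
      (S0_coord_memLp hG i).integrable_mul m1
    have i2 : Integrable (fun x => g x i * φ x) (volume.restrict (ball c r)) :=
      (S0_coord_memLp hg i).integrable_mul m1
    rw [← integral_sub i1 i2]
    refine integral_congr_ae (Eventually.of_forall fun x => ?_)
    simp only [PiLp.sub_apply]
    ring
  have e3 := h1.2.2 φ a1 a2 a3 i
  have e4 := h2.2.2 φ a1 a2 a3 i
  show ∫ x in ball c r, (u x - w x) * partialD φ i x = -∫ x in ball c r, (G x - g x) i * φ x
  rw [e1, e2]
  linarith

/-- energy bound for the harmonic replacement -/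
theorem S0_replace (hd : 1 ≤ d) {u : E d → ℝ} {G : E d → E d} (hu : IsGlobalMinimizer u G)
    (h2 : LocallyIntegrable (fun x => u x ^ 2)) (c : E d) {r : ℝ} (hr : 0 < r) :
    ∃ (h w : E d → ℝ) (q : E d → ℝ), Harm h (ball c r) ∧ (∀ x ∈ ball c r, 0 ≤ h x) ∧
      (∀ᵐ x ∂(volume.restrict (ball c r)), u x = h x + w x) ∧
      MemLp w 2 (volume.restrict (ball c r)) ∧
      (∀ x, q x = r ^ 2 * w x ^ 2 / (r ^ 2 - ‖x - c‖ ^ 2) ^ 2) ∧
      IntegrableOn q (ball c r) ∧
      ∫ x in ball c r, q x ≤ ∫ x in ball c r, (1 - pos (u x)) := by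
  obtain ⟨hu2, hG2⟩ := S0_memLp hu h2 c r
  obtain ⟨w, g, hw, hg, hzt, hwg, horth, horth2, hhardy⟩ := S0_proj hd hr hG2
  set μ : Measure (E d) := volume.restrict (ball c r) with hμ
  have hfin : IsFiniteMeasure μ := ⟨by rw [hμ, Measure.restrict_apply_univ]; exact measure_ball_lt_top⟩
  have hmball : ∀ᵐ x ∂μ, x ∈ ball c r := ae_restrict_mem measurableSet_ball
  -- the weak gradient of u - w
  have hug : IsWeakGradOn (ball c r) (fun x => u x - w x) (fun x => G x - g x) :=
    S0_wg_sub hu2 hw hG2 hg (S0_wg_restrict hu.2.1 c r) hwg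
  obtain ⟨h, hH, hae, -⟩ := weyl_grad isOpen_ball hug (fun φ h1 h3 h4 => horth φ ⟨h1, h3, h4⟩)
  -- real form of Hardy
  have hden : Measurable (fun x : E d => (r ^ 2 - ‖x - c‖ ^ 2) ^ 2) := by fun_prop
  have hqm : AEStronglyMeasurable (fun x => r ^ 2 * w x ^ 2 / (r ^ 2 - ‖x - c‖ ^ 2) ^ 2) μ := by
    have h1 : AEMeasurable w μ := hw.1.aemeasurable
    exact (((h1.pow_const 2).const_mul _).div hden.aemeasurable).aestronglyMeasurable
  have hglt : ∫⁻ x, ‖g x‖ₑ ^ 2 ∂μ < ⊤ := by
    rw [S0_lint_eq hg]; exact ENNReal.ofReal_lt_top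
  have hq0 : ∀ x, 0 ≤ r ^ 2 * w x ^ 2 / (r ^ 2 - ‖x - c‖ ^ 2) ^ 2 := fun x => by positivity
  have hqi : Integrable (fun x => r ^ 2 * w x ^ 2 / (r ^ 2 - ‖x - c‖ ^ 2) ^ 2) μ := by
    refine ⟨hqm, ?_⟩
    rw [hasFiniteIntegral_iff_ofReal (Eventually.of_forall hq0)]
    exact lt_of_le_of_lt hhardy hglt
  have hqle : ∫ x, r ^ 2 * w x ^ 2 / (r ^ 2 - ‖x - c‖ ^ 2) ^ 2 ∂μ ≤ ∫ x, ‖g x‖ ^ 2 ∂μ := by
    rw [S0_lint_eq hg, ← ofReal_integral_eq_lintegral_ofReal hqi (Eventually.of_forall hq0)] at hhardy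
    exact (ENNReal.ofReal_le_ofReal_iff (by positivity)).1 hhardy
  -- nonnegativity
  have hhc : ContinuousOn h (ball c r) := hH.1.continuousOn
  have hhm : AEStronglyMeasurable h μ := hhc.aestronglyMeasurable measurableSet_ball
  have hnn : ∀ x ∈ ball c r, 0 ≤ h x := by
    refine harm_nonneg_of_hardy (by omega) hr hH ?_
    refine Integrable.mono' (g := fun x => (r ^ 2)⁻¹ * (r ^ 2 * w x ^ 2 / (r ^ 2 - ‖x - c‖ ^ 2) ^ 2))
      (hqi.const_mul _) ?_ ?_
    · have h1 : AEMeasurable h μ := hhm.aemeasurable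
      exact (((h1.min aemeasurable_const).pow_const 2).div hden.aemeasurable).aestronglyMeasurable
    · filter_upwards [hae] with x hx
      have hu0 := hu.1 x
      have h3 : (min (h x) 0) ^ 2 ≤ w x ^ 2 := by
        rcases le_total (h x) 0 with h4 | h4
        · rw [min_eq_left h4]
          nlinarith
        · rw [min_eq_right h4, zero_pow two_ne_zero]
          exact sq_nonneg _
      rw [Real.norm_of_nonneg (div_nonneg (sq_nonneg _) (sq_nonneg _))]
      have h5 : (r ^ 2)⁻¹ * (r ^ 2 * w x ^ 2 / (r ^ 2 - ‖x - c‖ ^ 2) ^ 2) =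
          w x ^ 2 / (r ^ 2 - ‖x - c‖ ^ 2) ^ 2 := by
        rw [← mul_div_assoc, ← mul_assoc, inv_mul_cancel₀ (by positivity), one_mul]
      rw [h5]
      gcongr
  refine ⟨h, w, fun x => r ^ 2 * w x ^ 2 / (r ^ 2 - ‖x - c‖ ^ 2) ^ 2, hH, hnn, ?_, hw,
    fun x => rfl, hqi, ?_⟩
  · filter_upwards [hae] with x hx
    rw [← hx]; ring
  -- minimality
  refine hqle.trans ?_
  classical
  set vB : E d → ℝ := fun x => if x ∈ ball c r then h x else 0 with hvB
  have hvB0 : ∀ x, 0 ≤ vB x := by
    intro x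
    by_cases hx : x ∈ ball c r
    · simp only [hvB, hx, if_true]; exact hnn x hx
    · simp only [hvB, hx, if_false]; exact le_rfl
  have hvae : vB =ᵐ[μ] fun x => u x - w x := by
    filter_upwards [hae, hmball] with x hx hx2
    simp only [hvB, hx2, if_true]
    exact hx.symm
  have hvB2 : MemLp vB 2 μ := (hu2.sub hw).ae_eq hvae.symm
  have hvg : IsWeakGradOn (ball c r) vB (fun x => G x - g x) := by
    refine ⟨IntegrableOn.locallyIntegrableOn (hvB2.integrable one_le_two), hug.2.1, ?_⟩
    intro φ a1 a2 a3 i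
    rw [← hug.2.2 φ a1 a2 a3 i]
    refine integral_congr_ae ?_
    filter_upwards [hvae] with x hx
    rw [hx]
  have hGv2 : MemLp (fun x => G x - g x) 2 μ := hG2.sub hg
  have hmin := hu.2.2.2 c r hr vB (fun x => G x - g x) hvB0 hvg
    (by rw [S0_lint_eq hvB2]; exact ENNReal.ofReal_lt_top)
    (by rw [S0_lint_eq hGv2]; exact ENNReal.ofReal_lt_top)
    (S0_trace_congr hzt (by filter_upwards [hvae] with x hx; rw [hx]; ring)
      (Eventually.of_forall fun x => by simp only; abel))
  unfold onePhaseEnergy at hmin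
  rw [← hμ, S0_lint_eq hG2, S0_lint_eq hGv2] at hmin
  have hpyth : ∫ x, ‖G x‖ ^ 2 ∂μ = ∫ x, ‖G x - g x‖ ^ 2 ∂μ + ∫ x, ‖g x‖ ^ 2 ∂μ := by
    have i1 : Integrable (fun x => ‖G x - g x‖ ^ 2) μ := hGv2.integrable_norm_pow (by norm_num)
    have i2 : Integrable (fun x => ‖g x‖ ^ 2) μ := hg.integrable_norm_pow (by norm_num)
    have i0 : Integrable (fun x => ‖G x‖ ^ 2) μ := hG2.integrable_norm_pow (by norm_num)
    have i3 : Integrable (fun x => inner ℝ (G x - g x) (g x)) μ := by
      refine (((i0.sub i1).sub i2).div_const 2).congr (Eventually.of_forall fun x => ?_)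
      simp only [Pi.sub_apply]
      have : G x = (G x - g x) + g x := by abel
      have h6 : ‖G x‖ ^ 2 = ‖(G x - g x) + g x‖ ^ 2 := by rw [← this]
      rw [norm_add_sq_real] at h6
      linarith
    have e1 : ∀ x, ‖G x‖ ^ 2 = (‖G x - g x‖ ^ 2 + ‖g x‖ ^ 2) + 2 * inner ℝ (G x - g x) (g x) := by
      intro x
      have : G x = (G x - g x) + g x := by abel
      conv_lhs => rw [this]
      rw [norm_add_sq_real]
      ring
    simp_rw [e1]
    have i12 : Integrable (fun x => ‖G x - g x‖ ^ 2 + ‖g x‖ ^ 2) μ := i1.add i2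
    rw [integral_add i12 (i3.const_mul 2), integral_add i1 i2, integral_const_mul, horth2]
    ring
  have hum : AEMeasurable u μ := hu2.1.aemeasurable
  have hset : NullMeasurableSet {x | 0 < u x} μ :=
    nullMeasurableSet_lt aemeasurable_const hum
  have hposm : AEMeasurable (fun x => pos (u x)) μ := measurable_pos.comp_aemeasurable hum
  have hposi : Integrable (fun x => pos (u x)) μ := by
    refine Integrable.mono' (integrable_const (1 : ℝ)) hposm.aestronglyMeasurable
      (Eventually.of_forall fun x => ?_)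
    rw [Real.norm_of_nonneg (pos_nonneg _)]
    exact pos_le_one _
  have hpos : (volume ({x | 0 < u x} ∩ ball c r)).toReal = ∫ x, pos (u x) ∂μ := by
    have e1 : volume ({x | 0 < u x} ∩ ball c r) = μ {x | 0 < u x} := by
      rw [hμ, Measure.restrict_apply₀ (by rw [← hμ]; exact hset)]
    have e2 : (fun x => pos (u x)) = Set.indicator {x | 0 < u x} (fun _ => (1 : ℝ)) := by
      ext x
      by_cases hx : 0 < u x
      · simp [pos, hx]
      · simp [pos, hx]
    rw [e1, e2, integral_indicator₀ hset]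
    simp [Measure.real]
  have hle1 : ∫ x, ‖G x‖ ^ 2 ∂μ + ∫ x, pos (u x) ∂μ ≤
      ∫ x, ‖G x - g x‖ ^ 2 ∂μ + (volume (ball c r)).toReal := by
    have e1 : volume ({x | 0 < u x} ∩ ball c r) = ENNReal.ofReal (∫ x, pos (u x) ∂μ) := by
      rw [← hpos, ENNReal.ofReal_toReal]
      exact (measure_mono inter_subset_right |>.trans_lt measure_ball_lt_top).ne
    have e2 : volume ({x | 0 < vB x} ∩ ball c r) ≤ ENNReal.ofReal (volume (ball c r)).toReal := by
      rw [ENNReal.ofReal_toReal measure_ball_lt_top.ne]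
      exact measure_mono inter_subset_right
    have e3 := hmin.trans (add_le_add_right e2 _)
    rw [e1, ← ENNReal.ofReal_add (by positivity) (integral_nonneg fun x => pos_nonneg _),
      ← ENNReal.ofReal_add (by positivity) (by positivity)] at e3
    exact (ENNReal.ofReal_le_ofReal_iff (by positivity)).1 e3
  have h1 : ∫ x, (1 - pos (u x)) ∂μ = (volume (ball c r)).toReal - ∫ x, pos (u x) ∂μ := by
    rw [integral_sub (integrable_const _) hposi]
    simp [hμ, Measure.real]
  rw [h1]
  linarith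

/-- a large mean implies that the minimiser is a positive harmonic function -/
theorem S0_key (d : ℕ) (hd : 1 ≤ d) : ∃ C : ℝ, 0 < C ∧ ∀ (u : E d → ℝ) (G : E d → E d),
    IsGlobalMinimizer u G → LocallyIntegrable (fun x => u x ^ 2) → ∀ (c : E d) (r : ℝ), 0 < r →
    C * r ≤ ⨍ x in ball c r, u x →
    ∃ h : E d → ℝ, Harm h (ball c r) ∧ (∀ x ∈ ball c r, 0 < h x) ∧
      u =ᵐ[volume.restrict (ball c r)] h := by
  obtain ⟨c0, hc0, hbar⟩ := harm_barrier d (by omega)
  refine ⟨1 + 2 / c0, by positivity, ?_⟩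
  intro u G hu h2 c r hr hmean
  obtain ⟨h, w, q, hH, hnn, hae, hw, hq, hqi, hqle⟩ := S0_replace hd hu h2 c hr
  obtain ⟨hu2, hG2⟩ := S0_memLp hu h2 c r
  set μ : Measure (E d) := volume.restrict (ball c r) with hμ
  have hfin : IsFiniteMeasure μ := ⟨by rw [hμ, Measure.restrict_apply_univ]; exact measure_ball_lt_top⟩
  have hmball : ∀ᵐ x ∂μ, x ∈ ball c r := ae_restrict_mem measurableSet_ball
  have hvol : 0 < (volume (ball c r)).toReal :=
    ENNReal.toReal_pos (measure_ball_pos _ _ hr).ne' measure_ball_lt_top.ne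
  set v := (volume (ball c r)).toReal with hv
  have hμv : μ.real univ = v := by simp [hμ, Measure.real, hv]
  set z := ∫ x, (1 - pos (u x)) ∂μ with hz
  have hum : AEMeasurable u μ := hu2.1.aemeasurable
  have hposm : AEMeasurable (fun x => pos (u x)) μ := measurable_pos.comp_aemeasurable hum
  have hposi : Integrable (fun x => 1 - pos (u x)) μ := by
    refine Integrable.mono' (integrable_const (1 : ℝ)) (aemeasurable_const.sub hposm).aestronglyMeasurable
      (Eventually.of_forall fun x => ?_)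
    rw [Real.norm_of_nonneg (by linarith [pos_le_one (u x)])]
    linarith [pos_nonneg (u x)]
  have hzv : z ≤ v := by
    have : z ≤ ∫ x, (1 : ℝ) ∂μ :=
      integral_mono hposi (integrable_const _) (fun x => by
        simp only; linarith [pos_nonneg (u x)])
    simpa [hμv] using this
  have hz0 : 0 ≤ z := integral_nonneg (fun x => by simp only [Pi.zero_apply]; linarith [pos_le_one (u x)])
  -- lower bound of h c
  have hhae : h =ᵐ[μ] fun x => u x - w x := by
    filter_upwards [hae] with x hx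
    rw [hx]; ring
  have hh2 : MemLp h 2 μ := (hu2.sub hw).ae_eq hhae.symm
  have hmv : h c = ⨍ x in ball c r, h x := mvp_ball' hr hH (hh2.integrable one_le_two)
  have hmv2 : h c = (⨍ x in ball c r, u x) - ⨍ x in ball c r, w x := by
    rw [hmv]
    simp only [average_eq]
    rw [← smul_sub, ← integral_sub (hu2.integrable one_le_two) (hw.integrable one_le_two)]
    congr 1
    exact integral_congr_ae hhae
  have hw2 : ∫ x, w x ^ 2 ∂μ ≤ r ^ 2 * v := by
    calc ∫ x, w x ^ 2 ∂μ ≤ ∫ x, r ^ 2 * q x ∂μ := by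
          refine integral_mono_ae ?_ (hqi.const_mul _) ?_
          · have := hw.integrable_norm_pow (by norm_num) (p := 2)
            simpa using this
          · filter_upwards [hmball] with x hx
            rw [hq]
            exact S0_w_le hx hr
      _ = r ^ 2 * ∫ x, q x ∂μ := integral_const_mul _ _
      _ ≤ r ^ 2 * v := mul_le_mul_of_nonneg_left (hqle.trans hzv) (by positivity)
  have hwm : ⨍ x in ball c r, w x ≤ r := by
    have i1 : Integrable w μ := hw.integrable one_le_two
    have i2 : Integrable (fun x => w x ^ 2) μ := by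
      have := hw.integrable_norm_pow (by norm_num) (p := 2)
      simpa using this
    -- w ≤ (w^2/r + r)/2
    have e1 : ∫ x, w x ∂μ ≤ ∫ x, ((2 * r)⁻¹ * w x ^ 2 + r / 2) ∂μ := by
      refine integral_mono i1 ((i2.const_mul _).add (integrable_const _)) (fun x => ?_)
      simp only
      have : (2 * r)⁻¹ * w x ^ 2 + r / 2 - w x = (2 * r)⁻¹ * (w x - r) ^ 2 := by
        field_simp
        ring
      have h3 : 0 ≤ (2 * r)⁻¹ * (w x - r) ^ 2 := by positivity
      linarith
    rw [integral_add (i2.const_mul _) (integrable_const _), integral_const_mul, integral_const,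
      hμv] at e1
    have e2 : ∫ x, w x ∂μ ≤ r * v := by
      have e3 : (2 * r)⁻¹ * ∫ x, w x ^ 2 ∂μ ≤ (2 * r)⁻¹ * (r ^ 2 * v) :=
        mul_le_mul_of_nonneg_left hw2 (by positivity)
      have e4 : (2 * r)⁻¹ * (r ^ 2 * v) = r * v / 2 := by field_simp
      rw [smul_eq_mul] at e1
      nlinarith
    rw [setAverage_eq, smul_eq_mul]
    have e5 : (volume.real (ball c r)) = v := rfl
    rw [e5, inv_mul_le_iff₀ hvol]
    linarith
  have hhc : 2 / c0 * r ≤ h c := by
    rw [hmv2]
    have : (1 + 2 / c0) * r - r = 2 / c0 * r := by ring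
    linarith
  -- z = 0
  have hkey : ∀ᵐ x ∂μ, 4 * (1 - pos (u x)) ≤ q x := by
    filter_upwards [hae, hmball] with x hx hxb
    by_cases hu0 : 0 < u x
    · rw [pos_of_pos hu0, hq]
      have : 0 ≤ r ^ 2 * w x ^ 2 / (r ^ 2 - ‖x - c‖ ^ 2) ^ 2 := by positivity
      linarith
    · have hu00 : u x = 0 := le_antisymm (not_lt.1 hu0) (hu.1 x)
      rw [pos_of_nonpos (not_lt.1 hu0), hq]
      have h3 := hbar c r hr h hH hnn x hxb
      have hk : 0 < r ^ 2 - ‖x - c‖ ^ 2 := by
        rw [mem_ball, dist_eq_norm] at hxb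
        have h0 := norm_nonneg (x - c)
        nlinarith
      have h4 : w x = - h x := by linarith
      have h5 : 2 * (r ^ 2 - ‖x - c‖ ^ 2) / r ≤ h x := by
        refine le_trans ?_ h3
        have h6 : 2 * r ≤ c0 * h c := by
          have := mul_le_mul_of_nonneg_left hhc hc0.le
          have h7 : c0 * (2 / c0 * r) = 2 * r := by field_simp
          linarith
        have h8 : 2 * (r ^ 2 - ‖x - c‖ ^ 2) / r = 2 * r * (r ^ 2 - ‖x - c‖ ^ 2) / r ^ 2 := by
          field_simp
        rw [h8]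
        gcongr
      rw [h4, le_div_iff₀ (by positivity)]
      have h9 : 0 ≤ 2 * (r ^ 2 - ‖x - c‖ ^ 2) / r := by positivity
      have h10 : (2 * (r ^ 2 - ‖x - c‖ ^ 2) / r) ^ 2 ≤ h x ^ 2 := pow_le_pow_left₀ h9 h5 2
      have h11 : r ^ 2 * (2 * (r ^ 2 - ‖x - c‖ ^ 2) / r) ^ 2 = 4 * (r ^ 2 - ‖x - c‖ ^ 2) ^ 2 := by
        field_simp
        ring
      have h12 := mul_le_mul_of_nonneg_left h10 (sq_nonneg r)
      nlinarith
  have h4z : 4 * z ≤ z := by
    have e1 : ∫ x, 4 * (1 - pos (u x)) ∂μ ≤ ∫ x, q x ∂μ :=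
      integral_mono_ae (hposi.const_mul 4) hqi hkey
    rw [integral_const_mul] at e1
    exact e1.trans hqle
  have hz00 : z = 0 := by linarith
  have hq00 : ∫ x, q x ∂μ = 0 := by
    have : 0 ≤ ∫ x, q x ∂μ := integral_nonneg (fun x => by
      simp only [Pi.zero_apply, hq]; positivity)
    linarith [hqle]
  have hw0 : ∀ᵐ x ∂μ, w x = 0 := by
    have e1 := (integral_eq_zero_iff_of_nonneg (fun x => by
      simp only [Pi.zero_apply, hq]; positivity) hqi).1 hq00
    filter_upwards [e1, hmball] with x hx hxb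
    have e2 := S0_w_le (w := w x) hxb hr
    rw [← hq, hx] at e2
    simp only [Pi.zero_apply, mul_zero] at e2
    nlinarith [sq_nonneg (w x)]
  refine ⟨h, hH, ?_, ?_⟩
  · intro x hx
    have h3 := hbar c r hr h hH hnn x hx
    have hk : 0 < r ^ 2 - ‖x - c‖ ^ 2 := by
      rw [mem_ball, dist_eq_norm] at hx
      have h0 := norm_nonneg (x - c)
      nlinarith
    have h5 : 0 < h c := lt_of_lt_of_le (by positivity) hhc
    exact lt_of_lt_of_le (by positivity) h3
  · filter_upwards [hae, hw0] with x hx hx0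
    rw [hx, hx0, add_zero]

end Crest.Agent.R097
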