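import Crest.Agent.R097.S0Key

/-!
# Row 97, part S0: the Lipschitz representative (helper887)
-/

set_option autoImplicit false
open MeasureTheory Metric Set Filter Topology
open scoped RealInnerProductSpace NNReal ENNReal ContDiff Gradient Pointwise

namespace Crest.Agent.R097

open Crest.AnalysisR.PDE.OnePhase

variable {d : ℕ}

theorem S0_vol (x y : E d) {s : ℝ} (hs : 0 < s) (t : ℝ) (ht : 0 < t) :
    volume.real (ball x (t * s)) = t ^ d * volume.real (ball y s) := by
  have h1 := Measure.addHaar_ball_of_pos (volume : Measure (E d)) x (r := t * s) (by positivity)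
  have h2 := Measure.addHaar_ball_of_pos (volume : Measure (E d)) y hs
  rw [finrank_euclideanSpace_fin] at h1 h2
  unfold Measure.real
  rw [h1, h2, ENNReal.toReal_mul, ENNReal.toReal_mul, ENNReal.toReal_ofReal (by positivity),
    ENNReal.toReal_ofReal (by positivity), mul_pow]
  ring

theorem S0_vol_pos (x : E d) {s : ℝ} (hs : 0 < s) : 0 < volume.real (ball x s) :=
  ENNReal.toReal_pos (measure_ball_pos _ _ hs).ne' measure_ball_lt_top.ne

theorem S0_int {u : E d → ℝ} {G : E d → E d} (hu : IsGlobalMinimizer u G) : LocallyIntegrable u := by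
  have := hu.2.1.1
  rwa [locallyIntegrableOn_univ] at this

theorem S0_int_ball {u : E d → ℝ} {G : E d → E d} (hu : IsGlobalMinimizer u G) (x : E d) (s : ℝ) :
    IntegrableOn u (ball x s) :=
  ((S0_int hu).integrableOn_isCompact (isCompact_closedBall x s)).mono_set ball_subset_closedBall

/-- comparison of means -/
theorem S0_mean_le {u : E d → ℝ} {G : E d → E d} (hu : IsGlobalMinimizer u G) {x z : E d} {s A : ℝ}
    (hs : 0 < s) (hsub : ball x s ⊆ ball z (2 * s)) (hA : ⨍ y in ball z (2 * s), u y ≤ A) :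
    ⨍ y in ball x s, u y ≤ 2 ^ d * A := by
  have h1 : ∫ y in ball x s, u y ≤ ∫ y in ball z (2 * s), u y :=
    setIntegral_mono_set (S0_int_ball hu z _) (Eventually.of_forall fun y => hu.1 y)
      (Eventually.of_forall hsub)
  have hv := S0_vol z x hs 2 two_pos
  have hp := S0_vol_pos x hs
  have hp2 : 0 < volume.real (ball z (2 * s)) := S0_vol_pos z (by positivity)
  rw [setAverage_eq, smul_eq_mul, inv_mul_le_iff₀ hp2] at hA
  rw [setAverage_eq, smul_eq_mul, inv_mul_le_iff₀ hp]
  rw [hv] at hA
  nlinarith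

theorem S0_mean_scale {u : E d → ℝ} (hh : IsOneHomogeneous u) {s : ℝ} (hs : 0 < s) :
    ⨍ y in ball (0 : E d) s, u y = s * ⨍ y in ball (0 : E d) 1, u y := by
  have h1 := Measure.setIntegral_comp_smul_of_pos (volume : Measure (E d)) (fun y => u y)
    (ball (0 : E d) 1) hs
  have h2 : s • ball (0 : E d) 1 = ball 0 s := by
    rw [_root_.smul_ball hs.ne', smul_zero, Real.norm_of_nonneg hs.le, mul_one]
  rw [h2, finrank_euclideanSpace_fin] at h1
  have h3 : ∫ y in ball (0 : E d) 1, u (s • y) = s * ∫ y in ball (0 : E d) 1, u y := by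
    rw [← integral_const_mul]
    exact integral_congr_ae (Eventually.of_forall fun y => hh s hs y)
  rw [h3, smul_eq_mul] at h1
  have hv := S0_vol (0 : E d) 0 (one_pos) s hs
  rw [mul_one] at hv
  rw [setAverage_eq, setAverage_eq, smul_eq_mul, smul_eq_mul, hv]
  have hp := S0_vol_pos (0 : E d) one_pos
  have hsd : 0 < s ^ d := by positivity
  have h4 : ∫ y in ball (0 : E d) s, u y = s ^ d * (s * ∫ y in ball (0 : E d) 1, u y) := by
    rw [h1]; field_simp
  rw [h4]
  field_simp

/-- no good ball contains the origin -/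
theorem S0_zero_notMem {u : E d → ℝ} (hh : IsOneHomogeneous u) {c : E d} {r : ℝ} {h : E d → ℝ}
    (hH : Harm h (ball c r)) (hp : ∀ x ∈ ball c r, 0 < h x)
    (hae : u =ᵐ[volume.restrict (ball c r)] h) : (0 : E d) ∉ ball c r := by
  intro h0
  set ρ := r - dist 0 c with hρ
  have hρ0 : 0 < ρ := by rw [mem_ball] at h0; linarith
  have hsub : ball (0 : E d) ρ ⊆ ball c r := by
    intro y hy
    rw [mem_ball] at hy ⊢
    calc dist y c ≤ dist y 0 + dist 0 c := dist_triangle _ _ _
      _ < r := by linarith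
  have key : ∀ s, 0 < s → s < ρ → h 0 = s * ⨍ y in ball (0 : E d) 1, u y := by
    intro s hs hsρ
    rw [mvp_ball hs hsρ (hH.mono hsub), ← S0_mean_scale hh hs]
    simp only [setAverage_eq]
    congr 1
    refine integral_congr_ae ?_
    have h5 : u =ᵐ[volume.restrict (ball 0 s)] h :=
      ae_restrict_of_ae_restrict_of_subset ((ball_subset_ball hsρ.le).trans hsub) hae
    exact h5.symm
  have h1 := key (ρ / 2) (by positivity) (by linarith)
  have h2 := key (ρ / 4) (by positivity) (by linarith)
  have h3 := hp 0 h0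
  nlinarith

/-- Lipschitz representative -/
theorem S0_lip (hd : 1 ≤ d) {u : E d → ℝ} {G : E d → E d} (hu : IsGlobalMinimizer u G)
    (hh : IsOneHomogeneous u) (h2 : LocallyIntegrable (fun x => u x ^ 2)) :
    ∃ (K : ℝ≥0) (U : E d → ℝ), LipschitzWith K U ∧ (∀ x, 0 ≤ U x) ∧ u =ᵐ[volume] U := by
  obtain ⟨C, hC, hkey⟩ := S0_key d hd
  obtain ⟨C', hC', hgrad⟩ := harm_grad_mean d
  have hne : Nonempty (Fin d) := ⟨⟨0, hd⟩⟩
  have hnt : Nontrivial (E d) := inferInstance
  classical
  -- the good balls
  set good : E d × ℝ → Prop := fun p => 0 < p.2 ∧ C * p.2 ≤ ⨍ x in ball p.1 p.2, u x with hgood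
  set O : Set (E d) := {x | ∃ p, good p ∧ x ∈ ball p.1 p.2} with hO
  have hOo : IsOpen O := by
    have : O = ⋃ p ∈ {p | good p}, ball p.1 p.2 := by
      ext x; simp [hO]
    rw [this]
    exact isOpen_biUnion fun p _ => isOpen_ball
  have hgh : ∀ p, good p → ∃ h : E d → ℝ, Harm h (ball p.1 p.2) ∧ (∀ x ∈ ball p.1 p.2, 0 < h x) ∧
      u =ᵐ[volume.restrict (ball p.1 p.2)] h := fun p hp => hkey u G hu h2 p.1 p.2 hp.1 hp.2
  choose! H hH1 hH2 hH3 using hgh
  have hOx : ∀ x ∈ O, ∃ p, good p ∧ x ∈ ball p.1 p.2 := fun x hx => hx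
  choose! P hP1 hP2 using hOx
  set U : E d → ℝ := fun x => if x ∈ O then H (P x) x else 0 with hU
  -- consistency
  have hcons : ∀ p q, good p → good q → ∀ x ∈ ball p.1 p.2 ∩ ball q.1 q.2, H p x = H q x := by
    intro p q hp hq x hx
    have hopen : IsOpen (ball p.1 p.2 ∩ ball q.1 q.2) := isOpen_ball.inter isOpen_ball
    have e1 : H p =ᵐ[volume.restrict (ball p.1 p.2 ∩ ball q.1 q.2)] H q := by
      have a1 : u =ᵐ[volume.restrict (ball p.1 p.2 ∩ ball q.1 q.2)] H p :=
        ae_restrict_of_ae_restrict_of_subset inter_subset_left (hH3 p hp)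
      have a2 : u =ᵐ[volume.restrict (ball p.1 p.2 ∩ ball q.1 q.2)] H q :=
        ae_restrict_of_ae_restrict_of_subset inter_subset_right (hH3 q hq)
      exact a1.symm.trans a2
    exact Measure.eqOn_open_of_ae_eq e1 hopen ((hH1 p hp).1.continuousOn.mono inter_subset_left)
      ((hH1 q hq).1.continuousOn.mono inter_subset_right) hx
  have hUp : ∀ p, good p → ∀ x ∈ ball p.1 p.2, U x = H p x := by
    intro p hp x hx
    have hxO : x ∈ O := ⟨p, hp, hx⟩
    simp only [hU, hxO, if_true]
    exact hcons (P x) p (hP1 x hxO) hp x ⟨hP2 x hxO, hx⟩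
  have hUO : ∀ x ∈ O, ∃ p, good p ∧ x ∈ ball p.1 p.2 ∧ U =ᶠ[𝓝 x] H p := by
    intro x hx
    obtain ⟨p, hp, hxp⟩ := hx
    exact ⟨p, hp, hxp, (isOpen_ball.eventually_mem hxp).mono fun y hy => hUp p hp y hy⟩
  have hUpos : ∀ x ∈ O, 0 < U x := by
    intro x hx
    obtain ⟨p, hp, hxp⟩ := hx
    rw [hUp p hp x hxp]
    exact hH2 p hp x hxp
  have hU0 : ∀ x, 0 ≤ U x := by
    intro x
    by_cases hx : x ∈ O
    · exact (hUpos x hx).le
    · simp [hU, hx]
  have hUharm : Harm U O := by
    constructor
    · intro x hx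
      obtain ⟨p, hp, hxp, he⟩ := hUO x hx
      have h1 : ContDiffAt ℝ ∞ (H p) x := ((hH1 p hp).1 x hxp).contDiffAt (isOpen_ball.mem_nhds hxp)
      exact (h1.congr_of_eventuallyEq he).contDiffWithinAt
    · intro x hx
      obtain ⟨p, hp, hxp, he⟩ := hUO x hx
      have h1 := (InnerProductSpace.laplacian_congr_nhds he).self_of_nhds
      rw [h1]
      exact (hH1 p hp).2 x hxp
  have hUae : ∀ᵐ x, x ∈ O → u x = U x := by
    have h1 : volume {x | x ∈ O ∧ u x ≠ U x} = 0 := by
      refine measure_null_of_locally_null _ (fun x hx => ?_)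
      obtain ⟨p, hp, hxp⟩ := hx.1
      refine ⟨{y | y ∈ O ∧ u y ≠ U y} ∩ ball p.1 p.2, ?_, ?_⟩
      · exact inter_mem self_mem_nhdsWithin (mem_nhdsWithin_of_mem_nhds (isOpen_ball.mem_nhds hxp))
      · have h3 := hH3 p hp
        rw [Filter.EventuallyEq, ae_restrict_iff' measurableSet_ball, ae_iff] at h3
        refine measure_mono_null ?_ h3
        intro y hy
        simp only [mem_ofPred_eq, Classical.not_imp]
        refine ⟨hy.2, ?_⟩
        rw [← hUp p hp y hy.2]
        exact hy.1.2
    rw [ae_iff]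
    simpa only [Classical.not_imp] using h1
  have hzero : (0 : E d) ∉ O := by
    rintro ⟨p, hp, h0⟩
    exact S0_zero_notMem hh (hH1 p hp) (hH2 p hp) (hH3 p hp) h0
  have hbad : ∀ z ∉ O, ∀ s, 0 < s → ⨍ y in ball z s, u y ≤ C * s := by
    intro z hz s hs
    by_contra hcon
    push Not at hcon
    exact hz ⟨(z, s), ⟨hs, hcon.le⟩, mem_ball_self hs⟩
  have hu0 : ∀ᵐ x, x ∉ O → u x = 0 := by
    filter_upwards [IsUnifLocDoublingMeasure.ae_tendsto_average (μ := (volume : Measure (E d)))
      (S0_int hu) 1] with x hx hxO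
    have h1 := hx (fun _ : ℝ => x) (fun s : ℝ => s) (l := 𝓝[>] (0 : ℝ)) tendsto_id (by
      filter_upwards [self_mem_nhdsWithin] with s hs
      rw [one_mul]
      exact mem_closedBall_self (le_of_lt hs))
    have h2 : Tendsto (fun s : ℝ => 2 ^ d * (C * (2 * s))) (𝓝[>] (0 : ℝ)) (𝓝 0) := by
      have : Tendsto (fun s : ℝ => 2 ^ d * (C * (2 * s))) (𝓝 0) (𝓝 (2 ^ d * (C * (2 * 0)))) := by
        apply Continuous.tendsto
        fun_prop
      rw [mul_zero, mul_zero, mul_zero] at this
      exact this.mono_left nhdsWithin_le_nhds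
    have h3 : Tendsto (fun s : ℝ => ⨍ y in closedBall x s, u y) (𝓝[>] (0 : ℝ)) (𝓝 0) := by
      refine tendsto_of_tendsto_of_tendsto_of_le_of_le' tendsto_const_nhds h2 ?_ ?_
      · refine Eventually.of_forall fun s => ?_
        rw [setAverage_eq]
        exact mul_nonneg (by positivity) (integral_nonneg fun y => hu.1 y)
      · filter_upwards [self_mem_nhdsWithin] with s hs
        have hs0 : (0 : ℝ) < s := hs
        have hv : volume.real (closedBall x s) = volume.real (ball x s) := by
          unfold Measure.real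
          rw [Measure.addHaar_closedBall_eq_addHaar_ball]
        have hb := hbad x hxO (2 * s) (by positivity)
        have e1 : ∫ y in closedBall x s, u y ≤ ∫ y in ball x (2 * s), u y :=
          setIntegral_mono_set (S0_int_ball hu x _) (Eventually.of_forall fun y => hu.1 y)
            (Eventually.of_forall (closedBall_subset_ball (by linarith)))
        have hp := S0_vol_pos x hs0
        have hv2 := S0_vol x x hs0 2 two_pos
        have hp2 : 0 < volume.real (ball x (2 * s)) := S0_vol_pos x (by positivity)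
        rw [setAverage_eq, smul_eq_mul, inv_mul_le_iff₀ hp2, hv2] at hb
        rw [setAverage_eq, smul_eq_mul, hv, inv_mul_le_iff₀ hp]
        nlinarith
    exact tendsto_nhds_unique h1 h3
  -- estimates in the good set
  have hOc : IsClosed Oᶜ := hOo.isClosed_compl
  have hOne : (Oᶜ).Nonempty := ⟨0, hzero⟩
  set K1 : ℝ := 2 ^ d * (C * 2) with hK1
  have hK10 : 0 < K1 := by positivity
  have hest : ∀ x ∈ O, 0 < infDist x Oᶜ ∧ ball x (infDist x Oᶜ) ⊆ O ∧
      U x ≤ K1 * infDist x Oᶜ ∧ ‖fderiv ℝ U x‖ ≤ C' * K1 := by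
    intro x hx
    have hδ : 0 < infDist x Oᶜ := (hOc.notMem_iff_infDist_pos hOne).1 (by simpa using hx)
    set δ := infDist x Oᶜ with hδdef
    have hsub : ball x δ ⊆ O := ball_infDist_compl_subset
    obtain ⟨z, hz, hxz⟩ := hOc.exists_infDist_eq_dist hOne x
    have hsub2 : ball x δ ⊆ ball z (2 * δ) := by
      intro y hy
      rw [mem_ball] at hy ⊢
      have : dist y z ≤ dist y x + dist x z := dist_triangle _ _ _
      rw [← hxz, ← hδdef] at this
      linarith
    have hm := S0_mean_le hu hδ hsub2 (hbad z hz (2 * δ) (by positivity))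
    have hae : u =ᵐ[volume.restrict (ball x δ)] U := by
      rw [Filter.EventuallyEq, ae_restrict_iff' measurableSet_ball]
      filter_upwards [hUae] with y hy hyb
      exact hy (hsub hyb)
    have hUi : IntegrableOn U (ball x δ) := (S0_int_ball hu x δ).congr hae
    have hav : ⨍ y in ball x δ, U y = ⨍ y in ball x δ, u y := by
      simp only [setAverage_eq]
      congr 1
      exact (integral_congr_ae hae).symm
    have hav2 : ⨍ y in ball x δ, |U y| = ⨍ y in ball x δ, U y := by
      simp only [setAverage_eq]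
      congr 1
      exact integral_congr_ae (Eventually.of_forall fun y => abs_of_nonneg (hU0 y))
    have e1 : U x ≤ K1 * δ := by
      rw [mvp_ball' hδ (hUharm.mono hsub) hUi, hav]
      refine hm.trans (le_of_eq ?_)
      rw [hK1]; ring
    refine ⟨hδ, hsub, e1, ?_⟩
    have e2 := hgrad U x δ hδ (hUharm.mono hsub) hUi
    rw [norm_grad, hav2, hav] at e2
    refine e2.trans ?_
    calc C' / δ * ⨍ y in ball x δ, u y ≤ C' / δ * (2 ^ d * (C * (2 * δ))) :=
          mul_le_mul_of_nonneg_left hm (by positivity)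
      _ = C' * K1 := by rw [hK1]; field_simp
  have hout : ∀ x ∉ O, U x = 0 := fun x hx => by simp [hU, hx]
  -- Lipschitz on balls inside
  have hin : ∀ x ∈ O, ∀ y, dist y x < infDist x Oᶜ → |U y - U x| ≤ C' * K1 * dist y x := by
    intro x hx y hy
    obtain ⟨hδ, hsub, -, -⟩ := hest x hx
    have h1 := Convex.norm_image_sub_le_of_norm_fderiv_le (𝕜 := ℝ) (f := U) (C := C' * K1)
      (s := ball x (infDist x Oᶜ)) (x := x) (y := y)
      (fun z hz => ((hUharm.1 z (hsub hz)).contDiffAt (hOo.mem_nhds (hsub hz))).differentiableAt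
        (by simp)) (fun z hz => (hest z (hsub hz)).2.2.2) (convex_ball _ _)
      (mem_ball_self hδ) hy
    rw [dist_eq_norm]
    exact h1
  have hval : ∀ x, U x ≤ K1 * infDist x Oᶜ := by
    intro x
    by_cases hx : x ∈ O
    · exact (hest x hx).2.2.1
    · rw [hout x hx]
      exact mul_nonneg hK10.le infDist_nonneg
  set K : ℝ := C' * K1 + K1 with hK
  have hK0 : 0 ≤ K := by positivity
  refine ⟨Real.toNNReal K, U, ?_, hU0, ?_⟩
  · refine LipschitzWith.of_dist_le_mul (fun x y => ?_)
    rw [Real.dist_eq, Real.coe_toNNReal K hK0]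
    by_cases h1 : dist x y < infDist x Oᶜ
    · have hx : x ∈ O := by
        by_contra hx
        have : infDist x Oᶜ = 0 := infDist_zero_of_mem hx
        rw [this] at h1
        exact absurd h1 (not_lt.2 dist_nonneg)
      have h3 := hin x hx y (by rw [dist_comm]; exact h1)
      rw [abs_sub_comm, dist_comm x y]
      refine h3.trans ?_
      rw [hK]
      have : 0 ≤ K1 * dist y x := by positivity
      nlinarith
    · by_cases h2 : dist x y < infDist y Oᶜ
      · have hy : y ∈ O := by
          by_contra hy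
          have : infDist y Oᶜ = 0 := infDist_zero_of_mem hy
          rw [this] at h2
          exact absurd h2 (not_lt.2 dist_nonneg)
        have h3 := hin y hy x h2
        refine h3.trans ?_
        rw [hK]
        have : 0 ≤ K1 * dist x y := by positivity
        nlinarith
      · push Not at h1 h2
        have a1 := hval x
        have a2 := hval y
        have a3 := hU0 x
        have a4 := hU0 y
        have a5 : K1 * infDist x Oᶜ ≤ K1 * dist x y := mul_le_mul_of_nonneg_left h1 hK10.le
        have a6 : K1 * infDist y Oᶜ ≤ K1 * dist x y := mul_le_mul_of_nonneg_left h2 hK10.le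
        have a7 : 0 ≤ C' * K1 * dist x y := by positivity
        rw [hK, abs_le]
        constructor <;> nlinarith
  · filter_upwards [hUae, hu0] with x h1 h2
    by_cases hx : x ∈ O
    · exact h1 hx
    · rw [h2 hx, hout x hx]

end Crest.Agent.R097
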