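import Crest.Agent.R097.Base
import Crest.Prelude.Def_OnePhase

/-!
# Row 97, part S0: test functions, integration by parts, Hardy inequality on a ball (helper887)
-/

set_option autoImplicit false
open MeasureTheory Metric Set Filter Topology
open scoped RealInnerProductSpace NNReal ENNReal ContDiff

namespace Crest.Agent.R097

open Crest.AnalysisR.PDE.OnePhase

variable {d : ℕ}

/-- standard basis vector -/
noncomputable abbrev ei (i : Fin d) : E d := EuclideanSpace.single i (1 : ℝ)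

theorem gradient_apply' (f : E d → ℝ) (x : E d) (i : Fin d) :
    (gradient f x) i = partialD f i x := by
  have h := inner_gradient_left (𝕜 := ℝ) (f := f) (x := x) (y := ei i)
  rw [partialD]
  have h2 : ∀ v : E d, inner ℝ v (ei i) = v i := fun v => by
    simp [ei, EuclideanSpace.inner_single_right]
  rw [← h2]
  exact h

theorem norm_gradient (f : E d → ℝ) (x : E d) : ‖gradient f x‖ = ‖fderiv ℝ f x‖ := by
  rw [← toDual_gradient (𝕜 := ℝ) (f := f) (x := x), LinearIsometryEquiv.norm_map]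

theorem norm_sq_eq_sum (x : E d) : ‖x‖ ^ 2 = ∑ i, x i ^ 2 := by
  rw [EuclideanSpace.norm_sq_eq]
  simp

theorem inner_eq_sum (x y : E d) : inner ℝ x y = ∑ i, x i * y i := by
  simp [PiLp.inner_apply, mul_comm]

/-- A compactly supported `C¹` function has a directional derivative of zero integral. -/
theorem integral_fderiv_eq_zero {g : E d → ℝ} (hg : ContDiff ℝ 1 g) (hc : HasCompactSupport g)
    (v : E d) : ∫ x, fderiv ℝ g x v = 0 := by
  have h1 : Continuous fun x => fderiv ℝ g x v :=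
    (hg.continuous_fderiv one_ne_zero).clm_apply continuous_const
  have h2 : HasCompactSupport fun x => fderiv ℝ g x v := by
    have := hc.fderiv_apply (𝕜 := ℝ) v
    exact this
  have h := integral_mul_fderiv_eq_neg_fderiv_mul_of_integrable (μ := (volume : Measure (E d)))
    (f := fun _ : E d => (1 : ℝ)) (g := g) (v := v) (by simp)
    (by simpa using h1.integrable_of_hasCompactSupport h2)
    (by simpa using hg.continuous.integrable_of_hasCompactSupport hc)
    (fun x _ => by fun_prop) (fun x _ => hg.differentiable (by norm_num) x)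
  simpa using h


theorem hasFDerivAt_distsq (c x : E d) :
    HasFDerivAt (fun y : E d => ‖y - c‖ ^ 2) (2 • innerSL ℝ (x - c)) x := by
  have h := (hasStrictFDerivAt_norm_sq (x - c)).hasFDerivAt
  have h2 : HasFDerivAt (fun y : E d => y - c) (ContinuousLinearMap.id ℝ (E d)) x :=
    (hasFDerivAt_id x).sub_const c
  have h3 := HasFDerivAt.comp x h h2
  rw [ContinuousLinearMap.comp_id] at h3
  exact h3

theorem hasFDerivAt_coord (i : Fin d) (x : E d) :
    HasFDerivAt (fun y : E d => y i) (EuclideanSpace.proj i : E d →L[ℝ] ℝ) x :=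
  (EuclideanSpace.proj i : E d →L[ℝ] ℝ).hasFDerivAt

theorem S0_hardy_int (c : E d) {r : ℝ} (hr : 0 < r) {φ : E d → ℝ}
    (hφ : ContDiff ℝ 1 φ) (hs : HasCompactSupport φ) (ht : tsupport φ ⊆ ball c r) :
    Integrable (fun x => r ^ 2 * φ x ^ 2 / (r ^ 2 - ‖x - c‖ ^ 2) ^ 2) := by
  have hpos : ∀ x ∈ ball c r, 0 < r ^ 2 - ‖x - c‖ ^ 2 := by
    intro x hx
    rw [mem_ball, dist_eq_norm] at hx
    have h0 := norm_nonneg (x - c)
    nlinarith
  have hsm : ∀ F : E d → ℝ, (∀ x ∈ ball c r, ContDiffAt ℝ 1 F x) →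
      ContDiff ℝ 1 (fun x => φ x ^ 2 * F x) := by
    intro F hF
    rw [contDiff_iff_contDiffAt]
    intro x
    by_cases hx : x ∈ tsupport φ
    · exact (hφ.contDiffAt.pow 2).mul (hF x (ht hx))
    · have h1 : (fun x => φ x ^ 2 * F x) =ᶠ[𝓝 x] fun _ => 0 := by
        have h2 : φ =ᶠ[𝓝 x] 0 := notMem_tsupport_iff_eventuallyEq.1 hx
        filter_upwards [h2] with y hy
        simp [hy]
      exact (contDiffAt_const (c := (0 : ℝ))).congr_of_eventuallyEq h1
  have hcdist : ∀ x ∈ ball c r, ContDiffAt ℝ 1 (fun y : E d => (r ^ 2 - ‖y - c‖ ^ 2)⁻¹) x := by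
    intro x hx
    refine ContDiffAt.inv ?_ (hpos x hx).ne'
    exact contDiffAt_const.sub ((contDiffAt_id.sub contDiffAt_const).norm_sq ℝ)
  have h1 := hsm (fun x => r ^ 2 * ((r ^ 2 - ‖x - c‖ ^ 2)⁻¹) ^ 2)
    (fun x hx => contDiffAt_const.mul ((hcdist x hx).pow 2))
  have h3 : HasCompactSupport (fun x => φ x ^ 2) :=
    hs.comp_left (g := fun t : ℝ => t ^ 2) (by simp)
  have h2 := h1.continuous.integrable_of_hasCompactSupport (μ := (volume : Measure (E d)))
    (h3.mul_right)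
  refine h2.congr (Filter.Eventually.of_forall (fun x => ?_))
  simp only
  rw [div_eq_mul_inv, inv_pow]
  ring

/-- Hardy inequality on a ball for test functions. -/
theorem hardy_test (hd : 1 ≤ d) (c : E d) {r : ℝ} (hr : 0 < r) {φ : E d → ℝ}
    (hφ : ContDiff ℝ 1 φ) (hs : HasCompactSupport φ) (ht : tsupport φ ⊆ ball c r) :
    (∫ x, r ^ 2 * φ x ^ 2 / (r ^ 2 - ‖x - c‖ ^ 2) ^ 2) ≤ ∫ x, ‖gradient φ x‖ ^ 2 := by
  have hpos : ∀ x ∈ ball c r, 0 < r ^ 2 - ‖x - c‖ ^ 2 := by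
    intro x hx
    rw [mem_ball, dist_eq_norm] at hx
    have h0 := norm_nonneg (x - c)
    nlinarith
  -- smoothness of functions multiplied by φ^2
  have hsm : ∀ F : E d → ℝ, (∀ x ∈ ball c r, ContDiffAt ℝ 1 F x) →
      ContDiff ℝ 1 (fun x => φ x ^ 2 * F x) := by
    intro F hF
    rw [contDiff_iff_contDiffAt]
    intro x
    by_cases hx : x ∈ tsupport φ
    · exact (hφ.contDiffAt.pow 2).mul (hF x (ht hx))
    · have h1 : (fun x => φ x ^ 2 * F x) =ᶠ[𝓝 x] fun _ => 0 := by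
        have h2 : φ =ᶠ[𝓝 x] 0 := notMem_tsupport_iff_eventuallyEq.1 hx
        filter_upwards [h2] with y hy
        simp [hy]
      exact (contDiffAt_const (c := (0 : ℝ))).congr_of_eventuallyEq h1
  have hcs : ∀ F : E d → ℝ, HasCompactSupport (fun x => φ x ^ 2 * F x) := by
    intro F
    have h1 : HasCompactSupport (fun x => φ x ^ 2) := by
      have := hs.comp_left (g := fun t : ℝ => t ^ 2) (by simp)
      exact this
    exact h1.mul_right
  have hcdist : ∀ x ∈ ball c r, ContDiffAt ℝ 1 (fun y : E d => (r ^ 2 - ‖y - c‖ ^ 2)⁻¹) x := by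
    intro x hx
    refine ContDiffAt.inv ?_ (hpos x hx).ne'
    exact contDiffAt_const.sub ((contDiffAt_id.sub contDiffAt_const).norm_sq ℝ)
  set g : Fin d → E d → ℝ := fun i x => φ x ^ 2 * ((x i - c i) * (r ^ 2 - ‖x - c‖ ^ 2)⁻¹) with hg
  have hgs : ∀ i, ContDiff ℝ 1 (g i) := by
    intro i
    refine hsm _ (fun x hx => ContDiffAt.mul ?_ (hcdist x hx))
    exact ContDiffAt.sub ((EuclideanSpace.proj i : E d →L[ℝ] ℝ).contDiff.contDiffAt)
      contDiffAt_const
  have hgc : ∀ i, HasCompactSupport (g i) := fun i => hcs _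
  have hint0 : ∀ i, ∫ x, fderiv ℝ (g i) x (ei i) = 0 := fun i =>
    integral_fderiv_eq_zero (hgs i) (hgc i) _
  have hgi : ∀ i, Integrable (fun x => fderiv ℝ (g i) x (ei i)) := by
    intro i
    refine (((hgs i).continuous_fderiv one_ne_zero).clm_apply
      continuous_const).integrable_of_hasCompactSupport ?_
    exact (hgc i).fderiv_apply (𝕜 := ℝ) _
  have hder : ∀ i, ∀ x ∈ ball c r, fderiv ℝ (g i) x (ei i) =
      2 * φ x * partialD φ i x * ((x i - c i) * (r ^ 2 - ‖x - c‖ ^ 2)⁻¹) +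
      φ x ^ 2 * ((r ^ 2 - ‖x - c‖ ^ 2)⁻¹ +
        2 * (x i - c i) ^ 2 * ((r ^ 2 - ‖x - c‖ ^ 2)⁻¹) ^ 2) := by
    intro i x hx
    have h1 : HasFDerivAt φ (fderiv ℝ φ x) x := (hφ.differentiable one_ne_zero x).hasFDerivAt
    have h2 := h1.pow 2
    have h3 := (hasFDerivAt_coord i x).sub_const (c i)
    have h4 : HasFDerivAt (fun y : E d => r ^ 2 - ‖y - c‖ ^ 2) (-(2 • innerSL ℝ (x - c))) x := by
      simpa using (hasFDerivAt_distsq c x).const_sub (r ^ 2)
    have h5 := (hasDerivAt_inv (hpos x hx).ne').comp_hasFDerivAt x h4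
    have h6 := h2.mul (h3.mul h5)
    have h7 : HasFDerivAt (g i) _ x := h6
    rw [h7.fderiv]
    have h8 : ∀ v : E d, inner ℝ v (ei i) = v i := fun v => by
      simp [ei, EuclideanSpace.inner_single_right]
    simp [partialD, h8, ei]
    field_simp
    ring
  have hzero : ∀ i, ∀ x ∉ ball c r, fderiv ℝ (g i) x (ei i) = 0 := by
    intro i x hx
    have h2 : φ =ᶠ[𝓝 x] 0 := notMem_tsupport_iff_eventuallyEq.1 (fun h => hx (ht h))
    have h3 : g i =ᶠ[𝓝 x] fun _ => 0 := by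
      filter_upwards [h2] with y hy
      simp [hg, hy]
    rw [h3.fderiv_eq]
    simp
  have hpt : ∀ x, r ^ 2 * φ x ^ 2 / (r ^ 2 - ‖x - c‖ ^ 2) ^ 2 ≤
      ‖gradient φ x‖ ^ 2 + ∑ i, fderiv ℝ (g i) x (ei i) := by
    intro x
    by_cases hx : x ∈ ball c r
    · have hk := hpos x hx
      set k := (r ^ 2 - ‖x - c‖ ^ 2)⁻¹ with hkdef
      have hk0 : 0 < k := inv_pos.2 hk
      have hkk : k * (r ^ 2 - ‖x - c‖ ^ 2) = 1 := inv_mul_cancel₀ hk.ne'
      have e1 : ∑ i, fderiv ℝ (g i) x (ei i) =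
          2 * φ x * k * (∑ i, partialD φ i x * (x i - c i)) +
          φ x ^ 2 * (d * k + 2 * k ^ 2 * ∑ i, (x i - c i) ^ 2) := by
        rw [Finset.sum_congr rfl (fun i _ => hder i x hx)]
        rw [Finset.sum_add_distrib, Finset.mul_sum, ← Finset.mul_sum, Finset.sum_add_distrib]
        congr 1
        · refine Finset.sum_congr rfl (fun i _ => ?_)
          ring
        · congr 1
          congr 1
          · rw [Finset.sum_const, Finset.card_univ, Fintype.card_fin, nsmul_eq_mul]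
          · rw [Finset.mul_sum]
            refine Finset.sum_congr rfl (fun i _ => ?_)
            ring
      have e2 : ‖gradient φ x‖ ^ 2 = ∑ i, partialD φ i x ^ 2 := by
        rw [norm_sq_eq_sum]
        refine Finset.sum_congr rfl (fun i _ => ?_)
        rw [gradient_apply']
      have e3 : ‖x - c‖ ^ 2 = ∑ i, (x i - c i) ^ 2 := by
        rw [norm_sq_eq_sum]
        rfl
      have e4 : 0 ≤ ∑ i, (partialD φ i x + φ x * k * (x i - c i)) ^ 2 :=
        Finset.sum_nonneg (fun i _ => sq_nonneg _)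
      have e5 : ∑ i, (partialD φ i x + φ x * k * (x i - c i)) ^ 2 =
          ∑ i, partialD φ i x ^ 2 + 2 * φ x * k * (∑ i, partialD φ i x * (x i - c i)) +
          φ x ^ 2 * k ^ 2 * ∑ i, (x i - c i) ^ 2 := by
        rw [Finset.mul_sum, Finset.mul_sum, ← Finset.sum_add_distrib, ← Finset.sum_add_distrib]
        refine Finset.sum_congr rfl (fun i _ => ?_)
        ring
      rw [e5] at e4
      rw [e1, e2]
      set S := ∑ i, (x i - c i) ^ 2 with hS
      set A := ∑ i, partialD φ i x ^ 2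
      set Bc := ∑ i, partialD φ i x * (x i - c i)
      have e6 : r ^ 2 * φ x ^ 2 / (r ^ 2 - ‖x - c‖ ^ 2) ^ 2 = r ^ 2 * φ x ^ 2 * k ^ 2 := by
        rw [hkdef]
        field_simp
      rw [e6]
      rw [e3] at hkk hk
      have hd1 : (1 : ℝ) ≤ d := by exact_mod_cast hd
      have e7 : 0 ≤ φ x ^ 2 * (k ^ 2 * (((d : ℝ) - 1) * (r ^ 2 - S))) := by
        have : 0 ≤ (d : ℝ) - 1 := by linarith
        positivity
      have e8 : k = k ^ 2 * (r ^ 2 - S) := by
        have : k ^ 2 * (r ^ 2 - S) = k * (k * (r ^ 2 - S)) := by ring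
        rw [this, hkk, mul_one]
      have e9 : φ x ^ 2 * (d * k + 2 * k ^ 2 * S) =
          φ x ^ 2 * (d * (k ^ 2 * (r ^ 2 - S)) + 2 * k ^ 2 * S) := by
        rw [← e8]
      rw [e9]
      nlinarith [e4, e7]
    · have h2 : φ x = 0 := by
        have : x ∉ tsupport φ := fun h => hx (ht h)
        exact image_eq_zero_of_notMem_tsupport this
      rw [Finset.sum_congr rfl (fun i _ => hzero i x hx), h2]
      simp
  have hI1 : Integrable (fun x => ‖gradient φ x‖ ^ 2) := by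
    simp_rw [norm_gradient]
    refine ((hφ.continuous_fderiv one_ne_zero).norm.pow 2).integrable_of_hasCompactSupport ?_
    have := (hs.fderiv (𝕜 := ℝ)).comp_left (g := fun t => ‖t‖ ^ 2) (by simp)
    exact this
  have hI2 : Integrable (fun x => r ^ 2 * φ x ^ 2 / (r ^ 2 - ‖x - c‖ ^ 2) ^ 2) := by
    have h1 := hsm (fun x => r ^ 2 * ((r ^ 2 - ‖x - c‖ ^ 2)⁻¹) ^ 2)
      (fun x hx => contDiffAt_const.mul ((hcdist x hx).pow 2))
    have h2 := h1.continuous.integrable_of_hasCompactSupport (μ := (volume : Measure (E d)))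
      (hcs (fun x => r ^ 2 * ((r ^ 2 - ‖x - c‖ ^ 2)⁻¹) ^ 2))
    refine h2.congr (Filter.Eventually.of_forall (fun x => ?_))
    simp only
    rw [div_eq_mul_inv, inv_pow]
    ring
  have hI3 : Integrable (fun x => ∑ i, fderiv ℝ (g i) x (ei i)) :=
    integrable_finsetSum _ (fun i _ => hgi i)
  calc (∫ x, r ^ 2 * φ x ^ 2 / (r ^ 2 - ‖x - c‖ ^ 2) ^ 2)
      ≤ ∫ x, (‖gradient φ x‖ ^ 2 + ∑ i, fderiv ℝ (g i) x (ei i)) :=
        integral_mono hI2 (hI1.add hI3) hpt
    _ = ∫ x, ‖gradient φ x‖ ^ 2 := by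
        rw [integral_add hI1 hI3, integral_finsetSum _ (fun i _ => hgi i)]
        simp [hint0]

theorem S0_poinc_test (hd : 1 ≤ d) (c : E d) {r : ℝ} (hr : 0 < r) {φ : E d → ℝ}
    (hφ1 : ContDiff ℝ 1 φ) (hφ2 : HasCompactSupport φ) (hφ3 : tsupport φ ⊆ ball c r) :
    (∫ x, φ x ^ 2) ≤ r ^ 2 * ∫ x, ‖gradient φ x‖ ^ 2 := by
  have hpos : ∀ x ∈ ball c r, 0 < r ^ 2 - ‖x - c‖ ^ 2 := by
    intro x hx
    rw [mem_ball, dist_eq_norm] at hx
    have h0 := norm_nonneg (x - c)
    nlinarith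
  have h1 := hardy_test hd c hr hφ1 hφ2 hφ3
  have h2 : ∫ x, φ x ^ 2 ≤ ∫ x, r ^ 2 * (r ^ 2 * φ x ^ 2 / (r ^ 2 - ‖x - c‖ ^ 2) ^ 2) := by
    have hi := (S0_hardy_int c hr hφ1 hφ2 hφ3).const_mul (r ^ 2)
    refine integral_mono_of_nonneg (Eventually.of_forall fun x => sq_nonneg _) hi
      (Eventually.of_forall fun x => ?_)
    by_cases hx : x ∈ ball c r
    · have hk := hpos x hx
      have h3 : (r ^ 2 - ‖x - c‖ ^ 2) ^ 2 ≤ (r ^ 2) ^ 2 := by
        have h4 := sq_nonneg ‖x - c‖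
        exact pow_le_pow_left₀ hk.le (by linarith) 2
      show φ x ^ 2 ≤ r ^ 2 * (r ^ 2 * φ x ^ 2 / (r ^ 2 - ‖x - c‖ ^ 2) ^ 2)
      rw [← mul_div_assoc, le_div_iff₀ (pow_pos hk 2)]
      calc φ x ^ 2 * (r ^ 2 - ‖x - c‖ ^ 2) ^ 2 ≤ φ x ^ 2 * (r ^ 2) ^ 2 :=
            mul_le_mul_of_nonneg_left h3 (sq_nonneg _)
        _ = r ^ 2 * (r ^ 2 * φ x ^ 2) := by ring
    · have h5 : φ x = 0 := image_eq_zero_of_notMem_tsupport (fun h => hx (hφ3 h))
      show φ x ^ 2 ≤ r ^ 2 * (r ^ 2 * φ x ^ 2 / (r ^ 2 - ‖x - c‖ ^ 2) ^ 2)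
      rw [h5]
      simp
  rw [integral_const_mul] at h2
  exact h2.trans (mul_le_mul_of_nonneg_left h1 (by positivity))

end Crest.Agent.R097
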