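import Crest.Agent.Tools.KB

/-!
# Row 97, scalar parts of the certificate: polynomial inequalities on boxes via `KB` (helper226)
-/

set_option autoImplicit false

namespace Crest.Agent.R097.SC

open KB

/-- the term `a · x₀^e · (1 - x₀²)^i · x₁^j · x₂^k · x₃^l` -/
structure Tm where
  a : ℤ
  e : ℕ
  i : ℕ
  j : ℕ
  k : ℕ
  l : ℕ

noncomputable def Tm.ev (t : Tm) (x : ℕ → ℝ) : ℝ :=
  (t.a : ℝ) * x 0 ^ t.e * (1 - x 0 ^ 2) ^ t.i * x 1 ^ t.j * x 2 ^ t.k * x 3 ^ t.l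

noncomputable def tev (L : List Tm) (x : ℕ → ℝ) : ℝ := (L.map fun t => t.ev x).sum

@[simp] lemma tev_nil (x : ℕ → ℝ) : tev [] x = 0 := rfl
@[simp] lemma tev_cons (t : Tm) (L : List Tm) (x : ℕ → ℝ) : tev (t :: L) x = t.ev x + tev L x := by
  simp [tev]
@[simp] lemma tev_append (L L' : List Tm) (x : ℕ → ℝ) : tev (L ++ L') x = tev L x + tev L' x := by
  simp [tev]

def Tm.sc (c : ℤ) (t : Tm) : Tm := { t with a := c * t.a }

def tsc (c : ℤ) (L : List Tm) : List Tm := L.map (Tm.sc c)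

@[simp] lemma tev_tsc (c : ℤ) (L : List Tm) (x : ℕ → ℝ) : tev (tsc c L) x = (c : ℝ) * tev L x := by
  induction L with
  | nil => simp [tsc]
  | cons t L ih =>
    rw [show tsc c (t :: L) = Tm.sc c t :: tsc c L from rfl, tev_cons, ih, tev_cons]
    simp only [Tm.ev, Tm.sc]
    push_cast; ring

/-- degrees used for the homogenisation -/
structure Dg where
  d0 : ℕ
  d1 : ℕ
  d2 : ℕ
  d3 : ℕ

/-- `(W₀² - X₀²)^i` -/
def zpow : ℕ → Ex → Ex
  | 0, e => e
  | i + 1, e => .mul (.sub (.W 0 2) (.X 0 2)) (zpow i e)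

lemma zpow_val (i : ℕ) (e : Ex) (x : ℕ → ℝ) :
    (zpow i e).val x (fun _ => 1) = (1 - x 0 ^ 2) ^ i * e.val x (fun _ => 1) := by
  induction i with
  | zero => simp [zpow]
  | succ i ih =>
    simp only [zpow, Ex.val, ih]
    ring

def Tm.ex (D : Dg) (t : Tm) : Ex :=
  .mul (.c t.a) (.mul (.mul (.X 0 t.e) (zpow t.i (.W 0 (D.d0 - t.e - 2 * t.i))))
    (.mul (.mul (.X 1 t.j) (.W 1 (D.d1 - t.j)))
      (.mul (.mul (.X 2 t.k) (.W 2 (D.d2 - t.k))) (.mul (.X 3 t.l) (.W 3 (D.d3 - t.l))))))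

lemma Tm.ex_val (D : Dg) (t : Tm) (x : ℕ → ℝ) : (t.ex D).val x (fun _ => 1) = t.ev x := by
  simp only [Tm.ex, Ex.val, zpow_val, Tm.ev]
  ring

def toEx (D : Dg) : List Tm → Ex
  | [] => Tm.ex D ⟨0, 0, 0, 0, 0, 0⟩
  | [t] => t.ex D
  | t :: t' :: L => .add (t.ex D) (toEx D (t' :: L))

lemma toEx_val (D : Dg) (L : List Tm) (x : ℕ → ℝ) : (toEx D L).val x (fun _ => 1) = tev L x := by
  induction L with
  | nil => simp [toEx, Tm.ex_val, Tm.ev]
  | cons t L ih =>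
    cases L with
    | nil => simp [toEx, Tm.ex_val]
    | cons t' L =>
      rw [toEx, tev_cons, ← ih]
      simp only [Ex.val, Tm.ex_val]

/-- subtract multiples of the constraints -/
def subG : List (List Tm) → List ℕ → List Tm
  | G :: Gs, μ :: μs => (if μ = 0 then [] else tsc (-(μ : ℤ)) G) ++ subG Gs μs
  | _, _ => []

lemma subG_le (Gs : List (List Tm)) (μs : List ℕ) (x : ℕ → ℝ) (h : ∀ G ∈ Gs, 0 ≤ tev G x) :
    tev (subG Gs μs) x ≤ 0 := by
  induction Gs generalizing μs with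
  | nil => simp [subG]
  | cons G Gs ih =>
    cases μs with
    | nil => simp [subG]
    | cons μ μs =>
      rw [subG, tev_append]
      have h1 := ih μs fun G' hG' => h G' (List.mem_cons_of_mem _ hG')
      have h2 := h G List.mem_cons_self
      split_ifs with h0
      · simpa using h1
      · rw [tev_tsc]
        have h3 : (0 : ℝ) ≤ (μ : ℝ) * tev G x := by positivity
        push_cast
        linarith

/-- all clauses -/
def mkcls (D : Dg) (F : List Tm) (Gs : List (List Tm)) (c0 : ℤ) (ps : List (List ℕ))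
    (outs : List (ℕ × ℕ)) : List (List Ex) :=
  ps.map (fun μs => [toEx D (F ++ (⟨-c0, 0, 0, 0, 0, 0⟩ :: subG Gs μs))]) ++
  outs.map (fun o => [toEx D (⟨-1, 0, 0, 0, 0, 0⟩ :: tsc (-(o.2 : ℤ)) (Gs.getD o.1 []))])

/-- **soundness** -/
theorem core {nv w sh : ℕ} {Xl M : List ℕ} {D : Dg} {F : List Tm} {Gs : List (List Tm)} {c0 : ℤ}
    {ps : List (List ℕ)} {outs : List (ℕ × ℕ)} {tr : Tr} {b : Box}
    (h : run nv w sh Xl M (mkcls D F Gs c0 ps outs) tr b = true) {x : ℕ → ℝ}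
    (hx : InBox nv sh b x) (hG : ∀ G ∈ Gs, 0 ≤ tev G x) : (c0 : ℝ) ≤ tev F x := by
  obtain ⟨cl, hcl, he⟩ := run_sound nv w sh Xl M _ tr b h x hx
  rw [mkcls, List.mem_append] at hcl
  rcases hcl with hcl | hcl
  · obtain ⟨μs, -, rfl⟩ := List.mem_map.1 hcl
    have h1 := he _ (List.mem_singleton.2 rfl)
    rw [toEx_val, tev_append, tev_cons] at h1
    have h2 := subG_le Gs μs x hG
    have h3 : Tm.ev ⟨-c0, 0, 0, 0, 0, 0⟩ x = -(c0 : ℝ) := by simp [Tm.ev]
    rw [h3] at h1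
    linarith
  · obtain ⟨o, -, rfl⟩ := List.mem_map.1 hcl
    have h1 := he _ (List.mem_singleton.2 rfl)
    rw [toEx_val, tev_cons, tev_tsc] at h1
    have h3 : Tm.ev ⟨-1, 0, 0, 0, 0, 0⟩ x = -1 := by simp [Tm.ev]
    have h4 : 0 ≤ tev (Gs.getD o.1 []) x := by
      rw [List.getD_eq_getElem?_getD]
      cases hg : Gs[o.1]? with
      | none => simp
      | some G => simpa using hG G (List.mem_of_getElem? hg)
    rw [h3] at h1
    exfalso
    push_cast at h1
    have h5 : (0 : ℝ) ≤ (o.2 : ℝ) * tev (Gs.getD o.1 []) x := by positivity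
    linarith

end Crest.Agent.R097.SC
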