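import Crest.Agent.R097.SC1
import Crest.Agent.R097.SC2
import Crest.Agent.R097.CP0

/-!
# Row 97, scalar parts of the certificate: `Z > 0`, `γ ≥ 0` and the boundary inequality from checks
(helper226)
-/

set_option autoImplicit false
open scoped BigOperators

namespace Crest.Agent.R097.SC

open KB CP

/-! ### multiplication by `1 - ζ` -/

/-- `(1 - ζ) L` -/
def oneSub (L : Pol) : Pol := L ++ L.map (fun m => ⟨-m.a, m.i + 1, m.j, m.k, m.l⟩)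

lemma ev_append (L L' : Pol) (y : Fin 4 → ℝ) : Pol.ev (L ++ L') y = Pol.ev L y + Pol.ev L' y := by
  simp [Pol.ev]

lemma oneSub_ev (L : Pol) (y : Fin 4 → ℝ) : Pol.ev (oneSub L) y = (1 - y 0) * Pol.ev L y := by
  rw [oneSub, ev_append]
  have : Pol.ev (L.map (fun m : Mon => (⟨-m.a, m.i + 1, m.j, m.k, m.l⟩ : Mon))) y =
      - y 0 * Pol.ev L y := by
    induction L with
    | nil => simp [Pol.ev]
    | cons m L ih =>
      rw [List.map_cons, Pol.ev_cons, ih, Pol.ev_cons]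
      simp only [Mon.ev]
      push_cast; ring
  rw [this]; ring

/-! ### charts -/

/-- the point `(s, p, Q, v)` as a sequence -/
def pt (s p Q v : ℝ) : ℕ → ℝ
  | 0 => s
  | 1 => p
  | 2 => Q
  | _ => v

/-- terms with the power `3 j + e₀` of `s` -/
def up (e0 : ℕ) (L : Pol) : List Tm := L.map fun m => ⟨m.a, 3 * m.j + e0, m.i, m.j, m.k, m.l⟩

/-- terms with the power `3 j - r` of `s` -/
def dn (r : ℕ) (L : Pol) : List Tm := L.map fun m => ⟨m.a, 3 * m.j - r, m.i, m.j, m.k, m.l⟩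

lemma up_ev {y : Fin 4 → ℝ} {s p : ℝ} (h0 : y 0 = 1 - s ^ 2) (h1 : y 1 = s ^ 3 * p) (e0 : ℕ)
    (L : Pol) : tev (up e0 L) (pt s p (y 2) (y 3)) = s ^ e0 * Pol.ev L y := by
  induction L with
  | nil => simp [up, Pol.ev]
  | cons m L ih =>
    rw [show up e0 (m :: L) = ⟨m.a, 3 * m.j + e0, m.i, m.j, m.k, m.l⟩ :: up e0 L from rfl,
      tev_cons, ih, Pol.ev_cons]
    simp only [Tm.ev, Mon.ev, pt, h0, h1, mul_pow, pow_add, pow_mul]
    ring_nf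

lemma dn_ev {y : Fin 4 → ℝ} {s p : ℝ} (h0 : y 0 = 1 - s ^ 2) (h1 : y 1 = s ^ 3 * p) {r : ℕ}
    (L : Pol) (hr : ∀ m ∈ L, r ≤ 3 * m.j) :
    s ^ r * tev (dn r L) (pt s p (y 2) (y 3)) = Pol.ev L y := by
  induction L with
  | nil => simp [dn, Pol.ev]
  | cons m L ih =>
    rw [show dn r (m :: L) = ⟨m.a, 3 * m.j - r, m.i, m.j, m.k, m.l⟩ :: dn r L from rfl,
      tev_cons, mul_add, ih fun m' hm' => hr m' (List.mem_cons_of_mem _ hm'), Pol.ev_cons]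
    have h2 : s ^ r * s ^ (3 * m.j - r) = (s ^ 3) ^ m.j := by
      rw [← pow_add, ← pow_mul, Nat.add_sub_cancel' (hr m List.mem_cons_self)]
    simp only [Tm.ev, Mon.ev, pt, h0, h1, mul_pow]
    have h3 : s ^ r * ((m.a : ℝ) * s ^ (3 * m.j - r) * (1 - s ^ 2) ^ m.i * p ^ m.j * y 2 ^ m.k *
        y 3 ^ m.l) = (m.a : ℝ) * (s ^ r * s ^ (3 * m.j - r)) * (1 - s ^ 2) ^ m.i * p ^ m.j *
        y 2 ^ m.k * y 3 ^ m.l := by ring
    rw [h3, h2]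
    ring

/-- the constraint `n (1 - Q²) - 2 (n+2) v² s² ≥ 0` -/
def G1 (n : ℕ) : List Tm := [⟨n, 0, 0, 0, 0, 0⟩, ⟨-n, 0, 0, 0, 2, 0⟩, ⟨-(2 * (n + 2)), 2, 0, 0, 0, 2⟩]

/-- the constraint `a Q - b v² ζ ≥ 0`, `A₀ = a/b` -/
def G2 (a b : ℕ) : List Tm := [⟨a, 0, 0, 0, 1, 0⟩, ⟨-b, 0, 1, 0, 0, 2⟩]

/-- hypotheses on a normalised state used by the scalar parts -/
structure SSt (n a b : ℕ) (s p Q v : ℝ) : Prop where
  s0 : 0 < s
  s1 : s ≤ 1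
  p2 : (n : ℝ) * (n - 1) * p ^ 2 ≤ ((n : ℝ) - 2) ^ 2
  q0 : 0 ≤ Q
  q1 : Q ≤ 1
  v0 : 0 ≤ v
  g1 : 2 * ((n : ℝ) + 2) * (v ^ 2 * s ^ 2) ≤ n * (1 - Q ^ 2)
  g2 : (b : ℝ) * (v ^ 2 * (1 - s ^ 2)) ≤ a * Q

/-- integer box `[0,1] × [-P,P] × [0,1] × [0,V]`, scaled by `2^sh` -/
def bx4 (sh : ℕ) (P V : ℕ) : Box := [(0, 2 ^ sh), (-(P : ℤ), P), (0, 2 ^ sh), (0, V)]

lemma inBox4 {n a b sh P V : ℕ} {s p Q v : ℝ} (h : SSt n a b s p Q v) (hn : 2 ≤ n)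
    (hP : (n - 2) ^ 2 * 4 ^ sh ≤ n * (n - 1) * P ^ 2)
    (hV : (2 * (n + 2) * a + n * b) * 4 ^ sh ≤ 2 * (n + 2) * b * V ^ 2) (hb : 0 < b) :
    InBox 4 sh (bx4 sh P V) (pt s p Q v) := by
  have hs2 : (0 : ℝ) < 2 ^ sh := by positivity
  have h4 : ((2 : ℝ) ^ sh) ^ 2 = 4 ^ sh := by rw [← pow_mul, mul_comm, pow_mul]; norm_num
  have hn2 : (2 : ℝ) ≤ n := by exact_mod_cast hn
  have hbr : (0 : ℝ) < b := by exact_mod_cast hb
  -- p
  have hp : |p * 2 ^ sh| ≤ (P : ℝ) := by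
    refine abs_le_of_sq_le_sq ?_ (Nat.cast_nonneg _)
    have e1 : (((n - 2 : ℕ) : ℝ)) = (n : ℝ) - 2 := by rw [Nat.cast_sub hn]; simp
    have e2 : (((n - 1 : ℕ) : ℝ)) = (n : ℝ) - 1 := by rw [Nat.cast_sub (by omega)]; simp
    have hP' : ((n : ℝ) - 2) ^ 2 * 4 ^ sh ≤ n * ((n : ℝ) - 1) * (P : ℝ) ^ 2 := by
      rw [← e1, ← e2]; exact_mod_cast hP
    have h5 : (0 : ℝ) < n * ((n : ℝ) - 1) := by nlinarith
    have h6 : (n : ℝ) * (n - 1) * (p * 2 ^ sh) ^ 2 ≤ n * (n - 1) * (P : ℝ) ^ 2 := by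
      calc (n : ℝ) * (n - 1) * (p * 2 ^ sh) ^ 2 = (n : ℝ) * (n - 1) * p ^ 2 * 4 ^ sh := by
            rw [mul_pow, h4]; ring
        _ ≤ ((n : ℝ) - 2) ^ 2 * 4 ^ sh := by
            exact mul_le_mul_of_nonneg_right h.p2 (by positivity)
        _ ≤ _ := hP'
    exact le_of_mul_le_mul_left h6 h5
  -- v
  have hv : v * 2 ^ sh ≤ (V : ℝ) := by
    refine abs_le_of_sq_le_sq' ?_ (Nat.cast_nonneg _) |>.2
    have hV' : (2 * ((n : ℝ) + 2) * a + n * b) * 4 ^ sh ≤ 2 * ((n : ℝ) + 2) * b * (V : ℝ) ^ 2 := by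
      exact_mod_cast hV
    have h5 : (0 : ℝ) < 2 * ((n : ℝ) + 2) * b := by positivity
    have hq2 : Q ^ 2 ≥ 0 := sq_nonneg _
    have ha : (0 : ℝ) ≤ a := Nat.cast_nonneg a
    have h6 : 2 * ((n : ℝ) + 2) * b * v ^ 2 ≤ 2 * ((n : ℝ) + 2) * a + n * b := by
      have k1 := mul_le_mul_of_nonneg_left h.g1 hbr.le
      have k2 := mul_le_mul_of_nonneg_left h.g2 (by positivity : (0 : ℝ) ≤ 2 * ((n : ℝ) + 2))
      have k3 : (n : ℝ) * b * Q ^ 2 ≥ 0 := by positivity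
      have k4 : 2 * ((n : ℝ) + 2) * (a * Q) ≤ 2 * ((n : ℝ) + 2) * a := by
        have := mul_le_mul_of_nonneg_left h.q1 (by positivity : (0 : ℝ) ≤ 2 * ((n : ℝ) + 2) * a)
        nlinarith
      nlinarith
    have h7 : 2 * ((n : ℝ) + 2) * b * (v * 2 ^ sh) ^ 2 ≤ 2 * ((n : ℝ) + 2) * b * (V : ℝ) ^ 2 := by
      calc 2 * ((n : ℝ) + 2) * b * (v * 2 ^ sh) ^ 2 = 2 * ((n : ℝ) + 2) * b * v ^ 2 * 4 ^ sh := by
            rw [mul_pow, h4]; ring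
        _ ≤ (2 * ((n : ℝ) + 2) * a + n * b) * 4 ^ sh :=
            mul_le_mul_of_nonneg_right h6 (by positivity)
        _ ≤ _ := hV'
    exact le_of_mul_le_mul_left h7 h5
  intro i hi
  interval_cases i
  · simp only [ba, bb, bx4, pt, List.getD_cons_zero]
    push_cast
    exact ⟨by have := h.s0; positivity, by nlinarith [h.s1]⟩
  · simp only [ba, bb, bx4, pt, List.getD_cons_zero, List.getD_cons_succ]
    push_cast
    exact abs_le.1 hp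
  · simp only [ba, bb, bx4, pt, List.getD_cons_zero, List.getD_cons_succ]
    push_cast
    exact ⟨by have := h.q0; positivity, by nlinarith [h.q1]⟩
  · simp only [ba, bb, bx4, pt, List.getD_cons_zero, List.getD_cons_succ]
    push_cast
    exact ⟨by have := h.v0; positivity, hv⟩

lemma G_nonneg {n a b : ℕ} {s p Q v : ℝ} (h : SSt n a b s p Q v) :
    ∀ G ∈ [G1 n, G2 a b], 0 ≤ tev G (pt s p Q v) := by
  intro G hG
  simp only [List.mem_cons, List.not_mem_nil, or_false] at hG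
  rcases hG with rfl | rfl
  · have := h.g1
    simp only [G1, tev_cons, tev_nil, Tm.ev, pt]
    push_cast
    nlinarith
  · have := h.g2
    simp only [G2, tev_cons, tev_nil, Tm.ev, pt]
    push_cast
    nlinarith

/-- positivity of a function on all states -/
theorem pos_of_run {n a b sh P V w : ℕ} {Xl M : List ℕ} {D : Dg} {F : List Tm} {c0 : ℤ}
    {ps : List (List ℕ)} {outs : List (ℕ × ℕ)} {tr : Tr}
    (hr : run 4 w sh Xl M (mkcls D F [G1 n, G2 a b] c0 ps outs) tr (bx4 sh P V) = true)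
    (hn : 2 ≤ n) (hP : (n - 2) ^ 2 * 4 ^ sh ≤ n * (n - 1) * P ^ 2)
    (hV : (2 * (n + 2) * a + n * b) * 4 ^ sh ≤ 2 * (n + 2) * b * V ^ 2) (hb : 0 < b)
    {s p Q v : ℝ} (h : SSt n a b s p Q v) : (c0 : ℝ) ≤ tev F (pt s p Q v) :=
  core hr (inBox4 h hn hP hV hb) (G_nonneg h)

end Crest.Agent.R097.SC
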