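import Crest.Agent.R097.SC3

/-!
# Row 97, scalar parts of the certificate: the boundary inequality (helper226)
-/

set_option autoImplicit false
open scoped BigOperators

namespace Crest.Agent.R097.SC

open KB CP

/-- boundary terms (`Q = 1`, `v = 0`): `c s^{e₀-r} p^{dj} x^{xk} L` -/
def bt (c : ℤ) (e0 r dj xk : ℕ) (L : Pol) : List Tm :=
  (L.filter fun m => m.l == 0).map fun m => ⟨c * m.a, 3 * m.j + e0 - r, m.i, m.j + dj, xk, 0⟩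

lemma bt_ev {y : Fin 4 → ℝ} {s p x : ℝ} (h0 : y 0 = 1 - s ^ 2) (h1 : y 1 = s ^ 3 * p)
    (h2 : y 2 = 1) (h3 : y 3 = 0) (c : ℤ) (e0 r dj xk : ℕ) (L : Pol)
    (hr : ∀ m ∈ L, r ≤ 3 * m.j + e0) :
    s ^ r * tev (bt c e0 r dj xk L) (pt s p x 0) =
      (c : ℝ) * s ^ e0 * p ^ dj * x ^ xk * Pol.ev L y := by
  induction L with
  | nil => simp [bt, Pol.ev]
  | cons m L ih =>
    have ih' := ih fun m' hm' => hr m' (List.mem_cons_of_mem _ hm')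
    rw [Pol.ev_cons]
    by_cases hm : m.l = 0
    · have e : bt c e0 r dj xk (m :: L) =
          ⟨c * m.a, 3 * m.j + e0 - r, m.i, m.j + dj, xk, 0⟩ :: bt c e0 r dj xk L := by
        simp [bt, hm]
      rw [e, tev_cons, mul_add, ih']
      have h4 : s ^ r * s ^ (3 * m.j + e0 - r) = (s ^ 3) ^ m.j * s ^ e0 := by
        rw [← pow_add, Nat.add_sub_cancel' (hr m List.mem_cons_self), pow_add, pow_mul]
      simp only [Tm.ev, Mon.ev, pt, h0, h1, h2, hm, mul_pow, one_pow, pow_zero, pow_add, mul_one]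
      push_cast
      have h5 : s ^ r * ((c : ℝ) * m.a * s ^ (3 * m.j + e0 - r) * (1 - s ^ 2) ^ m.i *
          (p ^ m.j * p ^ dj) * x ^ xk) = (c : ℝ) * m.a * (s ^ r * s ^ (3 * m.j + e0 - r)) *
          (1 - s ^ 2) ^ m.i * (p ^ m.j * p ^ dj) * x ^ xk := by ring
      rw [h5, h4]
      ring
    · have e : bt c e0 r dj xk (m :: L) = bt c e0 r dj xk L := by
        simp [bt, hm]
      rw [e, ih']
      have : m.ev y = 0 := by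
        simp only [Mon.ev, h3, zero_pow hm, mul_zero]
      rw [this]; ring

/-- `BJ / s` -/
def bjF (g p0A p0B p1 p2 p3 ZA ZB : Pol) : List Tm :=
  bt (-1) 2 0 0 1 ZA ++ bt (-1) 0 0 0 1 ZB ++ bt 1 1 0 0 0 p0A ++ bt 1 0 1 0 0 p0B ++
    bt 1 0 0 0 1 p1 ++ bt 1 1 0 0 2 p2 ++ bt 1 2 0 0 3 p3 ++ bt (-1) 2 0 1 0 g ++ bt 2 2 0 0 1 g

lemma bjF_ev {y : Fin 4 → ℝ} {s p x : ℝ} (h0 : y 0 = 1 - s ^ 2) (h1 : y 1 = s ^ 3 * p)
    (h2 : y 2 = 1) (h3 : y 3 = 0) {g p0A p0B p1 p2 p3 ZA ZB : Pol} (hB : ∀ m ∈ p0B, 1 ≤ m.j) :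
    s * tev (bjF g p0A p0B p1 p2 p3 ZA ZB) (pt s p x 0) =
      (-(s * x)) * Pol.ev (oneSub ZA ++ ZB) y + Pol.ev (oneSub p0A ++ p0B) y
        - (-(s * x)) * Pol.ev p1 y + (-(s * x)) ^ 2 * Pol.ev p2 y - (-(s * x)) ^ 3 * Pol.ev p3 y
        - Pol.ev g y * (2 * (-(s * x)) * (1 - y 0) + y 1) := by
  have b0 : ∀ (L : Pol) (e0 : ℕ), ∀ m ∈ L, 0 ≤ 3 * m.j + e0 := fun _ _ _ _ => Nat.zero_le _
  have k1 := bt_ev (x := x) h0 h1 h2 h3 (-1) 2 0 0 1 ZA (b0 _ _)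
  have k2 := bt_ev (x := x) h0 h1 h2 h3 (-1) 0 0 0 1 ZB (b0 _ _)
  have k3 := bt_ev (x := x) h0 h1 h2 h3 1 1 0 0 0 p0A (b0 _ _)
  have k4 := bt_ev (x := x) h0 h1 h2 h3 1 0 1 0 0 p0B (fun m hm => by have := hB m hm; omega)
  have k5 := bt_ev (x := x) h0 h1 h2 h3 1 0 0 0 1 p1 (b0 _ _)
  have k6 := bt_ev (x := x) h0 h1 h2 h3 1 1 0 0 2 p2 (b0 _ _)
  have k7 := bt_ev (x := x) h0 h1 h2 h3 1 2 0 0 3 p3 (b0 _ _)
  have k8 := bt_ev (x := x) h0 h1 h2 h3 (-1) 2 0 1 0 g (b0 _ _)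
  have k9 := bt_ev (x := x) h0 h1 h2 h3 2 2 0 0 1 g (b0 _ _)
  simp only [pow_zero, pow_one, one_mul, mul_one, Int.cast_neg, Int.cast_one, Int.cast_ofNat]
    at k1 k2 k3 k4 k5 k6 k7 k8 k9
  unfold bjF
  simp only [tev_append]
  rw [ev_append, ev_append, oneSub_ev, oneSub_ev, h0, h1]
  linear_combination s * k1 + s * k2 + s * k3 + k4 + s * k5 + s * k6 + s * k7 + s * k8 + s * k9

/-! ### power sums of a boundary state -/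

/-- the normalised eigenvalue `x = l_k/s` and `p = ∑ l³/s³` -/
structure BSt (n : ℕ) (x p : ℝ) : Prop where
  x0 : x ≤ 0
  x2 : (n : ℝ) * x ^ 2 ≤ (n : ℝ) - 1
  p2 : (n : ℝ) * (n - 1) * p ^ 2 ≤ ((n : ℝ) - 2) ^ 2
  k3 : ((n : ℝ) - 1) * ((n : ℝ) - 2) * (p - x ^ 3 + 3 * x / (n - 1) * (1 - x ^ 2)
    - 2 * x ^ 3 / (n - 1) ^ 2) ^ 2 ≤ ((n : ℝ) - 3) ^ 2 * (1 - n / (n - 1) * x ^ 2) ^ 3

lemma sums {n : ℕ} (l : Fin n → ℝ) {s : ℝ} (hs : 0 < s) (h0 : ∑ i, l i = 0)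
    (h2 : ∑ i, l i ^ 2 = s ^ 2) : (∑ i, l i / s = 0) ∧ (∑ i, (l i / s) ^ 2 = 1) ∧
    ∑ i, (l i / s) ^ 3 = (∑ i, l i ^ 3) / s ^ 3 := by
  refine ⟨?_, ?_, ?_⟩
  · rw [← Finset.sum_div, h0, zero_div]
  · simp_rw [div_pow]
    rw [← Finset.sum_div, h2, div_self (by positivity)]
  · simp_rw [div_pow]
    rw [← Finset.sum_div]

lemma p_bound {n : ℕ} (hn : 2 ≤ n) (l : Fin n → ℝ) {s : ℝ} (hs : 0 < s) (h0 : ∑ i, l i = 0)
    (h2 : ∑ i, l i ^ 2 = s ^ 2) :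
    (n : ℝ) * (n - 1) * ((∑ i, l i ^ 3) / s ^ 3) ^ 2 ≤ ((n : ℝ) - 2) ^ 2 := by
  obtain ⟨a1, a2, a3⟩ := sums l hs h0 h2
  have := cube_sq_le Finset.univ (fun i => l i / s) (by simpa using hn) a1
  rw [a2, a3] at this
  simpa using this

lemma bst {n : ℕ} (hn : 3 ≤ n) (l : Fin n → ℝ) {s : ℝ} (hs : 0 < s) (h0 : ∑ i, l i = 0)
    (h2 : ∑ i, l i ^ 2 = s ^ 2) (k : Fin n) (hk : l k ≤ 0) :
    BSt n (l k / s) ((∑ i, l i ^ 3) / s ^ 3) := by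
  obtain ⟨a1, a2, a3⟩ := sums l hs h0 h2
  refine ⟨div_nonpos_of_nonpos_of_nonneg hk hs.le, ?_, p_bound (by omega) l hs h0 h2, ?_⟩
  · have := sq_le_of_sum_zero Finset.univ (fun i => l i / s) a1 (Finset.mem_univ k)
    rw [a2] at this
    simpa using this
  · have := cube_sq_le_erase hn (fun i => l i / s) a1 k
    rw [a2, a3] at this
    exact this

/-- the constraints in `(s, p, x)` -/
def G3 : ℕ → List (List Tm)
  | 3 => [[⟨2, 0, 0, 1, 0, 0⟩, ⟨-6, 0, 0, 0, 3, 0⟩, ⟨3, 0, 0, 0, 1, 0⟩],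
      [⟨-2, 0, 0, 1, 0, 0⟩, ⟨6, 0, 0, 0, 3, 0⟩, ⟨-3, 0, 0, 0, 1, 0⟩]]
  | 4 => [[⟨27, 0, 0, 0, 0, 0⟩, ⟨-270, 0, 0, 0, 2, 0⟩, ⟨864, 0, 0, 0, 4, 0⟩,
      ⟨-864, 0, 0, 0, 6, 0⟩, ⟨-162, 0, 0, 2, 0, 0⟩, ⟨-324, 0, 0, 1, 1, 0⟩,
      ⟨720, 0, 0, 1, 3, 0⟩]]
  | 5 => [[⟨64, 0, 0, 0, 0, 0⟩, ⟨-348, 0, 0, 0, 2, 0⟩, ⟨840, 0, 0, 0, 4, 0⟩,
      ⟨-800, 0, 0, 0, 6, 0⟩, ⟨-192, 0, 0, 2, 0, 0⟩, ⟨-288, 0, 0, 1, 1, 0⟩,
      ⟨720, 0, 0, 1, 3, 0⟩]]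
  | _ => []

lemma G3_nonneg {n : ℕ} (hn : 3 ≤ n) (hn5 : n ≤ 5) {s x p : ℝ} (h : BSt n x p) :
    ∀ G ∈ G3 n, 0 ≤ tev G (pt s p x 0) := by
  have hk := h.k3
  interval_cases n
  · have h1 : p - x ^ 3 + 3 * x / 2 * (1 - x ^ 2) - 2 * x ^ 3 / 2 ^ 2 = 0 := by
      have h2 : (p - x ^ 3 + 3 * x / 2 * (1 - x ^ 2) - 2 * x ^ 3 / 2 ^ 2) ^ 2 ≤ 0 := by
        norm_num at hk
        nlinarith
      exact pow_eq_zero_iff (two_ne_zero) |>.1 (le_antisymm h2 (sq_nonneg _))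
    intro G hG
    simp only [G3, List.mem_cons, List.not_mem_nil, or_false] at hG
    rcases hG with rfl | rfl
    · simp only [tev_cons, tev_nil, Tm.ev, pt]
      push_cast
      nlinarith
    · simp only [tev_cons, tev_nil, Tm.ev, pt]
      push_cast
      nlinarith
  · intro G hG
    simp only [G3, List.mem_cons, List.not_mem_nil, or_false] at hG
    subst hG
    simp only [tev_cons, tev_nil, Tm.ev, pt]
    push_cast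
    norm_num at hk
    nlinarith
  · intro G hG
    simp only [G3, List.mem_cons, List.not_mem_nil, or_false] at hG
    subst hG
    simp only [tev_cons, tev_nil, Tm.ev, pt]
    push_cast
    norm_num at hk
    nlinarith

/-- integer box in `(s, p, x)` -/
def bx3 (sh : ℕ) (P X : ℕ) : Box := [(0, 2 ^ sh), (-(P : ℤ), P), (-(X : ℤ), 0), (0, 1)]

lemma inBox3 {n sh P X : ℕ} {s p x : ℝ} (h : BSt n x p) (hs0 : 0 < s) (hs1 : s ≤ 1) (hn : 2 ≤ n)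
    (hP : (n - 2) ^ 2 * 4 ^ sh ≤ n * (n - 1) * P ^ 2) (hX : (n - 1) * 4 ^ sh ≤ n * X ^ 2) :
    InBox 4 sh (bx3 sh P X) (pt s p x 0) := by
  have hs2 : (0 : ℝ) < 2 ^ sh := by positivity
  have h4 : ((2 : ℝ) ^ sh) ^ 2 = 4 ^ sh := by rw [← pow_mul, mul_comm, pow_mul]; norm_num
  have hn2 : (2 : ℝ) ≤ n := by exact_mod_cast hn
  have e1 : (((n - 2 : ℕ) : ℝ)) = (n : ℝ) - 2 := by rw [Nat.cast_sub hn]; simp
  have e2 : (((n - 1 : ℕ) : ℝ)) = (n : ℝ) - 1 := by rw [Nat.cast_sub (by omega)]; simp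
  have hp : |p * 2 ^ sh| ≤ (P : ℝ) := by
    refine abs_le_of_sq_le_sq ?_ (Nat.cast_nonneg _)
    have hP' : ((n : ℝ) - 2) ^ 2 * 4 ^ sh ≤ n * ((n : ℝ) - 1) * (P : ℝ) ^ 2 := by
      rw [← e1, ← e2]; exact_mod_cast hP
    have h5 : (0 : ℝ) < n * ((n : ℝ) - 1) := by nlinarith
    have h6 : (n : ℝ) * (n - 1) * (p * 2 ^ sh) ^ 2 ≤ n * (n - 1) * (P : ℝ) ^ 2 := by
      calc (n : ℝ) * (n - 1) * (p * 2 ^ sh) ^ 2 = (n : ℝ) * (n - 1) * p ^ 2 * 4 ^ sh := by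
            rw [mul_pow, h4]; ring
        _ ≤ ((n : ℝ) - 2) ^ 2 * 4 ^ sh := mul_le_mul_of_nonneg_right h.p2 (by positivity)
        _ ≤ _ := hP'
    exact le_of_mul_le_mul_left h6 h5
  have hx : |x * 2 ^ sh| ≤ (X : ℝ) := by
    refine abs_le_of_sq_le_sq ?_ (Nat.cast_nonneg _)
    have hX' : ((n : ℝ) - 1) * 4 ^ sh ≤ n * (X : ℝ) ^ 2 := by
      rw [← e2]; exact_mod_cast hX
    have h6 : (n : ℝ) * (x * 2 ^ sh) ^ 2 ≤ n * (X : ℝ) ^ 2 := by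
      calc (n : ℝ) * (x * 2 ^ sh) ^ 2 = (n : ℝ) * x ^ 2 * 4 ^ sh := by rw [mul_pow, h4]; ring
        _ ≤ ((n : ℝ) - 1) * 4 ^ sh := mul_le_mul_of_nonneg_right h.x2 (by positivity)
        _ ≤ _ := hX'
    exact le_of_mul_le_mul_left h6 (by linarith)
  intro i hi
  interval_cases i
  · simp only [ba, bb, bx3, pt, List.getD_cons_zero]
    push_cast
    exact ⟨by positivity, by nlinarith⟩
  · simp only [ba, bb, bx3, pt, List.getD_cons_zero, List.getD_cons_succ]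
    push_cast
    exact abs_le.1 hp
  · simp only [ba, bb, bx3, pt, List.getD_cons_zero, List.getD_cons_succ]
    push_cast
    exact ⟨(abs_le.1 hx).1, by nlinarith [h.x0]⟩
  · simp [ba, bb, bx3, pt]

/-- **boundary inequality from a check** -/
theorem bj_of_run {n sh P X w : ℕ} {Xl M : List ℕ} {D : Dg} {ps : List (List ℕ)}
    {outs : List (ℕ × ℕ)} {tr : Tr} {g p0A p0B p1 p2 p3 ZA ZB : Pol}
    (hr : run 4 w sh Xl M (mkcls D (bjF g p0A p0B p1 p2 p3 ZA ZB) (G3 n) 0 ps outs) tr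
      (bx3 sh P X) = true)
    (hn : 3 ≤ n) (hn5 : n ≤ 5) (hP : (n - 2) ^ 2 * 4 ^ sh ≤ n * (n - 1) * P ^ 2)
    (hX : (n - 1) * 4 ^ sh ≤ n * X ^ 2) (hB : ∀ m ∈ p0B, 1 ≤ m.j)
    (l : Fin n → ℝ) (y : Fin 4 → ℝ) (ht : ∑ i, l i = 0) (hsq : ∑ i, l i ^ 2 = 1 - y 0)
    (hcu : ∑ i, l i ^ 3 = y 1) (hz0 : 0 < y 0) (hz1 : y 0 < 1) (hQ : y 2 = 1) (hv : y 3 = 0)
    (k : Fin n) (h : ℝ) (hh : 0 ≤ h) (hk : l k = -h) :
    0 ≤ h * Pol.ev (oneSub ZA ++ ZB) y + Pol.ev (oneSub p0A ++ p0B) y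
        - h * Pol.ev p1 y + h ^ 2 * Pol.ev p2 y - h ^ 3 * Pol.ev p3 y
        - Pol.ev g y * (2 * h * (1 - y 0) + y 1) := by
  set s := Real.sqrt (1 - y 0) with hs
  have hs0 : 0 < s := Real.sqrt_pos.2 (by linarith)
  have hs2 : s ^ 2 = 1 - y 0 := Real.sq_sqrt (by linarith)
  have hs1 : s ≤ 1 := by
    rw [hs]; exact Real.sqrt_le_one.2 (by linarith)
  have h2 : ∑ i, l i ^ 2 = s ^ 2 := by rw [hsq, hs2]
  have hB' := bst hn l hs0 ht h2 k (by rw [hk]; linarith)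
  have key := core hr (inBox3 hB' hs0 hs1 (by omega) hP hX) (G3_nonneg hn hn5 hB')
  have e0 : y 0 = 1 - s ^ 2 := by rw [hs2]; ring
  have e1 : y 1 = s ^ 3 * ((∑ i, l i ^ 3) / s ^ 3) := by
    rw [← hcu]; field_simp
  have := bjF_ev (x := l k / s) e0 e1 hQ hv (g := g) (p0A := p0A) (p1 := p1) (p2 := p2) (p3 := p3)
    (ZA := ZA) (ZB := ZB) hB
  have e2 : -(s * (l k / s)) = h := by rw [mul_div_cancel₀ _ hs0.ne', hk, neg_neg]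
  rw [e2] at this
  rw [← this]
  refine mul_nonneg hs0.le ?_
  simpa using key

end Crest.Agent.R097.SC
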