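import Crest.Agent.R097.SC4

/-!
# Row 97, scalar parts of the certificate: `Z > 0` and `γ ≥ 0` from checks (helper226)
-/

set_option autoImplicit false
open scoped BigOperators

namespace Crest.Agent.R097.SC

open KB CP

/-- a normalised state gives a point of the chart `(s, p, Q, v)` -/
lemma sst {n a b : ℕ} (hn : 3 ≤ n) (hb : 0 < b) (ha : 0 < a) {l : Fin n → ℝ} {y : Fin 4 → ℝ}
    (ht : ∑ i, l i = 0) (hsq : ∑ i, l i ^ 2 = 1 - y 0) (hcu : ∑ i, l i ^ 3 = y 1)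
    (hz0 : 0 < y 0) (hz1 : y 0 < 1) (hv : 0 ≤ y 3)
    (hq0 : 0 ≤ y 2 - y 3 ^ 2 * (y 0 / ((a : ℝ) / b))) (hq1 : y 2 ≤ 1)
    (hap : y 3 ^ 2 * (1 - y 0) ≤ (n : ℝ) / (2 * (n + 2)) * (1 - y 2 ^ 2)) :
    ∃ s p : ℝ, SSt n a b s p (y 2) (y 3) ∧ y 0 = 1 - s ^ 2 ∧ y 1 = s ^ 3 * p := by
  have hbr : (0 : ℝ) < b := by exact_mod_cast hb
  have har : (0 : ℝ) < a := by exact_mod_cast ha
  set s := Real.sqrt (1 - y 0) with hs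
  have hs0 : 0 < s := Real.sqrt_pos.2 (by linarith)
  have hs2 : s ^ 2 = 1 - y 0 := Real.sq_sqrt (by linarith)
  have hs1 : s ≤ 1 := by rw [hs]; exact Real.sqrt_le_one.2 (by linarith)
  have h2 : ∑ i, l i ^ 2 = s ^ 2 := by rw [hsq, hs2]
  have e0 : y 0 = 1 - s ^ 2 := by rw [hs2]; ring
  have hn0 : (0 : ℝ) < (n : ℝ) + 2 := by positivity
  refine ⟨s, (∑ i, l i ^ 3) / s ^ 3, ⟨hs0, hs1, p_bound (by omega) l hs0 ht h2, ?_, hq1, hv, ?_, ?_⟩,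
    e0, by rw [← hcu]; field_simp⟩
  · have : 0 ≤ y 3 ^ 2 * (y 0 / ((a : ℝ) / b)) := by positivity
    linarith
  · rw [hs2]
    have h3 := mul_le_mul_of_nonneg_left hap (by positivity : (0 : ℝ) ≤ 2 * ((n : ℝ) + 2))
    refine h3.trans (le_of_eq ?_)
    field_simp
  · have h3 : (b : ℝ) * (y 3 ^ 2 * (1 - s ^ 2)) = a * (y 3 ^ 2 * (y 0 / ((a : ℝ) / b))) := by
      rw [e0]; field_simp
    rw [h3]
    exact mul_le_mul_of_nonneg_left (by linarith) har.le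

/-- **`Z > 0` from a check** -/
theorem zpos_of_run {n a b sh P V w : ℕ} {Xl M : List ℕ} {D : Dg} {ZA ZB : Pol} {c0 : ℤ}
    {ps : List (List ℕ)} {outs : List (ℕ × ℕ)} {tr : Tr}
    (hr : run 4 w sh Xl M (mkcls D (up 0 ZA ++ dn 2 ZB) [G1 n, G2 a b] c0 ps outs) tr
      (bx4 sh P V) = true) (hc0 : 0 < c0)
    (hn : 3 ≤ n) (hP : (n - 2) ^ 2 * 4 ^ sh ≤ n * (n - 1) * P ^ 2)
    (hV : (2 * (n + 2) * a + n * b) * 4 ^ sh ≤ 2 * (n + 2) * b * V ^ 2) (hb : 0 < b) (ha : 0 < a)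
    (hZB : ∀ m ∈ ZB, 1 ≤ m.j) {l : Fin n → ℝ} {y : Fin 4 → ℝ}
    (ht : ∑ i, l i = 0) (hsq : ∑ i, l i ^ 2 = 1 - y 0) (hcu : ∑ i, l i ^ 3 = y 1)
    (hz0 : 0 < y 0) (hz1 : y 0 < 1) (hv : 0 ≤ y 3)
    (hq0 : 0 ≤ y 2 - y 3 ^ 2 * (y 0 / ((a : ℝ) / b))) (hq1 : y 2 ≤ 1)
    (hap : y 3 ^ 2 * (1 - y 0) ≤ (n : ℝ) / (2 * (n + 2)) * (1 - y 2 ^ 2)) :
    0 < Pol.ev (oneSub ZA ++ ZB) y := by
  obtain ⟨s, p, hS, e0, e1⟩ := sst hn hb ha ht hsq hcu hz0 hz1 hv hq0 hq1 hap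
  have key := pos_of_run hr (by omega) hP hV hb hS
  have hs0 := hS.s0
  rw [ev_append, oneSub_ev, ← dn_ev e0 e1 ZB (fun m hm => by have := hZB m hm; omega : ∀ m ∈ ZB, 2 ≤ 3 * m.j)]
  rw [tev_append, up_ev e0 e1, pow_zero, one_mul] at key
  have h1 : (0 : ℝ) < c0 := by exact_mod_cast hc0
  have h2 : 1 - y 0 = s ^ 2 := by rw [e0]; ring
  rw [h2, ← mul_add]
  have : 0 < Pol.ev ZA y + tev (dn 2 ZB) (pt s p (y 2) (y 3)) := by linarith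
  positivity

/-- **`γ ≥ 0` from a check** -/
theorem gnn_of_run {n a b sh P V w : ℕ} {Xl M : List ℕ} {D : Dg} {g : Pol} {c0 : ℤ}
    {ps : List (List ℕ)} {outs : List (ℕ × ℕ)} {tr : Tr}
    (hr : run 4 w sh Xl M (mkcls D (up 0 g) [G1 n, G2 a b] c0 ps outs) tr
      (bx4 sh P V) = true) (hc0 : 0 ≤ c0)
    (hn : 3 ≤ n) (hP : (n - 2) ^ 2 * 4 ^ sh ≤ n * (n - 1) * P ^ 2)
    (hV : (2 * (n + 2) * a + n * b) * 4 ^ sh ≤ 2 * (n + 2) * b * V ^ 2) (hb : 0 < b) (ha : 0 < a)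
    {l : Fin n → ℝ} {y : Fin 4 → ℝ}
    (ht : ∑ i, l i = 0) (hsq : ∑ i, l i ^ 2 = 1 - y 0) (hcu : ∑ i, l i ^ 3 = y 1)
    (hz0 : 0 < y 0) (hz1 : y 0 < 1) (hv : 0 ≤ y 3)
    (hq0 : 0 ≤ y 2 - y 3 ^ 2 * (y 0 / ((a : ℝ) / b))) (hq1 : y 2 ≤ 1)
    (hap : y 3 ^ 2 * (1 - y 0) ≤ (n : ℝ) / (2 * (n + 2)) * (1 - y 2 ^ 2)) :
    0 ≤ Pol.ev g y := by
  obtain ⟨s, p, hS, e0, e1⟩ := sst hn hb ha ht hsq hcu hz0 hz1 hv hq0 hq1 hap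
  have key := pos_of_run hr (by omega) hP hV hb hS
  rw [up_ev e0 e1, pow_zero, one_mul] at key
  have h1 : (0 : ℝ) ≤ c0 := by exact_mod_cast hc0
  linarith

end Crest.Agent.R097.SC
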