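import Crest.Agent.R097.SC5
import Crest.Agent.R097.CQ4

/-!
# Row 97: assembly of `NCert` / `Cert` from the scalar parts and the cover of chart `S` (helper226)
-/

set_option autoImplicit false
open scoped BigOperators

namespace Crest.Agent.R097.SC

open CP

/-- the factored form `(1 - ζ) A + B`, `B` divisible by `c`, vanishes at `ζ = 1, c = 0` -/
lemma ev_van {A B : Pol} (hB : ∀ m ∈ B, 1 ≤ m.j) (Q v : ℝ) :
    Pol.ev (oneSub A ++ B) ![1, 0, Q, v] = 0 := by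
  rw [ev_append, oneSub_ev]
  have h2 : Pol.ev B ![1, 0, Q, v] = 0 := by
    induction B with
    | nil => simp [Pol.ev]
    | cons m B ih =>
      rw [Pol.ev_cons, ih fun m' hm' => hB m' (List.mem_cons_of_mem _ hm')]
      have h1 : m.j ≠ 0 := by have := hB m List.mem_cons_self; omega
      simp [Mon.ev, h1]
  rw [h2]; simp

/-- the chart `U` is not needed -/
lemma coverU_zero (P : CQ.Par) (D : Dat) : CQ.CoverU P D 0 := by
  intro ξ c ζ Q v h hz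
  exact absurd h.z0 (not_lt.2 hz)

/-- **`NCert` from the scalar parts and the cover of chart `S`** -/
theorem ncert_of {P : CQ.Par} {A B A' B' g p1 p2 : Pol} (hn : CQ.nOK P.n) (han : 0 < P.an)
    (had : 0 < P.ad) (hld : 0 < P.ld) (hlam : (P.n - 1) ^ 2 * P.ld < 4 * P.ln)
    (hZ : ∀ (l : Fin P.n → ℝ) (y : Fin 4 → ℝ), NAdm P.A0 l y → 0 < Pol.ev (oneSub A ++ B) y)
    (hg : ∀ (l : Fin P.n → ℝ) (y : Fin 4 → ℝ), NAdm P.A0 l y → 0 ≤ Pol.ev g y)
    (hBJ : ∀ (l : Fin P.n → ℝ) (y : Fin 4 → ℝ), NAdm P.A0 l y → y 2 = 1 → y 3 = 0 →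
      ∀ (k : Fin P.n) (h : ℝ), 0 ≤ h → l k = -h →
      0 ≤ h * Pol.ev (oneSub A ++ B) y + Pol.ev (oneSub A' ++ B') y - h * Pol.ev p1 y
        + h ^ 2 * Pol.ev p2 y - h ^ 3 * Pol.ev [] y - Pol.ev g y * (2 * h * (1 - y 0) + y 1))
    (hB : ∀ m ∈ B, 1 ≤ m.j) (hB' : ∀ m ∈ B', 1 ≤ m.j)
    (hS : CQ.CoverS P ⟨g, oneSub A' ++ B', p1, p2, [], oneSub A ++ B⟩ 1) :
    NCert P.n P.A0 P.Lam ⟨g, oneSub A' ++ B', p1, p2, [], oneSub A ++ B⟩ := by
  have h1 : (0 : ℝ) < P.an := by exact_mod_cast han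
  have h2 : (0 : ℝ) < P.ad := by exact_mod_cast had
  have h3 : (0 : ℝ) < P.ld := by exact_mod_cast hld
  refine ⟨div_pos h1 h2, ?_, hZ, hg, ?_, hBJ, fun Q v => ev_van hB Q v, fun Q v => ev_van hB' Q v⟩
  · have hn1 : 1 ≤ P.n := by rcases hn with h | h | h <;> omega
    have h4 : (((P.n - 1 : ℕ) : ℝ)) ^ 2 * P.ld < 4 * P.ln := by exact_mod_cast hlam
    rw [Nat.cast_sub hn1, Nat.cast_one] at h4
    unfold CQ.Par.Lam
    rw [lt_div_iff₀ h3]
    linarith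
  · intro l y h k s0 w t ht
    exact CQ.pj_of_covers hn _ rfl hg zero_le_one (by norm_num) (coverU_zero _ _) hS l y h k s0 w t ht

end Crest.Agent.R097.SC
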