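import Crest.Agent.R097.SC6

/-!
# Row 97: assembly of `NCert` / `Cert` for data given in expanded form (helper226)
-/

set_option autoImplicit false
open scoped BigOperators

namespace Crest.Agent.R097.SC

open CP

/-- the normal form of a coefficient polynomial -/
def nf (p : Pol) : CQ.SP := CQ.norm 4 (CQ.toSP (CQ.var 0) (CQ.var 1) (CQ.var 2) (CQ.var 3) p)

lemma ev_eq_of_nf {p q : Pol} (h : nf p = nf q) (y : Fin 4 → ℝ) : Pol.ev p y = Pol.ev q y := by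
  have key : ∀ r : Pol, Pol.ev r y = CQ.ev (fun i => if h : i < 4 then y ⟨i, h⟩ else 0) (nf r) := by
    intro r
    rw [nf, CQ.ev_norm, CQ.ev_toSP]
    congr 1
    ext i
    fin_cases i <;> simp [CQ.ev_var]
  rw [key p, key q, h]

/-- **`NCert` from the scalar parts and the cover of chart `S`**, general data -/
theorem ncert_of' {P : CQ.Par} {D : Dat} {A B A' B' g p1 p2 : Pol} (hn : CQ.nOK P.n)
    (han : 0 < P.an) (had : 0 < P.ad) (hld : 0 < P.ld) (hlam : (P.n - 1) ^ 2 * P.ld < 4 * P.ln)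
    (h3 : D.p3 = [])
    (eZ : nf D.Z = nf (oneSub A ++ B)) (e0 : nf D.p0 = nf (oneSub A' ++ B')) (eg : nf D.g = nf g)
    (e1 : nf D.p1 = nf p1) (e2 : nf D.p2 = nf p2)
    (hZ : ∀ (l : Fin P.n → ℝ) (y : Fin 4 → ℝ), NAdm P.A0 l y → 0 < Pol.ev (oneSub A ++ B) y)
    (hg : ∀ (l : Fin P.n → ℝ) (y : Fin 4 → ℝ), NAdm P.A0 l y → 0 ≤ Pol.ev g y)
    (hBJ : ∀ (l : Fin P.n → ℝ) (y : Fin 4 → ℝ), NAdm P.A0 l y → y 2 = 1 → y 3 = 0 →
      ∀ (k : Fin P.n) (h : ℝ), 0 ≤ h → l k = -h →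
      0 ≤ h * Pol.ev (oneSub A ++ B) y + Pol.ev (oneSub A' ++ B') y - h * Pol.ev p1 y
        + h ^ 2 * Pol.ev p2 y - h ^ 3 * Pol.ev [] y - Pol.ev g y * (2 * h * (1 - y 0) + y 1))
    (hB : ∀ m ∈ B, 1 ≤ m.j) (hB' : ∀ m ∈ B', 1 ≤ m.j)
    (hS : CQ.CoverS P D 1) : NCert P.n P.A0 P.Lam D := by
  have h1 : (0 : ℝ) < P.an := by exact_mod_cast han
  have h2 : (0 : ℝ) < P.ad := by exact_mod_cast had
  have h4 : (0 : ℝ) < P.ld := by exact_mod_cast hld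
  have hg' : ∀ (l : Fin P.n → ℝ) (y : Fin 4 → ℝ), NAdm P.A0 l y → 0 ≤ D.g.ev y := by
    intro l y h
    rw [ev_eq_of_nf eg]; exact hg l y h
  refine ⟨div_pos h1 h2, ?_, ?_, hg', ?_, ?_, ?_, ?_⟩
  · have hn1 : 1 ≤ P.n := by rcases hn with h | h | h <;> omega
    have h4' : (((P.n - 1 : ℕ) : ℝ)) ^ 2 * P.ld < 4 * P.ln := by exact_mod_cast hlam
    rw [Nat.cast_sub hn1, Nat.cast_one] at h4'
    unfold CQ.Par.Lam
    rw [lt_div_iff₀ h4]
    linarith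
  · intro l y h
    rw [ev_eq_of_nf eZ]; exact hZ l y h
  · intro l y h k s0 w t ht
    exact CQ.pj_of_covers hn D h3 hg' zero_le_one (by norm_num) (coverU_zero _ _) hS l y h k s0 w t ht
  · intro l y h hy2 hy3 k r hr hk
    rw [ev_eq_of_nf eZ, ev_eq_of_nf e0, ev_eq_of_nf eg, ev_eq_of_nf e1, ev_eq_of_nf e2, h3]
    exact hBJ l y h hy2 hy3 k r hr hk
  · intro Q v
    rw [ev_eq_of_nf eZ]; exact ev_van hB Q v
  · intro Q v
    rw [ev_eq_of_nf e0]; exact ev_van hB' Q v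

end Crest.Agent.R097.SC
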