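import Crest.Agent.R097.SC5

/-!
# Row 97: gluing of `KB` runs on the two halves of a box (helper226)
-/

set_option autoImplicit false

namespace Crest.Agent.R097.SC

open KB

/-- a run on a split box from the runs on the two halves -/
theorem run_node {nv w sh : ℕ} {Xl M : List ℕ} {cls : List (List Ex)} {l r : Tr} {b : Box} (i : ℕ)
    {bl br : Box} (el : bl = Box.setc b i (ba b i, (ba b i + bb b i) / 2))
    (er : br = Box.setc b i ((ba b i + bb b i) / 2, bb b i))
    (hl : run nv w sh Xl M cls l bl = true) (hr : run nv w sh Xl M cls r br = true) :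
    run nv w sh Xl M cls (.node i l r) b = true := by
  subst el er
  unfold run stat at *
  rw [Bool.and_eq_true, Bool.and_eq_true, Bool.and_eq_true, Box.length_setc] at hl hr
  rw [Bool.and_eq_true, Bool.and_eq_true, Bool.and_eq_true]
  refine ⟨hl.1, ?_⟩
  rw [chk, Bool.and_eq_true]
  exact ⟨hl.2, hr.2⟩

end Crest.Agent.R097.SC
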