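import Crest.Agent.R097.Iface

/-!
# Row 97, S-block: divergence theorem with compactly supported Lipschitz weights vanishing outside an open set
-/

set_option autoImplicit false
open MeasureTheory Metric Set Filter Topology InnerProductSpace
open scoped RealInnerProductSpace NNReal ENNReal Gradient Laplacian

namespace Crest.Agent.R097

variable {d : ℕ}

lemma measurable_dv (Y : E d → E d) : Measurable (dv Y) := by
  unfold dv
  refine Finset.measurable_sum _ fun i _ => ?_
  have h1 : Measurable fun x => fderiv ℝ Y x (bv i) := measurable_fderiv_apply_const ℝ Y (bv i)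
  exact (EuclideanSpace.proj (𝕜 := ℝ) i).measurable.comp h1

lemma aesm_fderiv_apply {μ : Measure (E d)} (g : E d → ℝ) {Y : E d → E d}
    (hY : AEStronglyMeasurable Y μ) : AEStronglyMeasurable (fun x => fderiv ℝ g x (Y x)) μ := by
  have e1 : ∀ x, fderiv ℝ g x (Y x) = ∑ i, Y x i * fderiv ℝ g x (bv i) := by
    intro x
    conv_lhs => rw [← sum_bv (Y x), map_sum]
    simp [smul_eq_mul]
  simp_rw [e1]
  refine Finset.aestronglyMeasurable_fun_sum _ fun i _ => ?_
  refine AEStronglyMeasurable.mul ?_ (measurable_fd g _).aestronglyMeasurable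
  exact (EuclideanSpace.proj (𝕜 := ℝ) i).continuous.comp_aestronglyMeasurable hY

/-- divergence theorem for a compactly supported Lipschitz weight inside an open set -/
lemma div_cpt {O : Set (E d)} (hO : IsOpen O) {Y : E d → E d} (hY : ContDiffOn ℝ 1 Y O)
    {g : E d → ℝ} {L : ℝ≥0} (hg : LipschitzWith L g) (hc : HasCompactSupport g)
    (hgO : tsupport g ⊆ O) :
    (Integrable fun x => fderiv ℝ g x (Y x)) ∧ (Integrable fun x => g x * dv Y x) ∧
    ∫ x, (fderiv ℝ g x (Y x) + g x * dv Y x) = 0 := by
  obtain ⟨χ, hχ, hχc, hχO, hχ01, hχ1⟩ := exists_cutoff hc.isCompact hO hgO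
  have hY' : ContDiff ℝ 1 (fun x => χ x • Y x) := by
    rw [contDiff_iff_contDiffAt]
    intro x
    by_cases hx : x ∈ O
    · exact (hχ.of_le (by exact_mod_cast le_top)).contDiffAt.smul (hY.contDiffAt (hO.mem_nhds hx))
    · have hx' : x ∉ tsupport χ := fun h => hx (hχO h)
      have : (fun x => χ x • Y x) =ᶠ[𝓝 x] fun _ => 0 := by
        rw [notMem_tsupport_iff_eventuallyEq] at hx'
        filter_upwards [hx'] with y hy
        rw [hy]; simp
      exact contDiffAt_const.congr_of_eventuallyEq this
  have e1 : ∀ x, fderiv ℝ g x (χ x • Y x) = fderiv ℝ g x (Y x) := by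
    intro x
    by_cases hx : x ∈ tsupport g
    · rw [(hχ1 x hx).self_of_nhds, one_smul]
    · rw [fderiv_eq_zero_of_notMem_tsupport hx]; simp
  have e2 : ∀ x, g x * dv (fun x => χ x • Y x) x = g x * dv Y x := by
    intro x
    by_cases hx : x ∈ tsupport g
    · have : (fun x => χ x • Y x) =ᶠ[𝓝 x] Y := by
        filter_upwards [hχ1 x hx] with y hy
        rw [hy, one_smul]
      unfold dv
      rw [this.fderiv_eq]
    · rw [image_eq_zero_of_notMem_tsupport hx]; simp
  have key := ibpV hY' hg hc
  have i1 : Integrable fun x => fderiv ℝ g x (χ x • Y x) := by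
    have e3 : ∀ x, fderiv ℝ g x (χ x • Y x) = ∑ i, (χ x • Y x) i * fderiv ℝ g x (bv i) := by
      intro x
      conv_lhs => rw [← sum_bv (χ x • Y x), map_sum]
      simp [smul_eq_mul]
    simp_rw [e3]
    refine integrable_finsetSum _ fun i _ => ?_
    exact integrable_fderiv_mul (contDiff_euclidean.1 hY' i).continuous hg hc _
  have i2 : Integrable fun x => g x * dv (fun x => χ x • Y x) x := by
    have hcont : Continuous fun x => g x * dv (fun x => χ x • Y x) x := by
      refine hg.continuous.mul ?_
      unfold dv
      refine continuous_finsetSum _ fun i _ => ?_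
      exact (EuclideanSpace.proj (𝕜 := ℝ) i).continuous.comp
        ((hY'.continuous_fderiv (by norm_num)).clm_apply continuous_const)
    exact hcont.integrable_of_hasCompactSupport hc.mul_right
  simp_rw [e1] at i1 key
  simp_rw [e2] at i2 key
  refine ⟨i1, i2, ?_⟩
  rw [integral_add i1 i2, key]
  ring

/-- DIV0 for nonnegative weights -/
theorem div0 {O S : Set (E d)} (hO : IsOpen O) (hS : IsCompact S) {Y : E d → E d}
    (hY : ContDiffOn ℝ 1 Y O) {g : E d → ℝ} {L : ℝ≥0} (hg : LipschitzWith L g) (hg0 : ∀ x, 0 ≤ g x)
    (hgS : ∀ x, x ∉ S → g x = 0) (hgO : ∀ x, x ∉ O → g x = 0) {C : ℝ}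
    (hYb : ∀ x ∈ O, x ∈ S → ‖Y x‖ ≤ C) (hdYb : ∀ x ∈ O, x ∈ S → |dv Y x| ≤ C) :
    ∫ x in O, (fderiv ℝ g x (Y x) + g x * dv Y x) = 0 := by
  obtain ⟨G, hG⟩ := hS.exists_bound_of_continuousOn hg.continuous.continuousOn
  set ε : ℕ → ℝ := fun n => 1 / ((n : ℝ) + 1) with hεdef
  have hε0 : ∀ n, 0 < ε n := fun n => by positivity
  have hεlim : Tendsto ε atTop (𝓝 0) := tendsto_one_div_add_atTop_nhds_zero_nat
  set gn : ℕ → E d → ℝ := fun n x => max (g x - ε n) 0 with hgn
  have hlip : ∀ n, LipschitzWith L (gn n) := by
    intro n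
    have h1 : LipschitzWith L (fun x => g x - ε n) := by
      refine LipschitzWith.of_dist_le_mul fun x y => ?_
      have := hg.dist_le_mul x y
      simpa [Real.dist_eq] using this
    exact h1.max_const 0
  have hsub : ∀ n, tsupport (gn n) ⊆ {x | ε n ≤ g x} := by
    intro n
    refine closure_minimal ?_ (isClosed_le continuous_const hg.continuous)
    intro x hx
    by_contra h
    have h' : g x < ε n := not_le.1 h
    apply hx
    simp only [hgn]
    exact max_eq_right (by linarith)
  have hsubS : ∀ n, tsupport (gn n) ⊆ S := by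
    intro n x hx
    by_contra h
    have h1 : ε n ≤ g x := hsub n hx
    rw [hgS x h] at h1
    linarith [hε0 n]
  have hsubO : ∀ n, tsupport (gn n) ⊆ O := by
    intro n x hx
    by_contra h
    have h1 : ε n ≤ g x := hsub n hx
    rw [hgO x h] at h1
    linarith [hε0 n]
  have hcs : ∀ n, HasCompactSupport (gn n) := fun n =>
    hS.of_isClosed_subset (isClosed_tsupport _) (hsubS n)
  have hzero : ∀ n, ∫ x in O, (fderiv ℝ (gn n) x (Y x) + gn n x * dv Y x) = 0 := by
    intro n
    rw [setIntegral_eq_integral_of_forall_compl_eq_zero]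
    · exact (div_cpt hO hY (hlip n) (hcs n) (hsubO n)).2.2
    · intro x hx
      have hx' : x ∉ tsupport (gn n) := fun h => hx (hsubO n h)
      rw [fderiv_eq_zero_of_notMem_tsupport hx', image_eq_zero_of_notMem_tsupport hx']
      simp
  have hYm : AEStronglyMeasurable Y (volume.restrict O) :=
    hY.continuousOn.aestronglyMeasurable hO.measurableSet
  have hlim : Tendsto (fun n => ∫ x in O, (fderiv ℝ (gn n) x (Y x) + gn n x * dv Y x)) atTop
      (𝓝 (∫ x in O, (fderiv ℝ g x (Y x) + g x * dv Y x))) := by
    refine tendsto_integral_of_dominated_convergence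
      (S.indicator fun _ => (L : ℝ) * |C| + |G| * |C|) ?_ ?_ ?_ ?_
    · intro n
      exact (aesm_fderiv_apply _ hYm).add
        ((hlip n).continuous.measurable.mul (measurable_dv Y)).aestronglyMeasurable
    · refine Integrable.restrict ?_
      rw [integrable_indicator_iff hS.measurableSet]
      exact integrableOn_const (hS.measure_lt_top.ne)
    · intro n
      rw [ae_restrict_iff' hO.measurableSet]
      refine Eventually.of_forall fun x hxO => ?_
      by_cases hxS : x ∈ S
      · rw [indicator_of_mem hxS]
        refine (norm_add_le _ _).trans (add_le_add ?_ ?_)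
        · refine (ContinuousLinearMap.le_opNorm _ _).trans ?_
          exact mul_le_mul (norm_fderiv_le_of_lip (hlip n) x)
            ((hYb x hxO hxS).trans (le_abs_self C)) (norm_nonneg _) L.2
        · rw [norm_mul]
          refine mul_le_mul ?_ ?_ (norm_nonneg _) (abs_nonneg _)
          · have h1 : ‖g x‖ ≤ G := hG x hxS
            rw [Real.norm_of_nonneg (hg0 x)] at h1
            rw [Real.norm_of_nonneg (le_max_right _ _)]
            refine (max_le ?_ ?_).trans (h1.trans (le_abs_self G))
            · linarith [hε0 n]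
            · exact hg0 x
          · exact (hdYb x hxO hxS).trans (le_abs_self C)
      · rw [indicator_of_notMem hxS]
        have hx' : x ∉ tsupport (gn n) := fun h => hxS (hsubS n h)
        rw [fderiv_eq_zero_of_notMem_tsupport hx', image_eq_zero_of_notMem_tsupport hx']
        simp
    · refine Eventually.of_forall fun x => ?_
      rcases (hg0 x).eq_or_lt with h | h
      · have h1 : fderiv ℝ g x = 0 := fderiv_eq_zero_of_nonneg hg0 h.symm
        have h2 : ∀ n, fderiv ℝ (gn n) x = 0 := by
          intro n
          refine fderiv_eq_zero_of_nonneg (fun y => le_max_right _ _) ?_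
          show max (g x - ε n) 0 = 0
          exact max_eq_right (by linarith [hε0 n])
        have h3 : ∀ n, gn n x = 0 := by
          intro n
          simp only [hgn]
          exact max_eq_right (by linarith [hε0 n])
        have e1 : ∀ n, fderiv ℝ (gn n) x (Y x) + gn n x * dv Y x = 0 := by
          intro n; rw [h2 n, h3 n]; simp
        have e2 : fderiv ℝ g x (Y x) + g x * dv Y x = 0 := by
          rw [h1, ← h]; simp
        rw [e2]
        exact tendsto_const_nhds.congr fun n => (e1 n).symm
      · have hev : ∀ᶠ n in atTop, ε n < g x := hεlim.eventually (gt_mem_nhds h)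
        have h1 : ∀ᶠ n in atTop, fderiv ℝ (gn n) x = fderiv ℝ g x := by
          filter_upwards [hev] with n hn
          have : gn n =ᶠ[𝓝 x] fun y => g y - ε n := by
            filter_upwards [(hg.continuous.continuousAt (x := x)).eventually (lt_mem_nhds hn)] with y hy
            simp only [hgn]
            exact max_eq_left (by linarith)
          rw [this.fderiv_eq, fderiv_sub_const]
        have h2 : Tendsto (fun n => gn n x) atTop (𝓝 (g x)) := by
          have : Tendsto (fun n => max (g x - ε n) 0) atTop (𝓝 (max (g x - 0) 0)) :=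
            (tendsto_const_nhds.sub hεlim).max tendsto_const_nhds
          rw [sub_zero, max_eq_left h.le] at this
          exact this
        refine Tendsto.add ?_ (h2.mul_const _)
        refine tendsto_const_nhds.congr' ?_
        filter_upwards [h1] with n hn
        rw [hn]
  exact tendsto_nhds_unique (hlim.congr hzero) tendsto_const_nhds

end Crest.Agent.R097
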