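import Crest.Agent.R097.SLayer

/-!
# Row 97, S-block: the flux inequality
-/

set_option autoImplicit false
open MeasureTheory Metric Set Filter Topology InnerProductSpace
open scoped RealInnerProductSpace NNReal ENNReal Gradient Laplacian

namespace Crest.Agent.R097

variable {d : ℕ}

lemma Jets.norm_sq {u : E d → ℝ} {y e : E d} {A : Bil d} {B : Tri d} (h : Jets u y e A B) :
    Tendsto (fun x => ‖fderiv ℝ u x‖ ^ 2) (𝓝[Om u] y) (𝓝 1) := by
  have h1 : Tendsto (fun x => ‖fderiv ℝ u x‖ ^ 2) (𝓝[Om u] y) (𝓝 (‖innerSL ℝ e‖ ^ 2)) :=
    (h.t1.norm).pow 2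
  rwa [innerSL_apply_norm, h.kk.norm_e, one_pow] at h1

/-- near a regular point the gradient has length about one -/
lemma RegPt.half {u : E d → ℝ} {y : E d} (h : RegPt u y) :
    ∀ᶠ x in 𝓝[Om u] y, 1 / 2 ≤ ‖fderiv ℝ u x‖ ^ 2 := by
  obtain ⟨e, A, B, hj⟩ := h
  exact (hj.norm_sq).eventually (eventually_ge_nhds (by norm_num))

lemma dv_eq_zero_of_compl {S : Set (E d)} (hS : IsClosed S) {F : E d → E d}
    (hF0 : ∀ x, x ∉ S → F x = 0) {x : E d} (hx : x ∉ S) : dv F x = 0 := by
  have : F =ᶠ[𝓝 x] fun _ => 0 := by
    filter_upwards [hS.isOpen_compl.mem_nhds hx] with y hy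
    exact hF0 y hy
  unfold dv
  rw [this.fderiv_eq]
  simp

/-- FLUX -/
theorem flux {u : E d → ℝ} {K : ℝ≥0} (hu : LM u K) (hsm : ContDiffOn ℝ (⊤ : ℕ∞) u (Om u))
    (hha : ∀ x ∈ Om u, (Δ u) x = 0) {S : Set (E d)} (hS : IsCompact S)
    (hreg : ∀ y ∈ S, y ∈ frontier (Om u) → RegPt u y)
    {F : E d → E d} (hF : ContDiffOn ℝ 1 F (Om u)) (hF0 : ∀ x, x ∉ S → F x = 0) {C : ℝ}
    (hFb : ∀ x ∈ Om u, ‖F x‖ ≤ C) (hdF : ∀ x ∈ Om u, |dv F x| ≤ C)
    (hb : ∀ y ∈ S, y ∈ frontier (Om u) → ∀ ε : ℝ, 0 < ε →
      ∀ᶠ x in 𝓝[Om u] y, -ε ≤ fderiv ℝ u x (F x)) :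
    ∫ x in Om u, dv F x ≤ 0 := by
  have hcu : Continuous u := hu.continuous
  have hO : IsOpen (Om u) := isOpen_Om hcu
  have hC0 : 0 ≤ |C| := abs_nonneg C
  obtain ⟨CL, tL, hCL, htL, hlay⟩ := layer hu hsm hha hS (fun y hy hyf => (hreg y hy hyf).half)
  obtain ⟨ζ, hζ, hζc, -, hζ01, hζ1⟩ := exists_cutoff hS isOpen_univ (subset_univ _)
  obtain ⟨Lζ, hLζ⟩ := lip_of_contDiff_compact (hζ.of_le (by exact_mod_cast le_top)) hζc
  set S2 := tsupport ζ with hS2
  have hS2c : IsCompact S2 := hζc.isCompact
  have hFm : AEStronglyMeasurable F (volume.restrict (Om u)) :=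
    hF.continuousOn.aestronglyMeasurable hO.measurableSet
  -- the identity for each level
  have hid : ∀ t : ℝ, 0 < t → ∫ x in Om u, ((if u x < t then fderiv ℝ u x (F x) else 0)
      + min (u x) t * dv F x) = 0 := by
    intro t ht
    set m : E d → ℝ := fun x => min (u x) t with hm
    have hmlip : LipschitzWith K m := hu.lip.min_const t
    have hm0 : ∀ x, 0 ≤ m x := fun x => le_min (hu.nonneg x) ht.le
    have hmt : ∀ x, |m x| ≤ (⟨t, ht.le⟩ : ℝ≥0) := fun x => by
      rw [abs_of_nonneg (hm0 x)]; exact min_le_right _ _
    have hζ1' : ∀ x, |ζ x| ≤ (1 : ℝ≥0) := fun x => by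
      rw [abs_of_nonneg (hζ01 x).1]; exact_mod_cast (hζ01 x).2
    have hglip := lip_mul hmlip hLζ hmt hζ1'
    have hdiv := div0 hO hS2c hF hglip (fun x => mul_nonneg (hm0 x) (hζ01 x).1)
      (fun x hx => by rw [image_eq_zero_of_notMem_tsupport hx, mul_zero])
      (fun x hx => by
        have : u x = 0 := le_antisymm (not_lt.1 hx) (hu.nonneg x)
        simp only [hm, this, min_eq_left ht.le, zero_mul])
      (C := C) (fun x hx _ => hFb x hx) (fun x hx _ => hdF x hx)
    refine Eq.trans (setIntegral_congr_fun hO.measurableSet fun x hx => ?_) hdiv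
    by_cases hxS : x ∈ S
    · have h1 : (fun x => m x * ζ x) =ᶠ[𝓝 x] m := by
        filter_upwards [hζ1 x hxS] with y hy
        rw [hy, mul_one]
      rw [h1.fderiv_eq, (hζ1 x hxS).self_of_nhds, mul_one, hm, fderiv_min_const hcu t x]
      split_ifs <;> simp
    · rw [hF0 x hxS, dv_eq_zero_of_compl hS.isClosed hF0 hxS]
      simp
  -- the inequality with a small parameter
  have hineq : ∀ ε : ℝ, 0 < ε → ∫ x in Om u, dv F x ≤ ε * CL := by
    intro ε hε
    obtain ⟨t1, ht1, hbl⟩ := near_bdry hcu hS (fun y hy hyf => hb y hy hyf ε hε)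
    have h1 : ∀ t : ℝ, 0 < t → t < min t1 tL →
        ∫ x in Om u, (min (u x) t / t) * dv F x ≤ ε * CL := by
      intro t ht htt
      have htt1 : t < t1 := htt.trans_le (min_le_left _ _)
      have httL : t < tL := htt.trans_le (min_le_right _ _)
      have hi1 : Integrable (fun x => if u x < t then fderiv ℝ u x (F x) else 0)
          (volume.restrict (Om u)) := by
        have h2 : Integrable (fun x => (if u x < t then fderiv ℝ u x (F x) else 0))
          (volume.restrict (Om u)) := by
          refine Integrable.mono' (g := S.indicator fun _ => (K : ℝ) * |C|) ?_ ?_ ?_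
          · refine Integrable.restrict ?_
            rw [integrable_indicator_iff hS.measurableSet]
            exact integrableOn_const (hS.measure_lt_top.ne)
          · have h3 : AEStronglyMeasurable (fun x => fderiv ℝ u x (F x)) (volume.restrict (Om u)) :=
              aesm_fderiv_apply _ hFm
            have h4 : (fun x => if u x < t then fderiv ℝ u x (F x) else 0)
                = {x | u x < t}.indicator (fun x => fderiv ℝ u x (F x)) := by
              ext x; simp [indicator]
            rw [h4]
            exact h3.indicator (isOpen_lt hcu continuous_const).measurableSet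
          · rw [ae_restrict_iff' hO.measurableSet]
            refine Eventually.of_forall fun x hx => ?_
            by_cases hxS : x ∈ S
            · rw [indicator_of_mem hxS]
              split_ifs
              · exact abs_clm_le (norm_fderiv_le_of_lip hu.lip x) ((hFb x hx).trans (le_abs_self C))
              · simp; positivity
            · rw [indicator_of_notMem hxS, hF0 x hxS]
              simp
        exact h2
      have hi2 : Integrable (fun x => min (u x) t * dv F x) (volume.restrict (Om u)) := by
        refine Integrable.mono' (g := S.indicator fun _ => t * |C|) ?_ ?_ ?_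
        · refine Integrable.restrict ?_
          rw [integrable_indicator_iff hS.measurableSet]
          exact integrableOn_const (hS.measure_lt_top.ne)
        · exact ((hcu.min continuous_const).measurable.mul (measurable_dv F)).aestronglyMeasurable
        · rw [ae_restrict_iff' hO.measurableSet]
          refine Eventually.of_forall fun x hx => ?_
          by_cases hxS : x ∈ S
          · rw [indicator_of_mem hxS, norm_mul]
            refine mul_le_mul ?_ ((hdF x hx).trans (le_abs_self C)) (norm_nonneg _) ht.le
            rw [Real.norm_of_nonneg (le_min (hu.nonneg x) ht.le)]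
            exact min_le_right _ _
          · rw [indicator_of_notMem hxS, dv_eq_zero_of_compl hS.isClosed hF0 hxS]
            simp
      have h2 := hid t ht
      rw [integral_add hi1 hi2] at h2
      -- lower bound of the boundary term
      set T := {x | 0 < u x ∧ u x ≤ t} ∩ S with hT
      have hTm : MeasurableSet T :=
        ((isOpen_lt continuous_const hcu).measurableSet.inter
          (isClosed_le hcu continuous_const).measurableSet).inter hS.measurableSet
      have hTO : T ⊆ Om u := fun x hx => hx.1.1
      have hTf : volume T < ⊤ := (measure_mono inter_subset_right).trans_lt hS.measure_lt_top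
      have h3 : -(ε * (CL * t)) ≤ ∫ x in Om u, (if u x < t then fderiv ℝ u x (F x) else 0) := by
        have h4 : ∫ x in Om u, (if u x < t then fderiv ℝ u x (F x) else 0)
            = ∫ x in T, (if u x < t then fderiv ℝ u x (F x) else 0) := by
          refine (setIntegral_eq_of_subset_of_forall_sdiff_eq_zero hO.measurableSet hTO ?_)
          intro x hx
          by_cases hxS : x ∈ S
          · have : ¬ (u x < t) := fun h => hx.2 ⟨⟨hx.1, h.le⟩, hxS⟩
            rw [if_neg this]
          · rw [hF0 x hxS]; simp
        have h5 : ∫ x in T, (-ε : ℝ) ≤ ∫ x in T, (if u x < t then fderiv ℝ u x (F x) else 0) := by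
          refine setIntegral_mono_on (integrableOn_const hTf.ne)
            (IntegrableOn.mono_set hi1 hTO) hTm ?_
          intro x hx
          split_ifs with h
          · exact hbl x hx.2 hx.1.1 (h.trans htt1)
          · linarith
        rw [setIntegral_const] at h5
        simp only [smul_eq_mul, Measure.real] at h5
        have h6 := hlay t ht httL
        rw [h4]
        nlinarith
      have h7 : ∫ x in Om u, (min (u x) t / t) * dv F x
          = (∫ x in Om u, min (u x) t * dv F x) / t := by
        rw [← integral_div]
        congr 1; ext x; ring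
      rw [h7, div_le_iff₀ ht]
      nlinarith
    -- the limit
    set t : ℕ → ℝ := fun n => (min t1 tL) / 2 * (1 / ((n : ℝ) + 1)) with htdef
    have hmin : 0 < min t1 tL := lt_min ht1 htL
    have ht0 : ∀ n, 0 < t n := fun n => by
      have : (0 : ℝ) < (n : ℝ) + 1 := by positivity
      simp only [htdef]; positivity
    have htlt : ∀ n, t n < min t1 tL := fun n => by
      have h2 : (1 : ℝ) / ((n : ℝ) + 1) ≤ 1 := by
        rw [div_le_one (by positivity)]; linarith [(Nat.cast_nonneg n : (0 : ℝ) ≤ n)]
      simp only [htdef]
      nlinarith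
    have htlim : Tendsto t atTop (𝓝 0) := by
      have := (tendsto_one_div_add_atTop_nhds_zero_nat (𝕜 := ℝ)).const_mul ((min t1 tL) / 2)
      rwa [mul_zero] at this
    have hlim : Tendsto (fun n => ∫ x in Om u, (min (u x) (t n) / t n) * dv F x) atTop
        (𝓝 (∫ x in Om u, dv F x)) := by
      refine tendsto_integral_of_dominated_convergence (S.indicator fun _ => |C|) ?_ ?_ ?_ ?_
      · intro n
        exact (((hcu.min continuous_const).div_const _).measurable.mul
          (measurable_dv F)).aestronglyMeasurable
      · refine Integrable.restrict ?_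
        rw [integrable_indicator_iff hS.measurableSet]
        exact integrableOn_const (hS.measure_lt_top.ne)
      · intro n
        rw [ae_restrict_iff' hO.measurableSet]
        refine Eventually.of_forall fun x hx => ?_
        by_cases hxS : x ∈ S
        · rw [indicator_of_mem hxS, norm_mul]
          have h2 : ‖min (u x) (t n) / t n‖ ≤ 1 := by
            rw [Real.norm_of_nonneg (div_nonneg (le_min (hu.nonneg x) (ht0 n).le) (ht0 n).le),
              div_le_one (ht0 n)]
            exact min_le_right _ _
          calc ‖min (u x) (t n) / t n‖ * ‖dv F x‖ ≤ 1 * |C| :=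
                mul_le_mul h2 ((hdF x hx).trans (le_abs_self C)) (norm_nonneg _) zero_le_one
            _ = |C| := one_mul _
        · rw [indicator_of_notMem hxS, dv_eq_zero_of_compl hS.isClosed hF0 hxS]
          simp
      · rw [ae_restrict_iff' hO.measurableSet]
        refine Eventually.of_forall fun x hx => ?_
        refine tendsto_const_nhds.congr' ?_
        filter_upwards [htlim.eventually (gt_mem_nhds (show (0 : ℝ) < u x from hx))] with n hn
        rw [min_eq_right hn.le, div_self (ht0 n).ne', one_mul]
    exact le_of_tendsto hlim (Eventually.of_forall fun n => h1 _ (ht0 n) (htlt n))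
  refine le_of_forall_pos_le_add fun δ hδ => ?_
  have h1 := hineq (δ / (CL + 1)) (by positivity)
  have h2 : δ / (CL + 1) * CL ≤ δ := by
    rw [div_mul_eq_mul_div, div_le_iff₀ (by positivity)]
    nlinarith
  linarith

end Crest.Agent.R097
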