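import Crest.Agent.R097.Calc

/-!
# Row 97: comparison with strict subsolutions from below (V1)
-/

set_option autoImplicit false
open MeasureTheory Metric Set Filter Topology InnerProductSpace
open scoped RealInnerProductSpace NNReal ENNReal Gradient Laplacian

namespace Crest.Agent.R097

variable {d : ℕ}

lemma measurable_normsq (g : E d → ℝ) : Measurable fun x => ‖fderiv ℝ g x‖ ^ 2 :=
  ((measurable_fderiv ℝ g).norm).pow_const 2

lemma integrableOn_normsq {g : E d → ℝ} {C : ℝ≥0} (hg : LipschitzWith C g) {S : Set (E d)}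
    (hS : volume S < ⊤) : IntegrableOn (fun x => ‖fderiv ℝ g x‖ ^ 2) S := by
  refine Measure.integrableOn_of_bounded (M := (C : ℝ) ^ 2) hS.ne
    (measurable_normsq g).aestronglyMeasurable ?_
  refine Eventually.of_forall fun x => ?_
  rw [Real.norm_of_nonneg (by positivity)]
  exact pow_le_pow_left₀ (norm_nonneg _) (norm_fderiv_le_of_lip hg x) 2

lemma LM.continuous {u : E d → ℝ} {K : ℝ≥0} (h : LM u K) : Continuous u := h.lip.continuous

/-- expanding the square of the difference of two functionals -/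
lemma normsq_sub (a b : E d →L[ℝ] ℝ) (A : E d) (hA : ∀ v, ⟪A, v⟫_ℝ = a v) :
    ‖a‖ ^ 2 - ‖b‖ ^ 2 = 2 * ((a - b) A) - ‖a - b‖ ^ 2 := by
  obtain ⟨B, hB⟩ : ∃ B : E d, ∀ v, ⟪B, v⟫_ℝ = b v :=
    ⟨(toDual ℝ (E d)).symm b, fun v => by simp⟩
  have hn : ∀ (c : E d →L[ℝ] ℝ) (C : E d), (∀ v, ⟪C, v⟫_ℝ = c v) → ‖c‖ = ‖C‖ := by
    intro c C hC
    have : c = toDual ℝ (E d) C := by ext v; simp [hC]
    rw [this]; simp
  have h1 := hn a A hA
  have h2 := hn b B hB
  have h3 := hn (a - b) (A - B) (fun v => by rw [inner_sub_left, hA, hB]; rfl)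
  rw [h1, h2, h3]
  have e1 : (a - b) A = ⟪A - B, A⟫_ℝ := by rw [inner_sub_left, hA, hB]; rfl
  rw [e1, @norm_sub_sq_real, inner_sub_left, real_inner_self_eq_norm_sq, real_inner_comm B A]
  ring

/-- **V1, global version.** A `C²` function `Ψ` with `ΔΨ ≥ 0` on `{Ψ > u}` (bounded) and
`|∇Ψ| > 1` on `{u = 0 < Ψ}` lies below the minimiser `u`. -/
theorem v1_global (hd : 0 < d) {u : E d → ℝ} {K : ℝ≥0} (hu : LM u K) {Ψ : E d → ℝ}
    (hΨ : ContDiff ℝ 2 Ψ) (hb : Bornology.IsBounded {x | u x < Ψ x})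
    (hΔ : ∀ x, u x < Ψ x → 0 ≤ (Δ Ψ) x)
    (hg : ∀ x, u x = 0 → 0 < Ψ x → 1 < ‖fderiv ℝ Ψ x‖) :
    ∀ x, Ψ x ≤ u x := by
  set A : Set (E d) := {x | u x < Ψ x} with hA
  have hAo : IsOpen A := isOpen_lt hu.continuous hΨ.continuous
  have hAm : MeasurableSet A := hAo.measurableSet
  -- the positive part
  set g : E d → ℝ := fun x => max (Ψ x - u x) 0 with hgdef
  have hg0 : ∀ x, 0 ≤ g x := fun x => le_max_right _ _
  have hgA : ∀ x ∈ A, g x = Ψ x - u x := fun x hx => max_eq_left (sub_nonneg.2 (le_of_lt hx))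
  have hgA' : ∀ x ∉ A, g x = 0 := fun x hx => max_eq_right (by
    have : ¬ (u x < Ψ x) := hx
    linarith [not_lt.1 this])
  have hclA : IsCompact (closure A) := hb.isCompact_closure
  have hgc : HasCompactSupport g := by
    refine HasCompactSupport.of_support_subset_isCompact hclA ?_
    intro x hx
    by_contra h
    exact hx (hgA' x fun h' => h (subset_closure h'))
  -- g is Lipschitz
  obtain ⟨χ, hχ, hχc, -, hχ01, hχ1⟩ := exists_cutoff hclA isOpen_univ (subset_univ _)
  have hχ2 : ContDiff ℝ 1 (fun x => χ x * Ψ x) :=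
    (hχ.of_le (by exact_mod_cast le_top)).mul (hΨ.of_le (by norm_num))
  obtain ⟨C1, hC1⟩ := lip_of_contDiff_compact hχ2 hχc.mul_right
  have hgeq : g = fun x => max (χ x * Ψ x - u x) 0 := by
    ext x
    by_cases hx : x ∈ A
    · rw [hgA x hx, (hχ1 x (subset_closure hx)).self_of_nhds, one_mul]
      exact (max_eq_left (sub_nonneg.2 (le_of_lt hx))).symm
    · rw [hgA' x hx, max_eq_right]
      have h1 : Ψ x ≤ u x := not_lt.1 hx
      have h2 := hχ01 x
      have h3 := hu.nonneg x
      rcases le_total (Ψ x) 0 with h | h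
      · nlinarith [mul_nonneg h2.1 (neg_nonneg.2 h)]
      · nlinarith [mul_le_mul_of_nonneg_right h2.2 h]
  have hgl : LipschitzWith (C1 + K) g := by
    rw [hgeq]
    have := (hC1.sub hu.lip).max_const 0
    exact this
  -- derivative of g
  have hgd0 : ∀ x ∉ A, fderiv ℝ g x = 0 := fun x hx => fderiv_eq_zero_of_nonneg hg0 (hgA' x hx)
  have hΨd : ∀ x, DifferentiableAt ℝ Ψ x := fun x => hΨ.differentiable (by norm_num) x
  have hud : ∀ᵐ x, DifferentiableAt ℝ u x := hu.lip.ae_differentiableAt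
  have hgdA : ∀ x ∈ A, DifferentiableAt ℝ u x → fderiv ℝ g x = fderiv ℝ Ψ x - fderiv ℝ u x := by
    intro x hx hux
    have : g =ᶠ[𝓝 x] fun y => Ψ y - u y := by
      filter_upwards [hAo.mem_nhds hx] with y hy using hgA y hy
    rw [this.fderiv_eq, fderiv_fun_sub (hΨd x) hux]
  -- the competitor
  set v : E d → ℝ := fun x => max (u x) (Ψ x) with hv
  have hvg : ∀ x, v x = u x + g x := by
    intro x
    by_cases hx : x ∈ A
    · rw [hgA x hx, hv]; simp only []; rw [max_eq_right (le_of_lt hx)]; ring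
    · rw [hgA' x hx, hv]; simp only []; rw [max_eq_left (not_lt.1 hx)]; ring
  have hv0 : ∀ x, 0 ≤ v x := fun x => (hu.nonneg x).trans (le_max_left _ _)
  have hvl : LipschitzWith (K + (C1 + K)) v := by
    have : v = fun x => u x + g x := funext hvg
    rw [this]; exact hu.lip.add hgl
  obtain ⟨R, hR0, hR⟩ : ∃ R : ℝ, 0 < R ∧ A ⊆ closedBall (0 : E d) R := by
    obtain ⟨R, hR⟩ := hb.subset_closedBall 0
    exact ⟨|R| + 1, by positivity, hR.trans (closedBall_subset_closedBall (by
      linarith [le_abs_self R]))⟩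
  have hvout : ∀ x, x ∉ closedBall (0 : E d) R → v x = u x := by
    intro x hx
    rw [hvg, hgA' x fun h => hx (hR h), add_zero]
  set B : Set (E d) := ball (0 : E d) (R + 1) with hB
  have hAB : A ⊆ B := hR.trans (closedBall_subset_ball (by linarith))
  have hBm : MeasurableSet B := measurableSet_ball
  have hBfin : volume B < ⊤ := measure_ball_lt_top
  have hAfin : volume A < ⊤ := (measure_mono hAB).trans_lt hBfin
  have hmin := hu.min 0 R hR0 v hv0 ⟨_, hvl⟩ hvout
  -- derivative of v
  have hvdA : ∀ x ∈ A, fderiv ℝ v x = fderiv ℝ Ψ x := by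
    intro x hx
    have : v =ᶠ[𝓝 x] Ψ := by
      filter_upwards [hAo.mem_nhds hx] with y hy
      exact max_eq_right (le_of_lt hy)
    rw [this.fderiv_eq]
  have hgdiff : ∀ᵐ x, DifferentiableAt ℝ g x := hgl.ae_differentiableAt
  have hvdA' : ∀ᵐ x, x ∉ A → fderiv ℝ v x = fderiv ℝ u x := by
    filter_upwards [hud, hgdiff] with x hx1 hx2 hx3
    have : v = fun x => u x + g x := funext hvg
    rw [this, fderiv_fun_add hx1 hx2, hgd0 x hx3, add_zero]
  -- Dirichlet part
  have hdir : (∫ x in B, ‖fderiv ℝ v x‖ ^ 2) - ∫ x in B, ‖fderiv ℝ u x‖ ^ 2 =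
      ∫ x in A, (‖fderiv ℝ Ψ x‖ ^ 2 - ‖fderiv ℝ u x‖ ^ 2) := by
    rw [← integral_sub (integrableOn_normsq hvl hBfin) (integrableOn_normsq hu.lip hBfin)]
    rw [← integral_indicator hBm, ← integral_indicator hAm]
    refine integral_congr_ae ?_
    filter_upwards [hvdA'] with x hx
    by_cases hxA : x ∈ A
    · rw [indicator_of_mem (hAB hxA), indicator_of_mem hxA, hvdA x hxA]
    · rw [indicator_of_notMem hxA]
      by_cases hxB : x ∈ B
      · rw [indicator_of_mem hxB, hx hxA, sub_self]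
      · rw [indicator_of_notMem hxB]
  -- measure part
  set Z : Set (E d) := A ∩ {x | u x = 0} with hZ
  have hZm : MeasurableSet Z := hAm.inter (isClosed_eq hu.continuous continuous_const).measurableSet
  have hZfin : volume Z < ⊤ := (measure_mono inter_subset_left).trans_lt hAfin
  have hmeas : (volume ({x | 0 < v x} ∩ B)).toReal - (volume ({x | 0 < u x} ∩ B)).toReal =
      (volume Z).toReal := by
    have e1 : {x | 0 < v x} ∩ B = ({x | 0 < u x} ∩ B) ∪ Z := by
      ext x
      constructor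
      · rintro ⟨h1, h2⟩
        by_cases hux : 0 < u x
        · exact Or.inl ⟨hux, h2⟩
        · have h3 : u x = 0 := le_antisymm (not_lt.1 hux) (hu.nonneg x)
          refine Or.inr ⟨?_, h3⟩
          have h4 : 0 < max (u x) (Ψ x) := h1
          rw [h3] at h4
          have : 0 < Ψ x := by
            rcases lt_max_iff.1 h4 with h | h
            · exact absurd h (lt_irrefl _)
            · exact h
          show u x < Ψ x
          rw [h3]; exact this
      · rintro (⟨h1, h2⟩ | ⟨h1, h2⟩)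
        · exact ⟨show 0 < max (u x) (Ψ x) from lt_of_lt_of_le h1 (le_max_left _ _), h2⟩
        · refine ⟨?_, hAB h1⟩
          have h3 : u x < Ψ x := h1
          have h4 : u x = 0 := h2
          show 0 < max (u x) (Ψ x)
          rw [h4] at h3 ⊢
          exact lt_max_of_lt_right h3
    have hdisj : Disjoint ({x | 0 < u x} ∩ B) Z := by
      rw [Set.disjoint_left]
      rintro x ⟨h1, -⟩ ⟨-, h2⟩
      have h3 : 0 < u x := h1
      have h4 : u x = 0 := h2
      linarith
    rw [e1, measure_union hdisj hZm, ENNReal.toReal_add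
      ((measure_mono inter_subset_right).trans_lt hBfin).ne hZfin.ne]
    ring
  have hI : 0 ≤ (∫ x in A, (‖fderiv ℝ Ψ x‖ ^ 2 - ‖fderiv ℝ u x‖ ^ 2)) + (volume Z).toReal := by
    have : Jr u B ≤ Jr v B := hmin
    unfold Jr at this
    linarith
  -- Green
  have hgreen := green1 hΨ hgl hgc
  have hgreen' : ∫ x, fderiv ℝ g x (∇ Ψ x) ≤ 0 := by
    rw [hgreen, neg_nonpos]
    refine integral_nonneg fun x => ?_
    by_cases hx : x ∈ A
    · exact mul_nonneg (hg0 x) (hΔ x hx)
    · rw [hgA' x hx]; simp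
  have hgreenA : ∫ x in A, fderiv ℝ g x (∇ Ψ x) = ∫ x, fderiv ℝ g x (∇ Ψ x) := by
    rw [← integral_indicator hAm]
    congr 1
    ext x
    by_cases hx : x ∈ A
    · rw [indicator_of_mem hx]
    · rw [indicator_of_notMem hx, hgd0 x hx]; simp
  have hint1 : IntegrableOn (fun x => ‖fderiv ℝ g x‖ ^ 2) A := integrableOn_normsq hgl hAfin
  have hcontΨ : Continuous (fun x => ∇ Ψ x) := (contDiff_gradient (m := 0) hΨ (by norm_num)).continuous
  have hint2 : IntegrableOn (fun x => fderiv ℝ g x (∇ Ψ x)) A := by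
    have hm : Measurable fun x => fderiv ℝ g x (∇ Ψ x) := by
      have : ∀ x, fderiv ℝ g x (∇ Ψ x) = ∑ i, (∇ Ψ x) i * fderiv ℝ g x (bv i) := by
        intro x
        conv_lhs => rw [← sum_bv (∇ Ψ x), map_sum]
        simp [smul_eq_mul]
      simp_rw [this]
      refine Finset.measurable_sum _ fun i _ => ?_
      refine Measurable.mul ?_ (measurable_fd g _)
      exact ((EuclideanSpace.proj i : E d →L[ℝ] ℝ).continuous.comp hcontΨ).measurable
    obtain ⟨M, hM⟩ := hclA.exists_bound_of_continuousOn hcontΨ.continuousOn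
    refine Measure.integrableOn_of_bounded (M := (C1 + K) * M) hAfin.ne
      hm.aestronglyMeasurable ?_
    rw [ae_restrict_iff' hAm]
    refine Eventually.of_forall fun x hx => ?_
    refine (ContinuousLinearMap.le_opNorm _ _).trans ?_
    exact mul_le_mul (by simpa using norm_fderiv_le_of_lip hgl x) (hM x (subset_closure hx))
      (norm_nonneg _) (by positivity)
  have hexp : ∫ x in A, (‖fderiv ℝ Ψ x‖ ^ 2 - ‖fderiv ℝ u x‖ ^ 2) =
      2 * (∫ x in A, fderiv ℝ g x (∇ Ψ x)) - ∫ x in A, ‖fderiv ℝ g x‖ ^ 2 := by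
    rw [← integral_const_mul, ← integral_sub (hint2.const_mul 2) hint1]
    refine integral_congr_ae ?_
    rw [EventuallyEq, ae_restrict_iff' hAm]
    filter_upwards [hud] with x hx hxA
    rw [hgdA x hxA hx]
    exact normsq_sub _ _ (∇ Ψ x) (inner_gradient Ψ x)
  have hII : ∫ x in A, ‖fderiv ℝ g x‖ ^ 2 ≤ (volume Z).toReal := by
    rw [hexp, hgreenA] at hI
    linarith
  -- on Z the derivative of g is that of Ψ
  have hZsub : Z ⊆ A := inter_subset_left
  have hZd : ∀ᵐ x, x ∈ Z → 1 < ‖fderiv ℝ g x‖ := by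
    filter_upwards [hud] with x hx hxZ
    have h1 : u x = 0 := hxZ.2
    have h2 : u x < Ψ x := hxZ.1
    rw [hgdA x hxZ.1 hx, fderiv_eq_zero_of_nonneg hu.nonneg h1, sub_zero]
    exact hg x h1 (by rw [h1] at h2; exact h2)
  have hIII : ∫ x in Z, (‖fderiv ℝ g x‖ ^ 2 - 1) ≤ 0 := by
    have h1 : ∫ x in Z, ‖fderiv ℝ g x‖ ^ 2 ≤ ∫ x in A, ‖fderiv ℝ g x‖ ^ 2 :=
      setIntegral_mono_set hint1 (Eventually.of_forall fun x => by positivity)
        (LE.le.eventuallyLE hZsub)
    rw [integral_sub (hint1.mono_set hZsub) (integrableOn_const hZfin.ne)]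
    simp only [integral_const, MeasurableSet.univ, measureReal_restrict_apply, univ_inter,
      smul_eq_mul, mul_one]
    rw [Measure.real]
    linarith
  have hZ0 : volume Z = 0 := by
    by_contra hne
    have hpos : 0 < volume Z := pos_iff_ne_zero.2 hne
    have h1 : 0 < ∫ x in Z, (‖fderiv ℝ g x‖ ^ 2 - 1) := by
      rw [setIntegral_pos_iff_support_of_nonneg_ae]
      · refine lt_of_lt_of_le hpos (measure_mono_ae ?_)
        filter_upwards [hZd] with x hx hxZ
        refine ⟨?_, hxZ⟩
        have := hx hxZ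
        simp only [Function.mem_support]
        nlinarith
      · rw [EventuallyLE, ae_restrict_iff' hZm]
        filter_upwards [hZd] with x hx hxZ
        have := hx hxZ
        simp only [Pi.zero_apply]
        nlinarith
      · exact (hint1.mono_set hZsub).sub (integrableOn_const hZfin.ne)
    linarith
  -- hence the derivative of g vanishes
  have hIV : ∫ x in A, ‖fderiv ℝ g x‖ ^ 2 = 0 := by
    refine le_antisymm ?_ (integral_nonneg fun x => by positivity)
    rw [hZ0] at hII
    simpa using hII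
  have hV : ∀ᵐ x, fderiv ℝ g x = 0 := by
    have h1 := (integral_eq_zero_iff_of_nonneg (fun x => by positivity) hint1).1 hIV
    rw [EventuallyEq, ae_restrict_iff' hAm] at h1
    filter_upwards [h1] with x hx
    by_cases hxA : x ∈ A
    · have := hx hxA
      simpa using this
    · exact hgd0 x hxA
  have hfin := lip_eq_zero hd hgl hgc hg0 hV
  intro x
  by_contra h
  have hxA : x ∈ A := not_le.1 h
  have h1 := hfin x
  rw [hgA x hxA] at h1
  have h2 : u x < Ψ x := hxA
  linarith

end Crest.Agent.R097
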