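import Crest.Agent.R097.SDiv
import Crest.Agent.R097.V1

/-!
# Row 97, S-block: thin layers near the free boundary
-/

set_option autoImplicit false
open MeasureTheory Metric Set Filter Topology InnerProductSpace
open scoped RealInnerProductSpace NNReal ENNReal Gradient Laplacian

namespace Crest.Agent.R097

variable {d : ℕ}

lemma two_le_smooth : (2 : WithTop ℕ∞) ≤ ((⊤ : ℕ∞) : WithTop ℕ∞) := by
  have : ((2 : ℕ∞) : WithTop ℕ∞) ≤ ((⊤ : ℕ∞) : WithTop ℕ∞) := by exact_mod_cast le_top
  exact this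

lemma abs_clm_le {L : E d →L[ℝ] ℝ} {v : E d} {A B : ℝ} (hA : ‖L‖ ≤ A) (hB : ‖v‖ ≤ B) :
    |L v| ≤ A * B := by
  have h := (ContinuousLinearMap.le_opNorm L v).trans
    (mul_le_mul hA hB (norm_nonneg _) ((norm_nonneg _).trans hA))
  rwa [Real.norm_eq_abs] at h

lemma isOpen_Om {u : E d → ℝ} (hc : Continuous u) : IsOpen (Om u) := isOpen_lt continuous_const hc

/-- a property that holds near the free boundary points of a compact set holds in a layer -/
lemma near_bdry {u : E d → ℝ} (hc : Continuous u) {S : Set (E d)} (hS : IsCompact S)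
    {P : E d → Prop} (h : ∀ y ∈ S, y ∈ frontier (Om u) → ∀ᶠ x in 𝓝[Om u] y, P x) :
    ∃ t0 : ℝ, 0 < t0 ∧ ∀ x ∈ S, 0 < u x → u x < t0 → P x := by
  by_contra hcon
  push Not at hcon
  have h1 : ∀ n : ℕ, ∃ x ∈ S, 0 < u x ∧ u x < 1 / ((n : ℝ) + 1) ∧ ¬ P x := fun n => by
    obtain ⟨x, h1, h2, h3, h4⟩ := hcon (1 / ((n : ℝ) + 1)) (by positivity)
    exact ⟨x, h1, h2, h3, h4⟩
  choose x hxS hx0 hxt hxP using h1
  obtain ⟨y, hyS, φ, hφ, hlim⟩ := hS.tendsto_subseq hxS
  have huy : Tendsto (fun n => u (x (φ n))) atTop (𝓝 (u y)) := (hc.tendsto y).comp hlim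
  have hu0 : Tendsto (fun n => u (x (φ n))) atTop (𝓝 0) := by
    refine squeeze_zero (fun n => (hx0 _).le) (fun n => (hxt _).le) ?_
    exact tendsto_one_div_add_atTop_nhds_zero_nat.comp hφ.tendsto_atTop
  have huy0 : u y = 0 := tendsto_nhds_unique huy hu0
  have hyf : y ∈ frontier (Om u) := by
    rw [frontier, (isOpen_Om hc).interior_eq]
    refine ⟨mem_closure_of_tendsto hlim (Eventually.of_forall fun n => hx0 _), ?_⟩
    intro h'
    have : 0 < u y := h'
    linarith
  have h2 := h y hyS hyf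
  have h3 : Tendsto (x ∘ φ) atTop (𝓝[Om u] y) :=
    tendsto_nhdsWithin_iff.2 ⟨hlim, Eventually.of_forall fun n => hx0 _⟩
  obtain ⟨n, hn⟩ := (h3.eventually h2).exists
  exact hxP _ hn

/-- local boundedness up to the free boundary gives boundedness -/
lemma bdd_of_local {O : Set (E d)} {S : Set (E d)} (hS : IsCompact S) {f : E d → ℝ}
    (h : ∀ y ∈ S, y ∈ closure O → ∃ C : ℝ, ∀ᶠ x in 𝓝[O] y, f x ≤ C) :
    ∃ C : ℝ, ∀ x ∈ O, x ∈ S → f x ≤ C := by
  have h1 : ∃ C : ℝ, ∀ x ∈ S, x ∈ O → f x ≤ C := by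
    refine hS.induction_on (p := fun T => ∃ C : ℝ, ∀ x ∈ T, x ∈ O → f x ≤ C) ?_ ?_ ?_ ?_
    · exact ⟨0, fun x hx => hx.elim⟩
    · rintro s t hst ⟨C, hC⟩
      exact ⟨C, fun x hx => hC x (hst hx)⟩
    · rintro s t ⟨C, hC⟩ ⟨D, hD⟩
      refine ⟨max C D, fun x hx hxO => ?_⟩
      rcases hx with hx | hx
      · exact (hC x hx hxO).trans (le_max_left _ _)
      · exact (hD x hx hxO).trans (le_max_right _ _)
    · intro y hy
      by_cases hyc : y ∈ closure O
      · obtain ⟨C, hC⟩ := h y hy hyc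
        rw [eventually_nhdsWithin_iff] at hC
        exact ⟨_, mem_nhdsWithin_of_mem_nhds hC, C, fun x hx hxO => hx hxO⟩
      · refine ⟨(closure O)ᶜ, mem_nhdsWithin_of_mem_nhds
          (isClosed_closure.isOpen_compl.mem_nhds hyc), 0, fun x hx hxO => ?_⟩
        exact absurd (subset_closure hxO) hx
  obtain ⟨C, hC⟩ := h1
  exact ⟨C, fun x hxO hxS => hC x hxS hxO⟩

lemma contDiffOn_gradient {u : E d → ℝ} {O : Set (E d)} (hO : IsOpen O)
    (hsm : ContDiffOn ℝ (⊤ : ℕ∞) u O) : ContDiffOn ℝ (⊤ : ℕ∞) (fun x => ∇ u x) O := by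
  rw [contDiffOn_euclidean]
  intro i
  simp_rw [gradient_coord]
  have h1 : ContDiffOn ℝ (⊤ : ℕ∞) (fderiv ℝ u) O := by
    refine hsm.fderiv_of_isOpen hO ?_
    exact le_of_eq rfl
  exact h1.clm_apply contDiffOn_const

/-- the product of bounded Lipschitz functions -/
lemma lip_mul {f g : E d → ℝ} {L M : ℝ≥0} {A B : ℝ≥0} (hf : LipschitzWith L f)
    (hg : LipschitzWith M g) (hfA : ∀ x, |f x| ≤ A) (hgB : ∀ x, |g x| ≤ B) :
    LipschitzWith (A * M + B * L) (fun x => f x * g x) := by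
  refine LipschitzWith.of_dist_le_mul fun x y => ?_
  have h1 := hf.dist_le_mul x y
  have h2 := hg.dist_le_mul x y
  rw [Real.dist_eq] at *
  have e : f x * g x - f y * g y = f x * (g x - g y) + g y * (f x - f y) := by ring
  rw [e]
  refine (abs_add_le _ _).trans ?_
  rw [abs_mul, abs_mul]
  have h3 : |f x| * |g x - g y| ≤ A * (M * dist x y) :=
    mul_le_mul (hfA x) h2 (abs_nonneg _) A.2
  have h4 : |g y| * |f x - f y| ≤ B * (L * dist x y) :=
    mul_le_mul (hgB y) h1 (abs_nonneg _) B.2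
  push_cast
  nlinarith

/-- the derivative of `min u t` applied to the gradient of `u` -/
lemma fderiv_min_const {u : E d → ℝ} (hc : Continuous u) (t : ℝ) (x : E d) :
    fderiv ℝ (fun y => min (u y) t) x = if u x < t then fderiv ℝ u x else 0 := by
  split_ifs with h
  · have : (fun y => min (u y) t) =ᶠ[𝓝 x] u := by
      filter_upwards [(hc.continuousAt (x := x)).eventually (gt_mem_nhds h)] with y hy
      exact min_eq_left (le_of_lt hy)
    exact this.fderiv_eq
  · have h' : t ≤ u x := not_lt.1 h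
    have : IsLocalMax (fun y => min (u y) t) x := Eventually.of_forall fun y => by
      show min (u y) t ≤ min (u x) t
      rw [min_eq_right h']
      exact min_le_right _ _
    exact this.fderiv_eq_zero

/-- LAYER -/
theorem layer {u : E d → ℝ} {K : ℝ≥0} (hu : LM u K) (hsm : ContDiffOn ℝ (⊤ : ℕ∞) u (Om u))
    (hha : ∀ x ∈ Om u, (Δ u) x = 0) {S : Set (E d)} (hS : IsCompact S)
    (hreg : ∀ y ∈ S, y ∈ frontier (Om u) → ∀ᶠ x in 𝓝[Om u] y, 1 / 2 ≤ ‖fderiv ℝ u x‖ ^ 2) :
    ∃ C t0 : ℝ, 0 ≤ C ∧ 0 < t0 ∧ ∀ t : ℝ, 0 < t → t < t0 →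
      (volume ({x | 0 < u x ∧ u x ≤ t} ∩ S)).toReal ≤ C * t := by
  have hcu : Continuous u := hu.continuous
  have hO : IsOpen (Om u) := isOpen_Om hcu
  obtain ⟨t0, ht0, hlay⟩ := near_bdry hcu hS hreg
  obtain ⟨ζ, hζ, hζc, -, hζ01, hζ1⟩ := exists_cutoff hS isOpen_univ (subset_univ _)
  obtain ⟨Lζ, hLζ⟩ := lip_of_contDiff_compact (hζ.of_le (by exact_mod_cast le_top)) hζc
  set S2 := tsupport ζ with hS2
  have hS2c : IsCompact S2 := hζc.isCompact
  have hSS2 : S ⊆ S2 := by
    intro x hx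
    refine subset_closure ?_
    have := (hζ1 x hx).self_of_nhds
    show ζ x ≠ 0
    rw [this]; norm_num
  have hV2 : volume S2 < ⊤ := hS2c.measure_lt_top
  have hYd : ContDiffOn ℝ 1 (fun x => ∇ u x) (Om u) :=
    (contDiffOn_gradient hO hsm).of_le (by exact_mod_cast le_top)
  have hdvY : ∀ x ∈ Om u, dv (fun y => ∇ u y) x = 0 := by
    intro x hx
    rw [dv_gradient ((hsm.contDiffAt (hO.mem_nhds hx)).of_le two_le_smooth), hha x hx]
  have hYK : ∀ x, ‖∇ u x‖ ≤ K := fun x => by
    rw [norm_gradient]; exact norm_fderiv_le_of_lip hu.lip x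
  refine ⟨4 * (Lζ * K * (volume S2).toReal), t0 / 2, by positivity, by positivity, ?_⟩
  intro t' ht' htt'
  -- use the level t = 2 t'
  set t := 2 * t' with htdef
  have ht : 0 < t := by positivity
  have htt : t < t0 := by rw [htdef]; linarith
  -- the weight
  set m : E d → ℝ := fun x => min (u x) t with hm
  have hmlip : LipschitzWith K m := hu.lip.min_const t
  have hm0 : ∀ x, 0 ≤ m x := fun x => le_min (hu.nonneg x) ht.le
  have hmt : ∀ x, |m x| ≤ (⟨t, ht.le⟩ : ℝ≥0) := fun x => by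
    rw [abs_of_nonneg (hm0 x)]; exact min_le_right _ _
  have hζ1' : ∀ x, |ζ x| ≤ (1 : ℝ≥0) := fun x => by
    rw [abs_of_nonneg (hζ01 x).1]; exact_mod_cast (hζ01 x).2
  have hglip := lip_mul hmlip hLζ hmt hζ1'
  have hdiv := div0 hO hS2c hYd hglip (fun x => mul_nonneg (hm0 x) (hζ01 x).1)
    (fun x hx => by rw [image_eq_zero_of_notMem_tsupport hx, mul_zero])
    (fun x hx => by
      have : u x = 0 := le_antisymm (not_lt.1 hx) (hu.nonneg x)
      simp only [hm, this, min_eq_left ht.le, zero_mul])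
    (C := K) (fun x _ _ => hYK x) (fun x hx _ => by rw [hdvY x hx, abs_zero]; exact K.2)
  -- rewrite the integrand
  have hae : ∀ᵐ x ∂(volume.restrict (Om u)), fderiv ℝ (fun x => m x * ζ x) x (∇ u x)
      + (m x * ζ x) * dv (fun y => ∇ u y) x
      = m x * fderiv ℝ ζ x (∇ u x) + (if u x < t then ζ x * ‖fderiv ℝ u x‖ ^ 2 else 0) := by
    rw [ae_restrict_iff' hO.measurableSet]
    filter_upwards [hmlip.ae_differentiableAt] with x hx hxO
    rw [hdvY x hxO, mul_zero, add_zero,
      fderiv_fun_mul hx (hζ.differentiable (by simp) x)]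
    simp only [add_apply, smul_apply, smul_eq_mul]
    congr 1
    rw [hm, fderiv_min_const hcu t x]
    split_ifs with h
    · have : fderiv ℝ u x (∇ u x) = ‖fderiv ℝ u x‖ ^ 2 := by
        rw [← inner_gradient, real_inner_self_eq_norm_sq, norm_gradient]
      rw [this]
    · simp
  rw [integral_congr_ae hae] at hdiv
  have hi1 : Integrable (fun x => m x * fderiv ℝ ζ x (∇ u x)) (volume.restrict (Om u)) := by
    refine Integrable.restrict ?_
    refine integrable_of_bdd (C := t * (Lζ * K)) hS2c ?_ ?_ ?_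
    · refine (hmlip.continuous.aestronglyMeasurable).mul (aesm_fderiv_apply _ ?_)
      have : Measurable (fun x => ∇ u x) := by
        have h1 : Measurable (fderiv ℝ u) := measurable_fderiv ℝ u
        exact ((toDual ℝ (E d)).symm.continuous.measurable).comp h1
      exact this.aestronglyMeasurable
    · intro x hx
      rw [fderiv_eq_zero_of_notMem_tsupport hx]; simp
    · intro x hx
      rw [abs_mul]
      exact mul_le_mul (hmt x) (abs_clm_le (norm_fderiv_le_of_lip hLζ x) (hYK x)) (abs_nonneg _) ht.le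
  have hi2 : Integrable (fun x => if u x < t then ζ x * ‖fderiv ℝ u x‖ ^ 2 else 0)
      (volume.restrict (Om u)) := by
    refine Integrable.restrict ?_
    refine integrable_of_bdd (C := (K : ℝ) ^ 2) hS2c ?_ ?_ ?_
    · refine Measurable.aestronglyMeasurable ?_
      exact Measurable.ite (isOpen_lt hcu continuous_const).measurableSet
        (hζ.continuous.measurable.mul (measurable_normsq u)) measurable_const
    · intro x hx
      rw [image_eq_zero_of_notMem_tsupport hx]; simp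
    · intro x hx
      split_ifs
      · rw [abs_mul, abs_of_nonneg (hζ01 x).1, abs_of_nonneg (by positivity : (0:ℝ) ≤ ‖fderiv ℝ u x‖ ^ 2)]
        have h1 : ‖fderiv ℝ u x‖ ^ 2 ≤ (K : ℝ) ^ 2 :=
          pow_le_pow_left₀ (norm_nonneg _) (norm_fderiv_le_of_lip hu.lip x) 2
        nlinarith [(hζ01 x).1, (hζ01 x).2, sq_nonneg ‖fderiv ℝ u x‖]
      · simp
  rw [integral_add hi1 hi2] at hdiv
  -- upper bound of the first integral
  have hb1 : |∫ x in Om u, m x * fderiv ℝ ζ x (∇ u x)| ≤ t * (Lζ * K) * (volume S2).toReal := by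
    have h1 : ∫ x in Om u, m x * fderiv ℝ ζ x (∇ u x) = ∫ x in Om u ∩ S2, m x * fderiv ℝ ζ x (∇ u x) := by
      refine (setIntegral_eq_of_subset_of_forall_sdiff_eq_zero hO.measurableSet
        inter_subset_left ?_)
      intro x hx
      have hx' : x ∉ tsupport ζ := fun h => hx.2 ⟨hx.1, h⟩
      rw [fderiv_eq_zero_of_notMem_tsupport hx']; simp
    rw [h1]
    have h2 : volume (Om u ∩ S2) < ⊤ := (measure_mono inter_subset_right).trans_lt hV2
    have h3 := norm_setIntegral_le_of_norm_le_const (f := fun x => m x * fderiv ℝ ζ x (∇ u x))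
      (C := t * (Lζ * K)) h2 (fun x hx => by
        rw [Real.norm_eq_abs, abs_mul]
        exact mul_le_mul (hmt x) (abs_clm_le (norm_fderiv_le_of_lip hLζ x) (hYK x)) (abs_nonneg _) ht.le)
    refine (Real.norm_eq_abs _ ▸ h3).trans ?_
    refine mul_le_mul_of_nonneg_left ?_ (by positivity)
    exact ENNReal.toReal_mono hV2.ne (measure_mono inter_subset_right)
  -- lower bound of the second
  set T := {x | 0 < u x ∧ u x ≤ t'} ∩ S with hT
  have hTm : MeasurableSet T :=
    ((isOpen_lt continuous_const hcu).measurableSet.inter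
      (isClosed_le hcu continuous_const).measurableSet).inter hS.measurableSet
  have hTO : T ⊆ Om u := fun x hx => hx.1.1
  have hTf : volume T < ⊤ := (measure_mono inter_subset_right).trans_lt hS.measure_lt_top
  have hb2 : 1 / 2 * (volume T).toReal
      ≤ ∫ x in Om u, (if u x < t then ζ x * ‖fderiv ℝ u x‖ ^ 2 else 0) := by
    have h1 : ∫ x in T, (1 / 2 : ℝ) ≤ ∫ x in T, (if u x < t then ζ x * ‖fderiv ℝ u x‖ ^ 2 else 0) := by
      refine setIntegral_mono_on (integrableOn_const hTf.ne)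
        (IntegrableOn.mono_set hi2 hTO) hTm ?_
      intro x hx
      have h2 : u x < t := lt_of_le_of_lt hx.1.2 (by rw [htdef]; linarith)
      rw [if_pos h2, (hζ1 x hx.2).self_of_nhds, one_mul]
      exact hlay x hx.2 hx.1.1 (h2.trans htt)
    have h2 : ∫ x in T, (if u x < t then ζ x * ‖fderiv ℝ u x‖ ^ 2 else 0)
        ≤ ∫ x in Om u, (if u x < t then ζ x * ‖fderiv ℝ u x‖ ^ 2 else 0) := by
      refine setIntegral_mono_set hi2 ?_ (LE.le.eventuallyLE hTO)
      refine Eventually.of_forall fun x => ?_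
      show (0 : ℝ) ≤ (if u x < t then ζ x * ‖fderiv ℝ u x‖ ^ 2 else 0)
      split_ifs
      · exact mul_nonneg (hζ01 x).1 (by positivity)
      · exact le_rfl
    rw [setIntegral_const] at h1
    simp only [smul_eq_mul, Measure.real] at h1
    linarith
  have h5 := abs_le.1 hb1
  have h6 : (volume T).toReal ≤ 2 * (t * (Lζ * K) * (volume S2).toReal) := by linarith [h5.1]
  calc (volume T).toReal ≤ 2 * (t * (Lζ * K) * (volume S2).toReal) := h6
    _ = 4 * (Lζ * K * (volume S2).toReal) * t' := by rw [htdef]; ring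

end Crest.Agent.R097
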