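import Crest.Agent.R097.SExp

/-!
# Row 97, S-block: the competitor `(u - s φ)⁺` and the vector field `D²u ∇u`
-/

set_option autoImplicit false
open MeasureTheory Metric Set Filter Topology InnerProductSpace
open scoped RealInnerProductSpace NNReal ENNReal Gradient Laplacian

namespace Crest.Agent.R097

variable {d : ℕ}

/-- the square of the Hilbert-Schmidt norm -/
noncomputable def hs (A : Bil d) : ℝ := ∑ i, ∑ j, (A (bv i) (bv j)) ^ 2

lemma hs_nonneg (A : Bil d) : 0 ≤ hs A :=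
  Finset.sum_nonneg fun _ _ => Finset.sum_nonneg fun _ _ => sq_nonneg _

lemma hs_le (A : Bil d) : hs A ≤ (d : ℝ) * (d * ‖A‖ ^ 2) := by
  have h1 : ∀ i j : Fin d, (A (bv i) (bv j)) ^ 2 ≤ ‖A‖ ^ 2 := by
    intro i j
    rw [← sq_abs]
    refine pow_le_pow_left₀ (abs_nonneg _) ?_ 2
    have := abs_bil_le (A := A) le_rfl (norm_bv i).le (norm_bv j).le
    linarith
  calc hs A ≤ ∑ _i : Fin d, ∑ _j : Fin d, ‖A‖ ^ 2 :=
        Finset.sum_le_sum fun i _ => Finset.sum_le_sum fun j _ => h1 i j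
    _ = (d : ℝ) * (d * ‖A‖ ^ 2) := by simp

/-- the vector field `D²u ∇u` -/
noncomputable def mp (u : E d → ℝ) (x : E d) : E d :=
  WithLp.toLp 2 (fun i => D2 u x (∇ u x) (bv i))

lemma mp_apply (u : E d → ℝ) (x : E d) (i : Fin d) : mp u x i = D2 u x (∇ u x) (bv i) := rfl

lemma fderiv_mp (u g : E d → ℝ) (x : E d) :
    fderiv ℝ g x (mp u x) = D2 u x (∇ u x) (∇ g x) := by
  rw [apply_eq_sum (fderiv ℝ g x), apply_eq_sum (D2 u x (∇ u x))]
  refine Finset.sum_congr rfl fun i _ => ?_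
  rw [mp_apply, gradient_coord, mul_comm]

lemma norm_mp (u : E d → ℝ) (x : E d) : ‖mp u x‖ = ‖D2 u x (∇ u x)‖ := by
  have h1 : ‖mp u x‖ ^ 2 = ‖D2 u x (∇ u x)‖ ^ 2 := by
    rw [normsq_eq_sum, EuclideanSpace.norm_sq_eq]
    refine Finset.sum_congr rfl fun i _ => ?_
    rw [mp_apply, Real.norm_eq_abs, sq_abs]
  exact (pow_left_inj₀ (norm_nonneg _) (norm_nonneg _) (by norm_num)).1 h1

lemma contDiffOn_D1 {u : E d → ℝ} {O : Set (E d)} (hO : IsOpen O)
    (hsm : ContDiffOn ℝ (⊤ : ℕ∞) u O) : ContDiffOn ℝ (⊤ : ℕ∞) (fderiv ℝ u) O :=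
  hsm.fderiv_of_isOpen hO (le_of_eq rfl)

lemma contDiffOn_D2 {u : E d → ℝ} {O : Set (E d)} (hO : IsOpen O)
    (hsm : ContDiffOn ℝ (⊤ : ℕ∞) u O) : ContDiffOn ℝ (⊤ : ℕ∞) (D2 u) O :=
  (contDiffOn_D1 hO hsm).fderiv_of_isOpen hO (le_of_eq rfl)

lemma contDiffOn_mp {u : E d → ℝ} {O : Set (E d)} (hO : IsOpen O)
    (hsm : ContDiffOn ℝ (⊤ : ℕ∞) u O) : ContDiffOn ℝ (⊤ : ℕ∞) (mp u) O := by
  rw [contDiffOn_euclidean]
  intro i
  exact ((contDiffOn_D2 hO hsm).clm_apply (contDiffOn_gradient hO hsm)).clm_apply contDiffOn_const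

/-- the divergence of `D²u ∇u` for harmonic `u` -/
lemma dv_mp {u : E d → ℝ} {O : Set (E d)} (hO : IsOpen O) (hsm : ContDiffOn ℝ (⊤ : ℕ∞) u O)
    (hha : ∀ x ∈ O, (Δ u) x = 0) {x : E d} (hx : x ∈ O) : dv (mp u) x = hs (D2 u x) := by
  have hnb : O ∈ 𝓝 x := hO.mem_nhds hx
  have hu : ContDiffAt ℝ (⊤ : ℕ∞) u x := hsm.contDiffAt hnb
  have h1 : HasFDerivAt (fderiv ℝ u) (D2 u x) x :=
    (((contDiffOn_D1 hO hsm).contDiffAt hnb).differentiableAt (by simp)).hasFDerivAt
  have h2 : HasFDerivAt (D2 u) (D3 u x) x :=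
    (((contDiffOn_D2 hO hsm).contDiffAt hnb).differentiableAt (by simp)).hasFDerivAt
  have hsym2 : ∀ y ∈ O, ∀ a b, D2 u y a b = D2 u y b a := by
    intro y hy a b
    have h3 : IsSymmSndFDerivAt ℝ u y :=
      ((hsm.contDiffAt (hO.mem_nhds hy)).of_le two_le_smooth).isSymmSndFDerivAt (by simp)
    exact h3.eq a b
  have hsym3 : ∀ a b, D3 u x a b = D3 u x b a := by
    intro a b
    have h3 : IsSymmSndFDerivAt ℝ (fderiv ℝ u) x :=
      (((contDiffOn_D1 hO hsm).contDiffAt hnb).of_le two_le_smooth).isSymmSndFDerivAt (by simp)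
    exact h3.eq a b
  have hD2ij : ∀ a b : E d, HasFDerivAt (fun y => D2 u y a b)
      (((D3 u x).flip a).flip b) x := by
    intro a b
    have h3 := (h2.clm_apply (hasFDerivAt_const a x)).clm_apply (hasFDerivAt_const b x)
    refine h3.congr_fderiv ?_
    ext v
    simp
  -- trace of the third derivative
  have htr : ∀ a : E d, ∑ i, D3 u x a (bv i) (bv i) = 0 := by
    intro a
    have h3 : HasFDerivAt (fun y => ∑ i, D2 u y (bv i) (bv i))
        (∑ i : Fin d, ((D3 u x).flip (bv i)).flip (bv i)) x :=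
      HasFDerivAt.fun_sum fun i _ => hD2ij (bv i) (bv i)
    have h4 : (fun y => ∑ i, D2 u y (bv i) (bv i)) =ᶠ[𝓝 x] fun _ => 0 := by
      filter_upwards [hnb] with y hy
      have h5 := laplacian_eq_sum ((hsm.contDiffAt (hO.mem_nhds hy)).of_le two_le_smooth)
      rw [hha y hy] at h5
      rw [h5]
      refine Finset.sum_congr rfl fun i _ => ?_
      have h6 : HasFDerivAt (fderiv ℝ u) (D2 u y) y :=
        (((contDiffOn_D1 hO hsm).contDiffAt (hO.mem_nhds hy)).differentiableAt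
          (by simp)).hasFDerivAt
      have h7 := (h6.clm_apply (hasFDerivAt_const (bv i) y)).fderiv
      rw [h7]; simp
    have h5 := h4.hasFDerivAt_iff.1 h3
    have h6 := h5.unique (hasFDerivAt_const (0 : ℝ) x)
    have h7 := congrArg (fun L : E d →L[ℝ] ℝ => L a) h6
    simpa [sum_apply] using h7
  -- coordinates
  have hco : ∀ i : Fin d, HasFDerivAt (fun y => mp u y i)
      (∑ j : Fin d, ((fderiv ℝ u x (bv j)) • (((D3 u x).flip (bv j)).flip (bv i))
        + (D2 u x (bv j) (bv i)) • ((D2 u x).flip (bv j)))) x := by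
    intro i
    have e1 : (fun y => mp u y i) = fun y => ∑ j, fderiv ℝ u y (bv j) * D2 u y (bv j) (bv i) := by
      ext y
      rw [mp_apply]
      conv_lhs => rw [← sum_bv (∇ u y), map_sum, sum_apply]
      refine Finset.sum_congr rfl fun j _ => ?_
      rw [map_smul, smul_apply, smul_eq_mul, gradient_coord]
    rw [e1]
    refine HasFDerivAt.fun_sum fun j _ => ?_
    have h3 : HasFDerivAt (fun y => fderiv ℝ u y (bv j)) ((D2 u x).flip (bv j)) x := by
      refine (h1.clm_apply (hasFDerivAt_const (bv j) x)).congr_fderiv ?_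
      ext v
      simp
    exact h3.mul (hD2ij (bv j) (bv i))
  have hd : DifferentiableAt ℝ (mp u) x :=
    ((contDiffOn_mp hO hsm).contDiffAt hnb).differentiableAt (by simp)
  have e2 : ∀ i : Fin d, (fderiv ℝ (mp u) x (bv i)) i
      = ∑ j : Fin d, ((fderiv ℝ u x (bv j)) * D3 u x (bv j) (bv i) (bv i)
        + (D2 u x (bv i) (bv j)) ^ 2) := by
    intro i
    have h3 : HasFDerivAt (fun y => mp u y i)
        ((EuclideanSpace.proj i : E d →L[ℝ] ℝ).comp (fderiv ℝ (mp u) x)) x :=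
      (EuclideanSpace.proj i : E d →L[ℝ] ℝ).hasFDerivAt.comp x hd.hasFDerivAt
    have h4 := h3.unique (hco i)
    have h5 := congrArg (fun L : E d →L[ℝ] ℝ => L (bv i)) h4
    have h6 : (fderiv ℝ (mp u) x (bv i)) i
      = ((EuclideanSpace.proj i : E d →L[ℝ] ℝ).comp (fderiv ℝ (mp u) x)) (bv i) := rfl
    rw [h6, h4, sum_apply]
    refine Finset.sum_congr rfl fun j _ => ?_
    rw [add_apply, smul_apply, smul_apply, ContinuousLinearMap.flip_apply,
      ContinuousLinearMap.flip_apply, ContinuousLinearMap.flip_apply, smul_eq_mul, smul_eq_mul,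
      hsym3 (bv i) (bv j), hsym2 x hx (bv j) (bv i)]
    ring
  unfold dv
  simp_rw [e2]
  rw [hs]
  simp_rw [Finset.sum_add_distrib]
  have h8 : ∑ i : Fin d, ∑ j : Fin d, fderiv ℝ u x (bv j) * D3 u x (bv j) (bv i) (bv i) = 0 := by
    rw [Finset.sum_comm]
    refine Finset.sum_eq_zero fun j _ => ?_
    rw [← Finset.mul_sum, htr, mul_zero]
  rw [h8, zero_add]

/-- patching Lipschitz functions vanishing outside a set -/
lemma lip_patch {f : E d → ℝ} {O : Set (E d)} {K L : ℝ≥0} (h0 : ∀ x, x ∉ O → f x = 0)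
    (hK : ∀ x ∈ O, ∀ z, z ∉ O → |f x| ≤ K * dist x z)
    (hseg : ∀ x y, segment ℝ x y ⊆ O → |f x - f y| ≤ L * dist x y) (hKL : K ≤ L) :
    LipschitzWith L f := by
  refine LipschitzWith.of_dist_le_mul fun x y => ?_
  rw [Real.dist_eq]
  by_cases h : segment ℝ x y ⊆ O
  · exact hseg x y h
  · obtain ⟨z, hz, hzO⟩ := not_subset.1 h
    have hd := dist_add_dist_of_mem_segment hz
    have hx : |f x| ≤ K * dist x z := by
      by_cases hxO : x ∈ O
      · exact hK x hxO z hzO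
      · rw [h0 x hxO, abs_zero]; positivity
    have hy : |f y| ≤ K * dist z y := by
      by_cases hyO : y ∈ O
      · rw [dist_comm]; exact hK y hyO z hzO
      · rw [h0 y hyO, abs_zero]; positivity
    have h1 : |f x - f y| ≤ |f x| + |f y| := abs_sub _ _
    have h2 : (K : ℝ) * (dist x z + dist z y) ≤ L * dist x y := by
      rw [hd]
      exact mul_le_mul_of_nonneg_right (by exact_mod_cast hKL) dist_nonneg
    nlinarith

/-- the perturbation `min(u, s φ)` on the positivity set -/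
noncomputable def pert (u φ : E d → ℝ) (s : ℝ) (x : E d) : ℝ :=
  if 0 < u x then min (u x) (s * φ x) else 0

lemma pert_nonneg {u φ : E d → ℝ} {s : ℝ} (hs : 0 ≤ s) (h0 : ∀ x, 0 ≤ φ x) (x : E d) :
    0 ≤ pert u φ s x := by
  unfold pert
  split_ifs with h
  · exact le_min h.le (mul_nonneg hs (h0 x))
  · exact le_rfl

lemma pert_le {u φ : E d → ℝ} {s : ℝ} (hu0 : ∀ x, 0 ≤ u x) (x : E d) : pert u φ s x ≤ u x := by
  unfold pert
  split_ifs with h
  · exact min_le_left _ _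
  · exact hu0 x

lemma pert_off {u φ : E d → ℝ} {s : ℝ} {x : E d} (hx : x ∉ Om u) : pert u φ s x = 0 := if_neg hx

lemma pert_lip {u φ : E d → ℝ} {K C : ℝ≥0} (hlip : LipschitzWith K u) (hu0 : ∀ x, 0 ≤ u x)
    (hφ : ContDiffOn ℝ 1 φ (Om u)) (h0 : ∀ x, 0 ≤ φ x) (hdφ : ∀ x ∈ Om u, ‖fderiv ℝ φ x‖ ≤ C)
    {s : ℝ≥0} : LipschitzWith (K + s * C) (pert u φ s) := by
  have hO : IsOpen (Om u) := isOpen_Om hlip.continuous
  refine lip_patch (O := Om u) (K := K) (fun x hx => pert_off hx) ?_ ?_ le_self_add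
  · intro x _ z hz
    have huz : u z = 0 := le_antisymm (not_lt.1 hz) (hu0 z)
    rw [abs_of_nonneg (pert_nonneg s.coe_nonneg h0 x)]
    refine (pert_le hu0 x).trans ?_
    have h1 := hlip.dist_le_mul x z
    rw [Real.dist_eq, huz, sub_zero, abs_of_nonneg (hu0 x)] at h1
    exact h1
  · intro x y hseg
    have hxO : 0 < u x := hseg (left_mem_segment ℝ x y)
    have hyO : 0 < u y := hseg (right_mem_segment ℝ x y)
    unfold pert
    rw [if_pos hxO, if_pos hyO]
    refine (abs_min_sub_min_le_max _ _ _ _).trans ?_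
    have h1 : |u x - u y| ≤ K * dist x y := hlip.dist_le_mul x y
    have h2 : ‖φ x - φ y‖ ≤ C * ‖x - y‖ := by
      refine (convex_segment x y).norm_image_sub_le_of_norm_hasFDerivWithin_le
        (f := φ) (f' := fderiv ℝ φ) (fun z hz => ?_) (fun z hz => hdφ z (hseg hz))
        (right_mem_segment ℝ x y) (left_mem_segment ℝ x y)
      exact (((hφ.contDiffAt (hO.mem_nhds (hseg hz))).differentiableAt
        (by norm_num)).hasFDerivAt).hasFDerivWithinAt
    have h3 : |(s : ℝ) * φ x - s * φ y| ≤ s * C * dist x y := by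
      rw [← mul_sub, abs_mul, abs_of_nonneg s.coe_nonneg, mul_assoc, dist_eq_norm]
      exact mul_le_mul_of_nonneg_left h2 s.coe_nonneg
    push_cast
    have h4 : 0 ≤ (K : ℝ) * dist x y := by positivity
    have h5 : 0 ≤ (s : ℝ) * C * dist x y := by positivity
    refine max_le ?_ ?_ <;> linarith

/-- derivative of the perturbation where `s φ < u` -/
lemma fderiv_pert_lt {u φ : E d → ℝ} (hcu : Continuous u) (hφ : ContDiffOn ℝ 1 φ (Om u)) {s : ℝ}
    {x : E d} (hx : x ∈ Om u) (h : s * φ x < u x) :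
    fderiv ℝ (pert u φ s) x = s • fderiv ℝ φ x := by
  have hO : IsOpen (Om u) := isOpen_Om hcu
  have hφc : ContinuousAt φ x := (hφ.contDiffAt (hO.mem_nhds hx)).continuousAt
  have h1 : pert u φ s =ᶠ[𝓝 x] fun y => s * φ y := by
    have h2 : ∀ᶠ y in 𝓝 x, s * φ y < u y :=
      (hφc.const_mul s).eventually_lt hcu.continuousAt h
    filter_upwards [h2, hO.mem_nhds hx] with y hy hyO
    unfold pert
    rw [if_pos (show 0 < u y from hyO)]
    exact min_eq_right hy.le
  rw [h1.fderiv_eq]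
  exact fderiv_const_mul ((hφ.contDiffAt (hO.mem_nhds hx)).differentiableAt (by norm_num)) s

/-- derivative of the perturbation where `u ≤ s φ` -/
lemma fderiv_pert_ge {u φ : E d → ℝ} (hu0 : ∀ x, 0 ≤ u x) {s : ℝ}
    {x : E d} (hx : x ∈ Om u) (h : u x ≤ s * φ x) (hdu : DifferentiableAt ℝ u x)
    (hdp : DifferentiableAt ℝ (pert u φ s) x) :
    fderiv ℝ (pert u φ s) x = fderiv ℝ u x := by
  have h1 : fderiv ℝ (fun y => u y - pert u φ s y) x = 0 := by
    refine fderiv_eq_zero_of_nonneg (fun y => sub_nonneg.2 (pert_le hu0 y)) ?_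
    unfold pert
    rw [if_pos (show 0 < u x from hx), min_eq_left h, sub_self]
  rw [fderiv_fun_sub hdu hdp, sub_eq_zero] at h1
  exact h1.symm

end Crest.Agent.R097
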