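import Crest.Agent.R097.Sob
import Crest.Agent.R097.Lip

/-! Sob2: linear combinations, uniqueness of the weak gradient, Lipschitz functions. -/
set_option autoImplicit false
open MeasureTheory Metric Set Filter Topology
open scoped NNReal RealInnerProductSpace Gradient ContDiff Laplacian ENNReal
open Crest.AnalysisR.PDE.OnePhase

namespace Crest.Agent.R097
variable {d : ℕ}

/-- weak gradients on the whole space -/
theorem isWeakGradOn_univ {u : E d → ℝ} {G : E d → E d} : IsWeakGradOn Set.univ u G ↔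
    LocallyIntegrable u ∧ LocallyIntegrable G ∧ ∀ φ : E d → ℝ, ContDiff ℝ ∞ φ → HasCompactSupport φ →
      ∀ i : Fin d, ∫ x, u x * partialD φ i x = - ∫ x, G x i * φ x := by
  unfold IsWeakGradOn
  rw [locallyIntegrableOn_univ, locallyIntegrableOn_univ]
  simp only [subset_univ, forall_const, Measure.restrict_univ]

theorem partialD_eq (φ : E d → ℝ) (i : Fin d) (x : E d) : partialD φ i x = fderiv ℝ φ x (bv i) := rfl

theorem partialD_cont {φ : E d → ℝ} (hφ : ContDiff ℝ ∞ φ) (i : Fin d) : Continuous (partialD φ i) :=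
  (hφ.continuous_fderiv (by norm_num)).clm_apply continuous_const

theorem partialD_cs {φ : E d → ℝ} (hc : HasCompactSupport φ) (i : Fin d) : HasCompactSupport (partialD φ i) :=
  hc.fderiv_apply ℝ _

theorem int_mul_cs {v φ : E d → ℝ} (hv : LocallyIntegrable v) (hφ : Continuous φ) (hc : HasCompactSupport φ) :
    Integrable (fun x => v x * φ x) := by
  simpa [smul_eq_mul] using hv.integrable_smul_right_of_hasCompactSupport hφ hc

theorem locInt_apply {G : E d → E d} (hG : LocallyIntegrable G) (i : Fin d) : LocallyIntegrable (fun x => G x i) := by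
  intro x
  obtain ⟨s, hs, h⟩ := hG x
  exact ⟨s, hs, (EuclideanSpace.proj (𝕜 := ℝ) i : E d →L[ℝ] ℝ).integrable_comp h⟩

theorem locInt_sq_add {F : Type*} [NormedAddCommGroup F] [MeasurableSpace F] [BorelSpace F] {f g : E d → F}
    (hf : AEStronglyMeasurable f) (hg : AEStronglyMeasurable g)
    (h1 : LocallyIntegrable (fun x => ‖f x‖ ^ 2)) (h2 : LocallyIntegrable (fun x => ‖g x‖ ^ 2)) :
    LocallyIntegrable (fun x => ‖f x + g x‖ ^ 2) := by
  have h3 : LocallyIntegrable (fun x => 2 * ‖f x‖ ^ 2 + 2 * ‖g x‖ ^ 2) := by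
    have e1 := (h1.smul (2 : ℝ)).add (h2.smul (2 : ℝ))
    exact e1.congr (Eventually.of_forall fun x => rfl)
  refine h3.mono ((hf.add hg).norm.pow 2) (Eventually.of_forall fun x => ?_)
  rw [Real.norm_of_nonneg (by positivity), Real.norm_of_nonneg (by positivity)]
  have h4 := norm_add_le (f x) (g x)
  nlinarith [norm_nonneg (f x + g x), norm_nonneg (f x), norm_nonneg (g x), sq_nonneg (‖f x‖ - ‖g x‖)]

theorem W2.add {u v : E d → ℝ} {G H : E d → E d} (hu : W2 u G) (hv : W2 v H) :
    W2 (fun x => u x + v x) (fun x => G x + H x) := by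
  obtain ⟨hu1, hu2, hu3⟩ := hu
  obtain ⟨hv1, hv2, hv3⟩ := hv
  rw [isWeakGradOn_univ] at hu1 hv1
  refine ⟨?_, ?_, ?_⟩
  · rw [isWeakGradOn_univ]
    refine ⟨hu1.1.add hv1.1, hu1.2.1.add hv1.2.1, fun φ hφ hc i => ?_⟩
    have e1 := hu1.2.2 φ hφ hc i
    have e2 := hv1.2.2 φ hφ hc i
    have f1 : (∫ x, (u x + v x) * partialD φ i x) = (∫ x, u x * partialD φ i x) + ∫ x, v x * partialD φ i x := by
      rw [← integral_add (int_mul_cs hu1.1 (partialD_cont hφ i) (partialD_cs hc i))
        (int_mul_cs hv1.1 (partialD_cont hφ i) (partialD_cs hc i))]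
      refine integral_congr_ae (Eventually.of_forall fun x => ?_)
      simp only; ring
    have f2 : (∫ x, (G x + H x) i * φ x) = (∫ x, G x i * φ x) + ∫ x, H x i * φ x := by
      rw [← integral_add (int_mul_cs (locInt_apply hu1.2.1 i) hφ.continuous hc)
        (int_mul_cs (locInt_apply hv1.2.1 i) hφ.continuous hc)]
      refine integral_congr_ae (Eventually.of_forall fun x => ?_)
      simp only [PiLp.add_apply]; ring
    rw [f1, f2, e1, e2]; ring
  · have := locInt_sq_add hu1.1.aestronglyMeasurable hv1.1.aestronglyMeasurable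
      (by simpa using hu2) (by simpa using hv2)
    simpa using this
  · exact locInt_sq_add hu1.2.1.aestronglyMeasurable hv1.2.1.aestronglyMeasurable hu3 hv3

theorem W2.smul {u : E d → ℝ} {G : E d → E d} (hu : W2 u G) (c : ℝ) :
    W2 (fun x => c * u x) (fun x => c • G x) := by
  obtain ⟨hu1, hu2, hu3⟩ := hu
  rw [isWeakGradOn_univ] at hu1
  refine ⟨?_, ?_, ?_⟩
  · rw [isWeakGradOn_univ]
    refine ⟨(hu1.1.smul c).congr (Eventually.of_forall fun x => rfl), hu1.2.1.smul c, fun φ hφ hc i => ?_⟩
    have e1 := hu1.2.2 φ hφ hc i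
    have f1 : (∫ x, (c * u x) * partialD φ i x) = c * ∫ x, u x * partialD φ i x := by
      rw [← integral_const_mul]
      refine integral_congr_ae (Eventually.of_forall fun x => ?_)
      simp only; ring
    have f2 : (∫ x, (c • G x) i * φ x) = c * ∫ x, G x i * φ x := by
      rw [← integral_const_mul]
      refine integral_congr_ae (Eventually.of_forall fun x => ?_)
      simp only [PiLp.smul_apply, smul_eq_mul]; ring
    rw [f1, f2, e1]; ring
  · have := hu2.smul (c ^ 2)
    refine this.congr (Eventually.of_forall fun x => ?_)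
    simp only [Pi.smul_apply, smul_eq_mul]; ring
  · have := hu3.smul (c ^ 2)
    refine this.congr (Eventually.of_forall fun x => ?_)
    simp only [Pi.smul_apply, smul_eq_mul, norm_smul, mul_pow, Real.norm_eq_abs, sq_abs]

theorem W2.congr {u v : E d → ℝ} {G H : E d → E d} (hu : W2 u G) (h1 : u =ᵐ[volume] v) (h2 : G =ᵐ[volume] H) :
    W2 v H := by
  obtain ⟨hu1, hu2, hu3⟩ := hu
  rw [isWeakGradOn_univ] at hu1
  refine ⟨?_, ?_, ?_⟩
  · rw [isWeakGradOn_univ]
    refine ⟨hu1.1.congr h1, hu1.2.1.congr h2, fun φ hφ hc i => ?_⟩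
    have e1 := hu1.2.2 φ hφ hc i
    have f1 : (∫ x, v x * partialD φ i x) = ∫ x, u x * partialD φ i x := by
      refine integral_congr_ae ?_
      filter_upwards [h1] with x hx; rw [hx]
    have f2 : (∫ x, H x i * φ x) = ∫ x, G x i * φ x := by
      refine integral_congr_ae ?_
      filter_upwards [h2] with x hx; rw [hx]
    rw [f1, f2, e1]
  · exact hu2.congr (by filter_upwards [h1] with x hx; rw [hx])
  · exact hu3.congr (by filter_upwards [h2] with x hx; rw [hx])

/-- uniqueness of weak gradients -/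
theorem weakGrad_uniq {u : E d → ℝ} {G H : E d → E d} (h1 : IsWeakGradOn Set.univ u G)
    (h2 : IsWeakGradOn Set.univ u H) : G =ᵐ[volume] H := by
  rw [isWeakGradOn_univ] at h1 h2
  have h : ∀ i : Fin d, ∀ᵐ x, G x i = H x i := by
    intro i
    refine ae_eq_of_integral_contDiff_smul_eq (locInt_apply h1.2.1 i) (locInt_apply h2.2.1 i) fun φ hφ hc => ?_
    have e1 := h1.2.2 φ hφ hc i
    have e2 := h2.2.2 φ hφ hc i
    have e3 : (∫ x, G x i * φ x) = ∫ x, H x i * φ x := by linarith
    simpa [smul_eq_mul, mul_comm] using e3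
  filter_upwards [ae_all_iff.2 h] with x hx
  ext i; exact hx i

theorem W2.uniq {u : E d → ℝ} {G H : E d → E d} (h1 : W2 u G) (h2 : W2 u H) : G =ᵐ[volume] H :=
  weakGrad_uniq h1.1 h2.1

/-- integration by parts for a Lipschitz function against a smooth test function -/
theorem ibp_lip_test {K : ℝ≥0} {u : E d → ℝ} (hu : LipschitzWith K u) {φ : E d → ℝ} (hφ : ContDiff ℝ ∞ φ)
    (hc : HasCompactSupport φ) (i : Fin d) :
    ∫ x, u x * partialD φ i x = - ∫ x, (∇ u x) i * φ x := by
  obtain ⟨L, hL⟩ := (hφ.of_le (by exact_mod_cast le_top) : ContDiff ℝ 1 φ).lipschitzWith_of_hasCompactSupport hc (by norm_num)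
  have key := LipschitzWith.integral_lineDeriv_mul_eq (μ := volume) hu hL hc (bv i)
  have e1 : (∫ x, lineDeriv ℝ u x (bv i) * φ x) = ∫ x, (∇ u x) i * φ x := by
    refine integral_congr_ae ?_
    filter_upwards [hu.ae_differentiableAt] with x hx
    rw [hx.lineDeriv_eq_fderiv, gradient_coord]
  have e2 : (∫ x, lineDeriv ℝ φ x (-(bv i)) * u x) = - ∫ x, u x * partialD φ i x := by
    rw [← integral_neg]
    refine integral_congr_ae (Eventually.of_forall fun x => ?_)
    simp only
    rw [((hφ.differentiable (by norm_num)) x).lineDeriv_eq_fderiv, map_neg, partialD_eq]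
    ring
  rw [e1, e2] at key
  linarith

theorem locInt_grad {K : ℝ≥0} {u : E d → ℝ} (hu : LipschitzWith K u) : LocallyIntegrable (fun x => ∇ u x) := by
  intro x
  refine ⟨ball x 1, ball_mem_nhds x one_pos, ?_⟩
  exact Measure.integrableOn_of_bounded (M := K) measure_ball_lt_top.ne (measurable_grad u).aestronglyMeasurable
    (Eventually.of_forall fun x => norm_grad_le hu x)

theorem W2.lip {K : ℝ≥0} {u : E d → ℝ} (hu : LipschitzWith K u) : W2 u (fun x => ∇ u x) := by
  refine ⟨?_, (hu.continuous.pow 2).locallyIntegrable, ?_⟩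
  · rw [isWeakGradOn_univ]
    exact ⟨hu.continuous.locallyIntegrable, locInt_grad hu, fun φ hφ hc i => ibp_lip_test hu hφ hc i⟩
  · intro x
    refine ⟨ball x 1, ball_mem_nhds x one_pos, ?_⟩
    refine Measure.integrableOn_of_bounded (M := (K : ℝ) ^ 2) measure_ball_lt_top.ne
      ((measurable_grad u).norm.pow_const 2).aestronglyMeasurable
      (Eventually.of_forall fun x => ?_)
    rw [Real.norm_of_nonneg (by positivity)]
    exact pow_le_pow_left₀ (norm_nonneg _) (norm_grad_le hu x) 2

end Crest.Agent.R097
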