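import Crest.Agent.R097.T4B
import Crest.Agent.R097.KP5

/-!
# Row 97, KBA checker: chart data in dimension `n = 4` (generated from `BS V4.P V4.D`, helper141)
-/

set_option autoImplicit false
set_option Elab.async false

namespace Crest.Agent.R097.T4

open Crest.Agent.R097.KA Crest.Agent.R097.CQ

/-- sums of the absolute values of the coefficients -/
def cn : CN where
  g := 8286397200
  k11 := 6444975600
  k12 := 7365686400
  k22 := 26700613200
  C0 := 59663251512
  Ck := 48340135800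
  L1 := 71154045000
  L2 := 35764885800
  Lw := 18662254200
  A11 := 13450779000
  A12 := 4884445800
  W1 := 31211406000
  W2 := 6756517800
  psi := 9513887400
  G1 := 11
  G2 := 56
  G3 := 3231
  G4 := 7

/-- chart data, signs `(1, 1)` -/
def pp : CD where
  g := [(0, [(0, [(0, [(0, [(0, .ofNat 319593600)])]), (2, [(0, [(0, .negSucc 143029799)])]), (3, [(1, [(0, .ofNat 138364200)])]), (5, [(1, [(0, .negSucc 87917399)])])]), (1, [(0, [(0, [(0, .negSucc 176709599)])]), (2, [(0, [(0, .ofNat 159796800)])]), (3, [(1, [(0, .negSucc 276728399)])]), (5, [(1, [(0, .ofNat 98852400)])])]), (2, [(0, [(0, [(0, .negSucc 5540399)])]), (2, [(0, [(0, .negSucc 25077599)])]), (3, [(1, [(0, .ofNat 61673400)])])])]), (1, [(0, [(0, [(0, [(0, .negSucc 280810799)])]), (2, [(0, [(0, .negSucc 35866799)])]), (3, [(1, [(0, .ofNat 348462000)])]), (5, [(1, [(0, .ofNat 110516400)])])]), (1, [(0, [(0, [(0, .ofNat 1164067200)])]), (2, [(0, [(0, .negSucc 454895999)])]), (3,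 [(1, [(0, .negSucc 213451199)])])]), (2, [(0, [(0, [(0, .negSucc 482306399)])])])]), (2, [(0, [(0, [(0, [(0, .ofNat 1777593600)])]), (2, [(0, [(0, .negSucc 27993599)])]), (3, [(1, [(0, .negSucc 292183199)])])]), (1, [(0, [(0, [(0, .negSucc 1604966399)])])])])]
  k11 := [(0, [(0, [(0, [(0, [(0, .ofNat 106531200), (2, .ofNat 142041600)])]), (2, [(0, [(0, .negSucc 47676599), (2, .negSucc 63568799)])]), (3, [(1, [(0, .ofNat 46121400), (2, .ofNat 61495200)])]), (5, [(1, [(0, .negSucc 29305799), (2, .negSucc 39074399)])])]), (1, [(0, [(0, [(0, .negSucc 58903199), (2, .negSucc 78537599)])]), (2, [(0, [(0, .ofNat 53265600), (2, .ofNat 71020800)])]), (3, [(1, [(0, .negSucc 92242799), (2, .negSucc 122990399)])]), (5, [(1, [(0, .ofNat 32950800), (2, .ofNat 43934400)])])]), (2, [(0, [(0, [(0, .negSucc 1846799), (2, .negSucc 2462399)])]), (2, [(0, [(0, .negSucc 8359199), (2, .negSucc 11145599)])]), (3, [(1, [(0, .ofNat 20557800), (2, .ofNat 27410400)])])])]),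 (1, [(0, [(0, [(0, [(0, .negSucc 93603599), (2, .negSucc 124804799)])]), (2, [(0, [(0, .negSucc 11955599), (2, .negSucc 15940799)])]), (3, [(1, [(0, .ofNat 116154000), (2, .ofNat 154872000)])]), (5, [(1, [(0, .ofNat 36838800), (2, .ofNat 49118400)])])]), (1, [(0, [(0, [(0, .ofNat 388022400), (2, .ofNat 517363200)])]), (2, [(0, [(0, .negSucc 151631999), (2, .negSucc 202175999)])]), (3, [(1, [(0, .negSucc 71150399), (2, .negSucc 94867199)])])]), (2, [(0, [(0, [(0, .negSucc 160768799), (2, .negSucc 214358399)])])])]), (2, [(0, [(0, [(0, [(0, .ofNat 592531200), (2, .ofNat 790041600)])]), (2, [(0, [(0, .negSucc 9331199), (2, .negSucc 12441599)])]), (3, [(1, [(0, .negSucc 97394399), (2, .negSucc 129859199)])])]), (1, [(0, [(0, [(0, .negSucc 534988799), (2, .negSucc 713318399)])])])])]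
  k12 := [(0, [(0, [(0, [(0, [(1, .negSucc 35510399), (3, .ofNat 142041600)]), (1, [(0, .ofNat 106531200)])]), (2, [(0, [(1, .ofNat 15892200), (3, .negSucc 63568799)]), (1, [(0, .negSucc 47676599)])]), (3, [(1, [(1, .negSucc 15373799), (3, .ofNat 61495200)]), (2, [(0, .ofNat 46121400)])]), (5, [(1, [(1, .ofNat 9768600), (3, .negSucc 39074399)]), (2, [(0, .negSucc 29305799)])])]), (1, [(0, [(0, [(1, .ofNat 19634400), (3, .negSucc 78537599)]), (1, [(0, .negSucc 58903199)])]), (2, [(0, [(1, .negSucc 17755199), (3, .ofNat 71020800)]), (1, [(0, .ofNat 53265600)])]), (3, [(1, [(1, .ofNat 30747600), (3, .negSucc 122990399)]), (2, [(0, .negSucc 92242799)])]), (5, [(1, [(1, .negSucc 10983599), (3, .ofNat 43934400)]), (2, [(0, .ofNat 32950800)])])]), (2, [(0, [(0, [(1, .ofNat 615600), (3, .negSucc 2462399)]), (1, [(0, .negSucc 1846799)])]), (2, [(0, [(1, .ofNat 2786400), (3, .negSucc 11145599)]), (1, [(0, .negSucc 8359199)])]), (3, [(1, [(1, .negSucc 6852599),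 (3, .ofNat 27410400)]), (2, [(0, .ofNat 20557800)])])])]), (1, [(0, [(0, [(0, [(1, .ofNat 31201200), (3, .negSucc 124804799)]), (1, [(0, .negSucc 93603599)])]), (2, [(0, [(1, .ofNat 3985200), (3, .negSucc 15940799)]), (1, [(0, .negSucc 11955599)])]), (3, [(1, [(1, .negSucc 38717999), (3, .ofNat 154872000)]), (2, [(0, .ofNat 116154000)])]), (5, [(1, [(1, .negSucc 12279599), (3, .ofNat 49118400)]), (2, [(0, .ofNat 36838800)])])]), (1, [(0, [(0, [(1, .negSucc 129340799), (3, .ofNat 517363200)]), (1, [(0, .ofNat 388022400)])]), (2, [(0, [(1, .ofNat 50544000), (3, .negSucc 202175999)]), (1, [(0, .negSucc 151631999)])]), (3, [(1, [(1, .ofNat 23716800), (3, .negSucc 94867199)]), (2, [(0, .negSucc 71150399)])])]), (2, [(0, [(0, [(1, .ofNat 53589600), (3, .negSucc 214358399)]), (1, [(0, .negSucc 160768799)])])])]), (2, [(0, [(0, [(0, [(1, .negSucc 197510399), (3, .ofNat 790041600)]), (1, [(0, .ofNat 592531200)])]), (2, [(0, [(1, .ofNat 3110400), (3, .negSucc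 12441599)]), (1, [(0, .negSucc 9331199)])]), (3, [(1, [(1, .ofNat 32464800), (3, .negSucc 129859199)]), (2, [(0, .negSucc 97394399)])])]), (1, [(0, [(0, [(1, .ofNat 178329600), (3, .negSucc 713318399)]), (1, [(0, .negSucc 534988799)])])])])]
  k22 := [(0, [(0, [(0, [(0, [(0, .ofNat 35510400), (2, .negSucc 284083199), (4, .ofNat 568166400)]), (1, [(1, .negSucc 142041599)])]), (2, [(0, [(0, .negSucc 15892199), (2, .ofNat 127137600), (4, .negSucc 254275199)]), (1, [(1, .ofNat 63568800)])]), (3, [(1, [(0, .ofNat 15373800), (2, .negSucc 122990399), (4, .ofNat 245980800)]), (2, [(1, .negSucc 61495199)])]), (5, [(1, [(0, .negSucc 9768599), (2, .ofNat 78148800), (4, .negSucc 156297599)]), (2, [(1, .ofNat 39074400)])])]), (1, [(0, [(0, [(0, .negSucc 19634399), (2, .ofNat 157075200), (4, .negSucc 314150399)]), (1, [(1, .ofNat 78537600)])]), (2, [(0, [(0, .ofNat 17755200), (2, .negSucc 142041599), (4, .ofNat 284083200)]), (1, [(1, .negSucc 71020799)])]),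 (3, [(1, [(0, .negSucc 30747599), (2, .ofNat 245980800), (4, .negSucc 491961599)]), (2, [(1, .ofNat 122990400)])]), (5, [(1, [(0, .ofNat 10983600), (2, .negSucc 87868799), (4, .ofNat 175737600)]), (2, [(1, .negSucc 43934399)])])]), (2, [(0, [(0, [(0, .negSucc 615599), (2, .ofNat 4924800), (4, .negSucc 9849599)]), (1, [(1, .ofNat 2462400)])]), (2, [(0, [(0, .negSucc 2786399), (2, .ofNat 22291200), (4, .negSucc 44582399)]), (1, [(1, .ofNat 11145600)])]), (3, [(1, [(0, .ofNat 6852600), (2, .negSucc 54820799), (4, .ofNat 109641600)]), (2, [(1, .negSucc 27410399)])])])]), (1, [(0, [(0, [(0, [(0, .negSucc 31201199), (2, .ofNat 249609600), (4, .negSucc 499219199)]), (1, [(1, .ofNat 124804800)])]), (2, [(0, [(0, .negSucc 3985199), (2, .ofNat 31881600), (4, .negSucc 63763199)]), (1, [(1, .ofNat 15940800)])]), (3, [(1, [(0, .ofNat 38718000), (2, .negSucc 309743999), (4, .ofNat 619488000)]), (2, [(1, .negSucc 154871999)])]), (5, [(1, [(0, .ofNat 12279600),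 (2, .negSucc 98236799), (4, .ofNat 196473600)]), (2, [(1, .negSucc 49118399)])])]), (1, [(0, [(0, [(0, .ofNat 129340800), (2, .negSucc 1034726399), (4, .ofNat 2069452800)]), (1, [(1, .negSucc 517363199)])]), (2, [(0, [(0, .negSucc 50543999), (2, .ofNat 404352000), (4, .negSucc 808703999)]), (1, [(1, .ofNat 202176000)])]), (3, [(1, [(0, .negSucc 23716799), (2, .ofNat 189734400), (4, .negSucc 379468799)]), (2, [(1, .ofNat 94867200)])])]), (2, [(0, [(0, [(0, .negSucc 53589599), (2, .ofNat 428716800), (4, .negSucc 857433599)]), (1, [(1, .ofNat 214358400)])])])]), (2, [(0, [(0, [(0, [(0, .ofNat 197510400), (2, .negSucc 1580083199), (4, .ofNat 3160166400)]), (1, [(1, .negSucc 790041599)])]), (2, [(0, [(0, .negSucc 3110399), (2, .ofNat 24883200), (4, .negSucc 49766399)]), (1, [(1, .ofNat 12441600)])]), (3, [(1, [(0, .negSucc 32464799), (2, .ofNat 259718400), (4, .negSucc 519436799)]), (2, [(1, .ofNat 129859200)])])]), (1, [(0, [(0, [(0, .negSucc 178329599),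 (2, .ofNat 1426636800), (4, .negSucc 2853273599)]), (1, [(1, .ofNat 713318400)])])])])]
  C0 := [(0, [(0, [(0, [(0, [(0, .ofNat 15329412)])]), (1, [(1, [(0, .ofNat 25449876)])]), (2, [(0, [(0, .ofNat 107089128)])]), (3, [(1, [(0, .negSucc 352984715)])]), (4, [(0, [(0, .ofNat 62747460)]), (2, [(0, .negSucc 369748799)])]), (5, [(1, [(0, .ofNat 136245240)])]), (6, [(2, [(0, .ofNat 29889000)])]), (7, [(1, [(0, .ofNat 117223200)])])]), (1, [(0, [(0, [(0, .ofNat 92815308)])]), (1, [(1, [(0, .ofNat 296884764)])]), (2, [(0, [(0, .negSucc 590527907)])]), (3, [(1, [(0, .negSucc 111997727)])]), (4, [(0, [(0, .ofNat 116445600)]), (2, [(0, .ofNat 448772400)])]), (5, [(1, [(0, .ofNat 32063364)])]), (6, [(2, [(0, .negSucc 45781199)])]), (7, [(1, [(0, .negSucc 131803199)])])]), (2, [(0, [(0, [(0, .negSucc 73150775)])]), (1, [(1, [(0, .negSucc 195055127)])]), (2, [(0, [(0, .ofNat 543675564)])]), (3, [(1, [(0, .ofNat 186744528)])]), (4, [(0, [(0, .negSucc 156908987)]),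 (2, [(0, .negSucc 93895199)])]), (5, [(1, [(0, .negSucc 82231199)])])])]), (1, [(0, [(0, [(0, [(0, .negSucc 89614511)])]), (1, [(1, [(0, .ofNat 1023399360)])]), (2, [(0, [(0, .negSucc 918831599)])]), (3, [(1, [(0, .ofNat 321980832)])]), (4, [(0, [(0, .ofNat 595248912)]), (2, [(0, .ofNat 1749308400)])]), (5, [(1, [(0, .negSucc 1374831791)])]), (6, [(2, [(0, .negSucc 874799999)])]), (7, [(1, [(0, .negSucc 127429199)])])]), (1, [(0, [(0, [(0, .negSucc 403074791)])]), (1, [(1, [(0, .negSucc 2559647303)])]), (2, [(0, [(0, .ofNat 2288873376)])]), (3, [(1, [(0, .ofNat 2057706504)])]), (4, [(0, [(0, .negSucc 1010998583)]), (2, [(0, .negSucc 874508399)])]), (5, [(1, [(0, .ofNat 646185600)])]), (7, [(1, [(0, .negSucc 30520799)])])]), (2, [(0, [(0, [(0, .ofNat 485875584)])]), (1, [(1, [(0, .ofNat 645019200)])]), (2, [(0, [(0, .negSucc 962933183)])]), (3, [(1, [(0, .negSucc 914846399)])]), (4, [(0, [(0, .ofNat 547333200)])]), (5, [(1, [(0, .negSucc 62596799)])])])]),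 (2, [(0, [(0, [(0, [(0, .ofNat 1265096880)])]), (1, [(1, [(0, .negSucc 2573572175)])]), (2, [(0, [(0, .negSucc 1335718511)])]), (3, [(1, [(0, .negSucc 303159023)])]), (4, [(0, [(0, .ofNat 1474384032)]), (2, [(0, .negSucc 872467199)])]), (5, [(1, [(0, .ofNat 2295280800)])]), (7, [(1, [(0, .negSucc 583199999)])])]), (1, [(0, [(0, [(0, .negSucc 1085778431)])]), (1, [(1, [(0, .ofNat 3403555200)])]), (2, [(0, [(0, .ofNat 4584200832)])]), (3, [(1, [(0, .negSucc 1749794399)])]), (4, [(0, [(0, .negSucc 1748822399)])]), (5, [(1, [(0, .negSucc 583005599)])])]), (2, [(0, [(0, [(0, .negSucc 181180799)])]), (2, [(0, [(0, .ofNat 181180800)])])])]), (3, [(0, [(0, [(0, [(0, .negSucc 1466164799)])]), (1, [(1, [(0, .negSucc 623635199)])]), (2, [(0, [(0, .ofNat 2496873600)])]), (3, [(1, [(0, .ofNat 1205280000)])]), (4, [(0, [(0, .negSucc 1030708799)])]), (5, [(1, [(0, .negSucc 581644799)])])]), (1, [(0, [(0, [(0, .ofNat 1528761600)])]), (2, [(0, [(0, .negSucc 1528761599)])])])])]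
  Ck := [(0, [(0, [(0, [(0, [(0, .ofNat 6269400), (2, .ofNat 464227200)])]), (1, [(0, [(1, .negSucc 182541599), (3, .ofNat 528087600)]), (1, [(0, .ofNat 326737800)])]), (2, [(0, [(0, .ofNat 431130600), (2, .negSucc 867801599)]), (1, [(1, .ofNat 634521600)])]), (3, [(0, [(1, .ofNat 333736200), (3, .negSucc 275270399)]), (1, [(0, .ofNat 29305800), (2, .ofNat 1136219400)])]), (4, [(1, [(1, .negSucc 197413199), (3, .ofNat 897544800)])]), (5, [(1, [(2, .negSucc 781487999)])]), (6, [(1, [(3, .negSucc 91562399)])])]), (1, [(0, [(0, [(2, .negSucc 133261199)])]), (1, [(0, [(1, .negSucc 149299199), (3, .negSucc 144050399)]), (1, [(0, .negSucc 437399999)])]), (2, [(0, [(0, .negSucc 437254199), (2, .ofNat 1288872000)]), (1, [(1, .negSucc 1310450399)])]), (3, [(0, [(1, .ofNat 374414400), (3, .ofNat 36741600)]), (1, [(2, .negSucc 692112599)])]), (4, [(1, [(3, .negSucc 375580799)])])]), (2, [(0, [(0, [(0, .ofNat 75524400), (2, .negSucc 166211999)])]), (1, [(0,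 [(1, .ofNat 35137800)])])])]), (1, [(0, [(0, [(0, [(0, .ofNat 721418400), (2, .negSucc 686426399)])]), (1, [(0, [(1, .ofNat 1929225600), (3, .negSucc 2145009599)]), (1, [(0, .ofNat 233863200)])]), (2, [(0, [(0, .negSucc 686426399), (2, .ofNat 4698842400)]), (1, [(1, .negSucc 3427466399)])]), (3, [(0, [(1, .negSucc 2274479999), (3, .ofNat 1749600000)]), (1, [(2, .negSucc 249609599)])]), (4, [(0, [(2, .negSucc 1749599999)]), (1, [(3, .negSucc 1749016799)])])]), (1, [(0, [(0, [(0, .negSucc 840974399), (2, .ofNat 1070755200)])]), (1, [(0, [(1, .ofNat 2353795200), (3, .negSucc 1329695999)])]), (2, [(0, [(2, .ofNat 281102400)])])])]), (2, [(0, [(1, [(0, [(1, .negSucc 1681948799), (3, .ofNat 2141510400)])]), (2, [(0, [(2, .ofNat 3499200000)])])])])]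
  L1 := [(0, [(0, [(0, [(0, [(0, .negSucc 73774799)])]), (1, [(0, [(1, .ofNat 122034600)])]), (2, [(0, [(0, .negSucc 460144799), (2, .ofNat 161838000)])]), (3, [(0, [(1, .ofNat 29305800)]), (1, [(0, .negSucc 580575599)])]), (4, [(0, [(0, .ofNat 261565200), (2, .negSucc 161837999)]), (1, [(1, .ofNat 412322400)])]), (5, [(1, [(0, .ofNat 567162000), (2, .ofNat 1169024400)])]), (6, [(1, [(1, .negSucc 657849599)])]), (7, [(1, [(2, .negSucc 149444999)])])]), (1, [(0, [(0, [(0, .ofNat 1198330200)])]), (1, [(0, [(1, .negSucc 788777999)])]), (2, [(0, [(0, .negSucc 354002399), (2, .negSucc 275270399)])]), (3, [(0, [(1, .ofNat 285039000)]), (1, [(0, .negSucc 59340599)])]), (4, [(0, [(0, .negSucc 5540399), (2, .ofNat 275270400)]), (1, [(1, .negSucc 358959599)])]), (5, [(1, [(0, .negSucc 81647999), (2, .negSucc 1437879599)])]), (6, [(1, [(1, .ofNat 688176000)])]), (7, [(1, [(2, .ofNat 228906000)])])]), (2, [(0, [(0, [(0, .negSucc 789215399)])]), (1, [(0,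 [(1, .ofNat 526483800)])]), (2, [(0, [(0, .ofNat 820999800), (2, .ofNat 18370800)])]), (3, [(0, [(1, .negSucc 212867999)]), (1, [(0, .ofNat 272646000)])]), (4, [(0, [(0, .negSucc 405907199), (2, .negSucc 18370799)]), (1, [(1, .ofNat 127429200)])]), (5, [(1, [(2, .ofNat 281685600)])])])]), (1, [(0, [(0, [(0, [(0, .ofNat 2714796000)])]), (1, [(0, [(1, .ofNat 188956800)])]), (2, [(0, [(0, .ofNat 3239384400), (2, .ofNat 523713600)])]), (3, [(0, [(1, .ofNat 1715774400)]), (1, [(0, .ofNat 1574348400)])]), (4, [(0, [(0, .negSucc 862261199), (2, .ofNat 194205600)]), (1, [(1, .negSucc 880048799)])]), (5, [(0, [(1, .negSucc 1312783199)]), (1, [(0, .negSucc 992023199), (2, .negSucc 5248216799)])]), (6, [(1, [(1, .ofNat 1327946400)])]), (7, [(1, [(2, .ofNat 3499200000)])])]), (1, [(0, [(0, [(0, .negSucc 2677471199)])]), (1, [(0, [(1, .ofNat 1569974400)])]), (2, [(0, [(0, .negSucc 2623233599), (2, .ofNat 677095200)])]), (3, [(0, [(1, .negSucc 3499199999)]),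 (1, [(0, .negSucc 874508399)])]), (4, [(0, [(0, .ofNat 874508400), (2, .negSucc 874799999)]), (1, [(1, .negSucc 311428799)])]), (5, [(0, [(1, .ofNat 1749600000)]), (1, [(2, .ofNat 1749016800)])])]), (2, [(0, [(0, [(0, .negSucc 30326399)])]), (1, [(0, [(1, .ofNat 140551200)])]), (2, [(0, [(0, .ofNat 151048800), (2, .negSucc 332423999)])])])]), (2, [(0, [(0, [(0, [(0, .ofNat 756410400)])]), (1, [(0, [(1, .ofNat 648518400)])]), (2, [(0, [(0, .negSucc 103226399), (2, .ofNat 1026432000)])]), (3, [(0, [(1, .negSucc 172627199)]), (1, [(0, .negSucc 638603999)])]), (5, [(0, [(1, .ofNat 525463200)]), (1, [(2, .ofNat 872467200)])])]), (1, [(0, [(0, [(0, .negSucc 611193599)])]), (1, [(0, [(1, .ofNat 3499200000)])]), (2, [(0, [(0, .negSucc 1681948799), (2, .ofNat 2141510400)])]), (3, [(0, [(1, .ofNat 1749600000)])])])])]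
  L2 := [(0, [(0, [(1, [(0, [(0, .ofNat 191143800)])]), (2, [(0, [(1, .negSucc 807002999)])]), (3, [(0, [(0, .negSucc 482014799), (2, .negSucc 1109246399)])]), (4, [(0, [(1, .ofNat 641665800)])]), (5, [(0, [(2, .ofNat 89667000)])])]), (1, [(1, [(0, [(0, .ofNat 1275895800)])]), (2, [(0, [(1, .ofNat 392347800)])]), (3, [(0, [(0, .ofNat 35866800), (2, .ofNat 1346317200)])]), (4, [(0, [(1, .negSucc 516131999)])]), (5, [(0, [(2, .negSucc 137343599)])])]), (2, [(1, [(0, [(0, .negSucc 1099623599)])]), (2, [(0, [(1, .negSucc 191143799)])]), (3, [(0, [(2, .negSucc 281685599)])])])]), (1, [(0, [(1, [(0, [(0, .ofNat 1960426800)])]), (2, [(0, [(1, .negSucc 1296453599)])]), (3, [(0, [(0, .ofNat 175834800), (2, .ofNat 5247925200)])]), (4, [(0, [(1, .negSucc 1327946399)])]), (5, [(0, [(2, .negSucc 2624399999)])])]), (1, [(1, [(0, [(0, .negSucc 2624399999)])]), (2, [(0, [(1, .ofNat 934286400)])]), (3, [(0, [(2, .negSucc 2623525199)])])])]), (2, [(0, [(1, [(0,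 [(0, .ofNat 701589600)])]), (2, [(0, [(1, .negSucc 5033599199)])]), (3, [(0, [(2, .negSucc 2617401599)])])])])]
  Lw := [(0, [(0, [(0, [(0, [(0, .negSucc 292183199)])]), (1, [(0, [(1, .negSucc 861094799)]), (1, [(0, .negSucc 186623999)])]), (2, [(0, [(0, .ofNat 123346800)]), (1, [(1, .negSucc 87188399)])]), (3, [(0, [(1, .ofNat 874800000)]), (1, [(0, .ofNat 53071200)])]), (4, [(1, [(1, .negSucc 787611599)])])]), (1, [(0, [(0, [(0, .ofNat 869113800)])]), (1, [(0, [(1, .ofNat 884131200)]), (1, [(0, .ofNat 234300600)])]), (2, [(0, [(0, .negSucc 436962599)]), (1, [(1, .ofNat 844473600)])]), (3, [(0, [(1, .negSucc 1010685599)])])]), (2, [(0, [(0, [(0, .negSucc 280227599)])])])]), (1, [(0, [(0, [(0, [(0, .ofNat 615276000)])]), (1, [(0, [(1, .ofNat 3476455200)]), (1, [(0, .ofNat 191872800)])]), (2, [(0, [(0, .negSucc 275270399)]), (1, [(1, .ofNat 937202400)])]), (3, [(0, [(1, .negSucc 1747850399)])])]), (1, [(0, [(0, [(0, .negSucc 450230399)])]), (1,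 [(0, [(1, .negSucc 2241820799)])])])]), (2, [(0, [(1, [(0, [(1, .negSucc 900460799)])])])])]
  A11 := [(0, [(0, [(2, [(0, [(0, .negSucc 605653199)])]), (4, [(0, [(0, .ofNat 429089400)])]), (5, [(1, [(0, .negSucc 729291599)])]), (7, [(1, [(0, .ofNat 527504400)])])]), (1, [(2, [(0, [(0, .ofNat 496303200)])]), (4, [(0, [(0, .negSucc 479390399)])]), (5, [(1, [(0, .ofNat 1304618400)])]), (7, [(1, [(0, .negSucc 593114399)])])]), (2, [(2, [(0, [(0, .negSucc 44614799)])]), (4, [(0, [(0, .ofNat 75232800)])]), (5, [(1, [(0, .negSucc 246693599)])])])]), (1, [(0, [(2, [(0, [(0, .negSucc 71733599)])]), (4, [(0, [(0, .ofNat 71733600)])]), (5, [(1, [(0, .negSucc 824353199)])]), (7, [(1, [(0, .negSucc 552581999)])])]), (1, [(2, [(0, [(0, .negSucc 909791999)])]), (4, [(0, [(0, .ofNat 909792000)])]), (5, [(1, [(0, .ofNat 640353600)])])])]), (2, [(0, [(2, [(0, [(0, .ofNat 1721606400)])]), (4, [(0, [(0, .ofNat 27993600)])]), (5, [(1, [(0, .ofNat 584366400)])])]),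 (1, [(2, [(0, [(0, .negSucc 1604966399)])])])])]
  A12 := [(0, [(0, [(3, [(0, [(0, .ofNat 415092600)])]), (5, [(0, [(0, .negSucc 263752199)])])]), (1, [(3, [(0, [(0, .negSucc 830185199)])]), (5, [(0, [(0, .ofNat 296557200)])])]), (2, [(3, [(0, [(0, .ofNat 185020200)])])])]), (1, [(0, [(3, [(0, [(0, .ofNat 1045386000)])]), (5, [(0, [(0, .ofNat 331549200)])])]), (1, [(3, [(0, [(0, .negSucc 640353599)])])])]), (2, [(0, [(3, [(0, [(0, .negSucc 876549599)])])])])]
  W1 := [(0, [(0, [(0, [(0, [(0, .ofNat 811522800)])]), (2, [(0, [(0, .negSucc 1085189399)])]), (3, [(1, [(0, .ofNat 927579600)])]), (4, [(0, [(0, .ofNat 509571000)])]), (5, [(1, [(0, .negSucc 1189727999)])])]), (1, [(0, [(0, [(0, .negSucc 861094799)])]), (2, [(0, [(0, .ofNat 2180147400)])]), (3, [(1, [(0, .negSucc 700423199)])]), (4, [(0, [(0, .negSucc 1312199999)])]), (5, [(1, [(0, .ofNat 1575223200)])])]), (2, [(0, [(0, [(0, .ofNat 442065600)])]), (2, [(0, [(0, .negSucc 1231718399)])]),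 (3, [(1, [(0, .negSucc 422236799)])]), (4, [(0, [(0, .ofNat 758014200)])])])]), (1, [(0, [(0, [(0, [(0, .negSucc 1168732799)])]), (2, [(0, [(0, .ofNat 986774400)])]), (3, [(1, [(0, .ofNat 585532800)])]), (4, [(0, [(0, .negSucc 493387199)])]), (5, [(1, [(0, .negSucc 318427199)])])]), (1, [(0, [(0, [(0, .ofNat 3476455200)])]), (2, [(0, [(0, .negSucc 3495700799)])]), (3, [(1, [(0, .negSucc 468601199)])]), (4, [(0, [(0, .ofNat 1747850400)])])]), (2, [(0, [(0, [(0, .negSucc 1120910399)])])])]), (2, [(0, [(0, [(0, [(0, .ofNat 1230552000)])]), (2, [(0, [(0, .negSucc 485805599)])]), (4, [(0, [(0, .ofNat 275270400)])])]), (1, [(0, [(0, [(0, .negSucc 900460799)])]), (2, [(0, [(0, .negSucc 450230399)])])])])]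
  W2 := [(0, [(0, [(1, [(0, [(0, .negSucc 499073399)])]), (3, [(0, [(0, .ofNat 892296000)])])]), (1, [(1, [(0, [(0, .negSucc 130782599)])]), (3, [(0, [(0, .negSucc 1181417399)])])]), (2, [(1, [(0, [(0, .ofNat 633355200)])])])]), (1, [(0, [(1, [(0, [(0, .negSucc 1119743999)])]), (3, [(0, [(0, .ofNat 318427200)])])]), (1, [(1, [(0, [(0, .ofNat 1405803600)])])])]), (2, [(0, [(1, [(0, [(0, .ofNat 575618400)])])])])]
  psi := [(0, [(0, [(0, [(0, [(0, .ofNat 405761400)])]), (1, [(1, [(0, .negSucc 166357799)])]), (2, [(0, [(0, .negSucc 169856999)])]), (3, [(1, [(0, .ofNat 297432000)])])]), (1, [(0, [(0, [(0, .negSucc 430547399)])]), (1, [(1, [(0, .negSucc 43594199)])]), (2, [(0, [(0, .ofNat 437400000)])]), (3, [(1, [(0, .negSucc 393805799)])])]), (2, [(0, [(0, [(0, .ofNat 221032800)])]), (1, [(1, [(0, .ofNat 211118400)])]), (2, [(0, [(0, .negSucc 252671399)])])])]), (1, [(0, [(0, [(0, [(0, .negSucc 584366399)])]), (1, [(1, [(0, .negSucc 373247999)])]),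 (2, [(0, [(0, .ofNat 246693600)])]), (3, [(1, [(0, .ofNat 106142400)])])]), (1, [(0, [(0, [(0, .ofNat 1738227600)])]), (1, [(1, [(0, .ofNat 468601200)])]), (2, [(0, [(0, .negSucc 873925199)])])]), (2, [(0, [(0, [(0, .negSucc 560455199)])])])]), (2, [(0, [(0, [(0, [(0, .ofNat 615276000)])]), (1, [(1, [(0, .ofNat 191872800)])]), (2, [(0, [(0, .negSucc 275270399)])])]), (1, [(0, [(0, [(0, .negSucc 450230399)])])])])]
  G1 := [(0, [(1, [(0, [(0, [(0, .ofNat 3)])])])]), (2, [(0, [(0, [(0, [(0, .negSucc 3)])]), (2, [(0, [(0, .ofNat 4)])])])])]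
  G2 := [(0, [(0, [(0, [(0, [(0, .ofNat 4)])])]), (2, [(0, [(0, [(0, .negSucc 3)])])])]), (2, [(0, [(2, [(0, [(0, .negSucc 47)])])])])]
  G3 := [(0, [(0, [(0, [(0, [(0, .ofNat 27), (2, .negSucc 269), (4, .ofNat 864), (6, .negSucc 863)]), (1, [(1, .negSucc 323), (3, .ofNat 720)]), (2, [(0, .negSucc 161)])])])])]
  G4 := [(0, [(0, [(0, [(0, [(0, .ofNat 3), (2, .negSucc 3)])])])])]

/-- chart data, signs `(1, -1)` -/
def pm : CD where
  g := [(0, [(0, [(0, [(0, [(0, .ofNat 319593600)])]), (2, [(0, [(0, .negSucc 143029799)])]), (3, [(1, [(0, .negSucc 138364199)])]), (5, [(1, [(0, .ofNat 87917400)])])]), (1, [(0, [(0, [(0, .negSucc 176709599)])]), (2, [(0, [(0, .ofNat 159796800)])]), (3, [(1, [(0, .ofNat 276728400)])]), (5, [(1, [(0, .negSucc 98852399)])])]), (2, [(0, [(0, [(0, .negSucc 5540399)])]), (2, [(0, [(0, .negSucc 25077599)])]), (3, [(1, [(0, .negSucc 61673399)])])])]), (1, [(0, [(0, [(0, [(0, .negSucc 280810799)])]), (2, [(0, [(0, .negSucc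 35866799)])]), (3, [(1, [(0, .negSucc 348461999)])]), (5, [(1, [(0, .negSucc 110516399)])])]), (1, [(0, [(0, [(0, .ofNat 1164067200)])]), (2, [(0, [(0, .negSucc 454895999)])]), (3, [(1, [(0, .ofNat 213451200)])])]), (2, [(0, [(0, [(0, .negSucc 482306399)])])])]), (2, [(0, [(0, [(0, [(0, .ofNat 1777593600)])]), (2, [(0, [(0, .negSucc 27993599)])]), (3, [(1, [(0, .ofNat 292183200)])])]), (1, [(0, [(0, [(0, .negSucc 1604966399)])])])])]
  k11 := [(0, [(0, [(0, [(0, [(0, .ofNat 106531200), (2, .ofNat 142041600)])]), (2, [(0, [(0, .negSucc 47676599), (2, .negSucc 63568799)])]), (3, [(1, [(0, .negSucc 46121399), (2, .negSucc 61495199)])]), (5, [(1, [(0, .ofNat 29305800), (2, .ofNat 39074400)])])]), (1, [(0, [(0, [(0, .negSucc 58903199), (2, .negSucc 78537599)])]), (2, [(0, [(0, .ofNat 53265600), (2, .ofNat 71020800)])]), (3, [(1, [(0, .ofNat 92242800), (2, .ofNat 122990400)])]), (5, [(1, [(0, .negSucc 32950799), (2, .negSucc 43934399)])])]), (2, [(0,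 [(0, [(0, .negSucc 1846799), (2, .negSucc 2462399)])]), (2, [(0, [(0, .negSucc 8359199), (2, .negSucc 11145599)])]), (3, [(1, [(0, .negSucc 20557799), (2, .negSucc 27410399)])])])]), (1, [(0, [(0, [(0, [(0, .negSucc 93603599), (2, .negSucc 124804799)])]), (2, [(0, [(0, .negSucc 11955599), (2, .negSucc 15940799)])]), (3, [(1, [(0, .negSucc 116153999), (2, .negSucc 154871999)])]), (5, [(1, [(0, .negSucc 36838799), (2, .negSucc 49118399)])])]), (1, [(0, [(0, [(0, .ofNat 388022400), (2, .ofNat 517363200)])]), (2, [(0, [(0, .negSucc 151631999), (2, .negSucc 202175999)])]), (3, [(1, [(0, .ofNat 71150400), (2, .ofNat 94867200)])])]), (2, [(0, [(0, [(0, .negSucc 160768799), (2, .negSucc 214358399)])])])]), (2, [(0, [(0, [(0, [(0, .ofNat 592531200), (2, .ofNat 790041600)])]), (2, [(0, [(0, .negSucc 9331199), (2, .negSucc 12441599)])]), (3, [(1, [(0, .ofNat 97394400), (2, .ofNat 129859200)])])]), (1, [(0, [(0, [(0, .negSucc 534988799), (2, .negSucc 713318399)])])])])]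
  k12 := [(0, [(0, [(0, [(0, [(1, .negSucc 35510399), (3, .ofNat 142041600)]), (1, [(0, .negSucc 106531199)])]), (2, [(0, [(1, .ofNat 15892200), (3, .negSucc 63568799)]), (1, [(0, .ofNat 47676600)])]), (3, [(1, [(1, .ofNat 15373800), (3, .negSucc 61495199)]), (2, [(0, .ofNat 46121400)])]), (5, [(1, [(1, .negSucc 9768599), (3, .ofNat 39074400)]), (2, [(0, .negSucc 29305799)])])]), (1, [(0, [(0, [(1, .ofNat 19634400), (3, .negSucc 78537599)]), (1, [(0, .ofNat 58903200)])]), (2, [(0, [(1, .negSucc 17755199), (3, .ofNat 71020800)]), (1, [(0, .negSucc 53265599)])]), (3, [(1, [(1, .negSucc 30747599), (3, .ofNat 122990400)]), (2, [(0, .negSucc 92242799)])]), (5, [(1, [(1, .ofNat 10983600), (3, .negSucc 43934399)]), (2, [(0, .ofNat 32950800)])])]), (2, [(0, [(0, [(1, .ofNat 615600), (3, .negSucc 2462399)]), (1, [(0, .ofNat 1846800)])]), (2, [(0, [(1, .ofNat 2786400), (3, .negSucc 11145599)]), (1, [(0, .ofNat 8359200)])]), (3, [(1, [(1, .ofNat 6852600),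 (3, .negSucc 27410399)]), (2, [(0, .ofNat 20557800)])])])]), (1, [(0, [(0, [(0, [(1, .ofNat 31201200), (3, .negSucc 124804799)]), (1, [(0, .ofNat 93603600)])]), (2, [(0, [(1, .ofNat 3985200), (3, .negSucc 15940799)]), (1, [(0, .ofNat 11955600)])]), (3, [(1, [(1, .ofNat 38718000), (3, .negSucc 154871999)]), (2, [(0, .ofNat 116154000)])]), (5, [(1, [(1, .ofNat 12279600), (3, .negSucc 49118399)]), (2, [(0, .ofNat 36838800)])])]), (1, [(0, [(0, [(1, .negSucc 129340799), (3, .ofNat 517363200)]), (1, [(0, .negSucc 388022399)])]), (2, [(0, [(1, .ofNat 50544000), (3, .negSucc 202175999)]), (1, [(0, .ofNat 151632000)])]), (3, [(1, [(1, .negSucc 23716799), (3, .ofNat 94867200)]), (2, [(0, .negSucc 71150399)])])]), (2, [(0, [(0, [(1, .ofNat 53589600), (3, .negSucc 214358399)]), (1, [(0, .ofNat 160768800)])])])]), (2, [(0, [(0, [(0, [(1, .negSucc 197510399), (3, .ofNat 790041600)]), (1, [(0, .negSucc 592531199)])]), (2, [(0, [(1, .ofNat 3110400), (3, .negSucc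 12441599)]), (1, [(0, .ofNat 9331200)])]), (3, [(1, [(1, .negSucc 32464799), (3, .ofNat 129859200)]), (2, [(0, .negSucc 97394399)])])]), (1, [(0, [(0, [(1, .ofNat 178329600), (3, .negSucc 713318399)]), (1, [(0, .ofNat 534988800)])])])])]
  k22 := [(0, [(0, [(0, [(0, [(0, .ofNat 35510400), (2, .negSucc 284083199), (4, .ofNat 568166400)]), (1, [(1, .ofNat 142041600)])]), (2, [(0, [(0, .negSucc 15892199), (2, .ofNat 127137600), (4, .negSucc 254275199)]), (1, [(1, .negSucc 63568799)])]), (3, [(1, [(0, .negSucc 15373799), (2, .ofNat 122990400), (4, .negSucc 245980799)]), (2, [(1, .negSucc 61495199)])]), (5, [(1, [(0, .ofNat 9768600), (2, .negSucc 78148799), (4, .ofNat 156297600)]), (2, [(1, .ofNat 39074400)])])]), (1, [(0, [(0, [(0, .negSucc 19634399), (2, .ofNat 157075200), (4, .negSucc 314150399)]), (1, [(1, .negSucc 78537599)])]), (2, [(0, [(0, .ofNat 17755200), (2, .negSucc 142041599), (4, .ofNat 284083200)]), (1, [(1, .ofNat 71020800)])]), (3,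 [(1, [(0, .ofNat 30747600), (2, .negSucc 245980799), (4, .ofNat 491961600)]), (2, [(1, .ofNat 122990400)])]), (5, [(1, [(0, .negSucc 10983599), (2, .ofNat 87868800), (4, .negSucc 175737599)]), (2, [(1, .negSucc 43934399)])])]), (2, [(0, [(0, [(0, .negSucc 615599), (2, .ofNat 4924800), (4, .negSucc 9849599)]), (1, [(1, .negSucc 2462399)])]), (2, [(0, [(0, .negSucc 2786399), (2, .ofNat 22291200), (4, .negSucc 44582399)]), (1, [(1, .negSucc 11145599)])]), (3, [(1, [(0, .negSucc 6852599), (2, .ofNat 54820800), (4, .negSucc 109641599)]), (2, [(1, .negSucc 27410399)])])])]), (1, [(0, [(0, [(0, [(0, .negSucc 31201199), (2, .ofNat 249609600), (4, .negSucc 499219199)]), (1, [(1, .negSucc 124804799)])]), (2, [(0, [(0, .negSucc 3985199), (2, .ofNat 31881600), (4, .negSucc 63763199)]), (1, [(1, .negSucc 15940799)])]), (3, [(1, [(0, .negSucc 38717999), (2, .ofNat 309744000), (4, .negSucc 619487999)]), (2, [(1, .negSucc 154871999)])]), (5, [(1, [(0, .negSucc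 12279599), (2, .ofNat 98236800), (4, .negSucc 196473599)]), (2, [(1, .negSucc 49118399)])])]), (1, [(0, [(0, [(0, .ofNat 129340800), (2, .negSucc 1034726399), (4, .ofNat 2069452800)]), (1, [(1, .ofNat 517363200)])]), (2, [(0, [(0, .negSucc 50543999), (2, .ofNat 404352000), (4, .negSucc 808703999)]), (1, [(1, .negSucc 202175999)])]), (3, [(1, [(0, .ofNat 23716800), (2, .negSucc 189734399), (4, .ofNat 379468800)]), (2, [(1, .ofNat 94867200)])])]), (2, [(0, [(0, [(0, .negSucc 53589599), (2, .ofNat 428716800), (4, .negSucc 857433599)]), (1, [(1, .negSucc 214358399)])])])]), (2, [(0, [(0, [(0, [(0, .ofNat 197510400), (2, .negSucc 1580083199), (4, .ofNat 3160166400)]), (1, [(1, .ofNat 790041600)])]), (2, [(0, [(0, .negSucc 3110399), (2, .ofNat 24883200), (4, .negSucc 49766399)]), (1, [(1, .negSucc 12441599)])]), (3, [(1, [(0, .ofNat 32464800), (2, .negSucc 259718399), (4, .ofNat 519436800)]), (2, [(1, .ofNat 129859200)])])]), (1, [(0, [(0, [(0, .negSucc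 178329599), (2, .ofNat 1426636800), (4, .negSucc 2853273599)]), (1, [(1, .negSucc 713318399)])])])])]
  C0 := [(0, [(0, [(0, [(0, [(0, .ofNat 15329412)])]), (1, [(1, [(0, .negSucc 25449875)])]), (2, [(0, [(0, .ofNat 107089128)])]), (3, [(1, [(0, .ofNat 352984716)])]), (4, [(0, [(0, .ofNat 62747460)]), (2, [(0, .negSucc 369748799)])]), (5, [(1, [(0, .negSucc 136245239)])]), (6, [(2, [(0, .ofNat 29889000)])]), (7, [(1, [(0, .negSucc 117223199)])])]), (1, [(0, [(0, [(0, .ofNat 92815308)])]), (1, [(1, [(0, .negSucc 296884763)])]), (2, [(0, [(0, .negSucc 590527907)])]), (3, [(1, [(0, .ofNat 111997728)])]), (4, [(0, [(0, .ofNat 116445600)]), (2, [(0, .ofNat 448772400)])]), (5, [(1, [(0, .negSucc 32063363)])]), (6, [(2, [(0, .negSucc 45781199)])]), (7, [(1, [(0, .ofNat 131803200)])])]), (2, [(0, [(0, [(0, .negSucc 73150775)])]), (1, [(1, [(0, .ofNat 195055128)])]), (2, [(0, [(0, .ofNat 543675564)])]), (3, [(1, [(0, .negSucc 186744527)])]), (4, [(0,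 [(0, .negSucc 156908987)]), (2, [(0, .negSucc 93895199)])]), (5, [(1, [(0, .ofNat 82231200)])])])]), (1, [(0, [(0, [(0, [(0, .negSucc 89614511)])]), (1, [(1, [(0, .negSucc 1023399359)])]), (2, [(0, [(0, .negSucc 918831599)])]), (3, [(1, [(0, .negSucc 321980831)])]), (4, [(0, [(0, .ofNat 595248912)]), (2, [(0, .ofNat 1749308400)])]), (5, [(1, [(0, .ofNat 1374831792)])]), (6, [(2, [(0, .negSucc 874799999)])]), (7, [(1, [(0, .ofNat 127429200)])])]), (1, [(0, [(0, [(0, .negSucc 403074791)])]), (1, [(1, [(0, .ofNat 2559647304)])]), (2, [(0, [(0, .ofNat 2288873376)])]), (3, [(1, [(0, .negSucc 2057706503)])]), (4, [(0, [(0, .negSucc 1010998583)]), (2, [(0, .negSucc 874508399)])]), (5, [(1, [(0, .negSucc 646185599)])]), (7, [(1, [(0, .ofNat 30520800)])])]), (2, [(0, [(0, [(0, .ofNat 485875584)])]), (1, [(1, [(0, .negSucc 645019199)])]), (2, [(0, [(0, .negSucc 962933183)])]), (3, [(1, [(0, .ofNat 914846400)])]), (4, [(0, [(0, .ofNat 547333200)])]), (5,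 [(1, [(0, .ofNat 62596800)])])])]), (2, [(0, [(0, [(0, [(0, .ofNat 1265096880)])]), (1, [(1, [(0, .ofNat 2573572176)])]), (2, [(0, [(0, .negSucc 1335718511)])]), (3, [(1, [(0, .ofNat 303159024)])]), (4, [(0, [(0, .ofNat 1474384032)]), (2, [(0, .negSucc 872467199)])]), (5, [(1, [(0, .negSucc 2295280799)])]), (7, [(1, [(0, .ofNat 583200000)])])]), (1, [(0, [(0, [(0, .negSucc 1085778431)])]), (1, [(1, [(0, .negSucc 3403555199)])]), (2, [(0, [(0, .ofNat 4584200832)])]), (3, [(1, [(0, .ofNat 1749794400)])]), (4, [(0, [(0, .negSucc 1748822399)])]), (5, [(1, [(0, .ofNat 583005600)])])]), (2, [(0, [(0, [(0, .negSucc 181180799)])]), (2, [(0, [(0, .ofNat 181180800)])])])]), (3, [(0, [(0, [(0, [(0, .negSucc 1466164799)])]), (1, [(1, [(0, .ofNat 623635200)])]), (2, [(0, [(0, .ofNat 2496873600)])]), (3, [(1, [(0, .negSucc 1205279999)])]), (4, [(0, [(0, .negSucc 1030708799)])]), (5, [(1, [(0, .ofNat 581644800)])])]), (1, [(0, [(0, [(0, .ofNat 1528761600)])]),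 (2, [(0, [(0, .negSucc 1528761599)])])])])]
  Ck := [(0, [(0, [(0, [(0, [(0, .ofNat 6269400), (2, .ofNat 464227200)])]), (1, [(0, [(1, .negSucc 182541599), (3, .ofNat 528087600)]), (1, [(0, .negSucc 326737799)])]), (2, [(0, [(0, .ofNat 431130600), (2, .negSucc 867801599)]), (1, [(1, .negSucc 634521599)])]), (3, [(0, [(1, .ofNat 333736200), (3, .negSucc 275270399)]), (1, [(0, .negSucc 29305799), (2, .negSucc 1136219399)])]), (4, [(1, [(1, .ofNat 197413200), (3, .negSucc 897544799)])]), (5, [(1, [(2, .ofNat 781488000)])]), (6, [(1, [(3, .ofNat 91562400)])])]), (1, [(0, [(0, [(2, .negSucc 133261199)])]), (1, [(0, [(1, .negSucc 149299199), (3, .negSucc 144050399)]), (1, [(0, .ofNat 437400000)])]), (2, [(0, [(0, .negSucc 437254199), (2, .ofNat 1288872000)]), (1, [(1, .ofNat 1310450400)])]), (3, [(0, [(1, .ofNat 374414400), (3, .ofNat 36741600)]), (1, [(2, .ofNat 692112600)])]), (4, [(1, [(3, .ofNat 375580800)])])]), (2, [(0, [(0, [(0, .ofNat 75524400),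 (2, .negSucc 166211999)])]), (1, [(0, [(1, .ofNat 35137800)])])])]), (1, [(0, [(0, [(0, [(0, .ofNat 721418400), (2, .negSucc 686426399)])]), (1, [(0, [(1, .ofNat 1929225600), (3, .negSucc 2145009599)]), (1, [(0, .negSucc 233863199)])]), (2, [(0, [(0, .negSucc 686426399), (2, .ofNat 4698842400)]), (1, [(1, .ofNat 3427466400)])]), (3, [(0, [(1, .negSucc 2274479999), (3, .ofNat 1749600000)]), (1, [(2, .ofNat 249609600)])]), (4, [(0, [(2, .negSucc 1749599999)]), (1, [(3, .ofNat 1749016800)])])]), (1, [(0, [(0, [(0, .negSucc 840974399), (2, .ofNat 1070755200)])]), (1, [(0, [(1, .ofNat 2353795200), (3, .negSucc 1329695999)])]), (2, [(0, [(2, .ofNat 281102400)])])])]), (2, [(0, [(1, [(0, [(1, .negSucc 1681948799), (3, .ofNat 2141510400)])]), (2, [(0, [(2, .ofNat 3499200000)])])])])]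
  L1 := [(0, [(0, [(0, [(0, [(0, .negSucc 73774799)])]), (1, [(0, [(1, .ofNat 122034600)])]), (2, [(0, [(0, .negSucc 460144799), (2, .ofNat 161838000)])]), (3, [(0, [(1, .ofNat 29305800)]), (1, [(0, .ofNat 580575600)])]), (4, [(0, [(0, .ofNat 261565200), (2, .negSucc 161837999)]), (1, [(1, .negSucc 412322399)])]), (5, [(1, [(0, .negSucc 567161999), (2, .negSucc 1169024399)])]), (6, [(1, [(1, .ofNat 657849600)])]), (7, [(1, [(2, .ofNat 149445000)])])]), (1, [(0, [(0, [(0, .ofNat 1198330200)])]), (1, [(0, [(1, .negSucc 788777999)])]), (2, [(0, [(0, .negSucc 354002399), (2, .negSucc 275270399)])]), (3, [(0, [(1, .ofNat 285039000)]), (1, [(0, .ofNat 59340600)])]), (4, [(0, [(0, .negSucc 5540399), (2, .ofNat 275270400)]), (1, [(1, .ofNat 358959600)])]), (5, [(1, [(0, .ofNat 81648000), (2, .ofNat 1437879600)])]), (6, [(1, [(1, .negSucc 688175999)])]), (7, [(1, [(2, .negSucc 228905999)])])]), (2, [(0, [(0, [(0, .negSucc 789215399)])]), (1, [(0, [(1,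 .ofNat 526483800)])]), (2, [(0, [(0, .ofNat 820999800), (2, .ofNat 18370800)])]), (3, [(0, [(1, .negSucc 212867999)]), (1, [(0, .negSucc 272645999)])]), (4, [(0, [(0, .negSucc 405907199), (2, .negSucc 18370799)]), (1, [(1, .negSucc 127429199)])]), (5, [(1, [(2, .negSucc 281685599)])])])]), (1, [(0, [(0, [(0, [(0, .ofNat 2714796000)])]), (1, [(0, [(1, .ofNat 188956800)])]), (2, [(0, [(0, .ofNat 3239384400), (2, .ofNat 523713600)])]), (3, [(0, [(1, .ofNat 1715774400)]), (1, [(0, .negSucc 1574348399)])]), (4, [(0, [(0, .negSucc 862261199), (2, .ofNat 194205600)]), (1, [(1, .ofNat 880048800)])]), (5, [(0, [(1, .negSucc 1312783199)]), (1, [(0, .ofNat 992023200), (2, .ofNat 5248216800)])]), (6, [(1, [(1, .negSucc 1327946399)])]), (7, [(1, [(2, .negSucc 3499199999)])])]), (1, [(0, [(0, [(0, .negSucc 2677471199)])]), (1, [(0, [(1, .ofNat 1569974400)])]), (2, [(0, [(0, .negSucc 2623233599), (2, .ofNat 677095200)])]), (3, [(0, [(1, .negSucc 3499199999)]),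 (1, [(0, .ofNat 874508400)])]), (4, [(0, [(0, .ofNat 874508400), (2, .negSucc 874799999)]), (1, [(1, .ofNat 311428800)])]), (5, [(0, [(1, .ofNat 1749600000)]), (1, [(2, .negSucc 1749016799)])])]), (2, [(0, [(0, [(0, .negSucc 30326399)])]), (1, [(0, [(1, .ofNat 140551200)])]), (2, [(0, [(0, .ofNat 151048800), (2, .negSucc 332423999)])])])]), (2, [(0, [(0, [(0, [(0, .ofNat 756410400)])]), (1, [(0, [(1, .ofNat 648518400)])]), (2, [(0, [(0, .negSucc 103226399), (2, .ofNat 1026432000)])]), (3, [(0, [(1, .negSucc 172627199)]), (1, [(0, .ofNat 638604000)])]), (5, [(0, [(1, .ofNat 525463200)]), (1, [(2, .negSucc 872467199)])])]), (1, [(0, [(0, [(0, .negSucc 611193599)])]), (1, [(0, [(1, .ofNat 3499200000)])]), (2, [(0, [(0, .negSucc 1681948799), (2, .ofNat 2141510400)])]), (3, [(0, [(1, .ofNat 1749600000)])])])])]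
  L2 := [(0, [(0, [(1, [(0, [(0, .ofNat 191143800)])]), (2, [(0, [(1, .negSucc 807002999)])]), (3, [(0, [(0, .negSucc 482014799), (2, .negSucc 1109246399)])]), (4, [(0, [(1, .ofNat 641665800)])]), (5, [(0, [(2, .ofNat 89667000)])])]), (1, [(1, [(0, [(0, .ofNat 1275895800)])]), (2, [(0, [(1, .ofNat 392347800)])]), (3, [(0, [(0, .ofNat 35866800), (2, .ofNat 1346317200)])]), (4, [(0, [(1, .negSucc 516131999)])]), (5, [(0, [(2, .negSucc 137343599)])])]), (2, [(1, [(0, [(0, .negSucc 1099623599)])]), (2, [(0, [(1, .negSucc 191143799)])]), (3, [(0, [(2, .negSucc 281685599)])])])]), (1, [(0, [(1, [(0, [(0, .ofNat 1960426800)])]), (2, [(0, [(1, .negSucc 1296453599)])]), (3, [(0, [(0, .ofNat 175834800), (2, .ofNat 5247925200)])]), (4, [(0, [(1, .negSucc 1327946399)])]), (5, [(0, [(2, .negSucc 2624399999)])])]), (1, [(1, [(0, [(0, .negSucc 2624399999)])]), (2, [(0, [(1, .ofNat 934286400)])]), (3, [(0, [(2, .negSucc 2623525199)])])])]), (2, [(0, [(1, [(0,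 [(0, .ofNat 701589600)])]), (2, [(0, [(1, .negSucc 5033599199)])]), (3, [(0, [(2, .negSucc 2617401599)])])])])]
  Lw := [(0, [(0, [(0, [(0, [(0, .negSucc 292183199)])]), (1, [(0, [(1, .negSucc 861094799)]), (1, [(0, .ofNat 186624000)])]), (2, [(0, [(0, .ofNat 123346800)]), (1, [(1, .ofNat 87188400)])]), (3, [(0, [(1, .ofNat 874800000)]), (1, [(0, .negSucc 53071199)])]), (4, [(1, [(1, .ofNat 787611600)])])]), (1, [(0, [(0, [(0, .ofNat 869113800)])]), (1, [(0, [(1, .ofNat 884131200)]), (1, [(0, .negSucc 234300599)])]), (2, [(0, [(0, .negSucc 436962599)]), (1, [(1, .negSucc 844473599)])]), (3, [(0, [(1, .negSucc 1010685599)])])]), (2, [(0, [(0, [(0, .negSucc 280227599)])])])]), (1, [(0, [(0, [(0, [(0, .ofNat 615276000)])]), (1, [(0, [(1, .ofNat 3476455200)]), (1, [(0, .negSucc 191872799)])]), (2, [(0, [(0, .negSucc 275270399)]), (1, [(1, .negSucc 937202399)])]), (3, [(0, [(1, .negSucc 1747850399)])])]), (1, [(0, [(0, [(0, .negSucc 450230399)])]),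 (1, [(0, [(1, .negSucc 2241820799)])])])]), (2, [(0, [(1, [(0, [(1, .negSucc 900460799)])])])])]
  A11 := [(0, [(0, [(2, [(0, [(0, .negSucc 605653199)])]), (4, [(0, [(0, .ofNat 429089400)])]), (5, [(1, [(0, .ofNat 729291600)])]), (7, [(1, [(0, .negSucc 527504399)])])]), (1, [(2, [(0, [(0, .ofNat 496303200)])]), (4, [(0, [(0, .negSucc 479390399)])]), (5, [(1, [(0, .negSucc 1304618399)])]), (7, [(1, [(0, .ofNat 593114400)])])]), (2, [(2, [(0, [(0, .negSucc 44614799)])]), (4, [(0, [(0, .ofNat 75232800)])]), (5, [(1, [(0, .ofNat 246693600)])])])]), (1, [(0, [(2, [(0, [(0, .negSucc 71733599)])]), (4, [(0, [(0, .ofNat 71733600)])]), (5, [(1, [(0, .ofNat 824353200)])]), (7, [(1, [(0, .ofNat 552582000)])])]), (1, [(2, [(0, [(0, .negSucc 909791999)])]), (4, [(0, [(0, .ofNat 909792000)])]), (5, [(1, [(0, .negSucc 640353599)])])])]), (2, [(0, [(2, [(0, [(0, .ofNat 1721606400)])]), (4, [(0, [(0, .ofNat 27993600)])]), (5, [(1, [(0, .negSucc 584366399)])])]),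 (1, [(2, [(0, [(0, .negSucc 1604966399)])])])])]
  A12 := [(0, [(0, [(3, [(0, [(0, .ofNat 415092600)])]), (5, [(0, [(0, .negSucc 263752199)])])]), (1, [(3, [(0, [(0, .negSucc 830185199)])]), (5, [(0, [(0, .ofNat 296557200)])])]), (2, [(3, [(0, [(0, .ofNat 185020200)])])])]), (1, [(0, [(3, [(0, [(0, .ofNat 1045386000)])]), (5, [(0, [(0, .ofNat 331549200)])])]), (1, [(3, [(0, [(0, .negSucc 640353599)])])])]), (2, [(0, [(3, [(0, [(0, .negSucc 876549599)])])])])]
  W1 := [(0, [(0, [(0, [(0, [(0, .ofNat 811522800)])]), (2, [(0, [(0, .negSucc 1085189399)])]), (3, [(1, [(0, .negSucc 927579599)])]), (4, [(0, [(0, .ofNat 509571000)])]), (5, [(1, [(0, .ofNat 1189728000)])])]), (1, [(0, [(0, [(0, .negSucc 861094799)])]), (2, [(0, [(0, .ofNat 2180147400)])]), (3, [(1, [(0, .ofNat 700423200)])]), (4, [(0, [(0, .negSucc 1312199999)])]), (5, [(1, [(0, .negSucc 1575223199)])])]), (2, [(0, [(0, [(0, .ofNat 442065600)])]), (2, [(0, [(0, .negSucc 1231718399)])]),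 (3, [(1, [(0, .ofNat 422236800)])]), (4, [(0, [(0, .ofNat 758014200)])])])]), (1, [(0, [(0, [(0, [(0, .negSucc 1168732799)])]), (2, [(0, [(0, .ofNat 986774400)])]), (3, [(1, [(0, .negSucc 585532799)])]), (4, [(0, [(0, .negSucc 493387199)])]), (5, [(1, [(0, .ofNat 318427200)])])]), (1, [(0, [(0, [(0, .ofNat 3476455200)])]), (2, [(0, [(0, .negSucc 3495700799)])]), (3, [(1, [(0, .ofNat 468601200)])]), (4, [(0, [(0, .ofNat 1747850400)])])]), (2, [(0, [(0, [(0, .negSucc 1120910399)])])])]), (2, [(0, [(0, [(0, [(0, .ofNat 1230552000)])]), (2, [(0, [(0, .negSucc 485805599)])]), (4, [(0, [(0, .ofNat 275270400)])])]), (1, [(0, [(0, [(0, .negSucc 900460799)])]), (2, [(0, [(0, .negSucc 450230399)])])])])]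
  W2 := [(0, [(0, [(1, [(0, [(0, .negSucc 499073399)])]), (3, [(0, [(0, .ofNat 892296000)])])]), (1, [(1, [(0, [(0, .negSucc 130782599)])]), (3, [(0, [(0, .negSucc 1181417399)])])]), (2, [(1, [(0, [(0, .ofNat 633355200)])])])]), (1, [(0, [(1, [(0, [(0, .negSucc 1119743999)])]), (3, [(0, [(0, .ofNat 318427200)])])]), (1, [(1, [(0, [(0, .ofNat 1405803600)])])])]), (2, [(0, [(1, [(0, [(0, .ofNat 575618400)])])])])]
  psi := [(0, [(0, [(0, [(0, [(0, .ofNat 405761400)])]), (1, [(1, [(0, .ofNat 166357800)])]), (2, [(0, [(0, .negSucc 169856999)])]), (3, [(1, [(0, .negSucc 297431999)])])]), (1, [(0, [(0, [(0, .negSucc 430547399)])]), (1, [(1, [(0, .ofNat 43594200)])]), (2, [(0, [(0, .ofNat 437400000)])]), (3, [(1, [(0, .ofNat 393805800)])])]), (2, [(0, [(0, [(0, .ofNat 221032800)])]), (1, [(1, [(0, .negSucc 211118399)])]), (2, [(0, [(0, .negSucc 252671399)])])])]), (1, [(0, [(0, [(0, [(0, .negSucc 584366399)])]), (1, [(1, [(0, .ofNat 373248000)])]),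 (2, [(0, [(0, .ofNat 246693600)])]), (3, [(1, [(0, .negSucc 106142399)])])]), (1, [(0, [(0, [(0, .ofNat 1738227600)])]), (1, [(1, [(0, .negSucc 468601199)])]), (2, [(0, [(0, .negSucc 873925199)])])]), (2, [(0, [(0, [(0, .negSucc 560455199)])])])]), (2, [(0, [(0, [(0, [(0, .ofNat 615276000)])]), (1, [(1, [(0, .negSucc 191872799)])]), (2, [(0, [(0, .negSucc 275270399)])])]), (1, [(0, [(0, [(0, .negSucc 450230399)])])])])]
  G1 := [(0, [(1, [(0, [(0, [(0, .ofNat 3)])])])]), (2, [(0, [(0, [(0, [(0, .negSucc 3)])]), (2, [(0, [(0, .ofNat 4)])])])])]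
  G2 := [(0, [(0, [(0, [(0, [(0, .ofNat 4)])])]), (2, [(0, [(0, [(0, .negSucc 3)])])])]), (2, [(0, [(2, [(0, [(0, .negSucc 47)])])])])]
  G3 := [(0, [(0, [(0, [(0, [(0, .ofNat 27), (2, .negSucc 269), (4, .ofNat 864), (6, .negSucc 863)]), (1, [(1, .ofNat 324), (3, .negSucc 719)]), (2, [(0, .negSucc 161)])])])])]
  G4 := [(0, [(0, [(0, [(0, [(0, .ofNat 3), (2, .negSucc 3)])])])])]

/-- chart data, signs `(-1, 1)` -/
def mp : CD where
  g := [(0, [(0, [(0, [(0, [(0, .ofNat 319593600)])]), (2, [(0, [(0, .negSucc 143029799)])]), (3, [(1, [(0, .ofNat 138364200)])]), (5, [(1, [(0, .negSucc 87917399)])])]), (1, [(0, [(0, [(0, .negSucc 176709599)])]), (2, [(0, [(0, .ofNat 159796800)])]), (3, [(1, [(0, .negSucc 276728399)])]), (5, [(1, [(0, .ofNat 98852400)])])]), (2, [(0, [(0, [(0, .negSucc 5540399)])]), (2, [(0, [(0, .negSucc 25077599)])]), (3, [(1, [(0, .ofNat 61673400)])])])]), (1, [(0, [(0, [(0, [(0, .negSucc 280810799)])]), (2, [(0, [(0, .negSucc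 35866799)])]), (3, [(1, [(0, .ofNat 348462000)])]), (5, [(1, [(0, .ofNat 110516400)])])]), (1, [(0, [(0, [(0, .ofNat 1164067200)])]), (2, [(0, [(0, .negSucc 454895999)])]), (3, [(1, [(0, .negSucc 213451199)])])]), (2, [(0, [(0, [(0, .negSucc 482306399)])])])]), (2, [(0, [(0, [(0, [(0, .ofNat 1777593600)])]), (2, [(0, [(0, .negSucc 27993599)])]), (3, [(1, [(0, .negSucc 292183199)])])]), (1, [(0, [(0, [(0, .negSucc 1604966399)])])])])]
  k11 := [(0, [(0, [(0, [(0, [(0, .ofNat 106531200), (2, .ofNat 142041600)])]), (2, [(0, [(0, .negSucc 47676599), (2, .negSucc 63568799)])]), (3, [(1, [(0, .ofNat 46121400), (2, .ofNat 61495200)])]), (5, [(1, [(0, .negSucc 29305799), (2, .negSucc 39074399)])])]), (1, [(0, [(0, [(0, .negSucc 58903199), (2, .negSucc 78537599)])]), (2, [(0, [(0, .ofNat 53265600), (2, .ofNat 71020800)])]), (3, [(1, [(0, .negSucc 92242799), (2, .negSucc 122990399)])]), (5, [(1, [(0, .ofNat 32950800), (2, .ofNat 43934400)])])]), (2, [(0,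 [(0, [(0, .negSucc 1846799), (2, .negSucc 2462399)])]), (2, [(0, [(0, .negSucc 8359199), (2, .negSucc 11145599)])]), (3, [(1, [(0, .ofNat 20557800), (2, .ofNat 27410400)])])])]), (1, [(0, [(0, [(0, [(0, .negSucc 93603599), (2, .negSucc 124804799)])]), (2, [(0, [(0, .negSucc 11955599), (2, .negSucc 15940799)])]), (3, [(1, [(0, .ofNat 116154000), (2, .ofNat 154872000)])]), (5, [(1, [(0, .ofNat 36838800), (2, .ofNat 49118400)])])]), (1, [(0, [(0, [(0, .ofNat 388022400), (2, .ofNat 517363200)])]), (2, [(0, [(0, .negSucc 151631999), (2, .negSucc 202175999)])]), (3, [(1, [(0, .negSucc 71150399), (2, .negSucc 94867199)])])]), (2, [(0, [(0, [(0, .negSucc 160768799), (2, .negSucc 214358399)])])])]), (2, [(0, [(0, [(0, [(0, .ofNat 592531200), (2, .ofNat 790041600)])]), (2, [(0, [(0, .negSucc 9331199), (2, .negSucc 12441599)])]), (3, [(1, [(0, .negSucc 97394399), (2, .negSucc 129859199)])])]), (1, [(0, [(0, [(0, .negSucc 534988799), (2, .negSucc 713318399)])])])])]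
  k12 := [(0, [(0, [(0, [(0, [(1, .ofNat 35510400), (3, .negSucc 142041599)]), (1, [(0, .ofNat 106531200)])]), (2, [(0, [(1, .negSucc 15892199), (3, .ofNat 63568800)]), (1, [(0, .negSucc 47676599)])]), (3, [(1, [(1, .ofNat 15373800), (3, .negSucc 61495199)]), (2, [(0, .ofNat 46121400)])]), (5, [(1, [(1, .negSucc 9768599), (3, .ofNat 39074400)]), (2, [(0, .negSucc 29305799)])])]), (1, [(0, [(0, [(1, .negSucc 19634399), (3, .ofNat 78537600)]), (1, [(0, .negSucc 58903199)])]), (2, [(0, [(1, .ofNat 17755200), (3, .negSucc 71020799)]), (1, [(0, .ofNat 53265600)])]), (3, [(1, [(1, .negSucc 30747599), (3, .ofNat 122990400)]), (2, [(0, .negSucc 92242799)])]), (5, [(1, [(1, .ofNat 10983600), (3, .negSucc 43934399)]), (2, [(0, .ofNat 32950800)])])]), (2, [(0, [(0, [(1, .negSucc 615599), (3, .ofNat 2462400)]), (1, [(0, .negSucc 1846799)])]), (2, [(0, [(1, .negSucc 2786399), (3, .ofNat 11145600)]), (1, [(0, .negSucc 8359199)])]), (3, [(1, [(1, .ofNat 6852600),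 (3, .negSucc 27410399)]), (2, [(0, .ofNat 20557800)])])])]), (1, [(0, [(0, [(0, [(1, .negSucc 31201199), (3, .ofNat 124804800)]), (1, [(0, .negSucc 93603599)])]), (2, [(0, [(1, .negSucc 3985199), (3, .ofNat 15940800)]), (1, [(0, .negSucc 11955599)])]), (3, [(1, [(1, .ofNat 38718000), (3, .negSucc 154871999)]), (2, [(0, .ofNat 116154000)])]), (5, [(1, [(1, .ofNat 12279600), (3, .negSucc 49118399)]), (2, [(0, .ofNat 36838800)])])]), (1, [(0, [(0, [(1, .ofNat 129340800), (3, .negSucc 517363199)]), (1, [(0, .ofNat 388022400)])]), (2, [(0, [(1, .negSucc 50543999), (3, .ofNat 202176000)]), (1, [(0, .negSucc 151631999)])]), (3, [(1, [(1, .negSucc 23716799), (3, .ofNat 94867200)]), (2, [(0, .negSucc 71150399)])])]), (2, [(0, [(0, [(1, .negSucc 53589599), (3, .ofNat 214358400)]), (1, [(0, .negSucc 160768799)])])])]), (2, [(0, [(0, [(0, [(1, .ofNat 197510400), (3, .negSucc 790041599)]), (1, [(0, .ofNat 592531200)])]), (2, [(0, [(1, .negSucc 3110399), (3,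 .ofNat 12441600)]), (1, [(0, .negSucc 9331199)])]), (3, [(1, [(1, .negSucc 32464799), (3, .ofNat 129859200)]), (2, [(0, .negSucc 97394399)])])]), (1, [(0, [(0, [(1, .negSucc 178329599), (3, .ofNat 713318400)]), (1, [(0, .negSucc 534988799)])])])])]
  k22 := [(0, [(0, [(0, [(0, [(0, .ofNat 35510400), (2, .negSucc 284083199), (4, .ofNat 568166400)]), (1, [(1, .ofNat 142041600)])]), (2, [(0, [(0, .negSucc 15892199), (2, .ofNat 127137600), (4, .negSucc 254275199)]), (1, [(1, .negSucc 63568799)])]), (3, [(1, [(0, .ofNat 15373800), (2, .negSucc 122990399), (4, .ofNat 245980800)]), (2, [(1, .ofNat 61495200)])]), (5, [(1, [(0, .negSucc 9768599), (2, .ofNat 78148800), (4, .negSucc 156297599)]), (2, [(1, .negSucc 39074399)])])]), (1, [(0, [(0, [(0, .negSucc 19634399), (2, .ofNat 157075200), (4, .negSucc 314150399)]), (1, [(1, .negSucc 78537599)])]), (2, [(0, [(0, .ofNat 17755200), (2, .negSucc 142041599), (4, .ofNat 284083200)]), (1, [(1, .ofNat 71020800)])]),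 (3, [(1, [(0, .negSucc 30747599), (2, .ofNat 245980800), (4, .negSucc 491961599)]), (2, [(1, .negSucc 122990399)])]), (5, [(1, [(0, .ofNat 10983600), (2, .negSucc 87868799), (4, .ofNat 175737600)]), (2, [(1, .ofNat 43934400)])])]), (2, [(0, [(0, [(0, .negSucc 615599), (2, .ofNat 4924800), (4, .negSucc 9849599)]), (1, [(1, .negSucc 2462399)])]), (2, [(0, [(0, .negSucc 2786399), (2, .ofNat 22291200), (4, .negSucc 44582399)]), (1, [(1, .negSucc 11145599)])]), (3, [(1, [(0, .ofNat 6852600), (2, .negSucc 54820799), (4, .ofNat 109641600)]), (2, [(1, .ofNat 27410400)])])])]), (1, [(0, [(0, [(0, [(0, .negSucc 31201199), (2, .ofNat 249609600), (4, .negSucc 499219199)]), (1, [(1, .negSucc 124804799)])]), (2, [(0, [(0, .negSucc 3985199), (2, .ofNat 31881600), (4, .negSucc 63763199)]), (1, [(1, .negSucc 15940799)])]), (3, [(1, [(0, .ofNat 38718000), (2, .negSucc 309743999), (4, .ofNat 619488000)]), (2, [(1, .ofNat 154872000)])]), (5, [(1, [(0, .ofNat 12279600),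 (2, .negSucc 98236799), (4, .ofNat 196473600)]), (2, [(1, .ofNat 49118400)])])]), (1, [(0, [(0, [(0, .ofNat 129340800), (2, .negSucc 1034726399), (4, .ofNat 2069452800)]), (1, [(1, .ofNat 517363200)])]), (2, [(0, [(0, .negSucc 50543999), (2, .ofNat 404352000), (4, .negSucc 808703999)]), (1, [(1, .negSucc 202175999)])]), (3, [(1, [(0, .negSucc 23716799), (2, .ofNat 189734400), (4, .negSucc 379468799)]), (2, [(1, .negSucc 94867199)])])]), (2, [(0, [(0, [(0, .negSucc 53589599), (2, .ofNat 428716800), (4, .negSucc 857433599)]), (1, [(1, .negSucc 214358399)])])])]), (2, [(0, [(0, [(0, [(0, .ofNat 197510400), (2, .negSucc 1580083199), (4, .ofNat 3160166400)]), (1, [(1, .ofNat 790041600)])]), (2, [(0, [(0, .negSucc 3110399), (2, .ofNat 24883200), (4, .negSucc 49766399)]), (1, [(1, .negSucc 12441599)])]), (3, [(1, [(0, .negSucc 32464799), (2, .ofNat 259718400), (4, .negSucc 519436799)]), (2, [(1, .negSucc 129859199)])])]), (1, [(0, [(0, [(0, .negSucc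 178329599), (2, .ofNat 1426636800), (4, .negSucc 2853273599)]), (1, [(1, .negSucc 713318399)])])])])]
  C0 := [(0, [(0, [(0, [(0, [(0, .ofNat 15329412)])]), (1, [(1, [(0, .ofNat 25449876)])]), (2, [(0, [(0, .ofNat 107089128)])]), (3, [(1, [(0, .negSucc 352984715)])]), (4, [(0, [(0, .ofNat 62747460)]), (2, [(0, .negSucc 369748799)])]), (5, [(1, [(0, .ofNat 136245240)])]), (6, [(2, [(0, .ofNat 29889000)])]), (7, [(1, [(0, .ofNat 117223200)])])]), (1, [(0, [(0, [(0, .ofNat 92815308)])]), (1, [(1, [(0, .ofNat 296884764)])]), (2, [(0, [(0, .negSucc 590527907)])]), (3, [(1, [(0, .negSucc 111997727)])]), (4, [(0, [(0, .ofNat 116445600)]), (2, [(0, .ofNat 448772400)])]), (5, [(1, [(0, .ofNat 32063364)])]), (6, [(2, [(0, .negSucc 45781199)])]), (7, [(1, [(0, .negSucc 131803199)])])]), (2, [(0, [(0, [(0, .negSucc 73150775)])]), (1, [(1, [(0, .negSucc 195055127)])]), (2, [(0, [(0, .ofNat 543675564)])]), (3, [(1, [(0, .ofNat 186744528)])]), (4, [(0, [(0,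 .negSucc 156908987)]), (2, [(0, .negSucc 93895199)])]), (5, [(1, [(0, .negSucc 82231199)])])])]), (1, [(0, [(0, [(0, [(0, .negSucc 89614511)])]), (1, [(1, [(0, .ofNat 1023399360)])]), (2, [(0, [(0, .negSucc 918831599)])]), (3, [(1, [(0, .ofNat 321980832)])]), (4, [(0, [(0, .ofNat 595248912)]), (2, [(0, .ofNat 1749308400)])]), (5, [(1, [(0, .negSucc 1374831791)])]), (6, [(2, [(0, .negSucc 874799999)])]), (7, [(1, [(0, .negSucc 127429199)])])]), (1, [(0, [(0, [(0, .negSucc 403074791)])]), (1, [(1, [(0, .negSucc 2559647303)])]), (2, [(0, [(0, .ofNat 2288873376)])]), (3, [(1, [(0, .ofNat 2057706504)])]), (4, [(0, [(0, .negSucc 1010998583)]), (2, [(0, .negSucc 874508399)])]), (5, [(1, [(0, .ofNat 646185600)])]), (7, [(1, [(0, .negSucc 30520799)])])]), (2, [(0, [(0, [(0, .ofNat 485875584)])]), (1, [(1, [(0, .ofNat 645019200)])]), (2, [(0, [(0, .negSucc 962933183)])]), (3, [(1, [(0, .negSucc 914846399)])]), (4, [(0, [(0, .ofNat 547333200)])]), (5, [(1,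 [(0, .negSucc 62596799)])])])]), (2, [(0, [(0, [(0, [(0, .ofNat 1265096880)])]), (1, [(1, [(0, .negSucc 2573572175)])]), (2, [(0, [(0, .negSucc 1335718511)])]), (3, [(1, [(0, .negSucc 303159023)])]), (4, [(0, [(0, .ofNat 1474384032)]), (2, [(0, .negSucc 872467199)])]), (5, [(1, [(0, .ofNat 2295280800)])]), (7, [(1, [(0, .negSucc 583199999)])])]), (1, [(0, [(0, [(0, .negSucc 1085778431)])]), (1, [(1, [(0, .ofNat 3403555200)])]), (2, [(0, [(0, .ofNat 4584200832)])]), (3, [(1, [(0, .negSucc 1749794399)])]), (4, [(0, [(0, .negSucc 1748822399)])]), (5, [(1, [(0, .negSucc 583005599)])])]), (2, [(0, [(0, [(0, .negSucc 181180799)])]), (2, [(0, [(0, .ofNat 181180800)])])])]), (3, [(0, [(0, [(0, [(0, .negSucc 1466164799)])]), (1, [(1, [(0, .negSucc 623635199)])]), (2, [(0, [(0, .ofNat 2496873600)])]), (3, [(1, [(0, .ofNat 1205280000)])]), (4, [(0, [(0, .negSucc 1030708799)])]), (5, [(1, [(0, .negSucc 581644799)])])]), (1, [(0, [(0, [(0, .ofNat 1528761600)])]),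 (2, [(0, [(0, .negSucc 1528761599)])])])])]
  Ck := [(0, [(0, [(0, [(0, [(0, .ofNat 6269400), (2, .ofNat 464227200)])]), (1, [(0, [(1, .ofNat 182541600), (3, .negSucc 528087599)]), (1, [(0, .ofNat 326737800)])]), (2, [(0, [(0, .ofNat 431130600), (2, .negSucc 867801599)]), (1, [(1, .negSucc 634521599)])]), (3, [(0, [(1, .negSucc 333736199), (3, .ofNat 275270400)]), (1, [(0, .ofNat 29305800), (2, .ofNat 1136219400)])]), (4, [(1, [(1, .ofNat 197413200), (3, .negSucc 897544799)])]), (5, [(1, [(2, .negSucc 781487999)])]), (6, [(1, [(3, .ofNat 91562400)])])]), (1, [(0, [(0, [(2, .negSucc 133261199)])]), (1, [(0, [(1, .ofNat 149299200), (3, .ofNat 144050400)]), (1, [(0, .negSucc 437399999)])]), (2, [(0, [(0, .negSucc 437254199), (2, .ofNat 1288872000)]), (1, [(1, .ofNat 1310450400)])]), (3, [(0, [(1, .negSucc 374414399), (3, .negSucc 36741599)]), (1, [(2, .negSucc 692112599)])]), (4, [(1, [(3, .ofNat 375580800)])])]), (2, [(0, [(0, [(0, .ofNat 75524400),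 (2, .negSucc 166211999)])]), (1, [(0, [(1, .negSucc 35137799)])])])]), (1, [(0, [(0, [(0, [(0, .ofNat 721418400), (2, .negSucc 686426399)])]), (1, [(0, [(1, .negSucc 1929225599), (3, .ofNat 2145009600)]), (1, [(0, .ofNat 233863200)])]), (2, [(0, [(0, .negSucc 686426399), (2, .ofNat 4698842400)]), (1, [(1, .ofNat 3427466400)])]), (3, [(0, [(1, .ofNat 2274480000), (3, .negSucc 1749599999)]), (1, [(2, .negSucc 249609599)])]), (4, [(0, [(2, .negSucc 1749599999)]), (1, [(3, .ofNat 1749016800)])])]), (1, [(0, [(0, [(0, .negSucc 840974399), (2, .ofNat 1070755200)])]), (1, [(0, [(1, .negSucc 2353795199), (3, .ofNat 1329696000)])]), (2, [(0, [(2, .ofNat 281102400)])])])]), (2, [(0, [(1, [(0, [(1, .ofNat 1681948800), (3, .negSucc 2141510399)])]), (2, [(0, [(2, .ofNat 3499200000)])])])])]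
  L1 := [(0, [(0, [(0, [(0, [(0, .negSucc 73774799)])]), (1, [(0, [(1, .negSucc 122034599)])]), (2, [(0, [(0, .negSucc 460144799), (2, .ofNat 161838000)])]), (3, [(0, [(1, .negSucc 29305799)]), (1, [(0, .negSucc 580575599)])]), (4, [(0, [(0, .ofNat 261565200), (2, .negSucc 161837999)]), (1, [(1, .negSucc 412322399)])]), (5, [(1, [(0, .ofNat 567162000), (2, .ofNat 1169024400)])]), (6, [(1, [(1, .ofNat 657849600)])]), (7, [(1, [(2, .negSucc 149444999)])])]), (1, [(0, [(0, [(0, .ofNat 1198330200)])]), (1, [(0, [(1, .ofNat 788778000)])]), (2, [(0, [(0, .negSucc 354002399), (2, .negSucc 275270399)])]), (3, [(0, [(1, .negSucc 285038999)]), (1, [(0, .negSucc 59340599)])]), (4, [(0, [(0, .negSucc 5540399), (2, .ofNat 275270400)]), (1, [(1, .ofNat 358959600)])]), (5, [(1, [(0, .negSucc 81647999), (2, .negSucc 1437879599)])]), (6, [(1, [(1, .negSucc 688175999)])]), (7, [(1, [(2, .ofNat 228906000)])])]), (2, [(0, [(0, [(0, .negSucc 789215399)])]), (1, [(0,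 [(1, .negSucc 526483799)])]), (2, [(0, [(0, .ofNat 820999800), (2, .ofNat 18370800)])]), (3, [(0, [(1, .ofNat 212868000)]), (1, [(0, .ofNat 272646000)])]), (4, [(0, [(0, .negSucc 405907199), (2, .negSucc 18370799)]), (1, [(1, .negSucc 127429199)])]), (5, [(1, [(2, .ofNat 281685600)])])])]), (1, [(0, [(0, [(0, [(0, .ofNat 2714796000)])]), (1, [(0, [(1, .negSucc 188956799)])]), (2, [(0, [(0, .ofNat 3239384400), (2, .ofNat 523713600)])]), (3, [(0, [(1, .negSucc 1715774399)]), (1, [(0, .ofNat 1574348400)])]), (4, [(0, [(0, .negSucc 862261199), (2, .ofNat 194205600)]), (1, [(1, .ofNat 880048800)])]), (5, [(0, [(1, .ofNat 1312783200)]), (1, [(0, .negSucc 992023199), (2, .negSucc 5248216799)])]), (6, [(1, [(1, .negSucc 1327946399)])]), (7, [(1, [(2, .ofNat 3499200000)])])]), (1, [(0, [(0, [(0, .negSucc 2677471199)])]), (1, [(0, [(1, .negSucc 1569974399)])]), (2, [(0, [(0, .negSucc 2623233599), (2, .ofNat 677095200)])]), (3, [(0, [(1, .ofNat 3499200000)]),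 (1, [(0, .negSucc 874508399)])]), (4, [(0, [(0, .ofNat 874508400), (2, .negSucc 874799999)]), (1, [(1, .ofNat 311428800)])]), (5, [(0, [(1, .negSucc 1749599999)]), (1, [(2, .ofNat 1749016800)])])]), (2, [(0, [(0, [(0, .negSucc 30326399)])]), (1, [(0, [(1, .negSucc 140551199)])]), (2, [(0, [(0, .ofNat 151048800), (2, .negSucc 332423999)])])])]), (2, [(0, [(0, [(0, [(0, .ofNat 756410400)])]), (1, [(0, [(1, .negSucc 648518399)])]), (2, [(0, [(0, .negSucc 103226399), (2, .ofNat 1026432000)])]), (3, [(0, [(1, .ofNat 172627200)]), (1, [(0, .negSucc 638603999)])]), (5, [(0, [(1, .negSucc 525463199)]), (1, [(2, .ofNat 872467200)])])]), (1, [(0, [(0, [(0, .negSucc 611193599)])]), (1, [(0, [(1, .negSucc 3499199999)])]), (2, [(0, [(0, .negSucc 1681948799), (2, .ofNat 2141510400)])]), (3, [(0, [(1, .negSucc 1749599999)])])])])]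
  L2 := [(0, [(0, [(1, [(0, [(0, .ofNat 191143800)])]), (2, [(0, [(1, .ofNat 807003000)])]), (3, [(0, [(0, .negSucc 482014799), (2, .negSucc 1109246399)])]), (4, [(0, [(1, .negSucc 641665799)])]), (5, [(0, [(2, .ofNat 89667000)])])]), (1, [(1, [(0, [(0, .ofNat 1275895800)])]), (2, [(0, [(1, .negSucc 392347799)])]), (3, [(0, [(0, .ofNat 35866800), (2, .ofNat 1346317200)])]), (4, [(0, [(1, .ofNat 516132000)])]), (5, [(0, [(2, .negSucc 137343599)])])]), (2, [(1, [(0, [(0, .negSucc 1099623599)])]), (2, [(0, [(1, .ofNat 191143800)])]), (3, [(0, [(2, .negSucc 281685599)])])])]), (1, [(0, [(1, [(0, [(0, .ofNat 1960426800)])]), (2, [(0, [(1, .ofNat 1296453600)])]), (3, [(0, [(0, .ofNat 175834800), (2, .ofNat 5247925200)])]), (4, [(0, [(1, .ofNat 1327946400)])]), (5, [(0, [(2, .negSucc 2624399999)])])]), (1, [(1, [(0, [(0, .negSucc 2624399999)])]), (2, [(0, [(1, .negSucc 934286399)])]), (3, [(0, [(2, .negSucc 2623525199)])])])]), (2, [(0, [(1, [(0, [(0,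 .ofNat 701589600)])]), (2, [(0, [(1, .ofNat 5033599200)])]), (3, [(0, [(2, .negSucc 2617401599)])])])])]
  Lw := [(0, [(0, [(0, [(0, [(0, .negSucc 292183199)])]), (1, [(0, [(1, .ofNat 861094800)]), (1, [(0, .negSucc 186623999)])]), (2, [(0, [(0, .ofNat 123346800)]), (1, [(1, .ofNat 87188400)])]), (3, [(0, [(1, .negSucc 874799999)]), (1, [(0, .ofNat 53071200)])]), (4, [(1, [(1, .ofNat 787611600)])])]), (1, [(0, [(0, [(0, .ofNat 869113800)])]), (1, [(0, [(1, .negSucc 884131199)]), (1, [(0, .ofNat 234300600)])]), (2, [(0, [(0, .negSucc 436962599)]), (1, [(1, .negSucc 844473599)])]), (3, [(0, [(1, .ofNat 1010685600)])])]), (2, [(0, [(0, [(0, .negSucc 280227599)])])])]), (1, [(0, [(0, [(0, [(0, .ofNat 615276000)])]), (1, [(0, [(1, .negSucc 3476455199)]), (1, [(0, .ofNat 191872800)])]), (2, [(0, [(0, .negSucc 275270399)]), (1, [(1, .negSucc 937202399)])]), (3, [(0, [(1, .ofNat 1747850400)])])]), (1, [(0, [(0, [(0, .negSucc 450230399)])]), (1, [(0,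 [(1, .ofNat 2241820800)])])])]), (2, [(0, [(1, [(0, [(1, .ofNat 900460800)])])])])]
  A11 := [(0, [(0, [(2, [(0, [(0, .negSucc 605653199)])]), (4, [(0, [(0, .ofNat 429089400)])]), (5, [(1, [(0, .negSucc 729291599)])]), (7, [(1, [(0, .ofNat 527504400)])])]), (1, [(2, [(0, [(0, .ofNat 496303200)])]), (4, [(0, [(0, .negSucc 479390399)])]), (5, [(1, [(0, .ofNat 1304618400)])]), (7, [(1, [(0, .negSucc 593114399)])])]), (2, [(2, [(0, [(0, .negSucc 44614799)])]), (4, [(0, [(0, .ofNat 75232800)])]), (5, [(1, [(0, .negSucc 246693599)])])])]), (1, [(0, [(2, [(0, [(0, .negSucc 71733599)])]), (4, [(0, [(0, .ofNat 71733600)])]), (5, [(1, [(0, .negSucc 824353199)])]), (7, [(1, [(0, .negSucc 552581999)])])]), (1, [(2, [(0, [(0, .negSucc 909791999)])]), (4, [(0, [(0, .ofNat 909792000)])]), (5, [(1, [(0, .ofNat 640353600)])])])]), (2, [(0, [(2, [(0, [(0, .ofNat 1721606400)])]), (4, [(0, [(0, .ofNat 27993600)])]), (5, [(1, [(0, .ofNat 584366400)])])]), (1, [(2,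 [(0, [(0, .negSucc 1604966399)])])])])]
  A12 := [(0, [(0, [(3, [(0, [(0, .ofNat 415092600)])]), (5, [(0, [(0, .negSucc 263752199)])])]), (1, [(3, [(0, [(0, .negSucc 830185199)])]), (5, [(0, [(0, .ofNat 296557200)])])]), (2, [(3, [(0, [(0, .ofNat 185020200)])])])]), (1, [(0, [(3, [(0, [(0, .ofNat 1045386000)])]), (5, [(0, [(0, .ofNat 331549200)])])]), (1, [(3, [(0, [(0, .negSucc 640353599)])])])]), (2, [(0, [(3, [(0, [(0, .negSucc 876549599)])])])])]
  W1 := [(0, [(0, [(0, [(0, [(0, .ofNat 811522800)])]), (2, [(0, [(0, .negSucc 1085189399)])]), (3, [(1, [(0, .ofNat 927579600)])]), (4, [(0, [(0, .ofNat 509571000)])]), (5, [(1, [(0, .negSucc 1189727999)])])]), (1, [(0, [(0, [(0, .negSucc 861094799)])]), (2, [(0, [(0, .ofNat 2180147400)])]), (3, [(1, [(0, .negSucc 700423199)])]), (4, [(0, [(0, .negSucc 1312199999)])]), (5, [(1, [(0, .ofNat 1575223200)])])]), (2, [(0, [(0, [(0, .ofNat 442065600)])]), (2, [(0, [(0, .negSucc 1231718399)])]), (3, [(1,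 [(0, .negSucc 422236799)])]), (4, [(0, [(0, .ofNat 758014200)])])])]), (1, [(0, [(0, [(0, [(0, .negSucc 1168732799)])]), (2, [(0, [(0, .ofNat 986774400)])]), (3, [(1, [(0, .ofNat 585532800)])]), (4, [(0, [(0, .negSucc 493387199)])]), (5, [(1, [(0, .negSucc 318427199)])])]), (1, [(0, [(0, [(0, .ofNat 3476455200)])]), (2, [(0, [(0, .negSucc 3495700799)])]), (3, [(1, [(0, .negSucc 468601199)])]), (4, [(0, [(0, .ofNat 1747850400)])])]), (2, [(0, [(0, [(0, .negSucc 1120910399)])])])]), (2, [(0, [(0, [(0, [(0, .ofNat 1230552000)])]), (2, [(0, [(0, .negSucc 485805599)])]), (4, [(0, [(0, .ofNat 275270400)])])]), (1, [(0, [(0, [(0, .negSucc 900460799)])]), (2, [(0, [(0, .negSucc 450230399)])])])])]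
  W2 := [(0, [(0, [(1, [(0, [(0, .negSucc 499073399)])]), (3, [(0, [(0, .ofNat 892296000)])])]), (1, [(1, [(0, [(0, .negSucc 130782599)])]), (3, [(0, [(0, .negSucc 1181417399)])])]), (2, [(1, [(0, [(0, .ofNat 633355200)])])])]), (1, [(0, [(1, [(0, [(0, .negSucc 1119743999)])]), (3, [(0, [(0, .ofNat 318427200)])])]), (1, [(1, [(0, [(0, .ofNat 1405803600)])])])]), (2, [(0, [(1, [(0, [(0, .ofNat 575618400)])])])])]
  psi := [(0, [(0, [(0, [(0, [(0, .ofNat 405761400)])]), (1, [(1, [(0, .negSucc 166357799)])]), (2, [(0, [(0, .negSucc 169856999)])]), (3, [(1, [(0, .ofNat 297432000)])])]), (1, [(0, [(0, [(0, .negSucc 430547399)])]), (1, [(1, [(0, .negSucc 43594199)])]), (2, [(0, [(0, .ofNat 437400000)])]), (3, [(1, [(0, .negSucc 393805799)])])]), (2, [(0, [(0, [(0, .ofNat 221032800)])]), (1, [(1, [(0, .ofNat 211118400)])]), (2, [(0, [(0, .negSucc 252671399)])])])]), (1, [(0, [(0, [(0, [(0, .negSucc 584366399)])]), (1, [(1, [(0, .negSucc 373247999)])]),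 (2, [(0, [(0, .ofNat 246693600)])]), (3, [(1, [(0, .ofNat 106142400)])])]), (1, [(0, [(0, [(0, .ofNat 1738227600)])]), (1, [(1, [(0, .ofNat 468601200)])]), (2, [(0, [(0, .negSucc 873925199)])])]), (2, [(0, [(0, [(0, .negSucc 560455199)])])])]), (2, [(0, [(0, [(0, [(0, .ofNat 615276000)])]), (1, [(1, [(0, .ofNat 191872800)])]), (2, [(0, [(0, .negSucc 275270399)])])]), (1, [(0, [(0, [(0, .negSucc 450230399)])])])])]
  G1 := [(0, [(1, [(0, [(0, [(0, .ofNat 3)])])])]), (2, [(0, [(0, [(0, [(0, .negSucc 3)])]), (2, [(0, [(0, .ofNat 4)])])])])]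
  G2 := [(0, [(0, [(0, [(0, [(0, .ofNat 4)])])]), (2, [(0, [(0, [(0, .negSucc 3)])])])]), (2, [(0, [(2, [(0, [(0, .negSucc 47)])])])])]
  G3 := [(0, [(0, [(0, [(0, [(0, .ofNat 27), (2, .negSucc 269), (4, .ofNat 864), (6, .negSucc 863)]), (1, [(1, .ofNat 324), (3, .negSucc 719)]), (2, [(0, .negSucc 161)])])])])]
  G4 := [(0, [(0, [(0, [(0, [(0, .ofNat 3), (2, .negSucc 3)])])])])]

/-- chart data, signs `(-1, -1)` -/
def mm : CD where
  g := [(0, [(0, [(0, [(0, [(0, .ofNat 319593600)])]), (2, [(0, [(0, .negSucc 143029799)])]), (3, [(1, [(0, .negSucc 138364199)])]), (5, [(1, [(0, .ofNat 87917400)])])]), (1, [(0, [(0, [(0, .negSucc 176709599)])]), (2, [(0, [(0, .ofNat 159796800)])]), (3, [(1, [(0, .ofNat 276728400)])]), (5, [(1, [(0, .negSucc 98852399)])])]), (2, [(0, [(0, [(0, .negSucc 5540399)])]), (2, [(0, [(0, .negSucc 25077599)])]), (3, [(1, [(0, .negSucc 61673399)])])])]), (1, [(0, [(0, [(0, [(0, .negSucc 280810799)])]), (2, [(0, [(0, .negSucc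 35866799)])]), (3, [(1, [(0, .negSucc 348461999)])]), (5, [(1, [(0, .negSucc 110516399)])])]), (1, [(0, [(0, [(0, .ofNat 1164067200)])]), (2, [(0, [(0, .negSucc 454895999)])]), (3, [(1, [(0, .ofNat 213451200)])])]), (2, [(0, [(0, [(0, .negSucc 482306399)])])])]), (2, [(0, [(0, [(0, [(0, .ofNat 1777593600)])]), (2, [(0, [(0, .negSucc 27993599)])]), (3, [(1, [(0, .ofNat 292183200)])])]), (1, [(0, [(0, [(0, .negSucc 1604966399)])])])])]
  k11 := [(0, [(0, [(0, [(0, [(0, .ofNat 106531200), (2, .ofNat 142041600)])]), (2, [(0, [(0, .negSucc 47676599), (2, .negSucc 63568799)])]), (3, [(1, [(0, .negSucc 46121399), (2, .negSucc 61495199)])]), (5, [(1, [(0, .ofNat 29305800), (2, .ofNat 39074400)])])]), (1, [(0, [(0, [(0, .negSucc 58903199), (2, .negSucc 78537599)])]), (2, [(0, [(0, .ofNat 53265600), (2, .ofNat 71020800)])]), (3, [(1, [(0, .ofNat 92242800), (2, .ofNat 122990400)])]), (5, [(1, [(0, .negSucc 32950799), (2, .negSucc 43934399)])])]), (2, [(0,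 [(0, [(0, .negSucc 1846799), (2, .negSucc 2462399)])]), (2, [(0, [(0, .negSucc 8359199), (2, .negSucc 11145599)])]), (3, [(1, [(0, .negSucc 20557799), (2, .negSucc 27410399)])])])]), (1, [(0, [(0, [(0, [(0, .negSucc 93603599), (2, .negSucc 124804799)])]), (2, [(0, [(0, .negSucc 11955599), (2, .negSucc 15940799)])]), (3, [(1, [(0, .negSucc 116153999), (2, .negSucc 154871999)])]), (5, [(1, [(0, .negSucc 36838799), (2, .negSucc 49118399)])])]), (1, [(0, [(0, [(0, .ofNat 388022400), (2, .ofNat 517363200)])]), (2, [(0, [(0, .negSucc 151631999), (2, .negSucc 202175999)])]), (3, [(1, [(0, .ofNat 71150400), (2, .ofNat 94867200)])])]), (2, [(0, [(0, [(0, .negSucc 160768799), (2, .negSucc 214358399)])])])]), (2, [(0, [(0, [(0, [(0, .ofNat 592531200), (2, .ofNat 790041600)])]), (2, [(0, [(0, .negSucc 9331199), (2, .negSucc 12441599)])]), (3, [(1, [(0, .ofNat 97394400), (2, .ofNat 129859200)])])]), (1, [(0, [(0, [(0, .negSucc 534988799), (2, .negSucc 713318399)])])])])]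
  k12 := [(0, [(0, [(0, [(0, [(1, .ofNat 35510400), (3, .negSucc 142041599)]), (1, [(0, .negSucc 106531199)])]), (2, [(0, [(1, .negSucc 15892199), (3, .ofNat 63568800)]), (1, [(0, .ofNat 47676600)])]), (3, [(1, [(1, .negSucc 15373799), (3, .ofNat 61495200)]), (2, [(0, .ofNat 46121400)])]), (5, [(1, [(1, .ofNat 9768600), (3, .negSucc 39074399)]), (2, [(0, .negSucc 29305799)])])]), (1, [(0, [(0, [(1, .negSucc 19634399), (3, .ofNat 78537600)]), (1, [(0, .ofNat 58903200)])]), (2, [(0, [(1, .ofNat 17755200), (3, .negSucc 71020799)]), (1, [(0, .negSucc 53265599)])]), (3, [(1, [(1, .ofNat 30747600), (3, .negSucc 122990399)]), (2, [(0, .negSucc 92242799)])]), (5, [(1, [(1, .negSucc 10983599), (3, .ofNat 43934400)]), (2, [(0, .ofNat 32950800)])])]), (2, [(0, [(0, [(1, .negSucc 615599), (3, .ofNat 2462400)]), (1, [(0, .ofNat 1846800)])]), (2, [(0, [(1, .negSucc 2786399), (3, .ofNat 11145600)]), (1, [(0, .ofNat 8359200)])]), (3, [(1, [(1, .negSucc 6852599),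 (3, .ofNat 27410400)]), (2, [(0, .ofNat 20557800)])])])]), (1, [(0, [(0, [(0, [(1, .negSucc 31201199), (3, .ofNat 124804800)]), (1, [(0, .ofNat 93603600)])]), (2, [(0, [(1, .negSucc 3985199), (3, .ofNat 15940800)]), (1, [(0, .ofNat 11955600)])]), (3, [(1, [(1, .negSucc 38717999), (3, .ofNat 154872000)]), (2, [(0, .ofNat 116154000)])]), (5, [(1, [(1, .negSucc 12279599), (3, .ofNat 49118400)]), (2, [(0, .ofNat 36838800)])])]), (1, [(0, [(0, [(1, .ofNat 129340800), (3, .negSucc 517363199)]), (1, [(0, .negSucc 388022399)])]), (2, [(0, [(1, .negSucc 50543999), (3, .ofNat 202176000)]), (1, [(0, .ofNat 151632000)])]), (3, [(1, [(1, .ofNat 23716800), (3, .negSucc 94867199)]), (2, [(0, .negSucc 71150399)])])]), (2, [(0, [(0, [(1, .negSucc 53589599), (3, .ofNat 214358400)]), (1, [(0, .ofNat 160768800)])])])]), (2, [(0, [(0, [(0, [(1, .ofNat 197510400), (3, .negSucc 790041599)]), (1, [(0, .negSucc 592531199)])]), (2, [(0, [(1, .negSucc 3110399), (3, .ofNat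 12441600)]), (1, [(0, .ofNat 9331200)])]), (3, [(1, [(1, .ofNat 32464800), (3, .negSucc 129859199)]), (2, [(0, .negSucc 97394399)])])]), (1, [(0, [(0, [(1, .negSucc 178329599), (3, .ofNat 713318400)]), (1, [(0, .ofNat 534988800)])])])])]
  k22 := [(0, [(0, [(0, [(0, [(0, .ofNat 35510400), (2, .negSucc 284083199), (4, .ofNat 568166400)]), (1, [(1, .negSucc 142041599)])]), (2, [(0, [(0, .negSucc 15892199), (2, .ofNat 127137600), (4, .negSucc 254275199)]), (1, [(1, .ofNat 63568800)])]), (3, [(1, [(0, .negSucc 15373799), (2, .ofNat 122990400), (4, .negSucc 245980799)]), (2, [(1, .ofNat 61495200)])]), (5, [(1, [(0, .ofNat 9768600), (2, .negSucc 78148799), (4, .ofNat 156297600)]), (2, [(1, .negSucc 39074399)])])]), (1, [(0, [(0, [(0, .negSucc 19634399), (2, .ofNat 157075200), (4, .negSucc 314150399)]), (1, [(1, .ofNat 78537600)])]), (2, [(0, [(0, .ofNat 17755200), (2, .negSucc 142041599), (4, .ofNat 284083200)]), (1, [(1, .negSucc 71020799)])]), (3,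 [(1, [(0, .ofNat 30747600), (2, .negSucc 245980799), (4, .ofNat 491961600)]), (2, [(1, .negSucc 122990399)])]), (5, [(1, [(0, .negSucc 10983599), (2, .ofNat 87868800), (4, .negSucc 175737599)]), (2, [(1, .ofNat 43934400)])])]), (2, [(0, [(0, [(0, .negSucc 615599), (2, .ofNat 4924800), (4, .negSucc 9849599)]), (1, [(1, .ofNat 2462400)])]), (2, [(0, [(0, .negSucc 2786399), (2, .ofNat 22291200), (4, .negSucc 44582399)]), (1, [(1, .ofNat 11145600)])]), (3, [(1, [(0, .negSucc 6852599), (2, .ofNat 54820800), (4, .negSucc 109641599)]), (2, [(1, .ofNat 27410400)])])])]), (1, [(0, [(0, [(0, [(0, .negSucc 31201199), (2, .ofNat 249609600), (4, .negSucc 499219199)]), (1, [(1, .ofNat 124804800)])]), (2, [(0, [(0, .negSucc 3985199), (2, .ofNat 31881600), (4, .negSucc 63763199)]), (1, [(1, .ofNat 15940800)])]), (3, [(1, [(0, .negSucc 38717999), (2, .ofNat 309744000), (4, .negSucc 619487999)]), (2, [(1, .ofNat 154872000)])]), (5, [(1, [(0, .negSucc 12279599),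 (2, .ofNat 98236800), (4, .negSucc 196473599)]), (2, [(1, .ofNat 49118400)])])]), (1, [(0, [(0, [(0, .ofNat 129340800), (2, .negSucc 1034726399), (4, .ofNat 2069452800)]), (1, [(1, .negSucc 517363199)])]), (2, [(0, [(0, .negSucc 50543999), (2, .ofNat 404352000), (4, .negSucc 808703999)]), (1, [(1, .ofNat 202176000)])]), (3, [(1, [(0, .ofNat 23716800), (2, .negSucc 189734399), (4, .ofNat 379468800)]), (2, [(1, .negSucc 94867199)])])]), (2, [(0, [(0, [(0, .negSucc 53589599), (2, .ofNat 428716800), (4, .negSucc 857433599)]), (1, [(1, .ofNat 214358400)])])])]), (2, [(0, [(0, [(0, [(0, .ofNat 197510400), (2, .negSucc 1580083199), (4, .ofNat 3160166400)]), (1, [(1, .negSucc 790041599)])]), (2, [(0, [(0, .negSucc 3110399), (2, .ofNat 24883200), (4, .negSucc 49766399)]), (1, [(1, .ofNat 12441600)])]), (3, [(1, [(0, .ofNat 32464800), (2, .negSucc 259718399), (4, .ofNat 519436800)]), (2, [(1, .negSucc 129859199)])])]), (1, [(0, [(0, [(0, .negSucc 178329599),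 (2, .ofNat 1426636800), (4, .negSucc 2853273599)]), (1, [(1, .ofNat 713318400)])])])])]
  C0 := [(0, [(0, [(0, [(0, [(0, .ofNat 15329412)])]), (1, [(1, [(0, .negSucc 25449875)])]), (2, [(0, [(0, .ofNat 107089128)])]), (3, [(1, [(0, .ofNat 352984716)])]), (4, [(0, [(0, .ofNat 62747460)]), (2, [(0, .negSucc 369748799)])]), (5, [(1, [(0, .negSucc 136245239)])]), (6, [(2, [(0, .ofNat 29889000)])]), (7, [(1, [(0, .negSucc 117223199)])])]), (1, [(0, [(0, [(0, .ofNat 92815308)])]), (1, [(1, [(0, .negSucc 296884763)])]), (2, [(0, [(0, .negSucc 590527907)])]), (3, [(1, [(0, .ofNat 111997728)])]), (4, [(0, [(0, .ofNat 116445600)]), (2, [(0, .ofNat 448772400)])]), (5, [(1, [(0, .negSucc 32063363)])]), (6, [(2, [(0, .negSucc 45781199)])]), (7, [(1, [(0, .ofNat 131803200)])])]), (2, [(0, [(0, [(0, .negSucc 73150775)])]), (1, [(1, [(0, .ofNat 195055128)])]), (2, [(0, [(0, .ofNat 543675564)])]), (3, [(1, [(0, .negSucc 186744527)])]), (4, [(0, [(0, .negSucc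 156908987)]), (2, [(0, .negSucc 93895199)])]), (5, [(1, [(0, .ofNat 82231200)])])])]), (1, [(0, [(0, [(0, [(0, .negSucc 89614511)])]), (1, [(1, [(0, .negSucc 1023399359)])]), (2, [(0, [(0, .negSucc 918831599)])]), (3, [(1, [(0, .negSucc 321980831)])]), (4, [(0, [(0, .ofNat 595248912)]), (2, [(0, .ofNat 1749308400)])]), (5, [(1, [(0, .ofNat 1374831792)])]), (6, [(2, [(0, .negSucc 874799999)])]), (7, [(1, [(0, .ofNat 127429200)])])]), (1, [(0, [(0, [(0, .negSucc 403074791)])]), (1, [(1, [(0, .ofNat 2559647304)])]), (2, [(0, [(0, .ofNat 2288873376)])]), (3, [(1, [(0, .negSucc 2057706503)])]), (4, [(0, [(0, .negSucc 1010998583)]), (2, [(0, .negSucc 874508399)])]), (5, [(1, [(0, .negSucc 646185599)])]), (7, [(1, [(0, .ofNat 30520800)])])]), (2, [(0, [(0, [(0, .ofNat 485875584)])]), (1, [(1, [(0, .negSucc 645019199)])]), (2, [(0, [(0, .negSucc 962933183)])]), (3, [(1, [(0, .ofNat 914846400)])]), (4, [(0, [(0, .ofNat 547333200)])]), (5, [(1, [(0, .ofNat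 62596800)])])])]), (2, [(0, [(0, [(0, [(0, .ofNat 1265096880)])]), (1, [(1, [(0, .ofNat 2573572176)])]), (2, [(0, [(0, .negSucc 1335718511)])]), (3, [(1, [(0, .ofNat 303159024)])]), (4, [(0, [(0, .ofNat 1474384032)]), (2, [(0, .negSucc 872467199)])]), (5, [(1, [(0, .negSucc 2295280799)])]), (7, [(1, [(0, .ofNat 583200000)])])]), (1, [(0, [(0, [(0, .negSucc 1085778431)])]), (1, [(1, [(0, .negSucc 3403555199)])]), (2, [(0, [(0, .ofNat 4584200832)])]), (3, [(1, [(0, .ofNat 1749794400)])]), (4, [(0, [(0, .negSucc 1748822399)])]), (5, [(1, [(0, .ofNat 583005600)])])]), (2, [(0, [(0, [(0, .negSucc 181180799)])]), (2, [(0, [(0, .ofNat 181180800)])])])]), (3, [(0, [(0, [(0, [(0, .negSucc 1466164799)])]), (1, [(1, [(0, .ofNat 623635200)])]), (2, [(0, [(0, .ofNat 2496873600)])]), (3, [(1, [(0, .negSucc 1205279999)])]), (4, [(0, [(0, .negSucc 1030708799)])]), (5, [(1, [(0, .ofNat 581644800)])])]), (1, [(0, [(0, [(0, .ofNat 1528761600)])]), (2, [(0, [(0,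 .negSucc 1528761599)])])])])]
  Ck := [(0, [(0, [(0, [(0, [(0, .ofNat 6269400), (2, .ofNat 464227200)])]), (1, [(0, [(1, .ofNat 182541600), (3, .negSucc 528087599)]), (1, [(0, .negSucc 326737799)])]), (2, [(0, [(0, .ofNat 431130600), (2, .negSucc 867801599)]), (1, [(1, .ofNat 634521600)])]), (3, [(0, [(1, .negSucc 333736199), (3, .ofNat 275270400)]), (1, [(0, .negSucc 29305799), (2, .negSucc 1136219399)])]), (4, [(1, [(1, .negSucc 197413199), (3, .ofNat 897544800)])]), (5, [(1, [(2, .ofNat 781488000)])]), (6, [(1, [(3, .negSucc 91562399)])])]), (1, [(0, [(0, [(2, .negSucc 133261199)])]), (1, [(0, [(1, .ofNat 149299200), (3, .ofNat 144050400)]), (1, [(0, .ofNat 437400000)])]), (2, [(0, [(0, .negSucc 437254199), (2, .ofNat 1288872000)]), (1, [(1, .negSucc 1310450399)])]), (3, [(0, [(1, .negSucc 374414399), (3, .negSucc 36741599)]), (1, [(2, .ofNat 692112600)])]), (4, [(1, [(3, .negSucc 375580799)])])]), (2, [(0, [(0, [(0, .ofNat 75524400), (2,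 .negSucc 166211999)])]), (1, [(0, [(1, .negSucc 35137799)])])])]), (1, [(0, [(0, [(0, [(0, .ofNat 721418400), (2, .negSucc 686426399)])]), (1, [(0, [(1, .negSucc 1929225599), (3, .ofNat 2145009600)]), (1, [(0, .negSucc 233863199)])]), (2, [(0, [(0, .negSucc 686426399), (2, .ofNat 4698842400)]), (1, [(1, .negSucc 3427466399)])]), (3, [(0, [(1, .ofNat 2274480000), (3, .negSucc 1749599999)]), (1, [(2, .ofNat 249609600)])]), (4, [(0, [(2, .negSucc 1749599999)]), (1, [(3, .negSucc 1749016799)])])]), (1, [(0, [(0, [(0, .negSucc 840974399), (2, .ofNat 1070755200)])]), (1, [(0, [(1, .negSucc 2353795199), (3, .ofNat 1329696000)])]), (2, [(0, [(2, .ofNat 281102400)])])])]), (2, [(0, [(1, [(0, [(1, .ofNat 1681948800), (3, .negSucc 2141510399)])]), (2, [(0, [(2, .ofNat 3499200000)])])])])]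
  L1 := [(0, [(0, [(0, [(0, [(0, .negSucc 73774799)])]), (1, [(0, [(1, .negSucc 122034599)])]), (2, [(0, [(0, .negSucc 460144799), (2, .ofNat 161838000)])]), (3, [(0, [(1, .negSucc 29305799)]), (1, [(0, .ofNat 580575600)])]), (4, [(0, [(0, .ofNat 261565200), (2, .negSucc 161837999)]), (1, [(1, .ofNat 412322400)])]), (5, [(1, [(0, .negSucc 567161999), (2, .negSucc 1169024399)])]), (6, [(1, [(1, .negSucc 657849599)])]), (7, [(1, [(2, .ofNat 149445000)])])]), (1, [(0, [(0, [(0, .ofNat 1198330200)])]), (1, [(0, [(1, .ofNat 788778000)])]), (2, [(0, [(0, .negSucc 354002399), (2, .negSucc 275270399)])]), (3, [(0, [(1, .negSucc 285038999)]), (1, [(0, .ofNat 59340600)])]), (4, [(0, [(0, .negSucc 5540399), (2, .ofNat 275270400)]), (1, [(1, .negSucc 358959599)])]), (5, [(1, [(0, .ofNat 81648000), (2, .ofNat 1437879600)])]), (6, [(1, [(1, .ofNat 688176000)])]), (7, [(1, [(2, .negSucc 228905999)])])]), (2, [(0, [(0, [(0, .negSucc 789215399)])]), (1, [(0,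 [(1, .negSucc 526483799)])]), (2, [(0, [(0, .ofNat 820999800), (2, .ofNat 18370800)])]), (3, [(0, [(1, .ofNat 212868000)]), (1, [(0, .negSucc 272645999)])]), (4, [(0, [(0, .negSucc 405907199), (2, .negSucc 18370799)]), (1, [(1, .ofNat 127429200)])]), (5, [(1, [(2, .negSucc 281685599)])])])]), (1, [(0, [(0, [(0, [(0, .ofNat 2714796000)])]), (1, [(0, [(1, .negSucc 188956799)])]), (2, [(0, [(0, .ofNat 3239384400), (2, .ofNat 523713600)])]), (3, [(0, [(1, .negSucc 1715774399)]), (1, [(0, .negSucc 1574348399)])]), (4, [(0, [(0, .negSucc 862261199), (2, .ofNat 194205600)]), (1, [(1, .negSucc 880048799)])]), (5, [(0, [(1, .ofNat 1312783200)]), (1, [(0, .ofNat 992023200), (2, .ofNat 5248216800)])]), (6, [(1, [(1, .ofNat 1327946400)])]), (7, [(1, [(2, .negSucc 3499199999)])])]), (1, [(0, [(0, [(0, .negSucc 2677471199)])]), (1, [(0, [(1, .negSucc 1569974399)])]), (2, [(0, [(0, .negSucc 2623233599), (2, .ofNat 677095200)])]), (3, [(0, [(1, .ofNat 3499200000)]),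 (1, [(0, .ofNat 874508400)])]), (4, [(0, [(0, .ofNat 874508400), (2, .negSucc 874799999)]), (1, [(1, .negSucc 311428799)])]), (5, [(0, [(1, .negSucc 1749599999)]), (1, [(2, .negSucc 1749016799)])])]), (2, [(0, [(0, [(0, .negSucc 30326399)])]), (1, [(0, [(1, .negSucc 140551199)])]), (2, [(0, [(0, .ofNat 151048800), (2, .negSucc 332423999)])])])]), (2, [(0, [(0, [(0, [(0, .ofNat 756410400)])]), (1, [(0, [(1, .negSucc 648518399)])]), (2, [(0, [(0, .negSucc 103226399), (2, .ofNat 1026432000)])]), (3, [(0, [(1, .ofNat 172627200)]), (1, [(0, .ofNat 638604000)])]), (5, [(0, [(1, .negSucc 525463199)]), (1, [(2, .negSucc 872467199)])])]), (1, [(0, [(0, [(0, .negSucc 611193599)])]), (1, [(0, [(1, .negSucc 3499199999)])]), (2, [(0, [(0, .negSucc 1681948799), (2, .ofNat 2141510400)])]), (3, [(0, [(1, .negSucc 1749599999)])])])])]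
  L2 := [(0, [(0, [(1, [(0, [(0, .ofNat 191143800)])]), (2, [(0, [(1, .ofNat 807003000)])]), (3, [(0, [(0, .negSucc 482014799), (2, .negSucc 1109246399)])]), (4, [(0, [(1, .negSucc 641665799)])]), (5, [(0, [(2, .ofNat 89667000)])])]), (1, [(1, [(0, [(0, .ofNat 1275895800)])]), (2, [(0, [(1, .negSucc 392347799)])]), (3, [(0, [(0, .ofNat 35866800), (2, .ofNat 1346317200)])]), (4, [(0, [(1, .ofNat 516132000)])]), (5, [(0, [(2, .negSucc 137343599)])])]), (2, [(1, [(0, [(0, .negSucc 1099623599)])]), (2, [(0, [(1, .ofNat 191143800)])]), (3, [(0, [(2, .negSucc 281685599)])])])]), (1, [(0, [(1, [(0, [(0, .ofNat 1960426800)])]), (2, [(0, [(1, .ofNat 1296453600)])]), (3, [(0, [(0, .ofNat 175834800), (2, .ofNat 5247925200)])]), (4, [(0, [(1, .ofNat 1327946400)])]), (5, [(0, [(2, .negSucc 2624399999)])])]), (1, [(1, [(0, [(0, .negSucc 2624399999)])]), (2, [(0, [(1, .negSucc 934286399)])]), (3, [(0, [(2, .negSucc 2623525199)])])])]), (2, [(0, [(1, [(0, [(0,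 .ofNat 701589600)])]), (2, [(0, [(1, .ofNat 5033599200)])]), (3, [(0, [(2, .negSucc 2617401599)])])])])]
  Lw := [(0, [(0, [(0, [(0, [(0, .negSucc 292183199)])]), (1, [(0, [(1, .ofNat 861094800)]), (1, [(0, .ofNat 186624000)])]), (2, [(0, [(0, .ofNat 123346800)]), (1, [(1, .negSucc 87188399)])]), (3, [(0, [(1, .negSucc 874799999)]), (1, [(0, .negSucc 53071199)])]), (4, [(1, [(1, .negSucc 787611599)])])]), (1, [(0, [(0, [(0, .ofNat 869113800)])]), (1, [(0, [(1, .negSucc 884131199)]), (1, [(0, .negSucc 234300599)])]), (2, [(0, [(0, .negSucc 436962599)]), (1, [(1, .ofNat 844473600)])]), (3, [(0, [(1, .ofNat 1010685600)])])]), (2, [(0, [(0, [(0, .negSucc 280227599)])])])]), (1, [(0, [(0, [(0, [(0, .ofNat 615276000)])]), (1, [(0, [(1, .negSucc 3476455199)]), (1, [(0, .negSucc 191872799)])]), (2, [(0, [(0, .negSucc 275270399)]), (1, [(1, .ofNat 937202400)])]), (3, [(0, [(1, .ofNat 1747850400)])])]), (1, [(0, [(0, [(0, .negSucc 450230399)])]), (1, [(0,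 [(1, .ofNat 2241820800)])])])]), (2, [(0, [(1, [(0, [(1, .ofNat 900460800)])])])])]
  A11 := [(0, [(0, [(2, [(0, [(0, .negSucc 605653199)])]), (4, [(0, [(0, .ofNat 429089400)])]), (5, [(1, [(0, .ofNat 729291600)])]), (7, [(1, [(0, .negSucc 527504399)])])]), (1, [(2, [(0, [(0, .ofNat 496303200)])]), (4, [(0, [(0, .negSucc 479390399)])]), (5, [(1, [(0, .negSucc 1304618399)])]), (7, [(1, [(0, .ofNat 593114400)])])]), (2, [(2, [(0, [(0, .negSucc 44614799)])]), (4, [(0, [(0, .ofNat 75232800)])]), (5, [(1, [(0, .ofNat 246693600)])])])]), (1, [(0, [(2, [(0, [(0, .negSucc 71733599)])]), (4, [(0, [(0, .ofNat 71733600)])]), (5, [(1, [(0, .ofNat 824353200)])]), (7, [(1, [(0, .ofNat 552582000)])])]), (1, [(2, [(0, [(0, .negSucc 909791999)])]), (4, [(0, [(0, .ofNat 909792000)])]), (5, [(1, [(0, .negSucc 640353599)])])])]), (2, [(0, [(2, [(0, [(0, .ofNat 1721606400)])]), (4, [(0, [(0, .ofNat 27993600)])]), (5, [(1, [(0, .negSucc 584366399)])])]), (1, [(2,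 [(0, [(0, .negSucc 1604966399)])])])])]
  A12 := [(0, [(0, [(3, [(0, [(0, .ofNat 415092600)])]), (5, [(0, [(0, .negSucc 263752199)])])]), (1, [(3, [(0, [(0, .negSucc 830185199)])]), (5, [(0, [(0, .ofNat 296557200)])])]), (2, [(3, [(0, [(0, .ofNat 185020200)])])])]), (1, [(0, [(3, [(0, [(0, .ofNat 1045386000)])]), (5, [(0, [(0, .ofNat 331549200)])])]), (1, [(3, [(0, [(0, .negSucc 640353599)])])])]), (2, [(0, [(3, [(0, [(0, .negSucc 876549599)])])])])]
  W1 := [(0, [(0, [(0, [(0, [(0, .ofNat 811522800)])]), (2, [(0, [(0, .negSucc 1085189399)])]), (3, [(1, [(0, .negSucc 927579599)])]), (4, [(0, [(0, .ofNat 509571000)])]), (5, [(1, [(0, .ofNat 1189728000)])])]), (1, [(0, [(0, [(0, .negSucc 861094799)])]), (2, [(0, [(0, .ofNat 2180147400)])]), (3, [(1, [(0, .ofNat 700423200)])]), (4, [(0, [(0, .negSucc 1312199999)])]), (5, [(1, [(0, .negSucc 1575223199)])])]), (2, [(0, [(0, [(0, .ofNat 442065600)])]), (2, [(0, [(0, .negSucc 1231718399)])]), (3, [(1,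 [(0, .ofNat 422236800)])]), (4, [(0, [(0, .ofNat 758014200)])])])]), (1, [(0, [(0, [(0, [(0, .negSucc 1168732799)])]), (2, [(0, [(0, .ofNat 986774400)])]), (3, [(1, [(0, .negSucc 585532799)])]), (4, [(0, [(0, .negSucc 493387199)])]), (5, [(1, [(0, .ofNat 318427200)])])]), (1, [(0, [(0, [(0, .ofNat 3476455200)])]), (2, [(0, [(0, .negSucc 3495700799)])]), (3, [(1, [(0, .ofNat 468601200)])]), (4, [(0, [(0, .ofNat 1747850400)])])]), (2, [(0, [(0, [(0, .negSucc 1120910399)])])])]), (2, [(0, [(0, [(0, [(0, .ofNat 1230552000)])]), (2, [(0, [(0, .negSucc 485805599)])]), (4, [(0, [(0, .ofNat 275270400)])])]), (1, [(0, [(0, [(0, .negSucc 900460799)])]), (2, [(0, [(0, .negSucc 450230399)])])])])]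
  W2 := [(0, [(0, [(1, [(0, [(0, .negSucc 499073399)])]), (3, [(0, [(0, .ofNat 892296000)])])]), (1, [(1, [(0, [(0, .negSucc 130782599)])]), (3, [(0, [(0, .negSucc 1181417399)])])]), (2, [(1, [(0, [(0, .ofNat 633355200)])])])]), (1, [(0, [(1, [(0, [(0, .negSucc 1119743999)])]), (3, [(0, [(0, .ofNat 318427200)])])]), (1, [(1, [(0, [(0, .ofNat 1405803600)])])])]), (2, [(0, [(1, [(0, [(0, .ofNat 575618400)])])])])]
  psi := [(0, [(0, [(0, [(0, [(0, .ofNat 405761400)])]), (1, [(1, [(0, .ofNat 166357800)])]), (2, [(0, [(0, .negSucc 169856999)])]), (3, [(1, [(0, .negSucc 297431999)])])]), (1, [(0, [(0, [(0, .negSucc 430547399)])]), (1, [(1, [(0, .ofNat 43594200)])]), (2, [(0, [(0, .ofNat 437400000)])]), (3, [(1, [(0, .ofNat 393805800)])])]), (2, [(0, [(0, [(0, .ofNat 221032800)])]), (1, [(1, [(0, .negSucc 211118399)])]), (2, [(0, [(0, .negSucc 252671399)])])])]), (1, [(0, [(0, [(0, [(0, .negSucc 584366399)])]), (1, [(1, [(0, .ofNat 373248000)])]),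 (2, [(0, [(0, .ofNat 246693600)])]), (3, [(1, [(0, .negSucc 106142399)])])]), (1, [(0, [(0, [(0, .ofNat 1738227600)])]), (1, [(1, [(0, .negSucc 468601199)])]), (2, [(0, [(0, .negSucc 873925199)])])]), (2, [(0, [(0, [(0, .negSucc 560455199)])])])]), (2, [(0, [(0, [(0, [(0, .ofNat 615276000)])]), (1, [(1, [(0, .negSucc 191872799)])]), (2, [(0, [(0, .negSucc 275270399)])])]), (1, [(0, [(0, [(0, .negSucc 450230399)])])])])]
  G1 := [(0, [(1, [(0, [(0, [(0, .ofNat 3)])])])]), (2, [(0, [(0, [(0, [(0, .negSucc 3)])]), (2, [(0, [(0, .ofNat 4)])])])])]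
  G2 := [(0, [(0, [(0, [(0, [(0, .ofNat 4)])])]), (2, [(0, [(0, [(0, .negSucc 3)])])])]), (2, [(0, [(2, [(0, [(0, .negSucc 47)])])])])]
  G3 := [(0, [(0, [(0, [(0, [(0, .ofNat 27), (2, .negSucc 269), (4, .ofNat 864), (6, .negSucc 863)]), (1, [(1, .negSucc 323), (3, .ofNat 720)]), (2, [(0, .negSucc 161)])])])])]
  G4 := [(0, [(0, [(0, [(0, [(0, .ofNat 3), (2, .negSucc 3)])])])])]

/-- data of the chart `pp` -/
def ds_pp : DS := ⟨3, 1, 4, 2, 7, 2, 2, pp, cn⟩
/-- data of the chart `pm` -/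
def ds_pm : DS := ⟨3, 1, 4, 2, 7, 2, 2, pm, cn⟩
/-- data of the chart `mp` -/
def ds_mp : DS := ⟨3, 1, 4, 2, 7, 2, 2, mp, cn⟩
/-- data of the chart `mm` -/
def ds_mm : DS := ⟨3, 1, 4, 2, 7, 2, 2, mm, cn⟩

theorem pp_st : ds_pp.static = true := by decide +kernel
theorem pp_chk : CD.chk 1 1 V4.P B pp = true := by decide +kernel
theorem ok_pp : DSok ds_pp V4.P V4.D 1 1 := dsok_pp par bs rfl rfl pp_st pp_chk

theorem pm_st : ds_pm.static = true := by decide +kernel
theorem pm_chk : CD.chk 1 (-1) V4.P B pm = true := by decide +kernel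
theorem ok_pm : DSok ds_pm V4.P V4.D 1 (-1) := dsok_pm par bs rfl rfl pm_st pm_chk

theorem mp_st : ds_mp.static = true := by decide +kernel
theorem mp_chk : CD.chk (-1) 1 V4.P B mp = true := by decide +kernel
theorem ok_mp : DSok ds_mp V4.P V4.D (-1) 1 := dsok_mp par bs rfl rfl mp_st mp_chk

theorem mm_st : ds_mm.static = true := by decide +kernel
theorem mm_chk : CD.chk (-1) (-1) V4.P B mm = true := by decide +kernel
theorem ok_mm : DSok ds_mm V4.P V4.D (-1) (-1) := dsok_mm par bs rfl rfl mm_st mm_chk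

end Crest.Agent.R097.T4
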