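import Crest.Agent.R097.V4
import Crest.Agent.R097.KA3

/-!
# Row 97, KBA checker: base polynomials of chart S in dimension `n = 4` (generated, helper141)
-/

set_option autoImplicit false
set_option Elab.async false

namespace Crest.Agent.R097.T4

open Crest.Agent.R097.KA Crest.Agent.R097.CQ

/-- the base polynomials of chart S -/
def B : BaseP where
  g := [(.ofNat 319593600, [0, 0, 0, 0, 0]), (.negSucc 140405399, [0, 0, 0, 0, 1]), (.ofNat 444398400, [0, 0, 0, 0, 2]), (.negSucc 176709599, [0, 0, 0, 1, 0]), (.ofNat 582033600, [0, 0, 0, 1, 1]), (.negSucc 401241599, [0, 0, 0, 1, 2]), (.negSucc 5540399, [0, 0, 0, 2, 0]), (.negSucc 241153199, [0, 0, 0, 2, 1]), (.negSucc 143029799, [0, 0, 2, 0, 0]), (.negSucc 17933399, [0, 0, 2, 0, 1]), (.negSucc 6998399, [0, 0, 2, 0, 2]), (.ofNat 159796800, [0, 0, 2, 1, 0]), (.negSucc 227447999, [0, 0,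 2, 1, 1]), (.negSucc 25077599, [0, 0, 2, 2, 0]), (.ofNat 138364200, [0, 1, 3, 0, 0]), (.ofNat 174231000, [0, 1, 3, 0, 1]), (.negSucc 73045799, [0, 1, 3, 0, 2]), (.negSucc 276728399, [0, 1, 3, 1, 0]), (.negSucc 106725599, [0, 1, 3, 1, 1]), (.ofNat 61673400, [0, 1, 3, 2, 0]), (.negSucc 87917399, [0, 1, 5, 0, 0]), (.ofNat 55258200, [0, 1, 5, 0, 1]), (.ofNat 98852400, [0, 1, 5, 1, 0])]
  k11 := [(.ofNat 106531200, [0, 0, 0, 0, 0]), (.negSucc 46801799, [0, 0, 0, 0, 1]), (.ofNat 148132800, [0, 0, 0, 0, 2]), (.negSucc 58903199, [0, 0, 0, 1, 0]), (.ofNat 194011200, [0, 0, 0, 1, 1]), (.negSucc 133747199, [0, 0, 0, 1, 2]), (.negSucc 1846799, [0, 0, 0, 2, 0]), (.negSucc 80384399, [0, 0, 0, 2, 1]), (.negSucc 47676599, [0, 0, 2, 0, 0]), (.negSucc 5977799, [0, 0, 2, 0, 1]), (.negSucc 2332799, [0, 0, 2, 0, 2]), (.ofNat 53265600, [0, 0, 2, 1, 0]),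 (.negSucc 75815999, [0, 0, 2, 1, 1]), (.negSucc 8359199, [0, 0, 2, 2, 0]), (.ofNat 46121400, [0, 1, 3, 0, 0]), (.ofNat 58077000, [0, 1, 3, 0, 1]), (.negSucc 24348599, [0, 1, 3, 0, 2]), (.negSucc 92242799, [0, 1, 3, 1, 0]), (.negSucc 35575199, [0, 1, 3, 1, 1]), (.ofNat 20557800, [0, 1, 3, 2, 0]), (.negSucc 29305799, [0, 1, 5, 0, 0]), (.ofNat 18419400, [0, 1, 5, 0, 1]), (.ofNat 32950800, [0, 1, 5, 1, 0]), (.ofNat 142041600, [2, 0, 0, 0, 0]), (.negSucc 62402399, [2, 0, 0, 0, 1]), (.ofNat 197510400, [2, 0, 0, 0, 2]), (.negSucc 78537599, [2, 0, 0, 1, 0]), (.ofNat 258681600, [2, 0, 0, 1, 1]), (.negSucc 178329599, [2, 0, 0, 1, 2]), (.negSucc 2462399, [2, 0, 0, 2, 0]), (.negSucc 107179199, [2, 0, 0, 2, 1]), (.negSucc 63568799, [2, 0, 2, 0, 0]), (.negSucc 7970399, [2, 0, 2, 0, 1]), (.negSucc 3110399, [2, 0, 2, 0, 2]), (.ofNat 71020800, [2,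 0, 2, 1, 0]), (.negSucc 101087999, [2, 0, 2, 1, 1]), (.negSucc 11145599, [2, 0, 2, 2, 0]), (.ofNat 61495200, [2, 1, 3, 0, 0]), (.ofNat 77436000, [2, 1, 3, 0, 1]), (.negSucc 32464799, [2, 1, 3, 0, 2]), (.negSucc 122990399, [2, 1, 3, 1, 0]), (.negSucc 47433599, [2, 1, 3, 1, 1]), (.ofNat 27410400, [2, 1, 3, 2, 0]), (.negSucc 39074399, [2, 1, 5, 0, 0]), (.ofNat 24559200, [2, 1, 5, 0, 1]), (.ofNat 43934400, [2, 1, 5, 1, 0])]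
  k12 := [(.ofNat 106531200, [0, 1, 0, 0, 0]), (.negSucc 46801799, [0, 1, 0, 0, 1]), (.ofNat 148132800, [0, 1, 0, 0, 2]), (.negSucc 58903199, [0, 1, 0, 1, 0]), (.ofNat 194011200, [0, 1, 0, 1, 1]), (.negSucc 133747199, [0, 1, 0, 1, 2]), (.negSucc 1846799, [0, 1, 0, 2, 0]), (.negSucc 80384399, [0, 1, 0, 2, 1]), (.negSucc 47676599, [0, 1, 2, 0, 0]), (.negSucc 5977799, [0, 1, 2, 0, 1]), (.negSucc 2332799, [0, 1, 2, 0, 2]), (.ofNat 53265600, [0, 1, 2, 1, 0]), (.negSucc 75815999, [0, 1, 2, 1, 1]), (.negSucc 8359199, [0, 1, 2, 2, 0]), (.ofNat 46121400, [0, 2, 3, 0, 0]), (.ofNat 58077000, [0, 2, 3, 0, 1]), (.negSucc 24348599, [0, 2, 3, 0, 2]), (.negSucc 92242799, [0, 2, 3, 1, 0]), (.negSucc 35575199, [0, 2, 3, 1, 1]), (.ofNat 20557800, [0, 2, 3, 2, 0]), (.negSucc 29305799, [0, 2, 5, 0, 0]), (.ofNat 18419400, [0, 2, 5, 0, 1]), (.ofNat 32950800,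 [0, 2, 5, 1, 0]), (.negSucc 35510399, [1, 0, 0, 0, 0]), (.ofNat 15600600, [1, 0, 0, 0, 1]), (.negSucc 49377599, [1, 0, 0, 0, 2]), (.ofNat 19634400, [1, 0, 0, 1, 0]), (.negSucc 64670399, [1, 0, 0, 1, 1]), (.ofNat 44582400, [1, 0, 0, 1, 2]), (.ofNat 615600, [1, 0, 0, 2, 0]), (.ofNat 26794800, [1, 0, 0, 2, 1]), (.ofNat 15892200, [1, 0, 2, 0, 0]), (.ofNat 1992600, [1, 0, 2, 0, 1]), (.ofNat 777600, [1, 0, 2, 0, 2]), (.negSucc 17755199, [1, 0, 2, 1, 0]), (.ofNat 25272000, [1, 0, 2, 1, 1]), (.ofNat 2786400, [1, 0, 2, 2, 0]), (.negSucc 15373799, [1, 1, 3, 0, 0]), (.negSucc 19358999, [1, 1, 3, 0, 1]), (.ofNat 8116200, [1, 1, 3, 0, 2]), (.ofNat 30747600, [1, 1, 3, 1, 0]), (.ofNat 11858400, [1, 1, 3, 1, 1]), (.negSucc 6852599, [1, 1, 3, 2, 0]), (.ofNat 9768600, [1, 1, 5, 0, 0]), (.negSucc 6139799, [1, 1, 5, 0, 1]), (.negSucc 10983599, [1, 1,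 5, 1, 0]), (.ofNat 142041600, [3, 0, 0, 0, 0]), (.negSucc 62402399, [3, 0, 0, 0, 1]), (.ofNat 197510400, [3, 0, 0, 0, 2]), (.negSucc 78537599, [3, 0, 0, 1, 0]), (.ofNat 258681600, [3, 0, 0, 1, 1]), (.negSucc 178329599, [3, 0, 0, 1, 2]), (.negSucc 2462399, [3, 0, 0, 2, 0]), (.negSucc 107179199, [3, 0, 0, 2, 1]), (.negSucc 63568799, [3, 0, 2, 0, 0]), (.negSucc 7970399, [3, 0, 2, 0, 1]), (.negSucc 3110399, [3, 0, 2, 0, 2]), (.ofNat 71020800, [3, 0, 2, 1, 0]), (.negSucc 101087999, [3, 0, 2, 1, 1]), (.negSucc 11145599, [3, 0, 2, 2, 0]), (.ofNat 61495200, [3, 1, 3, 0, 0]), (.ofNat 77436000, [3, 1, 3, 0, 1]), (.negSucc 32464799, [3, 1, 3, 0, 2]), (.negSucc 122990399, [3, 1, 3, 1, 0]), (.negSucc 47433599, [3, 1, 3, 1, 1]), (.ofNat 27410400, [3, 1, 3, 2, 0]), (.negSucc 39074399, [3, 1, 5, 0, 0]), (.ofNat 24559200, [3, 1, 5, 0, 1]), (.ofNat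 43934400, [3, 1, 5, 1, 0])]
  k22 := [(.ofNat 35510400, [0, 0, 0, 0, 0]), (.negSucc 15600599, [0, 0, 0, 0, 1]), (.ofNat 49377600, [0, 0, 0, 0, 2]), (.negSucc 19634399, [0, 0, 0, 1, 0]), (.ofNat 64670400, [0, 0, 0, 1, 1]), (.negSucc 44582399, [0, 0, 0, 1, 2]), (.negSucc 615599, [0, 0, 0, 2, 0]), (.negSucc 26794799, [0, 0, 0, 2, 1]), (.negSucc 15892199, [0, 0, 2, 0, 0]), (.negSucc 1992599, [0, 0, 2, 0, 1]), (.negSucc 777599, [0, 0, 2, 0, 2]), (.ofNat 17755200, [0, 0, 2, 1, 0]), (.negSucc 25271999, [0, 0, 2, 1, 1]), (.negSucc 2786399, [0, 0, 2, 2, 0]), (.ofNat 15373800, [0, 1, 3, 0, 0]), (.ofNat 19359000, [0, 1, 3, 0, 1]), (.negSucc 8116199, [0, 1, 3, 0, 2]), (.negSucc 30747599, [0, 1, 3, 1, 0]), (.negSucc 11858399, [0, 1, 3, 1, 1]), (.ofNat 6852600, [0, 1, 3, 2, 0]), (.negSucc 9768599, [0, 1, 5, 0, 0]), (.ofNat 6139800, [0, 1, 5, 0,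 1]), (.ofNat 10983600, [0, 1, 5, 1, 0]), (.negSucc 142041599, [1, 1, 0, 0, 0]), (.ofNat 62402400, [1, 1, 0, 0, 1]), (.negSucc 197510399, [1, 1, 0, 0, 2]), (.ofNat 78537600, [1, 1, 0, 1, 0]), (.negSucc 258681599, [1, 1, 0, 1, 1]), (.ofNat 178329600, [1, 1, 0, 1, 2]), (.ofNat 2462400, [1, 1, 0, 2, 0]), (.ofNat 107179200, [1, 1, 0, 2, 1]), (.ofNat 63568800, [1, 1, 2, 0, 0]), (.ofNat 7970400, [1, 1, 2, 0, 1]), (.ofNat 3110400, [1, 1, 2, 0, 2]), (.negSucc 71020799, [1, 1, 2, 1, 0]), (.ofNat 101088000, [1, 1, 2, 1, 1]), (.ofNat 11145600, [1, 1, 2, 2, 0]), (.negSucc 61495199, [1, 2, 3, 0, 0]), (.negSucc 77435999, [1, 2, 3, 0, 1]), (.ofNat 32464800, [1, 2, 3, 0, 2]), (.ofNat 122990400, [1, 2, 3, 1, 0]), (.ofNat 47433600, [1, 2, 3, 1, 1]), (.negSucc 27410399, [1, 2, 3, 2, 0]), (.ofNat 39074400, [1, 2, 5, 0, 0]), (.negSucc 24559199, [1, 2,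 5, 0, 1]), (.negSucc 43934399, [1, 2, 5, 1, 0]), (.negSucc 284083199, [2, 0, 0, 0, 0]), (.ofNat 124804800, [2, 0, 0, 0, 1]), (.negSucc 395020799, [2, 0, 0, 0, 2]), (.ofNat 157075200, [2, 0, 0, 1, 0]), (.negSucc 517363199, [2, 0, 0, 1, 1]), (.ofNat 356659200, [2, 0, 0, 1, 2]), (.ofNat 4924800, [2, 0, 0, 2, 0]), (.ofNat 214358400, [2, 0, 0, 2, 1]), (.ofNat 127137600, [2, 0, 2, 0, 0]), (.ofNat 15940800, [2, 0, 2, 0, 1]), (.ofNat 6220800, [2, 0, 2, 0, 2]), (.negSucc 142041599, [2, 0, 2, 1, 0]), (.ofNat 202176000, [2, 0, 2, 1, 1]), (.ofNat 22291200, [2, 0, 2, 2, 0]), (.negSucc 122990399, [2, 1, 3, 0, 0]), (.negSucc 154871999, [2, 1, 3, 0, 1]), (.ofNat 64929600, [2, 1, 3, 0, 2]), (.ofNat 245980800, [2, 1, 3, 1, 0]), (.ofNat 94867200, [2, 1, 3, 1, 1]), (.negSucc 54820799, [2, 1, 3, 2, 0]), (.ofNat 78148800, [2, 1, 5, 0, 0]), (.negSucc 49118399,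 [2, 1, 5, 0, 1]), (.negSucc 87868799, [2, 1, 5, 1, 0]), (.ofNat 568166400, [4, 0, 0, 0, 0]), (.negSucc 249609599, [4, 0, 0, 0, 1]), (.ofNat 790041600, [4, 0, 0, 0, 2]), (.negSucc 314150399, [4, 0, 0, 1, 0]), (.ofNat 1034726400, [4, 0, 0, 1, 1]), (.negSucc 713318399, [4, 0, 0, 1, 2]), (.negSucc 9849599, [4, 0, 0, 2, 0]), (.negSucc 428716799, [4, 0, 0, 2, 1]), (.negSucc 254275199, [4, 0, 2, 0, 0]), (.negSucc 31881599, [4, 0, 2, 0, 1]), (.negSucc 12441599, [4, 0, 2, 0, 2]), (.ofNat 284083200, [4, 0, 2, 1, 0]), (.negSucc 404351999, [4, 0, 2, 1, 1]), (.negSucc 44582399, [4, 0, 2, 2, 0]), (.ofNat 245980800, [4, 1, 3, 0, 0]), (.ofNat 309744000, [4, 1, 3, 0, 1]), (.negSucc 129859199, [4, 1, 3, 0, 2]), (.negSucc 491961599, [4, 1, 3, 1, 0]), (.negSucc 189734399, [4, 1, 3, 1, 1]), (.ofNat 109641600, [4, 1, 3, 2, 0]), (.negSucc 156297599, [4,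 1, 5, 0, 0]), (.ofNat 98236800, [4, 1, 5, 0, 1]), (.ofNat 175737600, [4, 1, 5, 1, 0])]
  C0 := [(.ofNat 15329412, [0, 0, 0, 0, 0]), (.negSucc 44807255, [0, 0, 0, 0, 1]), (.ofNat 316274220, [0, 0, 0, 0, 2]), (.negSucc 183270599, [0, 0, 0, 0, 3]), (.ofNat 92815308, [0, 0, 0, 1, 0]), (.negSucc 201537395, [0, 0, 0, 1, 1]), (.negSucc 271444607, [0, 0, 0, 1, 2]), (.ofNat 191095200, [0, 0, 0, 1, 3]), (.negSucc 73150775, [0, 0, 0, 2, 0]), (.ofNat 242937792, [0, 0, 0, 2, 1]), (.negSucc 45295199, [0, 0, 0, 2, 2]), (.ofNat 107089128, [0, 0, 2, 0, 0]), (.negSucc 459415799, [0, 0, 2, 0, 1]), (.negSucc 333929627, [0, 0, 2, 0, 2]), (.ofNat 312109200, [0, 0, 2, 0, 3]), (.negSucc 590527907, [0, 0, 2, 1, 0]), (.ofNat 1144436688, [0, 0, 2, 1, 1]), (.ofNat 1146050208, [0, 0, 2, 1, 2]), (.negSucc 191095199, [0, 0, 2, 1, 3]), (.ofNat 543675564, [0, 0,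 2, 2, 0]), (.negSucc 481466591, [0, 0, 2, 2, 1]), (.ofNat 45295200, [0, 0, 2, 2, 2]), (.ofNat 62747460, [0, 0, 4, 0, 0]), (.ofNat 297624456, [0, 0, 4, 0, 1]), (.ofNat 368596008, [0, 0, 4, 0, 2]), (.negSucc 128838599, [0, 0, 4, 0, 3]), (.ofNat 116445600, [0, 0, 4, 1, 0]), (.negSucc 505499291, [0, 0, 4, 1, 1]), (.negSucc 437205599, [0, 0, 4, 1, 2]), (.negSucc 156908987, [0, 0, 4, 2, 0]), (.ofNat 273666600, [0, 0, 4, 2, 1]), (.ofNat 25449876, [0, 1, 1, 0, 0]), (.ofNat 511699680, [0, 1, 1, 0, 1]), (.negSucc 643393043, [0, 1, 1, 0, 2]), (.negSucc 77954399, [0, 1, 1, 0, 3]), (.ofNat 296884764, [0, 1, 1, 1, 0]), (.negSucc 1279823651, [0, 1, 1, 1, 1]), (.ofNat 850888800, [0, 1, 1, 1, 2]), (.negSucc 195055127, [0, 1, 1, 2, 0]), (.ofNat 322509600, [0, 1, 1, 2, 1]), (.negSucc 352984715, [0, 1, 3, 0, 0]), (.ofNat 160990416, [0, 1, 3, 0, 1]),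 (.negSucc 75789755, [0, 1, 3, 0, 2]), (.ofNat 150660000, [0, 1, 3, 0, 3]), (.negSucc 111997727, [0, 1, 3, 1, 0]), (.ofNat 1028853252, [0, 1, 3, 1, 1]), (.negSucc 437448599, [0, 1, 3, 1, 2]), (.ofNat 186744528, [0, 1, 3, 2, 0]), (.negSucc 457423199, [0, 1, 3, 2, 1]), (.ofNat 136245240, [0, 1, 5, 0, 0]), (.negSucc 687415895, [0, 1, 5, 0, 1]), (.ofNat 573820200, [0, 1, 5, 0, 2]), (.negSucc 72705599, [0, 1, 5, 0, 3]), (.ofNat 32063364, [0, 1, 5, 1, 0]), (.ofNat 323092800, [0, 1, 5, 1, 1]), (.negSucc 145751399, [0, 1, 5, 1, 2]), (.negSucc 82231199, [0, 1, 5, 2, 0]), (.negSucc 31298399, [0, 1, 5, 2, 1]), (.ofNat 117223200, [0, 1, 7, 0, 0]), (.negSucc 63714599, [0, 1, 7, 0, 1]), (.negSucc 145799999, [0, 1, 7, 0, 2]), (.negSucc 131803199, [0, 1, 7, 1, 0]), (.negSucc 15260399, [0, 1, 7, 1, 1]), (.negSucc 369748799, [0, 2, 4, 0, 0]), (.ofNat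 874654200, [0, 2, 4, 0, 1]), (.negSucc 218116799, [0, 2, 4, 0, 2]), (.ofNat 448772400, [0, 2, 4, 1, 0]), (.negSucc 437254199, [0, 2, 4, 1, 1]), (.negSucc 93895199, [0, 2, 4, 2, 0]), (.ofNat 29889000, [0, 2, 6, 0, 0]), (.negSucc 437399999, [0, 2, 6, 0, 1]), (.negSucc 45781199, [0, 2, 6, 1, 0])]
  Ck := [(.ofNat 6269400, [0, 0, 0, 0, 0]), (.ofNat 360709200, [0, 0, 0, 0, 1]), (.negSucc 420487199, [0, 0, 0, 1, 1]), (.ofNat 75524400, [0, 0, 0, 2, 0]), (.ofNat 431130600, [0, 0, 2, 0, 0]), (.negSucc 343213199, [0, 0, 2, 0, 1]), (.negSucc 437254199, [0, 0, 2, 1, 0]), (.ofNat 326737800, [0, 1, 1, 0, 0]), (.ofNat 116931600, [0, 1, 1, 0, 1]), (.negSucc 437399999, [0, 1, 1, 1, 0]), (.ofNat 29305800, [0, 1, 3, 0, 0]), (.negSucc 182541599, [1, 0, 1, 0, 0]), (.ofNat 964612800, [1, 0, 1, 0, 1]), (.negSucc 420487199, [1, 0, 1, 0, 2]), (.negSucc 149299199,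 [1, 0, 1, 1, 0]), (.ofNat 1176897600, [1, 0, 1, 1, 1]), (.ofNat 35137800, [1, 0, 1, 2, 0]), (.ofNat 333736200, [1, 0, 3, 0, 0]), (.negSucc 1137239999, [1, 0, 3, 0, 1]), (.ofNat 374414400, [1, 0, 3, 1, 0]), (.ofNat 634521600, [1, 1, 2, 0, 0]), (.negSucc 1713733199, [1, 1, 2, 0, 1]), (.negSucc 1310450399, [1, 1, 2, 1, 0]), (.negSucc 197413199, [1, 1, 4, 0, 0]), (.ofNat 464227200, [2, 0, 0, 0, 0]), (.negSucc 343213199, [2, 0, 0, 0, 1]), (.negSucc 133261199, [2, 0, 0, 1, 0]), (.ofNat 535377600, [2, 0, 0, 1, 1]), (.negSucc 166211999, [2, 0, 0, 2, 0]), (.negSucc 867801599, [2, 0, 2, 0, 0]), (.ofNat 2349421200, [2, 0, 2, 0, 1]), (.ofNat 874800000, [2, 0, 2, 0, 2]), (.ofNat 1288872000, [2, 0, 2, 1, 0]), (.ofNat 140551200, [2, 0, 2, 1, 1]), (.negSucc 874799999, [2, 0, 4, 0, 1]), (.ofNat 1136219400, [2, 1, 3, 0, 0]), (.negSucc 124804799, [2,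 1, 3, 0, 1]), (.negSucc 692112599, [2, 1, 3, 1, 0]), (.negSucc 781487999, [2, 1, 5, 0, 0]), (.ofNat 528087600, [3, 0, 1, 0, 0]), (.negSucc 1072504799, [3, 0, 1, 0, 1]), (.ofNat 535377600, [3, 0, 1, 0, 2]), (.negSucc 144050399, [3, 0, 1, 1, 0]), (.negSucc 664847999, [3, 0, 1, 1, 1]), (.negSucc 275270399, [3, 0, 3, 0, 0]), (.ofNat 874800000, [3, 0, 3, 0, 1]), (.ofNat 36741600, [3, 0, 3, 1, 0]), (.ofNat 897544800, [3, 1, 4, 0, 0]), (.negSucc 874508399, [3, 1, 4, 0, 1]), (.negSucc 375580799, [3, 1, 4, 1, 0]), (.negSucc 91562399, [3, 1, 6, 0, 0])]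
  L1 := [(.negSucc 73774799, [0, 0, 0, 0, 0]), (.ofNat 1357398000, [0, 0, 0, 0, 1]), (.ofNat 189102600, [0, 0, 0, 0, 2]), (.ofNat 1198330200, [0, 0, 0, 1, 0]), (.negSucc 1338735599, [0, 0, 0, 1, 1]), (.negSucc 152798399, [0, 0, 0, 1, 2]), (.negSucc 789215399, [0, 0, 0, 2, 0]), (.negSucc 15163199, [0, 0, 0, 2, 1]), (.negSucc 460144799, [0, 0, 2, 0, 0]), (.ofNat 1619692200, [0, 0, 2, 0, 1]), (.negSucc 25806599, [0, 0, 2, 0, 2]), (.negSucc 354002399, [0, 0, 2, 1, 0]), (.negSucc 1311616799, [0, 0, 2, 1, 1]), (.negSucc 420487199, [0, 0, 2, 1, 2]), (.ofNat 820999800, [0, 0, 2, 2, 0]), (.ofNat 75524400, [0, 0, 2, 2, 1]), (.ofNat 261565200, [0, 0, 4, 0, 0]), (.negSucc 431130599, [0, 0, 4, 0, 1]), (.negSucc 5540399, [0, 0, 4, 1, 0]), (.ofNat 437254200, [0, 0, 4, 1, 1]), (.negSucc 405907199, [0, 0, 4, 2, 0]), (.negSucc 580575599, [0, 1, 3,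 0, 0]), (.ofNat 787174200, [0, 1, 3, 0, 1]), (.negSucc 159650999, [0, 1, 3, 0, 2]), (.negSucc 59340599, [0, 1, 3, 1, 0]), (.negSucc 437254199, [0, 1, 3, 1, 1]), (.ofNat 272646000, [0, 1, 3, 2, 0]), (.ofNat 567162000, [0, 1, 5, 0, 0]), (.negSucc 496011599, [0, 1, 5, 0, 1]), (.negSucc 81647999, [0, 1, 5, 1, 0]), (.ofNat 122034600, [1, 0, 1, 0, 0]), (.ofNat 94478400, [1, 0, 1, 0, 1]), (.ofNat 162129600, [1, 0, 1, 0, 2]), (.negSucc 788777999, [1, 0, 1, 1, 0]), (.ofNat 784987200, [1, 0, 1, 1, 1]), (.ofNat 874800000, [1, 0, 1, 1, 2]), (.ofNat 526483800, [1, 0, 1, 2, 0]), (.ofNat 70275600, [1, 0, 1, 2, 1]), (.ofNat 29305800, [1, 0, 3, 0, 0]), (.ofNat 857887200, [1, 0, 3, 0, 1]), (.negSucc 43156799, [1, 0, 3, 0, 2]), (.ofNat 285039000, [1, 0, 3, 1, 0]), (.negSucc 1749599999, [1, 0, 3, 1, 1]), (.ofNat 437400000, [1, 0, 3, 1, 2]), (.negSucc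 212867999, [1, 0, 3, 2, 0]), (.negSucc 656391599, [1, 0, 5, 0, 1]), (.ofNat 131365800, [1, 0, 5, 0, 2]), (.ofNat 874800000, [1, 0, 5, 1, 1]), (.ofNat 412322400, [1, 1, 4, 0, 0]), (.negSucc 440024399, [1, 1, 4, 0, 1]), (.negSucc 358959599, [1, 1, 4, 1, 0]), (.negSucc 155714399, [1, 1, 4, 1, 1]), (.ofNat 127429200, [1, 1, 4, 2, 0]), (.negSucc 657849599, [1, 1, 6, 0, 0]), (.ofNat 663973200, [1, 1, 6, 0, 1]), (.ofNat 688176000, [1, 1, 6, 1, 0]), (.ofNat 161838000, [2, 0, 2, 0, 0]), (.ofNat 261856800, [2, 0, 2, 0, 1]), (.ofNat 256608000, [2, 0, 2, 0, 2]), (.negSucc 275270399, [2, 0, 2, 1, 0]), (.ofNat 338547600, [2, 0, 2, 1, 1]), (.ofNat 535377600, [2, 0, 2, 1, 2]), (.ofNat 18370800, [2, 0, 2, 2, 0]), (.negSucc 166211999, [2, 0, 2, 2, 1]), (.negSucc 161837999, [2, 0, 4, 0, 0]), (.ofNat 97102800, [2, 0, 4, 0, 1]), (.ofNat 275270400, [2,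 0, 4, 1, 0]), (.negSucc 437399999, [2, 0, 4, 1, 1]), (.negSucc 18370799, [2, 0, 4, 2, 0]), (.ofNat 1169024400, [2, 1, 5, 0, 0]), (.negSucc 2624108399, [2, 1, 5, 0, 1]), (.ofNat 218116800, [2, 1, 5, 0, 2]), (.negSucc 1437879599, [2, 1, 5, 1, 0]), (.ofNat 874508400, [2, 1, 5, 1, 1]), (.ofNat 281685600, [2, 1, 5, 2, 0]), (.negSucc 149444999, [2, 1, 7, 0, 0]), (.ofNat 1749600000, [2, 1, 7, 0, 1]), (.ofNat 228906000, [2, 1, 7, 1, 0])]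
  L2 := [(.ofNat 191143800, [0, 0, 1, 0, 0]), (.ofNat 980213400, [0, 0, 1, 0, 1]), (.ofNat 175397400, [0, 0, 1, 0, 2]), (.ofNat 1275895800, [0, 0, 1, 1, 0]), (.negSucc 1312199999, [0, 0, 1, 1, 1]), (.negSucc 1099623599, [0, 0, 1, 2, 0]), (.negSucc 482014799, [0, 0, 3, 0, 0]), (.ofNat 87917400, [0, 0, 3, 0, 1]), (.ofNat 35866800, [0, 0, 3, 1, 0]), (.negSucc 807002999, [1, 0, 2, 0, 0]), (.negSucc 648226799, [1, 0, 2, 0, 1]), (.negSucc 1258399799, [1, 0, 2, 0, 2]), (.ofNat 392347800, [1, 0, 2, 1, 0]), (.ofNat 467143200, [1, 0, 2, 1, 1]), (.negSucc 191143799, [1, 0, 2, 2, 0]), (.ofNat 641665800, [1, 0, 4, 0, 0]), (.negSucc 663973199, [1, 0, 4, 0, 1]), (.negSucc 516131999, [1, 0, 4, 1, 0]), (.negSucc 1109246399, [2, 0, 3, 0, 0]), (.ofNat 2623962600, [2, 0, 3, 0, 1]), (.negSucc 654350399, [2, 0, 3, 0, 2]), (.ofNat 1346317200, [2, 0, 3,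 1, 0]), (.negSucc 1311762599, [2, 0, 3, 1, 1]), (.negSucc 281685599, [2, 0, 3, 2, 0]), (.ofNat 89667000, [2, 0, 5, 0, 0]), (.negSucc 1312199999, [2, 0, 5, 0, 1]), (.negSucc 137343599, [2, 0, 5, 1, 0])]
  Lw := [(.negSucc 292183199, [0, 0, 0, 0, 0]), (.ofNat 307638000, [0, 0, 0, 0, 1]), (.ofNat 869113800, [0, 0, 0, 1, 0]), (.negSucc 225115199, [0, 0, 0, 1, 1]), (.negSucc 280227599, [0, 0, 0, 2, 0]), (.ofNat 123346800, [0, 0, 2, 0, 0]), (.negSucc 137635199, [0, 0, 2, 0, 1]), (.negSucc 436962599, [0, 0, 2, 1, 0]), (.negSucc 186623999, [0, 1, 1, 0, 0]), (.ofNat 95936400, [0, 1, 1, 0, 1]), (.ofNat 234300600, [0, 1, 1, 1, 0]), (.ofNat 53071200, [0, 1, 3, 0, 0]), (.negSucc 861094799, [1, 0, 1, 0, 0]), (.ofNat 1738227600, [1, 0, 1, 0, 1]), (.negSucc 225115199, [1, 0, 1, 0, 2]), (.ofNat 884131200, [1, 0, 1, 1, 0]), (.negSucc 1120910399, [1,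 0, 1, 1, 1]), (.ofNat 874800000, [1, 0, 3, 0, 0]), (.negSucc 873925199, [1, 0, 3, 0, 1]), (.negSucc 1010685599, [1, 0, 3, 1, 0]), (.negSucc 87188399, [1, 1, 2, 0, 0]), (.ofNat 468601200, [1, 1, 2, 0, 1]), (.ofNat 844473600, [1, 1, 2, 1, 0]), (.negSucc 787611599, [1, 1, 4, 0, 0])]
  A11 := [(.negSucc 605653199, [0, 0, 2, 0, 0]), (.negSucc 35866799, [0, 0, 2, 0, 1]), (.ofNat 430401600, [0, 0, 2, 0, 2]), (.ofNat 496303200, [0, 0, 2, 1, 0]), (.negSucc 454895999, [0, 0, 2, 1, 1]), (.negSucc 401241599, [0, 0, 2, 1, 2]), (.negSucc 44614799, [0, 0, 2, 2, 0]), (.ofNat 429089400, [0, 0, 4, 0, 0]), (.ofNat 35866800, [0, 0, 4, 0, 1]), (.ofNat 6998400, [0, 0, 4, 0, 2]), (.negSucc 479390399, [0, 0, 4, 1, 0]), (.ofNat 454896000, [0, 0, 4, 1, 1]), (.ofNat 75232800, [0, 0, 4, 2, 0]), (.negSucc 729291599, [0, 1, 5, 0, 0]), (.negSucc 412176599, [0,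 1, 5, 0, 1]), (.ofNat 146091600, [0, 1, 5, 0, 2]), (.ofNat 1304618400, [0, 1, 5, 1, 0]), (.ofNat 320176800, [0, 1, 5, 1, 1]), (.negSucc 246693599, [0, 1, 5, 2, 0]), (.ofNat 527504400, [0, 1, 7, 0, 0]), (.negSucc 276290999, [0, 1, 7, 0, 1]), (.negSucc 593114399, [0, 1, 7, 1, 0])]
  A12 := [(.ofNat 415092600, [0, 0, 3, 0, 0]), (.ofNat 522693000, [0, 0, 3, 0, 1]), (.negSucc 219137399, [0, 0, 3, 0, 2]), (.negSucc 830185199, [0, 0, 3, 1, 0]), (.negSucc 320176799, [0, 0, 3, 1, 1]), (.ofNat 185020200, [0, 0, 3, 2, 0]), (.negSucc 263752199, [0, 0, 5, 0, 0]), (.ofNat 165774600, [0, 0, 5, 0, 1]), (.ofNat 296557200, [0, 0, 5, 1, 0])]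
  W1 := [(.ofNat 811522800, [0, 0, 0, 0, 0]), (.negSucc 584366399, [0, 0, 0, 0, 1]), (.ofNat 307638000, [0, 0, 0, 0, 2]), (.negSucc 861094799, [0, 0, 0, 1, 0]), (.ofNat 1738227600, [0, 0, 0, 1, 1]), (.negSucc 225115199, [0, 0, 0, 1, 2]), (.ofNat 442065600, [0, 0, 0, 2, 0]), (.negSucc 560455199, [0, 0, 0, 2, 1]), (.negSucc 1085189399, [0, 0, 2, 0, 0]), (.ofNat 493387200, [0, 0, 2, 0, 1]), (.negSucc 121451399, [0, 0, 2, 0, 2]), (.ofNat 2180147400, [0, 0, 2, 1, 0]), (.negSucc 1747850399, [0, 0, 2, 1, 1]), (.negSucc 112557599, [0, 0, 2, 1, 2]), (.negSucc 1231718399, [0, 0, 2, 2, 0]), (.ofNat 509571000, [0, 0, 4, 0, 0]), (.negSucc 246693599, [0, 0, 4, 0, 1]), (.ofNat 68817600, [0, 0, 4, 0, 2]), (.negSucc 1312199999, [0, 0, 4, 1, 0]), (.ofNat 873925200, [0, 0, 4, 1, 1]), (.ofNat 758014200, [0, 0, 4, 2, 0]), (.ofNat 927579600, [0, 1, 3,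 0, 0]), (.ofNat 292766400, [0, 1, 3, 0, 1]), (.negSucc 700423199, [0, 1, 3, 1, 0]), (.negSucc 234300599, [0, 1, 3, 1, 1]), (.negSucc 422236799, [0, 1, 3, 2, 0]), (.negSucc 1189727999, [0, 1, 5, 0, 0]), (.negSucc 159213599, [0, 1, 5, 0, 1]), (.ofNat 1575223200, [0, 1, 5, 1, 0])]
  W2 := [(.negSucc 499073399, [0, 0, 1, 0, 0]), (.negSucc 559871999, [0, 0, 1, 0, 1]), (.ofNat 143904600, [0, 0, 1, 0, 2]), (.negSucc 130782599, [0, 0, 1, 1, 0]), (.ofNat 702901800, [0, 0, 1, 1, 1]), (.ofNat 633355200, [0, 0, 1, 2, 0]), (.ofNat 892296000, [0, 0, 3, 0, 0]), (.ofNat 159213600, [0, 0, 3, 0, 1]), (.negSucc 1181417399, [0, 0, 3, 1, 0])]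
  psi := [(.ofNat 405761400, [0, 0, 0, 0, 0]), (.negSucc 292183199, [0, 0, 0, 0, 1]), (.ofNat 153819000, [0, 0, 0, 0, 2]), (.negSucc 430547399, [0, 0, 0, 1, 0]), (.ofNat 869113800, [0, 0, 0, 1, 1]), (.negSucc 112557599, [0, 0, 0, 1, 2]), (.ofNat 221032800, [0, 0, 0, 2, 0]), (.negSucc 280227599, [0, 0, 0, 2, 1]), (.negSucc 169856999, [0, 0, 2, 0, 0]), (.ofNat 123346800, [0, 0, 2, 0, 1]), (.negSucc 68817599, [0, 0, 2, 0, 2]), (.ofNat 437400000, [0, 0, 2, 1, 0]), (.negSucc 436962599, [0, 0, 2, 1, 1]), (.negSucc 252671399, [0, 0, 2, 2, 0]), (.negSucc 166357799, [0, 1, 1, 0, 0]), (.negSucc 186623999, [0, 1, 1, 0, 1]), (.ofNat 47968200, [0, 1, 1, 0, 2]), (.negSucc 43594199, [0, 1, 1, 1, 0]), (.ofNat 234300600, [0, 1, 1, 1, 1]), (.ofNat 211118400, [0, 1, 1, 2, 0]), (.ofNat 297432000, [0, 1, 3, 0, 0]), (.ofNat 53071200, [0, 1, 3, 0, 1]),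 (.negSucc 393805799, [0, 1, 3, 1, 0])]

theorem bs : BS V4.P V4.D = some B := eqB_spec (by decide +kernel)

theorem par : parOK V4.P = true := by decide +kernel

end Crest.Agent.R097.T4
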