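import Crest.Agent.R097.T5B
import Crest.Agent.R097.KP5

/-!
# Row 97, KBA checker: chart data in dimension `n = 5` (generated from `BS V5.P V5.D`, helper141)
-/

set_option autoImplicit false
set_option Elab.async false
set_option maxRecDepth 100000

namespace Crest.Agent.R097.T5

open Crest.Agent.R097.KA Crest.Agent.R097.CQ

/-- sums of the absolute values of the coefficients -/
def cn : CN where
  g := 999769881600
  k11 := 809337523200
  k12 := 904553702400
  k22 := 2868387398400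
  C0 := 29193582152448
  Ck := 7577263411200
  L1 := 16061759884800
  L2 := 6310508601600
  Lw := 1317997094400
  A11 := 2616283756800
  A12 := 1143750585600
  W1 := 3180937536000
  W2 := 974079993600
  psi := 737639481600
  G1 := 9
  G2 := 66
  G3 := 3252
  G4 := 9

/-- chart data, signs `(1, 1)` -/
def pp : CD where
  g := [(0, [(0, [(0, [(0, [(0, .ofNat 3675168000)])]), (2, [(0, [(0, .negSucc 5393606399)])]), (3, [(1, [(0, .ofNat 3239712000)])]), (4, [(0, [(0, .ofNat 3500582400)])]), (5, [(1, [(0, .negSucc 4801305599)])]), (6, [(2, [(0, .ofNat 6633446400)])]), (7, [(1, [(0, .ofNat 1897862400)])]), (8, [(2, [(0, .negSucc 8155526399)])]), (10, [(2, [(0, .ofNat 1262419200)])])]), (1, [(0, [(0, [(0, .negSucc 4967423999)])]), (2, [(0, [(0, .ofNat 10057420800)])]), (3, [(1, [(0, .negSucc 13695091199)])]), (4, [(0, [(0, .negSucc 7247116799)])]), (5, [(1, [(0, .ofNat 12335904000)])]), (6, [(2, [(0, .negSucc 2338156799)])]), (7, [(1, [(0, .negSucc 3180441599)])]), (8,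 [(2, [(0, .ofNat 4369075200)])])]), (2, [(0, [(0, [(0, .ofNat 5017420800)])]), (2, [(0, [(0, .negSucc 6011308799)])]), (3, [(1, [(0, .ofNat 9847756800)])]), (4, [(0, [(0, .ofNat 3633235200)])]), (5, [(1, [(0, .negSucc 3561465599)])]), (6, [(2, [(0, .negSucc 1313222399)])])]), (3, [(0, [(0, [(0, .negSucc 2669990399)])]), (2, [(0, [(0, .ofNat 1453536000)])]), (3, [(1, [(0, .negSucc 2942956799)])])])]), (1, [(0, [(0, [(0, [(0, .ofNat 7810790400)])]), (2, [(0, [(0, .negSucc 15895756799)])]), (3, [(1, [(0, .ofNat 25465305600)])]), (4, [(0, [(0, .ofNat 8039808000)])]), (5, [(1, [(0, .negSucc 2351462399)])]), (6, [(2, [(0, .negSucc 8729279999)])]), (7, [(1, [(0, .negSucc 9063935999)])]), (8, [(2, [(0, .ofNat 12945945600)])])]), (1, [(0, [(0, [(0, .ofNat 11911334400)])]), (2, [(0, [(0, .negSucc 18329471999)])]), (3, [(1, [(0, .negSucc 27832895999)])]), (4, [(0, [(0, .negSucc 616089599)])]), (5, [(1, [(0, .ofNat 7552742400)])]), (6, [(2, [(0, .negSucc 5172249599)])])]),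 (2, [(0, [(0, [(0, .negSucc 8326886399)])]), (2, [(0, [(0, .ofNat 24180710400)])]), (3, [(1, [(0, .ofNat 10343692800)])])]), (3, [(0, [(0, [(0, .negSucc 9969523199)])])])]), (2, [(0, [(0, [(0, [(0, .ofNat 84410726400)])]), (2, [(0, [(0, .negSucc 63062092799)])]), (3, [(1, [(0, .negSucc 38033049599)])]), (4, [(0, [(0, .ofNat 566092800)])]), (5, [(1, [(0, .ofNat 7855948800)])]), (6, [(2, [(0, .negSucc 21064780799)])])]), (1, [(0, [(0, [(0, .negSucc 95722905599)])]), (2, [(0, [(0, .ofNat 60509030400)])]), (3, [(1, [(0, .ofNat 26772480000)])])]), (2, [(0, [(0, [(0, .ofNat 15419980800)])])])]), (3, [(0, [(0, [(0, [(0, .ofNat 125911296000)])]), (2, [(0, [(0, .negSucc 2048255999)])]), (3, [(1, [(0, .ofNat 26507980800)])])]), (1, [(0, [(0, [(0, .negSucc 84146227199)])])])])]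
  k11 := [(0, [(0, [(0, [(0, [(0, .ofNat 1225056000), (2, .ofNat 1750080000)])]), (2, [(0, [(0, .negSucc 1797868799), (2, .negSucc 2568383999)])]), (3, [(1, [(0, .ofNat 1079904000), (2, .ofNat 1542720000)])]), (4, [(0, [(0, .ofNat 1166860800), (2, .ofNat 1666944000)])]), (5, [(1, [(0, .negSucc 1600435199), (2, .negSucc 2286335999)])]), (6, [(2, [(0, .ofNat 2211148800), (2, .ofNat 3158784000)])]), (7, [(1, [(0, .ofNat 632620800), (2, .ofNat 903744000)])]), (8, [(2, [(0, .negSucc 2718508799), (2, .negSucc 3883583999)])]), (10, [(2, [(0, .ofNat 420806400), (2, .ofNat 601152000)])])]), (1, [(0, [(0, [(0, .negSucc 1655807999), (2, .negSucc 2365439999)])]), (2, [(0, [(0, .ofNat 3352473600), (2, .ofNat 4789248000)])]), (3, [(1, [(0, .negSucc 4565030399), (2, .negSucc 6521471999)])]), (4, [(0, [(0, .negSucc 2415705599), (2, .negSucc 3451007999)])]), (5, [(1, [(0, .ofNat 4111968000), (2, .ofNat 5874240000)])]), (6, [(2, [(0, .negSucc 779385599), (2, .negSucc 1113407999)])]),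 (7, [(1, [(0, .negSucc 1060147199), (2, .negSucc 1514495999)])]), (8, [(2, [(0, .ofNat 1456358400), (2, .ofNat 2080512000)])])]), (2, [(0, [(0, [(0, .ofNat 1672473600), (2, .ofNat 2389248000)])]), (2, [(0, [(0, .negSucc 2003769599), (2, .negSucc 2862527999)])]), (3, [(1, [(0, .ofNat 3282585600), (2, .ofNat 4689408000)])]), (4, [(0, [(0, .ofNat 1211078400), (2, .ofNat 1730112000)])]), (5, [(1, [(0, .negSucc 1187155199), (2, .negSucc 1695935999)])]), (6, [(2, [(0, .negSucc 437740799), (2, .negSucc 625343999)])])]), (3, [(0, [(0, [(0, .negSucc 889996799), (2, .negSucc 1271423999)])]), (2, [(0, [(0, .ofNat 484512000), (2, .ofNat 692160000)])]), (3, [(1, [(0, .negSucc 980985599), (2, .negSucc 1401407999)])])])]), (1, [(0, [(0, [(0, [(0, .ofNat 2603596800), (2, .ofNat 3719424000)])]), (2, [(0, [(0, .negSucc 5298585599), (2, .negSucc 7569407999)])]), (3, [(1, [(0, .ofNat 8488435200), (2, .ofNat 12126336000)])]), (4, [(0, [(0, .ofNat 2679936000), (2, .ofNat 3828480000)])]),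 (5, [(1, [(0, .negSucc 783820799), (2, .negSucc 1119743999)])]), (6, [(2, [(0, .negSucc 2909759999), (2, .negSucc 4156799999)])]), (7, [(1, [(0, .negSucc 3021311999), (2, .negSucc 4316159999)])]), (8, [(2, [(0, .ofNat 4315315200), (2, .ofNat 6164736000)])])]), (1, [(0, [(0, [(0, .ofNat 3970444800), (2, .ofNat 5672064000)])]), (2, [(0, [(0, .negSucc 6109823999), (2, .negSucc 8728319999)])]), (3, [(1, [(0, .negSucc 9277631999), (2, .negSucc 13253759999)])]), (4, [(0, [(0, .negSucc 205363199), (2, .negSucc 293375999)])]), (5, [(1, [(0, .ofNat 2517580800), (2, .ofNat 3596544000)])]), (6, [(2, [(0, .negSucc 1724083199), (2, .negSucc 2462975999)])])]), (2, [(0, [(0, [(0, .negSucc 2775628799), (2, .negSucc 3965183999)])]), (2, [(0, [(0, .ofNat 8060236800), (2, .ofNat 11514624000)])]), (3, [(1, [(0, .ofNat 3447897600), (2, .ofNat 4925568000)])])]), (3, [(0, [(0, [(0, .negSucc 3323174399), (2, .negSucc 4747391999)])])])]), (2, [(0, [(0, [(0, [(0, .ofNat 28136908800), (2,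 .ofNat 40195584000)])]), (2, [(0, [(0, .negSucc 21020697599), (2, .negSucc 30029567999)])]), (3, [(1, [(0, .negSucc 12677683199), (2, .negSucc 18110975999)])]), (4, [(0, [(0, .ofNat 188697600), (2, .ofNat 269568000)])]), (5, [(1, [(0, .ofNat 2618649600), (2, .ofNat 3740928000)])]), (6, [(2, [(0, .negSucc 7021593599), (2, .negSucc 10030847999)])])]), (1, [(0, [(0, [(0, .negSucc 31907635199), (2, .negSucc 45582335999)])]), (2, [(0, [(0, .ofNat 20169676800), (2, .ofNat 28813824000)])]), (3, [(1, [(0, .ofNat 8924160000), (2, .ofNat 12748800000)])])]), (2, [(0, [(0, [(0, .ofNat 5139993600), (2, .ofNat 7342848000)])])])]), (3, [(0, [(0, [(0, [(0, .ofNat 41970432000), (2, .ofNat 59957760000)])]), (2, [(0, [(0, .negSucc 682751999), (2, .negSucc 975359999)])]), (3, [(1, [(0, .ofNat 8835993600), (2, .ofNat 12622848000)])])]), (1, [(0, [(0, [(0, .negSucc 28048742399), (2, .negSucc 40069631999)])])])])]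
  k12 := [(0, [(0, [(0, [(0, [(1, .negSucc 350015999), (3, .ofNat 1750080000)]), (1, [(0, .ofNat 1225056000)])]), (2, [(0, [(1, .ofNat 513676800), (3, .negSucc 2568383999)]), (1, [(0, .negSucc 1797868799)])]), (3, [(1, [(1, .negSucc 308543999), (3, .ofNat 1542720000)]), (2, [(0, .ofNat 1079904000)])]), (4, [(0, [(1, .negSucc 333388799), (3, .ofNat 1666944000)]), (1, [(0, .ofNat 1166860800)])]), (5, [(1, [(1, .ofNat 457267200), (3, .negSucc 2286335999)]), (2, [(0, .negSucc 1600435199)])]), (6, [(2, [(1, .negSucc 631756799), (3, .ofNat 3158784000)]), (3, [(0, .ofNat 2211148800)])]), (7, [(1, [(1, .negSucc 180748799), (3, .ofNat 903744000)]), (2, [(0, .ofNat 632620800)])]), (8, [(2, [(1, .ofNat 776716800), (3, .negSucc 3883583999)]), (3, [(0, .negSucc 2718508799)])]), (10, [(2, [(1, .negSucc 120230399), (3, .ofNat 601152000)]), (3, [(0, .ofNat 420806400)])])]), (1, [(0, [(0, [(1, .ofNat 473088000), (3, .negSucc 2365439999)]), (1, [(0, .negSucc 1655807999)])]), (2,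 [(0, [(1, .negSucc 957849599), (3, .ofNat 4789248000)]), (1, [(0, .ofNat 3352473600)])]), (3, [(1, [(1, .ofNat 1304294400), (3, .negSucc 6521471999)]), (2, [(0, .negSucc 4565030399)])]), (4, [(0, [(1, .ofNat 690201600), (3, .negSucc 3451007999)]), (1, [(0, .negSucc 2415705599)])]), (5, [(1, [(1, .negSucc 1174847999), (3, .ofNat 5874240000)]), (2, [(0, .ofNat 4111968000)])]), (6, [(2, [(1, .ofNat 222681600), (3, .negSucc 1113407999)]), (3, [(0, .negSucc 779385599)])]), (7, [(1, [(1, .ofNat 302899200), (3, .negSucc 1514495999)]), (2, [(0, .negSucc 1060147199)])]), (8, [(2, [(1, .negSucc 416102399), (3, .ofNat 2080512000)]), (3, [(0, .ofNat 1456358400)])])]), (2, [(0, [(0, [(1, .negSucc 477849599), (3, .ofNat 2389248000)]), (1, [(0, .ofNat 1672473600)])]), (2, [(0, [(1, .ofNat 572505600), (3, .negSucc 2862527999)]), (1, [(0, .negSucc 2003769599)])]), (3, [(1, [(1, .negSucc 937881599), (3, .ofNat 4689408000)]), (2, [(0, .ofNat 3282585600)])]), (4, [(0, [(1, .negSucc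 346022399), (3, .ofNat 1730112000)]), (1, [(0, .ofNat 1211078400)])]), (5, [(1, [(1, .ofNat 339187200), (3, .negSucc 1695935999)]), (2, [(0, .negSucc 1187155199)])]), (6, [(2, [(1, .ofNat 125068800), (3, .negSucc 625343999)]), (3, [(0, .negSucc 437740799)])])]), (3, [(0, [(0, [(1, .ofNat 254284800), (3, .negSucc 1271423999)]), (1, [(0, .negSucc 889996799)])]), (2, [(0, [(1, .negSucc 138431999), (3, .ofNat 692160000)]), (1, [(0, .ofNat 484512000)])]), (3, [(1, [(1, .ofNat 280281600), (3, .negSucc 1401407999)]), (2, [(0, .negSucc 980985599)])])])]), (1, [(0, [(0, [(0, [(1, .negSucc 743884799), (3, .ofNat 3719424000)]), (1, [(0, .ofNat 2603596800)])]), (2, [(0, [(1, .ofNat 1513881600), (3, .negSucc 7569407999)]), (1, [(0, .negSucc 5298585599)])]), (3, [(1, [(1, .negSucc 2425267199), (3, .ofNat 12126336000)]), (2, [(0, .ofNat 8488435200)])]), (4, [(0, [(1, .negSucc 765695999), (3, .ofNat 3828480000)]), (1, [(0, .ofNat 2679936000)])]), (5, [(1, [(1, .ofNat 223948800),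 (3, .negSucc 1119743999)]), (2, [(0, .negSucc 783820799)])]), (6, [(2, [(1, .ofNat 831360000), (3, .negSucc 4156799999)]), (3, [(0, .negSucc 2909759999)])]), (7, [(1, [(1, .ofNat 863232000), (3, .negSucc 4316159999)]), (2, [(0, .negSucc 3021311999)])]), (8, [(2, [(1, .negSucc 1232947199), (3, .ofNat 6164736000)]), (3, [(0, .ofNat 4315315200)])])]), (1, [(0, [(0, [(1, .negSucc 1134412799), (3, .ofNat 5672064000)]), (1, [(0, .ofNat 3970444800)])]), (2, [(0, [(1, .ofNat 1745664000), (3, .negSucc 8728319999)]), (1, [(0, .negSucc 6109823999)])]), (3, [(1, [(1, .ofNat 2650752000), (3, .negSucc 13253759999)]), (2, [(0, .negSucc 9277631999)])]), (4, [(0, [(1, .ofNat 58675200), (3, .negSucc 293375999)]), (1, [(0, .negSucc 205363199)])]), (5, [(1, [(1, .negSucc 719308799), (3, .ofNat 3596544000)]), (2, [(0, .ofNat 2517580800)])]), (6, [(2, [(1, .ofNat 492595200), (3, .negSucc 2462975999)]), (3, [(0, .negSucc 1724083199)])])]), (2, [(0, [(0, [(1, .ofNat 793036800), (3, .negSucc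 3965183999)]), (1, [(0, .negSucc 2775628799)])]), (2, [(0, [(1, .negSucc 2302924799), (3, .ofNat 11514624000)]), (1, [(0, .ofNat 8060236800)])]), (3, [(1, [(1, .negSucc 985113599), (3, .ofNat 4925568000)]), (2, [(0, .ofNat 3447897600)])])]), (3, [(0, [(0, [(1, .ofNat 949478400), (3, .negSucc 4747391999)]), (1, [(0, .negSucc 3323174399)])])])]), (2, [(0, [(0, [(0, [(1, .negSucc 8039116799), (3, .ofNat 40195584000)]), (1, [(0, .ofNat 28136908800)])]), (2, [(0, [(1, .ofNat 6005913600), (3, .negSucc 30029567999)]), (1, [(0, .negSucc 21020697599)])]), (3, [(1, [(1, .ofNat 3622195200), (3, .negSucc 18110975999)]), (2, [(0, .negSucc 12677683199)])]), (4, [(0, [(1, .negSucc 53913599), (3, .ofNat 269568000)]), (1, [(0, .ofNat 188697600)])]), (5, [(1, [(1, .negSucc 748185599), (3, .ofNat 3740928000)]), (2, [(0, .ofNat 2618649600)])]), (6, [(2, [(1, .ofNat 2006169600), (3, .negSucc 10030847999)]), (3, [(0, .negSucc 7021593599)])])]), (1, [(0, [(0, [(1, .ofNat 9116467200),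 (3, .negSucc 45582335999)]), (1, [(0, .negSucc 31907635199)])]), (2, [(0, [(1, .negSucc 5762764799), (3, .ofNat 28813824000)]), (1, [(0, .ofNat 20169676800)])]), (3, [(1, [(1, .negSucc 2549759999), (3, .ofNat 12748800000)]), (2, [(0, .ofNat 8924160000)])])]), (2, [(0, [(0, [(1, .negSucc 1468569599), (3, .ofNat 7342848000)]), (1, [(0, .ofNat 5139993600)])])])]), (3, [(0, [(0, [(0, [(1, .negSucc 11991551999), (3, .ofNat 59957760000)]), (1, [(0, .ofNat 41970432000)])]), (2, [(0, [(1, .ofNat 195072000), (3, .negSucc 975359999)]), (1, [(0, .negSucc 682751999)])]), (3, [(1, [(1, .negSucc 2524569599), (3, .ofNat 12622848000)]), (2, [(0, .ofNat 8835993600)])])]), (1, [(0, [(0, [(1, .ofNat 8013926400), (3, .negSucc 40069631999)]), (1, [(0, .negSucc 28048742399)])])])])]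
  k22 := [(0, [(0, [(0, [(0, [(0, .ofNat 539608000), (2, .negSucc 2945967999), (4, .ofNat 5833600000)]), (1, [(1, .negSucc 1225055999)])]), (2, [(0, [(0, .negSucc 791918399), (2, .ofNat 4323446400), (4, .negSucc 8561279999)]), (1, [(1, .ofNat 1797868800)])]), (3, [(1, [(0, .ofNat 475672000), (2, .negSucc 2596911999), (4, .ofNat 5142400000)]), (2, [(1, .negSucc 1079903999)])]), (4, [(0, [(0, .ofNat 513974400), (2, .negSucc 2806022399), (4, .ofNat 5556480000)]), (1, [(1, .negSucc 1166860799)])]), (5, [(1, [(0, .negSucc 704953599), (2, .ofNat 3848665600), (4, .negSucc 7621119999)]), (2, [(1, .ofNat 1600435200)])]), (6, [(2, [(0, .ofNat 973958400), (2, .negSucc 5317286399), (4, .ofNat 10529280000)]), (3, [(1, .negSucc 2211148799)])]), (7, [(1, [(0, .ofNat 278654400), (2, .negSucc 1521302399), (4, .ofNat 3012480000)]), (2, [(1, .negSucc 632620799)])]), (8, [(2, [(0, .negSucc 1197438399), (2, .ofNat 6537366400), (4, .negSucc 12945279999)]), (3, [(1, .ofNat 2718508800)])]),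 (10, [(2, [(0, .ofNat 185355200), (2, .negSucc 1011939199), (4, .ofNat 2003840000)]), (3, [(1, .negSucc 420806399)])])]), (1, [(0, [(0, [(0, .negSucc 729343999), (2, .ofNat 3981824000), (4, .negSucc 7884799999)]), (1, [(1, .ofNat 1655808000)])]), (2, [(0, [(0, .ofNat 1476684800), (2, .negSucc 8061900799), (4, .ofNat 15964160000)]), (1, [(1, .negSucc 3352473599)])]), (3, [(1, [(0, .negSucc 2010787199), (2, .ofNat 10977811200), (4, .negSucc 21738239999)]), (2, [(1, .ofNat 4565030400)])]), (4, [(0, [(0, .negSucc 1064060799), (2, .ofNat 5809196800), (4, .negSucc 11503359999)]), (1, [(1, .ofNat 2415705600)])]), (5, [(1, [(0, .ofNat 1811224000), (2, .negSucc 9888303999), (4, .ofNat 19580800000)]), (2, [(1, .negSucc 4111967999)])]), (6, [(2, [(0, .negSucc 343300799), (2, .ofNat 1874236800), (4, .negSucc 3711359999)]), (3, [(1, .ofNat 779385600)])]), (7, [(1, [(0, .negSucc 466969599), (2, .ofNat 2549401600), (4, .negSucc 5048319999)]), (2, [(1, .ofNat 1060147200)])]), (8,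 [(2, [(0, .ofNat 641491200), (2, .negSucc 3502195199), (4, .ofNat 6935040000)]), (3, [(1, .negSucc 1456358399)])])]), (2, [(0, [(0, [(0, .ofNat 736684800), (2, .negSucc 4021900799), (4, .ofNat 7964160000)]), (1, [(1, .negSucc 1672473599)])]), (2, [(0, [(0, .negSucc 882612799), (2, .ofNat 4818588800), (4, .negSucc 9541759999)]), (1, [(1, .ofNat 2003769600)])]), (3, [(1, [(0, .ofNat 1445900800), (2, .negSucc 7893836799), (4, .ofNat 15631360000)]), (2, [(1, .negSucc 3282585599)])]), (4, [(0, [(0, .ofNat 533451200), (2, .negSucc 2912355199), (4, .ofNat 5767040000)]), (1, [(1, .negSucc 1211078399)])]), (5, [(1, [(0, .negSucc 522913599), (2, .ofNat 2854825600), (4, .negSucc 5653119999)]), (2, [(1, .ofNat 1187155200)])]), (6, [(2, [(0, .negSucc 192814399), (2, .ofNat 1052662400), (4, .negSucc 2084479999)]), (3, [(1, .ofNat 437740800)])])]), (3, [(0, [(0, [(0, .negSucc 392022399), (2, .ofNat 2140230400), (4, .negSucc 4238079999)]), (1, [(1, .ofNat 889996800)])]), (2, [(0,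 [(0, .ofNat 213416000), (2, .negSucc 1165135999), (4, .ofNat 2307200000)]), (1, [(1, .negSucc 484511999)])]), (3, [(1, [(0, .negSucc 432100799), (2, .ofNat 2359036800), (4, .negSucc 4671359999)]), (2, [(1, .ofNat 980985600)])])])]), (1, [(0, [(0, [(0, [(0, .ofNat 1146822400), (2, .negSucc 6261030399), (4, .ofNat 12398080000)]), (1, [(1, .negSucc 2603596799)])]), (2, [(0, [(0, .negSucc 2333900799), (2, .ofNat 12741836800), (4, .negSucc 25231359999)]), (1, [(1, .ofNat 5298585600)])]), (3, [(1, [(0, .ofNat 3738953600), (2, .negSucc 20412665599), (4, .ofNat 40421120000)]), (2, [(1, .negSucc 8488435199)])]), (4, [(0, [(0, .ofNat 1180448000), (2, .negSucc 6444607999), (4, .ofNat 12761600000)]), (1, [(1, .negSucc 2679935999)])]), (5, [(1, [(0, .negSucc 345254399), (2, .ofNat 1884902400), (4, .negSucc 3732479999)]), (2, [(1, .ofNat 783820800)])]), (6, [(2, [(0, .negSucc 1281679999), (2, .ofNat 6997280000), (4, .negSucc 13855999999)]), (3, [(1, .ofNat 2909760000)])]), (7,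 [(1, [(0, .negSucc 1330815999), (2, .ofNat 7265536000), (4, .negSucc 14387199999)]), (2, [(1, .ofNat 3021312000)])]), (8, [(2, [(0, .ofNat 1900793600), (2, .negSucc 10377305599), (4, .ofNat 20549120000)]), (3, [(1, .negSucc 4315315199)])])]), (1, [(0, [(0, [(0, .ofNat 1748886400), (2, .negSucc 9547974399), (4, .ofNat 18906880000)]), (1, [(1, .negSucc 3970444799)])]), (2, [(0, [(0, .negSucc 2691231999), (2, .ofNat 14692672000), (4, .negSucc 29094399999)]), (1, [(1, .ofNat 6109824000)])]), (3, [(1, [(0, .negSucc 4086575999), (2, .ofNat 22310496000), (4, .negSucc 44179199999)]), (2, [(1, .ofNat 9277632000)])]), (4, [(0, [(0, .negSucc 90457599), (2, .ofNat 493849600), (4, .negSucc 977919999)]), (1, [(1, .ofNat 205363200)])]), (5, [(1, [(0, .ofNat 1108934400), (2, .negSucc 6054182399), (4, .ofNat 11988480000)]), (2, [(1, .negSucc 2517580799)])]), (6, [(2, [(0, .negSucc 759417599), (2, .ofNat 4146009600), (4, .negSucc 8209919999)]), (3, [(1, .ofNat 1724083200)])])]),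 (2, [(0, [(0, [(0, .negSucc 1222598399), (2, .ofNat 6674726400), (4, .negSucc 13217279999)]), (1, [(1, .ofNat 2775628800)])]), (2, [(0, [(0, .ofNat 3550342400), (2, .negSucc 19382950399), (4, .ofNat 38382080000)]), (1, [(1, .negSucc 8060236799)])]), (3, [(1, [(0, .ofNat 1518716800), (2, .negSucc 8291372799), (4, .ofNat 16418560000)]), (2, [(1, .negSucc 3447897599)])])]), (3, [(0, [(0, [(0, .negSucc 1463779199), (2, .ofNat 7991443200), (4, .negSucc 15824639999)]), (1, [(1, .ofNat 3323174400)])])])]), (2, [(0, [(0, [(0, [(0, .ofNat 12393638400), (2, .negSucc 67662566399), (4, .ofNat 133985280000)]), (1, [(1, .negSucc 28136908799)])]), (2, [(0, [(0, .negSucc 9259116799), (2, .ofNat 50549772800), (4, .negSucc 100098559999)]), (1, [(1, .ofNat 21020697600)])]), (3, [(1, [(0, .negSucc 5584217599), (2, .ofNat 30486809600), (4, .negSucc 60369919999)]), (2, [(1, .ofNat 12677683200)])]), (4, [(0, [(0, .ofNat 83116800), (2, .negSucc 453772799), (4, .ofNat 898560000)]), (1,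 [(1, .negSucc 188697599)])]), (5, [(1, [(0, .ofNat 1153452800), (2, .negSucc 6297228799), (4, .ofNat 12469760000)]), (2, [(1, .negSucc 2618649599)])]), (6, [(2, [(0, .negSucc 3092844799), (2, .ofNat 16885260800), (4, .negSucc 33436159999)]), (3, [(1, .ofNat 7021593600)])])]), (1, [(0, [(0, [(0, .negSucc 14054553599), (2, .ofNat 76730265600), (4, .negSucc 151941119999)]), (1, [(1, .ofNat 31907635200)])]), (2, [(0, [(0, .ofNat 8884262400), (2, .negSucc 48503270399), (4, .ofNat 96046080000)]), (1, [(1, .negSucc 20169676799)])]), (3, [(1, [(0, .ofNat 3930880000), (2, .negSucc 21460479999), (4, .ofNat 42496000000)]), (2, [(1, .negSucc 8924159999)])])]), (2, [(0, [(0, [(0, .ofNat 2264044800), (2, .negSucc 12360460799), (4, .ofNat 24476160000)]), (1, [(1, .negSucc 5139993599)])])])]), (3, [(0, [(0, [(0, [(0, .ofNat 18486976000), (2, .negSucc 100928895999), (4, .ofNat 199859200000)]), (1, [(1, .negSucc 41970431999)])]), (2, [(0, [(0, .negSucc 300735999), (2, .ofNat 1641856000),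 (4, .negSucc 3251199999)]), (1, [(1, .ofNat 682752000)])]), (3, [(1, [(0, .ofNat 3892044800), (2, .negSucc 21248460799), (4, .ofNat 42076160000)]), (2, [(1, .negSucc 8835993599)])])]), (1, [(0, [(0, [(0, .negSucc 12354803199), (2, .ofNat 67450547200), (4, .negSucc 133565439999)]), (1, [(1, .ofNat 28048742400)])])])])]
  C0 := [(0, [(0, [(0, [(0, [(0, .ofNat 256011840)])]), (1, [(1, [(0, .ofNat 2253779136)])]), (2, [(0, [(0, .ofNat 1053464832)])]), (3, [(1, [(0, .negSucc 10375085951)])]), (4, [(0, [(0, .negSucc 6990302591)]), (2, [(0, .ofNat 7550573184)])]), (5, [(1, [(0, .negSucc 7000435007)])]), (6, [(0, [(0, .ofNat 9069721920)]), (2, [(0, .ofNat 27446158656)])]), (7, [(1, [(0, .ofNat 30968711424)]), (3, [(0, .ofNat 9489715200)])]), (8, [(2, [(0, .negSucc 70626185279)])]), (9, [(1, [(0, .negSucc 9489311999)]), (3, [(0, .negSucc 14660351999)])]), (10, [(2, [(0, .ofNat 44312768640)])]), (11, [(3, [(0, .ofNat 4178361600)])]), (12, [(2, [(0, .negSucc 6312095999)])])]),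 (1, [(0, [(0, [(0, .negSucc 13108781951)])]), (1, [(1, [(0, .negSucc 17273600063)])]), (2, [(0, [(0, .ofNat 15466074624)])]), (3, [(1, [(0, .ofNat 4962105792)])]), (4, [(0, [(0, .ofNat 12944691648)]), (2, [(0, .negSucc 10725325631)])]), (5, [(1, [(0, .ofNat 50923510848)])]), (6, [(0, [(0, .negSucc 13296064319)]), (2, [(0, .negSucc 11950025471)])]), (7, [(1, [(0, .negSucc 62363722175)]), (3, [(0, .negSucc 11575871999)])]), (8, [(2, [(0, .ofNat 37693744704)])]), (9, [(1, [(0, .ofNat 15902208000)]), (3, [(0, .ofNat 9201830400)])]), (10, [(2, [(0, .negSucc 21845375999)])])]), (2, [(0, [(0, [(0, .ofNat 18918264960)])]), (1, [(1, [(0, .ofNat 21702973824)])]), (2, [(0, [(0, .negSucc 51450723071)])]), (3, [(1, [(0, .ofNat 6155763264)])]), (4, [(0, [(0, .ofNat 14447430144)]), (2, [(0, .negSucc 6001075583)])]), (5, [(1, [(0, .negSucc 47714724287)])]), (6, [(0, [(0, .ofNat 6044266368)]), (2, [(0, .negSucc 6739641215)])]), (7, [(1, [(0, .ofNat 17807328000)]), (3, [(0, .ofNat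 3441715200)])]), (8, [(2, [(0, .ofNat 6566112000)])])]), (3, [(0, [(0, [(0, .negSucc 6512800895)])]), (1, [(1, [(0, .negSucc 6108633215)])]), (2, [(0, [(0, .ofNat 35222902848)])]), (3, [(1, [(0, .negSucc 6594182783)])]), (4, [(0, [(0, .negSucc 20624329151)]), (2, [(0, .ofNat 9494956800)])]), (5, [(1, [(0, .ofNat 14714784000)])])])]), (1, [(0, [(0, [(0, [(0, .ofNat 97008113664)])]), (1, [(1, [(0, .ofNat 78123927168)])]), (2, [(0, [(0, .negSucc 271891251071)])]), (3, [(1, [(0, .ofNat 13212476928)])]), (4, [(0, [(0, .ofNat 235515159936)]), (2, [(0, .ofNat 1508274432)])]), (5, [(1, [(0, .negSucc 92711509631)])]), (6, [(0, [(0, .negSucc 78911497727)]), (2, [(0, .negSucc 43496401535)])]), (7, [(1, [(0, .negSucc 85053233663)]), (3, [(0, .ofNat 3323174400)])]), (8, [(2, [(0, .ofNat 113944811904)])]), (9, [(1, [(0, .ofNat 63513676800)]), (3, [(0, .ofNat 6123801600)])]), (10, [(2, [(0, .negSucc 101274163199)])]), (12, [(2, [(0, .ofNat 8356723200)])])]), (1, [(0, [(0, [(0,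 .negSucc 11404221695)])]), (1, [(1, [(0, .ofNat 102055580928)])]), (2, [(0, [(0, .ofNat 38218521600)])]), (3, [(1, [(0, .negSucc 303965673983)])]), (4, [(0, [(0, .negSucc 177836932223)]), (2, [(0, .ofNat 154667149056)])]), (5, [(1, [(0, .ofNat 235397465856)])]), (6, [(0, [(0, .ofNat 129061134720)]), (2, [(0, .negSucc 182571814655)])]), (7, [(1, [(0, .ofNat 25741094400)]), (3, [(0, .negSucc 13902335999)])]), (8, [(2, [(0, .ofNat 43302067200)])]), (9, [(1, [(0, .negSucc 20687385599)])]), (10, [(2, [(0, .ofNat 18403660800)])])]), (2, [(0, [(0, [(0, .negSucc 112053352319)])]), (1, [(1, [(0, .negSucc 302318456831)])]), (2, [(0, [(0, .ofNat 340297574400)])]), (3, [(1, [(0, .ofNat 490642693632)])]), (4, [(0, [(0, .negSucc 136542026879)]), (2, [(0, .negSucc 54302169599)])]), (5, [(1, [(0, .negSucc 183207628799)])]), (6, [(0, [(0, .negSucc 60737241599)]), (2, [(0, .ofNat 44895513600)])]), (7, [(1, [(0, .negSucc 8789759999)])]), (8, [(2, [(0, .ofNat 6883430400)])])]), (3,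 [(0, [(0, [(0, .ofNat 30329792640)])]), (1, [(1, [(0, .ofNat 121713984000)])]), (2, [(0, [(0, .negSucc 104025075839)])]), (3, [(1, [(0, .negSucc 149179161599)])]), (4, [(0, [(0, .ofNat 87584716800)])]), (5, [(1, [(0, .ofNat 18989913600)])])])]), (2, [(0, [(0, [(0, [(0, .negSucc 307736110079)])]), (1, [(1, [(0, .negSucc 278440178687)])]), (2, [(0, [(0, .ofNat 739193140224)])]), (3, [(1, [(0, .negSucc 85786477055)])]), (4, [(0, [(0, .negSucc 646431690239)]), (2, [(0, .negSucc 366161628671)])]), (5, [(1, [(0, .ofNat 522208479744)])]), (6, [(0, [(0, .ofNat 269838890496)]), (2, [(0, .ofNat 276881859072)])]), (7, [(1, [(0, .negSucc 287278387199)]), (3, [(0, .negSucc 1193471999)])]), (8, [(2, [(0, .ofNat 52032153600)])]), (9, [(1, [(0, .ofNat 9094579200)])]), (10, [(2, [(0, .ofNat 12247603200)])])]), (1, [(0, [(0, [(0, .ofNat 120258496512)])]), (1, [(1, [(0, .ofNat 153312622848)])]), (2, [(0, [(0, .negSucc 404729031167)])]), (3, [(1, [(0, .negSucc 147551701247)])]), (4,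 [(0, [(0, .ofNat 650401952256)]), (2, [(0, .ofNat 195913267200)])]), (5, [(1, [(0, .negSucc 23356569599)])]), (6, [(0, [(0, .negSucc 304004735999)]), (2, [(0, .negSucc 106178687999)])]), (7, [(1, [(0, .ofNat 2825625600)])]), (8, [(2, [(0, .negSucc 27804671999)])])]), (2, [(0, [(0, [(0, .ofNat 277324524288)])]), (1, [(1, [(0, .ofNat 70276147200)])]), (2, [(0, [(0, .negSucc 308435436287)])]), (3, [(1, [(0, .negSucc 41305420799)])]), (4, [(0, [(0, .ofNat 26383795200)])]), (5, [(1, [(0, .negSucc 5046451199)])])]), (3, [(0, [(0, [(0, .negSucc 85905791999)])]), (2, [(0, [(0, .ofNat 85905792000)])])])]), (3, [(0, [(0, [(0, [(0, .negSucc 124204921343)])]), (1, [(1, [(0, .negSucc 592625392127)])]), (2, [(0, [(0, .ofNat 1194491225088)])]), (3, [(1, [(0, .ofNat 1578475196928)])]), (4, [(0, [(0, .negSucc 861315807743)]), (2, [(0, .ofNat 359589888000)])]), (5, [(1, [(0, .negSucc 861935155199)])]), (6, [(0, [(0, .negSucc 127878911999)]), (2, [(0, .negSucc 320011775999)])]), (7,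 [(1, [(0, .ofNat 123785625600)])]), (8, [(2, [(0, .negSucc 2386943999)])])]), (1, [(0, [(0, [(0, .ofNat 1036884699648)])]), (1, [(1, [(0, .ofNat 700390656000)])]), (2, [(0, [(0, .negSucc 1705725762047)])]), (3, [(1, [(0, .negSucc 743158886399)])]), (4, [(0, [(0, .ofNat 743165337600)])]), (5, [(1, [(0, .ofNat 123859814400)])])]), (2, [(0, [(0, [(0, .negSucc 667163750399)])]), (2, [(0, [(0, .ofNat 667163750400)])])])]), (4, [(0, [(0, [(0, [(0, .negSucc 531024076799)])]), (1, [(1, [(0, .ofNat 793433088000)])]), (2, [(0, [(0, .negSucc 424269619199)])]), (3, [(1, [(0, .negSucc 867815423999)])]), (4, [(0, [(0, .ofNat 955293696000)])]), (5, [(1, [(0, .ofNat 74382336000)])])]), (1, [(0, [(0, [(0, .ofNat 120250368000)])]), (2, [(0, [(0, .negSucc 120250367999)])])])])]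
  Ck := [(0, [(0, [(0, [(0, [(0, .ofNat 32480179200), (2, .ofNat 55487174400)])]), (1, [(0, [(1, .negSucc 19574553599), (3, .negSucc 27669196799)]), (1, [(0, .ofNat 21708691200)])]), (2, [(0, [(0, .negSucc 36664185599), (2, .negSucc 71768390399)]), (1, [(1, .negSucc 35588044799)])]), (3, [(0, [(1, .ofNat 15787296000), (3, .ofNat 24373440000)]), (1, [(0, .ofNat 397958400), (2, .ofNat 62739936000)])]), (4, [(0, [(0, .ofNat 10591257600), (2, .ofNat 22696934400)]), (1, [(1, .ofNat 29106604800), (3, .negSucc 45214847999)]), (2, [(0, .ofNat 13762425600)])]), (5, [(0, [(1, .ofNat 3570336000), (3, .negSucc 27669196799)]), (1, [(0, .negSucc 7940217599), (2, .negSucc 61372281599)]), (2, [(1, .negSucc 11106547199)])]), (6, [(1, [(1, .negSucc 5787935999), (3, .ofNat 72339724800)]), (2, [(0, .negSucc 2384524799), (2, .negSucc 7829740799)])]), (7, [(1, [(2, .ofNat 7464441600)]), (2, [(1, .negSucc 3671539199), (3, .negSucc 23151743999)])]), (8, [(1, [(3, .negSucc 20687385599)]),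 (2, [(2, .negSucc 7538227199)])]), (9, [(2, [(3, .ofNat 18403660800)])])]), (1, [(0, [(0, [(0, .negSucc 30818591999), (2, .negSucc 83706335999)])]), (1, [(0, [(1, .ofNat 62320608000), (3, .ofNat 81107712000)]), (1, [(0, .negSucc 18194399999)])]), (2, [(0, [(0, .ofNat 43352870400), (2, .ofNat 87581491200)]), (1, [(1, .ofNat 140144256000)])]), (3, [(0, [(1, .negSucc 48888403199), (3, .negSucc 54622310399)]), (1, [(0, .ofNat 2711520000), (2, .negSucc 59778028799)])]), (4, [(0, [(0, .negSucc 13934995199), (2, .negSucc 48246105599)]), (1, [(1, .negSucc 62734291199), (3, .negSucc 44298777599)]), (2, [(0, .negSucc 6699167999)])]), (5, [(0, [(1, .negSucc 14261990399), (3, .ofNat 27249868800)]), (1, [(2, .ofNat 13329792000)]), (2, [(1, .ofNat 22130438400)])]), (6, [(1, [(3, .negSucc 17579519999)]), (2, [(2, .ofNat 30228710400)])]), (7, [(2, [(3, .ofNat 13766860800)])])]), (2, [(0, [(0, [(0, .negSucc 6223795199), (2, .ofNat 45350323200)])]), (1, [(0, [(1, .negSucc 40737715199),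 (3, .negSucc 30462566399)]), (1, [(0, .negSucc 2317593599)])]), (2, [(0, [(0, .negSucc 1777305599), (2, .negSucc 94751999)]), (1, [(1, .negSucc 76691059199)])]), (3, [(0, [(1, .ofNat 42261408000), (3, .ofNat 5435942400)]), (1, [(2, .ofNat 35836819200)])]), (4, [(1, [(3, .ofNat 56969740800)])])]), (3, [(0, [(0, [(0, .ofNat 5142816000), (2, .negSucc 4237631999)])]), (1, [(0, [(1, .ofNat 6944716800)])])])]), (1, [(0, [(0, [(0, [(0, .ofNat 62991129600), (2, .ofNat 61931520000)])]), (1, [(0, [(1, .ofNat 32646297600), (3, .negSucc 51675724799)]), (1, [(0, .ofNat 55885132800)])]), (2, [(0, [(0, .negSucc 11581516799), (2, .negSucc 105856127999)]), (1, [(1, .negSucc 136373529599)])]), (3, [(0, [(1, .ofNat 33228518400), (3, .ofNat 92148940800)]), (1, [(0, .negSucc 36265420799), (2, .ofNat 2365977600)])]), (4, [(0, [(0, .negSucc 25174195199), (2, .negSucc 123861427199)]), (1, [(1, .ofNat 16171545600), (3, .ofNat 59101056000)]), (2, [(0, .negSucc 32239871999)])]), (5, [(0,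 [(1, .negSucc 16613452799), (3, .negSucc 25304831999)]), (1, [(2, .negSucc 37094399)]), (2, [(1, .ofNat 7788211200)])]), (6, [(0, [(2, .ofNat 61931520000)]), (1, [(3, .ofNat 2825625600)]), (2, [(2, .ofNat 4481971200)])]), (7, [(2, [(3, .negSucc 27804671999)])])]), (1, [(0, [(0, [(0, .negSucc 123858201599), (2, .negSucc 123854975999)])]), (1, [(0, [(1, .ofNat 74067840000), (3, .negSucc 149932339199)]), (1, [(0, .negSucc 61929907199)])]), (2, [(0, [(0, .ofNat 61931520000), (2, .ofNat 259402752000)]), (1, [(1, .ofNat 28619136000)])]), (3, [(0, [(1, .negSucc 76149964799), (3, .ofNat 123859814400)]), (1, [(2, .ofNat 73309824000)])]), (4, [(0, [(2, .negSucc 73617868799)]), (1, [(3, .negSucc 10092902399)])])]), (2, [(0, [(0, [(0, .ofNat 61931520000), (2, .ofNat 23924275200)])]), (1, [(0, [(1, .ofNat 56986675200), (3, .negSucc 50851583999)])]), (2, [(0, [(2, .ofNat 83336601600)])])])]), (2, [(0, [(0, [(0, [(0, .ofNat 5336755200), (2, .ofNat 371584281600)])]), (1, [(0, [(1,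 .negSucc 103048243199), (3, .negSucc 247709951999)]), (1, [(0, .negSucc 119014963199)])]), (2, [(0, [(0, .ofNat 180452966400), (2, .ofNat 61921843200)]), (1, [(1, .ofNat 61900876800)])]), (3, [(0, [(1, .ofNat 100832256000), (3, .ofNat 123850137600)]), (1, [(2, .ofNat 150106521600)])]), (4, [(0, [(2, .negSucc 123863039999)]), (1, [(3, .ofNat 123859814400)])])]), (1, [(0, [(0, [(0, .negSucc 42365030399), (2, .ofNat 121637376000)])]), (1, [(0, [(1, .ofNat 359212492800), (3, .ofNat 95697100800)])]), (2, [(0, [(2, .negSucc 18908467199)])])])]), (3, [(0, [(1, [(0, [(1, .negSucc 56486707199), (3, .ofNat 162183168000)])]), (2, [(0, [(2, .ofNat 148648550400)])])])])]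
  L1 := [(0, [(0, [(0, [(0, [(0, .negSucc 8295033599)])]), (1, [(0, [(1, .negSucc 15207494399)])]), (2, [(0, [(0, .negSucc 8506713599), (2, .ofNat 3143347200)])]), (3, [(0, [(1, .ofNat 52920000000)]), (1, [(0, .ofNat 1070092800)])]), (4, [(0, [(0, .ofNat 23534380800), (2, .ofNat 24679065600)]), (1, [(1, .ofNat 29766643200)])]), (5, [(0, [(1, .negSucc 38637849599)]), (1, [(0, .ofNat 32478969600), (2, .negSucc 112769798399)])]), (6, [(0, [(0, .negSucc 7662412799), (2, .negSucc 27822412799)]), (1, [(1, .negSucc 23502527999)]), (2, [(0, .negSucc 38080223999)])]), (7, [(1, [(0, .negSucc 22142937599), (2, .ofNat 173913465600)]), (2, [(1, .negSucc 40034937599)])]), (8, [(1, [(1, .negSucc 13199961599)]), (2, [(0, .ofNat 32743872000), (2, .negSucc 86258995199)])]), (9, [(1, [(2, .negSucc 63678988799)]), (2, [(1, .ofNat 97763904000)])]), (10, [(2, [(0, .ofNat 3271968000), (2, .ofNat 133996262400)])]), (11, [(2, [(1, .negSucc 61297689599)])]), (12, [(2, [(2, .negSucc 41783615999)])])]),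 (1, [(0, [(0, [(0, .ofNat 3883219200)])]), (1, [(0, [(1, .ofNat 5808499200)])]), (2, [(0, [(0, .negSucc 23526316799), (2, .ofNat 24373440000)])]), (3, [(0, [(1, .ofNat 3042950400)]), (1, [(0, .ofNat 23890003200)])]), (4, [(0, [(0, .ofNat 30435955200), (2, .negSucc 79711833599)]), (1, [(1, .negSucc 53378841599)])]), (5, [(0, [(1, .ofNat 3711859200)]), (1, [(0, .negSucc 36024710399), (2, .ofNat 140161996800)])]), (6, [(0, [(0, .negSucc 20869631999), (2, .ofNat 55338393600)]), (1, [(1, .ofNat 78830438400)]), (2, [(0, .ofNat 42698880000)])]), (7, [(1, [(0, .ofNat 4417459200), (2, .negSucc 222224083199)]), (2, [(1, .ofNat 7875302400)])]), (8, [(1, [(1, .negSucc 15572390399)]), (2, [(0, .negSucc 26195903999), (2, .ofNat 87858892800)])]), (9, [(1, [(2, .ofNat 72405849600)]), (2, [(1, .ofNat 37100448000)])]), (10, [(2, [(2, .negSucc 73614643199)])])]), (2, [(0, [(0, [(0, .ofNat 37281484800)])]), (1, [(0, [(1, .negSucc 1444665599)])]), (2, [(0, [(0, .negSucc 4005388799),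 (2, .negSucc 27311155199)])]), (3, [(0, [(1, .negSucc 49334745599)]), (1, [(0, .negSucc 56824588799)])]), (4, [(0, [(0, .negSucc 36584755199), (2, .ofNat 54561024000)]), (1, [(1, .ofNat 25930598400)])]), (5, [(0, [(1, .ofNat 31439923200)]), (1, [(0, .ofNat 31043980800), (2, .ofNat 24434323200)])]), (6, [(0, [(0, .ofNat 29744870400), (2, .negSucc 27249868799)]), (1, [(1, .negSucc 12623385599)]), (2, [(0, .negSucc 17269862399)])]), (7, [(1, [(2, .ofNat 21974400000)]), (2, [(1, .negSucc 46474847999)])]), (8, [(2, [(2, .negSucc 20650291199)])])]), (3, [(0, [(0, [(0, .negSucc 31869331199)])]), (1, [(0, [(1, .ofNat 5489568000)])]), (2, [(0, [(0, .ofNat 35215084800), (2, .ofNat 1811980800)])]), (3, [(0, [(1, .ofNat 2596204800)]), (1, [(0, .ofNat 22513881600)])]), (4, [(0, [(0, .negSucc 17154547199), (2, .negSucc 1811980799)]), (1, [(1, .negSucc 12366143999)])]), (5, [(1, [(2, .negSucc 28484870399)])])])]), (1, [(0, [(0, [(0, [(0, .ofNat 281069913600)])]), (1, [(0, [(1,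 .negSucc 101524147199)])]), (2, [(0, [(0, .negSucc 384311692799), (2, .negSucc 119054476799)])]), (3, [(0, [(1, .ofNat 195832627200)]), (1, [(0, .negSucc 13806374399)])]), (4, [(0, [(0, .ofNat 231955315200), (2, .ofNat 216759513600)]), (1, [(1, .negSucc 109718783999)])]), (5, [(0, [(1, .negSucc 199851724799)]), (1, [(0, .negSucc 97307481599), (2, .negSucc 125369395199)])]), (6, [(0, [(0, .negSucc 63547545599), (2, .negSucc 92897279999)]), (1, [(1, .ofNat 98046144000)]), (2, [(0, .negSucc 109854259199)])]), (7, [(0, [(1, .ofNat 54915840000)]), (1, [(0, .ofNat 68069030400), (2, .ofNat 178388582400)]), (2, [(1, .negSucc 163621785599)])]), (8, [(1, [(1, .negSucc 1165247999)]), (2, [(0, .ofNat 29969049600), (2, .negSucc 4368268799)])]), (9, [(1, [(2, .negSucc 27283737599)]), (2, [(1, .ofNat 185649408000)])]), (10, [(2, [(2, .negSucc 42866611199)])])]), (1, [(0, [(0, [(0, .negSucc 244835135999)])]), (1, [(0, [(1, .ofNat 46630886400)])]), (2, [(0, [(0, .ofNat 391769280000),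 (2, .ofNat 66311078400)])]), (3, [(0, [(1, .negSucc 274863052799)]), (1, [(0, .ofNat 67169088000)])]), (4, [(0, [(0, .negSucc 266578099199), (2, .negSucc 96684134399)]), (1, [(1, .negSucc 82476979199)])]), (5, [(0, [(1, .ofNat 371587507200)]), (1, [(0, .negSucc 9433267199), (2, .negSucc 56275430399)])]), (6, [(0, [(0, .ofNat 83609971200), (2, .ofNat 37957248000)]), (1, [(1, .ofNat 92894860800)]), (2, [(0, .ofNat 26292672000)])]), (7, [(0, [(1, .negSucc 123863039999)]), (1, [(2, .negSucc 5651251199)]), (2, [(1, .negSucc 11350886399)])]), (8, [(2, [(2, .ofNat 69511680000)])])]), (2, [(0, [(0, [(0, .negSucc 46958284799)])]), (1, [(0, [(1, .ofNat 38921702400)])]), (2, [(0, [(0, .ofNat 4298918400), (2, .ofNat 24446822400)])]), (3, [(0, [(1, .negSucc 73617868799)]), (1, [(0, .negSucc 2523225599)])]), (4, [(0, [(0, .ofNat 3554611200), (2, .negSucc 30964953599)]), (1, [(1, .negSucc 2844979199)])]), (5, [(0, [(1, .ofNat 36808934400)]), (1, [(2, .ofNat 5046451200)])])]),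 (3, [(0, [(0, [(0, .ofNat 12096000000)])]), (1, [(0, [(1, .ofNat 27778867200)])]), (2, [(0, [(0, .ofNat 10285632000), (2, .negSucc 8475263999)])])])]), (2, [(0, [(0, [(0, [(0, .ofNat 376780723200)])]), (1, [(0, [(1, .ofNat 120395520000)])]), (2, [(0, [(0, .negSucc 109210751999), (2, .negSucc 247726079999)])]), (3, [(0, [(1, .negSucc 283793126399)]), (1, [(0, .negSucc 98361446399)])]), (4, [(0, [(0, .negSucc 89113651199), (2, .ofNat 247726080000)]), (1, [(1, .ofNat 64195891200)])]), (5, [(0, [(1, .ofNat 374942131200)]), (1, [(0, .ofNat 98158233600), (2, .ofNat 245263334400)])]), (6, [(0, [(0, .ofNat 50348390400), (2, .negSucc 123863039999)]), (1, [(1, .negSucc 10650931199)]), (2, [(0, .ofNat 63286272000)])]), (7, [(0, [(1, .negSucc 117379583999)]), (1, [(2, .negSucc 185678438399)]), (2, [(1, .negSucc 103754649599)])]), (8, [(2, [(2, .ofNat 4773888000)])])]), (1, [(0, [(0, [(0, .negSucc 497790719999)])]), (1, [(0, [(1, .ofNat 309396326400)])]), (2, [(0, [(0, .ofNat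 61934745600), (2, .negSucc 123859814399)])]), (3, [(0, [(1, .negSucc 123867878399)])]), (5, [(0, [(1, .ofNat 61931520000)]), (1, [(2, .negSucc 61929907199)])])]), (2, [(0, [(0, [(0, .ofNat 147787315200)])]), (1, [(0, [(1, .negSucc 9454233599)])]), (2, [(0, [(0, .ofNat 123863040000), (2, .ofNat 47848550400)])]), (3, [(0, [(1, .negSucc 4727116799)])])])]), (3, [(0, [(0, [(0, [(0, .ofNat 254838528000)])]), (1, [(0, [(1, .ofNat 24598425600)])]), (2, [(0, [(0, .ofNat 368018380800), (2, .ofNat 495442483200)])]), (3, [(0, [(1, .ofNat 131475456000)]), (1, [(0, .negSucc 121495449599)])]), (4, [(0, [(0, .ofNat 120301977600), (2, .negSucc 123863039999)]), (1, [(1, .ofNat 123840460800)])])]), (1, [(0, [(0, [(0, .ofNat 24604876800)])]), (1, [(0, [(1, .ofNat 148648550400)])]), (2, [(0, [(0, .negSucc 84730060799), (2, .ofNat 243274752000)])]), (3, [(0, [(1, .ofNat 148648550400)])])])])]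
  L2 := [(0, [(0, [(1, [(0, [(0, .ofNat 13160448000)])]), (2, [(0, [(1, .negSucc 46184947199)])]), (3, [(0, [(0, .negSucc 39793420799), (2, .ofNat 57759609600)])]), (4, [(0, [(1, .ofNat 39550291200)]), (1, [(0, .ofNat 44568921600)])]), (5, [(0, [(0, .ofNat 16024780800), (2, .negSucc 82515283199)]), (1, [(1, .ofNat 21247833600)])]), (6, [(0, [(1, .ofNat 3419539200)]), (1, [(0, .negSucc 40478054399), (2, .ofNat 56938291200)])]), (7, [(0, [(2, .ofNat 27290995200)]), (1, [(1, .negSucc 52956287999)])]), (8, [(1, [(0, .ofNat 679795200), (2, .negSucc 87962111999)])]), (9, [(1, [(1, .ofNat 40865126400)])]), (10, [(1, [(2, .ofNat 25070169600)])])]), (1, [(1, [(0, [(0, .negSucc 52917580799)])]), (2, [(0, [(1, .ofNat 77133772800)])]), (3, [(0, [(0, .ofNat 64162022400), (2, .negSucc 67822271999)])]), (4, [(0, [(1, .negSucc 62021030399)]), (1, [(0, .negSucc 67592447999)])]), (5, [(0, [(0, .negSucc 8856691199), (2, .ofNat 108509587200)]), (1, [(1, .negSucc 28473983999)])]), (6,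 [(0, [(1, .ofNat 7786195200)]), (1, [(0, .ofNat 35397734400), (2, .negSucc 69455231999)])]), (7, [(0, [(2, .negSucc 31031078399)]), (1, [(1, .negSucc 31800383999)])]), (8, [(1, [(2, .ofNat 55210982400)])])]), (2, [(1, [(0, [(0, .ofNat 81887500800)])]), (2, [(0, [(1, .negSucc 55914969599)])]), (3, [(0, [(0, .negSucc 35438860799), (2, .negSucc 33224083199)])]), (4, [(0, [(1, .ofNat 9467539200)]), (1, [(0, .ofNat 31067366400)])]), (5, [(0, [(2, .negSucc 13184639999)]), (1, [(1, .ofNat 55769817600)])]), (6, [(1, [(2, .ofNat 20650291200)])])]), (3, [(1, [(0, [(0, .negSucc 39056774399)])]), (2, [(0, [(1, .ofNat 18549216000)])]), (3, [(0, [(2, .ofNat 28484870400)])])])]), (1, [(0, [(1, [(0, [(0, .ofNat 130252147200)])]), (2, [(0, [(1, .negSucc 1857945599)])]), (3, [(0, [(0, .ofNat 2387750400), (2, .ofNat 67904524800)])]), (4, [(0, [(1, .negSucc 82008460799)]), (1, [(0, .ofNat 165149107200)])]), (5, [(0, [(0, .negSucc 47641305599), (2, .negSucc 120149567999)]), (1, [(1,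 .ofNat 137091225600)])]), (6, [(0, [(1, .ofNat 699148800)]), (1, [(0, .negSucc 28614297599), (2, .ofNat 19939046400)])]), (7, [(0, [(2, .ofNat 13641868800)]), (1, [(1, .negSucc 185649407999)])]), (8, [(1, [(2, .ofNat 36742809600)])])]), (1, [(1, [(0, [(0, .negSucc 109166399999)])]), (2, [(0, [(1, .ofNat 185765529600)])]), (3, [(0, [(0, .ofNat 16269120000), (2, .ofNat 88651584000)])]), (4, [(0, [(1, .negSucc 92894860799)]), (1, [(0, .negSucc 80390015999)])]), (5, [(0, [(2, .ofNat 4238438400)]), (1, [(1, .ofNat 17026329600)])]), (6, [(1, [(2, .negSucc 83414015999)])])]), (2, [(1, [(0, [(0, .negSucc 13905561599)])]), (2, [(0, [(1, .ofNat 8534937600)])]), (3, [(0, [(2, .negSucc 7569676799)])])])]), (2, [(0, [(1, [(0, [(0, .ofNat 167655398400)])]), (2, [(0, [(1, .negSucc 190787788799)])]), (3, [(0, [(0, .negSucc 108796262399), (2, .negSucc 364433126399)])]), (4, [(0, [(1, .ofNat 15976396800)]), (1, [(0, .negSucc 193439231999)])]), (5, [(0, [(2, .ofNat 185678438400)]),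 (1, [(1, .ofNat 207509299200)])]), (6, [(1, [(2, .negSucc 7160831999)])])]), (1, [(1, [(0, [(0, .negSucc 185789721599)])]), (2, [(0, [(1, .ofNat 141479654400)])]), (3, [(0, [(2, .ofNat 185789721600)])])])]), (3, [(0, [(1, [(0, [(0, .negSucc 238029926399)])]), (2, [(0, [(1, .ofNat 371521382400)])]), (3, [(0, [(2, .ofNat 111573504000)])])])])]
  Lw := [(0, [(0, [(0, [(0, [(0, .negSucc 30643199)])]), (1, [(0, [(1, .negSucc 333849599)]), (1, [(0, .negSucc 6889478399)])]), (2, [(0, [(0, .ofNat 4353350400)]), (1, [(1, .ofNat 1715212800)])]), (3, [(0, [(1, .ofNat 23106585600)]), (1, [(0, .ofNat 12886675200)])]), (4, [(0, [(0, .negSucc 7238246399)]), (1, [(1, .negSucc 16010265599)]), (2, [(0, .negSucc 6627801599)])]), (5, [(0, [(1, .negSucc 24704063999)]), (1, [(0, .negSucc 3982003199)]), (2, [(1, .negSucc 5926233599)])]), (6, [(1, [(1, .ofNat 6295564800)]), (2, [(0, .ofNat 6516115200)])]), (7, [(2, [(1, .ofNat 9875980800)])])]), (1, [(0, [(0, [(0, .ofNat 4965004800)])]),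 (1, [(0, [(1, .negSucc 11499263999)]), (1, [(0, .ofNat 6047193600)])]), (2, [(0, [(0, .negSucc 4550515199)]), (1, [(1, .negSucc 1422489599)])]), (3, [(0, [(1, .ofNat 912844800)]), (1, [(0, .negSucc 2961907199)])]), (4, [(0, [(0, .ofNat 8791776000)]), (1, [(1, .ofNat 9339724800)]), (2, [(0, .negSucc 1553932799)])]), (5, [(0, [(1, .ofNat 24150067200)]), (2, [(1, .negSucc 5060966399)])])]), (2, [(0, [(0, [(0, .negSucc 9473183999)])]), (1, [(0, [(1, .ofNat 5752857600)]), (1, [(0, .negSucc 1012838399)])]), (2, [(0, [(0, .negSucc 3062303999)]), (1, [(1, .ofNat 1543449600)])]), (3, [(0, [(1, .negSucc 19985011199)])])]), (3, [(0, [(0, [(0, .ofNat 4864608000)])])])]), (1, [(0, [(0, [(0, [(0, .negSucc 13289471999)])]), (1, [(0, [(1, .ofNat 19860019200)]), (1, [(0, .negSucc 23392051199)])]), (2, [(0, [(0, .ofNat 81852825600)]), (1, [(1, .ofNat 24188774400)])]), (3, [(0, [(1, .negSucc 18202060799)]), (1, [(0, .negSucc 16615065599)])]), (4, [(0, [(0, .negSucc 10028390399)]),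 (1, [(1, .negSucc 11847628799)]), (2, [(0, .negSucc 7622092799)])]), (5, [(0, [(1, .ofNat 35167104000)]), (2, [(1, .negSucc 6215731199)])])]), (1, [(0, [(0, [(0, .ofNat 17250508800)])]), (1, [(0, [(1, .negSucc 75785471999)]), (1, [(0, .ofNat 21626035200)])]), (2, [(0, [(0, .negSucc 61928294399)]), (1, [(1, .negSucc 8102707199)])]), (3, [(0, [(1, .negSucc 24498431999)])])]), (2, [(0, [(0, [(0, .negSucc 195148799)])]), (1, [(0, [(1, .ofNat 58375296000)])])])]), (2, [(0, [(0, [(0, [(0, .negSucc 4838399)])]), (1, [(0, [(1, .ofNat 34501017600)]), (1, [(0, .ofNat 105298099200)])]), (2, [(0, [(0, .negSucc 185789721599)]), (1, [(1, .ofNat 43252070400)])]), (3, [(0, [(1, .negSucc 123856588799)])])]), (1, [(0, [(0, [(0, .ofNat 10726732800)])]), (1, [(0, [(1, .negSucc 780595199)])])])]), (3, [(0, [(1, [(0, [(1, .ofNat 14302310400)])])])])]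
  A11 := [(0, [(0, [(2, [(0, [(0, .negSucc 14462380799)])]), (4, [(0, [(0, .ofNat 30183148800)])]), (5, [(1, [(0, .negSucc 22561459199)])]), (6, [(0, [(0, .negSucc 17502911999)])]), (7, [(1, [(0, .ofNat 36399283200)])]), (8, [(2, [(0, .negSucc 62745177599)])]), (9, [(1, [(0, .negSucc 15182899199)])]), (10, [(2, [(0, .ofNat 78449414400)])]), (12, [(2, [(0, .negSucc 13886611199)])])]), (1, [(2, [(0, [(0, .ofNat 25082265600)])]), (4, [(0, [(0, .negSucc 59160729599)])]), (5, [(1, [(0, .ofNat 79452172800)])]), (6, [(0, [(0, .ofNat 36235584000)])]), (7, [(1, [(0, .negSucc 86737190399)])]), (8, [(2, [(0, .ofNat 25105248000)])]), (9, [(1, [(0, .ofNat 25443532800)])]), (10, [(2, [(0, .negSucc 39321676799)])])]), (2, [(2, [(0, [(0, .negSucc 17040038399)])]), (4, [(0, [(0, .ofNat 32566867200)])]), (5, [(1, [(0, .negSucc 46513958399)])]), (6, [(0, [(0, .negSucc 18166175999)])]), (7, [(1, [(0, .ofNat 21368793600)])]), (8, [(2, [(0, .ofNat 9192556800)])])]), (3, [(2, [(0, [(0,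 .ofNat 5577062400)])]), (4, [(0, [(0, .negSucc 4360607999)])]), (5, [(1, [(0, .ofNat 11771827200)])])])]), (1, [(0, [(2, [(0, [(0, .negSucc 31791513599)])]), (4, [(0, [(0, .ofNat 63950745600)])]), (5, [(1, [(0, .negSucc 81098841599)])]), (6, [(0, [(0, .negSucc 32159231999)])]), (7, [(1, [(0, .negSucc 24498431999)])]), (8, [(2, [(0, .ofNat 78267571200)])]), (9, [(1, [(0, .ofNat 63447552000)])]), (10, [(2, [(0, .negSucc 103567564799)])])]), (1, [(2, [(0, [(0, .negSucc 36658943999)])]), (4, [(0, [(0, .ofNat 34194585600)])]), (5, [(1, [(0, .ofNat 98604172800)])]), (6, [(0, [(0, .ofNat 2464358400)])]), (7, [(1, [(0, .negSucc 37763711999)])]), (8, [(2, [(0, .ofNat 31033497600)])])]), (2, [(2, [(0, [(0, .ofNat 48361420800)])]), (4, [(0, [(0, .negSucc 48361420799)])]), (5, [(1, [(0, .negSucc 31031078399)])])])]), (2, [(0, [(2, [(0, [(0, .negSucc 41713459199)])]), (4, [(0, [(0, .ofNat 65326464000)])]), (5, [(1, [(0, .ofNat 91777996800)])]), (6, [(0, [(0, .negSucc 1698278399)])]),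 (7, [(1, [(0, .negSucc 31423795199)])]), (8, [(2, [(0, .ofNat 105323904000)])])]), (1, [(2, [(0, [(0, .ofNat 25295155200)])]), (4, [(0, [(0, .negSucc 60509030399)])]), (5, [(1, [(0, .negSucc 53544959999)])])]), (2, [(2, [(0, [(0, .ofNat 15419980800)])])])]), (3, [(0, [(2, [(0, [(0, .ofNat 247726080000)])]), (5, [(1, [(0, .negSucc 26507980799)])])]), (1, [(2, [(0, [(0, .negSucc 168292454399)])])])])]
  A12 := [(0, [(0, [(3, [(0, [(0, .ofNat 9719136000)])]), (5, [(0, [(0, .negSucc 14403916799)])]), (6, [(1, [(0, .ofNat 39800678400)])]), (7, [(0, [(0, .ofNat 5693587200)])]), (8, [(1, [(0, .negSucc 48933158399)])]), (10, [(1, [(0, .ofNat 7574515200)])])]), (1, [(3, [(0, [(0, .negSucc 41085273599)])]), (5, [(0, [(0, .ofNat 37007712000)])]), (6, [(1, [(0, .negSucc 14028940799)])]), (7, [(0, [(0, .negSucc 9541324799)])]), (8, [(1, [(0, .ofNat 26214451200)])])]), (2, [(3, [(0, [(0, .ofNat 29543270400)])]), (5, [(0, [(0, .negSucc 10684396799)])]), (6, [(1, [(0, .negSucc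 7879334399)])])]), (3, [(3, [(0, [(0, .negSucc 8828870399)])])])]), (1, [(0, [(3, [(0, [(0, .ofNat 76395916800)])]), (5, [(0, [(0, .negSucc 7054387199)])]), (6, [(1, [(0, .negSucc 52375679999)])]), (7, [(0, [(0, .negSucc 27191807999)])]), (8, [(1, [(0, .ofNat 77675673600)])])]), (1, [(3, [(0, [(0, .negSucc 83498687999)])]), (5, [(0, [(0, .ofNat 22658227200)])]), (6, [(1, [(0, .negSucc 31033497599)])])]), (2, [(3, [(0, [(0, .ofNat 31031078400)])])])]), (2, [(0, [(3, [(0, [(0, .negSucc 114099148799)])]), (5, [(0, [(0, .ofNat 23567846400)])]), (6, [(1, [(0, .negSucc 126388684799)])])]), (1, [(3, [(0, [(0, .ofNat 80317440000)])])])]), (3, [(0, [(3, [(0, [(0, .ofNat 79523942400)])])])])]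
  W1 := [(0, [(0, [(0, [(0, [(0, .ofNat 7019712000)])]), (2, [(0, [(0, .negSucc 36364204799)])]), (3, [(1, [(0, .ofNat 6359270400)])]), (4, [(0, [(0, .ofNat 64400313600)])]), (5, [(1, [(0, .negSucc 13033036799)])]), (6, [(0, [(0, .negSucc 33132959999)]), (2, [(0, .negSucc 17853695999)])]), (7, [(1, [(0, .ofNat 5486745600)])]), (8, [(2, [(0, .ofNat 1852704000)])]), (10, [(2, [(0, .ofNat 21518784000)])])]), (1, [(0, [(0, [(0, .negSucc 333849599)])]), (2, [(0, [(0, .ofNat 46380096000)])]), (3, [(1, [(0, .negSucc 17725478399)])]), (4, [(0, [(0, .negSucc 108772070399)])]), (5, [(1, [(0, .ofNat 44611660800)])]), (6, [(0, [(0, .ofNat 61760160000)]), (2, [(0, .ofNat 24691564800)])]), (7, [(1, [(0, .negSucc 18886694399)])]), (8, [(2, [(0, .negSucc 34565932799)])])]), (2, [(0, [(0, [(0, .negSucc 5749631999)])]), (2, [(0, [(0, .ofNat 3787660800)])]), (3, [(1, [(0, .ofNat 5381107200)])]), (4, [(0, [(0, .ofNat 35540467200)])]), (5, [(1, [(0, .negSucc 9339724799)])]), (6, [(0,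 [(0, .negSucc 30187583999)]), (2, [(0, .ofNat 6326208000)])])]), (3, [(0, [(0, [(0, .ofNat 1917619200)])]), (2, [(0, [(0, .negSucc 14282150399)])]), (3, [(1, [(0, .negSucc 514483199)])]), (4, [(0, [(0, .ofNat 9992505600)])])])]), (1, [(0, [(0, [(0, [(0, .negSucc 122572799)])]), (2, [(0, [(0, .ofNat 34826803200)])]), (3, [(1, [(0, .ofNat 65325657600)])]), (4, [(0, [(0, .negSucc 104272358399)])]), (5, [(1, [(0, .negSucc 109176076799)])]), (6, [(0, [(0, .ofNat 57905971200)]), (2, [(0, .ofNat 79086873600)])]), (7, [(1, [(0, .ofNat 39820032000)])]), (8, [(2, [(0, .negSucc 78193382399)])])]), (1, [(0, [(0, [(0, .ofNat 19860019200)])]), (2, [(0, [(0, .negSucc 36404121599)])]), (3, [(1, [(0, .negSucc 23942015999)])]), (4, [(0, [(0, .ofNat 123703372800)])]), (5, [(1, [(0, .ofNat 17771443200)])]), (6, [(0, [(0, .negSucc 70334207999)]), (2, [(0, .ofNat 12431462400)])])]), (2, [(0, [(0, [(0, .negSucc 37892735999)])]), (2, [(0, [(0, .negSucc 24498431999)])]), (3, [(1, [(0, .ofNat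 2025676800)])]), (4, [(0, [(0, .ofNat 12249216000)])])]), (3, [(0, [(0, [(0, .ofNat 19458432000)])])])]), (2, [(0, [(0, [(0, [(0, .negSucc 26578943999)])]), (2, [(0, [(0, .ofNat 314121830400)])]), (3, [(1, [(0, .negSucc 33230131199)])]), (4, [(0, [(0, .negSucc 142023167999)])]), (5, [(1, [(0, .ofNat 33230131200)])]), (6, [(0, [(0, .ofNat 30085171200)]), (2, [(0, .ofNat 22866278400)])])]), (1, [(0, [(0, [(0, .ofNat 34501017600)])]), (2, [(0, [(0, .negSucc 230462668799)])]), (4, [(0, [(0, .ofNat 61928294400)])])]), (2, [(0, [(0, [(0, .negSucc 390297599)])]), (2, [(0, [(0, .negSucc 195148799)])])])]), (3, [(0, [(0, [(0, [(0, .negSucc 6451199)])]), (2, [(0, [(0, .negSucc 495445708799)])]), (3, [(1, [(0, .ofNat 70198732800)])])]), (1, [(0, [(0, [(0, .ofNat 14302310400)])]), (2, [(0, [(0, .ofNat 14302310400)])])])])]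
  W2 := [(0, [(0, [(1, [(0, [(0, .negSucc 2507500799)])]), (3, [(0, [(0, .ofNat 7031404800)])]), (4, [(1, [(0, .ofNat 17510169600)])]), (5, [(0, [(0, .negSucc 2743372799)])]), (6, [(1, [(0, .negSucc 9785663999)])]), (8, [(1, [(0, .negSucc 14345855999)])])]), (1, [(1, [(0, [(0, .ofNat 2572819200)])]), (3, [(0, [(0, .negSucc 24015398399)])]), (4, [(1, [(0, .negSucc 17778700799)])]), (5, [(0, [(0, .ofNat 9443347200)])]), (6, [(1, [(0, .ofNat 29627942400)])])]), (2, [(1, [(0, [(0, .negSucc 1066867199)])]), (3, [(0, [(0, .ofNat 7004793600)])]), (4, [(1, [(0, .negSucc 7591449599)])])]), (3, [(1, [(0, [(0, .ofNat 771724800)])])])]), (1, [(0, [(1, [(0, [(0, .negSucc 41336870399)])]), (3, [(0, [(0, .ofNat 77320051200)])]), (4, [(1, [(0, .negSucc 79533619199)])]), (5, [(0, [(0, .negSucc 23892019199)])]), (6, [(1, [(0, .ofNat 78193382400)])])]), (1, [(1, [(0, [(0, .ofNat 36283161600)])]), (3, [(0, [(0, .negSucc 17771443199)])]), (4, [(1, [(0, .negSucc 18647193599)])])]), (2,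 [(1, [(0, [(0, .negSucc 6077030399)])])])]), (2, [(0, [(1, [(0, [(0, .negSucc 70176153599)])]), (3, [(0, [(0, .negSucc 49845196799)])]), (4, [(1, [(0, .negSucc 45732556799)])])]), (1, [(1, [(0, [(0, .ofNat 64878105600)])])])]), (3, [(0, [(1, [(0, [(0, .ofNat 210596198400)])])])])]
  psi := [(0, [(0, [(0, [(0, [(0, .ofNat 3509856000)])]), (1, [(1, [(0, .negSucc 835833599)])]), (2, [(0, [(0, .negSucc 8213587199)])]), (3, [(1, [(0, .ofNat 2343801600)])]), (4, [(0, [(0, .ofNat 6626592000)]), (2, [(0, .ofNat 2918361600)])]), (5, [(1, [(0, .negSucc 914457599)])]), (6, [(2, [(0, .negSucc 1630943999)])]), (8, [(2, [(0, .negSucc 2390975999)])])]), (1, [(0, [(0, [(0, .negSucc 166924799)])]), (1, [(1, [(0, .ofNat 857606400)])]), (2, [(0, [(0, .ofNat 11553292800)])]), (3, [(1, [(0, .negSucc 8005132799)])]), (4, [(0, [(0, .negSucc 12352031999)]), (2, [(0, .negSucc 2963116799)])]), (5, [(1, [(0, .ofNat 3147782400)])]), (6, [(2, [(0, .ofNat 4937990400)])])]), (2, [(0, [(0, [(0,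 .negSucc 2874815999)])]), (1, [(1, [(0, .negSucc 355622399)])]), (2, [(0, [(0, .ofNat 228211200)])]), (3, [(1, [(0, .ofNat 2334931200)])]), (4, [(0, [(0, .ofNat 6037516800)]), (2, [(0, .negSucc 1265241599)])])]), (3, [(0, [(0, [(0, .ofNat 958809600)])]), (1, [(1, [(0, .ofNat 257241600)])]), (2, [(0, [(0, .negSucc 3330835199)])])])]), (1, [(0, [(0, [(0, [(0, .negSucc 61286399)])]), (1, [(1, [(0, .negSucc 13778956799)])]), (2, [(0, [(0, .ofNat 8706700800)])]), (3, [(1, [(0, .ofNat 25773350400)])]), (4, [(0, [(0, .negSucc 14476492799)]), (2, [(0, .negSucc 13255603199)])]), (5, [(1, [(0, .negSucc 7964006399)])]), (6, [(2, [(0, .ofNat 13032230400)])])]), (1, [(0, [(0, [(0, .ofNat 9930009600)])]), (1, [(1, [(0, .ofNat 12094387200)])]), (2, [(0, [(0, .negSucc 9101030399)])]), (3, [(1, [(0, .negSucc 5923814399)])]), (4, [(0, [(0, .ofNat 17583552000)]), (2, [(0, .negSucc 3107865599)])])]), (2, [(0, [(0, [(0, .negSucc 18946367999)])]), (1, [(1, [(0, .negSucc 2025676799)])]),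 (2, [(0, [(0, .negSucc 6124607999)])])]), (3, [(0, [(0, [(0, .ofNat 9729216000)])])])]), (2, [(0, [(0, [(0, [(0, .negSucc 13289471999)])]), (1, [(1, [(0, .negSucc 23392051199)])]), (2, [(0, [(0, .ofNat 81852825600)])]), (3, [(1, [(0, .negSucc 16615065599)])]), (4, [(0, [(0, .negSucc 10028390399)]), (2, [(0, .negSucc 7622092799)])])]), (1, [(0, [(0, [(0, .ofNat 17250508800)])]), (1, [(1, [(0, .ofNat 21626035200)])]), (2, [(0, [(0, .negSucc 61928294399)])])]), (2, [(0, [(0, [(0, .negSucc 195148799)])])])]), (3, [(0, [(0, [(0, [(0, .negSucc 3225599)])]), (1, [(1, [(0, .ofNat 70198732800)])]), (2, [(0, [(0, .negSucc 123859814399)])])]), (1, [(0, [(0, [(0, .ofNat 7151155200)])])])])]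
  G1 := [(0, [(1, [(0, [(0, [(0, .ofNat 1)])])])]), (2, [(0, [(0, [(0, [(0, .negSucc 3)])]), (2, [(0, [(0, .ofNat 4)])])])])]
  G2 := [(0, [(0, [(0, [(0, [(0, .ofNat 5)])])]), (2, [(0, [(0, [(0, .negSucc 4)])])])]), (2, [(0, [(2, [(0, [(0, .negSucc 55)])])])])]
  G3 := [(0, [(0, [(0, [(0, [(0, .ofNat 64), (2, .negSucc 347), (4, .ofNat 840), (6, .negSucc 799)]), (1, [(1, .negSucc 287), (3, .ofNat 720)]), (2, [(0, .negSucc 191)])])])])]
  G4 := [(0, [(0, [(0, [(0, [(0, .ofNat 4), (2, .negSucc 4)])])])])]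

/-- chart data, signs `(1, -1)` -/
def pm : CD where
  g := [(0, [(0, [(0, [(0, [(0, .ofNat 3675168000)])]), (2, [(0, [(0, .negSucc 5393606399)])]), (3, [(1, [(0, .negSucc 3239711999)])]), (4, [(0, [(0, .ofNat 3500582400)])]), (5, [(1, [(0, .ofNat 4801305600)])]), (6, [(2, [(0, .ofNat 6633446400)])]), (7, [(1, [(0, .negSucc 1897862399)])]), (8, [(2, [(0, .negSucc 8155526399)])]), (10, [(2, [(0, .ofNat 1262419200)])])]), (1, [(0, [(0, [(0, .negSucc 4967423999)])]), (2, [(0, [(0, .ofNat 10057420800)])]), (3, [(1, [(0, .ofNat 13695091200)])]), (4, [(0, [(0, .negSucc 7247116799)])]), (5, [(1, [(0, .negSucc 12335903999)])]), (6, [(2, [(0, .negSucc 2338156799)])]), (7, [(1, [(0, .ofNat 3180441600)])]), (8, [(2, [(0, .ofNat 4369075200)])])]), (2, [(0, [(0, [(0, .ofNat 5017420800)])]), (2, [(0, [(0, .negSucc 6011308799)])]), (3, [(1, [(0, .negSucc 9847756799)])]), (4, [(0, [(0, .ofNat 3633235200)])]), (5, [(1, [(0, .ofNat 3561465600)])]), (6, [(2, [(0, .negSucc 1313222399)])])]),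 (3, [(0, [(0, [(0, .negSucc 2669990399)])]), (2, [(0, [(0, .ofNat 1453536000)])]), (3, [(1, [(0, .ofNat 2942956800)])])])]), (1, [(0, [(0, [(0, [(0, .ofNat 7810790400)])]), (2, [(0, [(0, .negSucc 15895756799)])]), (3, [(1, [(0, .negSucc 25465305599)])]), (4, [(0, [(0, .ofNat 8039808000)])]), (5, [(1, [(0, .ofNat 2351462400)])]), (6, [(2, [(0, .negSucc 8729279999)])]), (7, [(1, [(0, .ofNat 9063936000)])]), (8, [(2, [(0, .ofNat 12945945600)])])]), (1, [(0, [(0, [(0, .ofNat 11911334400)])]), (2, [(0, [(0, .negSucc 18329471999)])]), (3, [(1, [(0, .ofNat 27832896000)])]), (4, [(0, [(0, .negSucc 616089599)])]), (5, [(1, [(0, .negSucc 7552742399)])]), (6, [(2, [(0, .negSucc 5172249599)])])]), (2, [(0, [(0, [(0, .negSucc 8326886399)])]), (2, [(0, [(0, .ofNat 24180710400)])]), (3, [(1, [(0, .negSucc 10343692799)])])]), (3, [(0, [(0, [(0, .negSucc 9969523199)])])])]), (2, [(0, [(0, [(0, [(0, .ofNat 84410726400)])]), (2, [(0, [(0, .negSucc 63062092799)])]), (3, [(1, [(0, .ofNat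 38033049600)])]), (4, [(0, [(0, .ofNat 566092800)])]), (5, [(1, [(0, .negSucc 7855948799)])]), (6, [(2, [(0, .negSucc 21064780799)])])]), (1, [(0, [(0, [(0, .negSucc 95722905599)])]), (2, [(0, [(0, .ofNat 60509030400)])]), (3, [(1, [(0, .negSucc 26772479999)])])]), (2, [(0, [(0, [(0, .ofNat 15419980800)])])])]), (3, [(0, [(0, [(0, [(0, .ofNat 125911296000)])]), (2, [(0, [(0, .negSucc 2048255999)])]), (3, [(1, [(0, .negSucc 26507980799)])])]), (1, [(0, [(0, [(0, .negSucc 84146227199)])])])])]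
  k11 := [(0, [(0, [(0, [(0, [(0, .ofNat 1225056000), (2, .ofNat 1750080000)])]), (2, [(0, [(0, .negSucc 1797868799), (2, .negSucc 2568383999)])]), (3, [(1, [(0, .negSucc 1079903999), (2, .negSucc 1542719999)])]), (4, [(0, [(0, .ofNat 1166860800), (2, .ofNat 1666944000)])]), (5, [(1, [(0, .ofNat 1600435200), (2, .ofNat 2286336000)])]), (6, [(2, [(0, .ofNat 2211148800), (2, .ofNat 3158784000)])]), (7, [(1, [(0, .negSucc 632620799), (2, .negSucc 903743999)])]), (8, [(2, [(0, .negSucc 2718508799), (2, .negSucc 3883583999)])]), (10, [(2, [(0, .ofNat 420806400), (2, .ofNat 601152000)])])]), (1, [(0, [(0, [(0, .negSucc 1655807999), (2, .negSucc 2365439999)])]), (2, [(0, [(0, .ofNat 3352473600), (2, .ofNat 4789248000)])]), (3, [(1, [(0, .ofNat 4565030400), (2, .ofNat 6521472000)])]), (4, [(0, [(0, .negSucc 2415705599), (2, .negSucc 3451007999)])]), (5, [(1, [(0, .negSucc 4111967999), (2, .negSucc 5874239999)])]), (6, [(2, [(0, .negSucc 779385599), (2, .negSucc 1113407999)])]),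 (7, [(1, [(0, .ofNat 1060147200), (2, .ofNat 1514496000)])]), (8, [(2, [(0, .ofNat 1456358400), (2, .ofNat 2080512000)])])]), (2, [(0, [(0, [(0, .ofNat 1672473600), (2, .ofNat 2389248000)])]), (2, [(0, [(0, .negSucc 2003769599), (2, .negSucc 2862527999)])]), (3, [(1, [(0, .negSucc 3282585599), (2, .negSucc 4689407999)])]), (4, [(0, [(0, .ofNat 1211078400), (2, .ofNat 1730112000)])]), (5, [(1, [(0, .ofNat 1187155200), (2, .ofNat 1695936000)])]), (6, [(2, [(0, .negSucc 437740799), (2, .negSucc 625343999)])])]), (3, [(0, [(0, [(0, .negSucc 889996799), (2, .negSucc 1271423999)])]), (2, [(0, [(0, .ofNat 484512000), (2, .ofNat 692160000)])]), (3, [(1, [(0, .ofNat 980985600), (2, .ofNat 1401408000)])])])]), (1, [(0, [(0, [(0, [(0, .ofNat 2603596800), (2, .ofNat 3719424000)])]), (2, [(0, [(0, .negSucc 5298585599), (2, .negSucc 7569407999)])]), (3, [(1, [(0, .negSucc 8488435199), (2, .negSucc 12126335999)])]), (4, [(0, [(0, .ofNat 2679936000), (2, .ofNat 3828480000)])]),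 (5, [(1, [(0, .ofNat 783820800), (2, .ofNat 1119744000)])]), (6, [(2, [(0, .negSucc 2909759999), (2, .negSucc 4156799999)])]), (7, [(1, [(0, .ofNat 3021312000), (2, .ofNat 4316160000)])]), (8, [(2, [(0, .ofNat 4315315200), (2, .ofNat 6164736000)])])]), (1, [(0, [(0, [(0, .ofNat 3970444800), (2, .ofNat 5672064000)])]), (2, [(0, [(0, .negSucc 6109823999), (2, .negSucc 8728319999)])]), (3, [(1, [(0, .ofNat 9277632000), (2, .ofNat 13253760000)])]), (4, [(0, [(0, .negSucc 205363199), (2, .negSucc 293375999)])]), (5, [(1, [(0, .negSucc 2517580799), (2, .negSucc 3596543999)])]), (6, [(2, [(0, .negSucc 1724083199), (2, .negSucc 2462975999)])])]), (2, [(0, [(0, [(0, .negSucc 2775628799), (2, .negSucc 3965183999)])]), (2, [(0, [(0, .ofNat 8060236800), (2, .ofNat 11514624000)])]), (3, [(1, [(0, .negSucc 3447897599), (2, .negSucc 4925567999)])])]), (3, [(0, [(0, [(0, .negSucc 3323174399), (2, .negSucc 4747391999)])])])]), (2, [(0, [(0, [(0, [(0, .ofNat 28136908800), (2, .ofNat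 40195584000)])]), (2, [(0, [(0, .negSucc 21020697599), (2, .negSucc 30029567999)])]), (3, [(1, [(0, .ofNat 12677683200), (2, .ofNat 18110976000)])]), (4, [(0, [(0, .ofNat 188697600), (2, .ofNat 269568000)])]), (5, [(1, [(0, .negSucc 2618649599), (2, .negSucc 3740927999)])]), (6, [(2, [(0, .negSucc 7021593599), (2, .negSucc 10030847999)])])]), (1, [(0, [(0, [(0, .negSucc 31907635199), (2, .negSucc 45582335999)])]), (2, [(0, [(0, .ofNat 20169676800), (2, .ofNat 28813824000)])]), (3, [(1, [(0, .negSucc 8924159999), (2, .negSucc 12748799999)])])]), (2, [(0, [(0, [(0, .ofNat 5139993600), (2, .ofNat 7342848000)])])])]), (3, [(0, [(0, [(0, [(0, .ofNat 41970432000), (2, .ofNat 59957760000)])]), (2, [(0, [(0, .negSucc 682751999), (2, .negSucc 975359999)])]), (3, [(1, [(0, .negSucc 8835993599), (2, .negSucc 12622847999)])])]), (1, [(0, [(0, [(0, .negSucc 28048742399), (2, .negSucc 40069631999)])])])])]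
  k12 := [(0, [(0, [(0, [(0, [(1, .negSucc 350015999), (3, .ofNat 1750080000)]), (1, [(0, .negSucc 1225055999)])]), (2, [(0, [(1, .ofNat 513676800), (3, .negSucc 2568383999)]), (1, [(0, .ofNat 1797868800)])]), (3, [(1, [(1, .ofNat 308544000), (3, .negSucc 1542719999)]), (2, [(0, .ofNat 1079904000)])]), (4, [(0, [(1, .negSucc 333388799), (3, .ofNat 1666944000)]), (1, [(0, .negSucc 1166860799)])]), (5, [(1, [(1, .negSucc 457267199), (3, .ofNat 2286336000)]), (2, [(0, .negSucc 1600435199)])]), (6, [(2, [(1, .negSucc 631756799), (3, .ofNat 3158784000)]), (3, [(0, .negSucc 2211148799)])]), (7, [(1, [(1, .ofNat 180748800), (3, .negSucc 903743999)]), (2, [(0, .ofNat 632620800)])]), (8, [(2, [(1, .ofNat 776716800), (3, .negSucc 3883583999)]), (3, [(0, .ofNat 2718508800)])]), (10, [(2, [(1, .negSucc 120230399), (3, .ofNat 601152000)]), (3, [(0, .negSucc 420806399)])])]), (1, [(0, [(0, [(1, .ofNat 473088000), (3, .negSucc 2365439999)]), (1, [(0, .ofNat 1655808000)])]), (2,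 [(0, [(1, .negSucc 957849599), (3, .ofNat 4789248000)]), (1, [(0, .negSucc 3352473599)])]), (3, [(1, [(1, .negSucc 1304294399), (3, .ofNat 6521472000)]), (2, [(0, .negSucc 4565030399)])]), (4, [(0, [(1, .ofNat 690201600), (3, .negSucc 3451007999)]), (1, [(0, .ofNat 2415705600)])]), (5, [(1, [(1, .ofNat 1174848000), (3, .negSucc 5874239999)]), (2, [(0, .ofNat 4111968000)])]), (6, [(2, [(1, .ofNat 222681600), (3, .negSucc 1113407999)]), (3, [(0, .ofNat 779385600)])]), (7, [(1, [(1, .negSucc 302899199), (3, .ofNat 1514496000)]), (2, [(0, .negSucc 1060147199)])]), (8, [(2, [(1, .negSucc 416102399), (3, .ofNat 2080512000)]), (3, [(0, .negSucc 1456358399)])])]), (2, [(0, [(0, [(1, .negSucc 477849599), (3, .ofNat 2389248000)]), (1, [(0, .negSucc 1672473599)])]), (2, [(0, [(1, .ofNat 572505600), (3, .negSucc 2862527999)]), (1, [(0, .ofNat 2003769600)])]), (3, [(1, [(1, .ofNat 937881600), (3, .negSucc 4689407999)]), (2, [(0, .ofNat 3282585600)])]), (4, [(0, [(1, .negSucc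 346022399), (3, .ofNat 1730112000)]), (1, [(0, .negSucc 1211078399)])]), (5, [(1, [(1, .negSucc 339187199), (3, .ofNat 1695936000)]), (2, [(0, .negSucc 1187155199)])]), (6, [(2, [(1, .ofNat 125068800), (3, .negSucc 625343999)]), (3, [(0, .ofNat 437740800)])])]), (3, [(0, [(0, [(1, .ofNat 254284800), (3, .negSucc 1271423999)]), (1, [(0, .ofNat 889996800)])]), (2, [(0, [(1, .negSucc 138431999), (3, .ofNat 692160000)]), (1, [(0, .negSucc 484511999)])]), (3, [(1, [(1, .negSucc 280281599), (3, .ofNat 1401408000)]), (2, [(0, .negSucc 980985599)])])])]), (1, [(0, [(0, [(0, [(1, .negSucc 743884799), (3, .ofNat 3719424000)]), (1, [(0, .negSucc 2603596799)])]), (2, [(0, [(1, .ofNat 1513881600), (3, .negSucc 7569407999)]), (1, [(0, .ofNat 5298585600)])]), (3, [(1, [(1, .ofNat 2425267200), (3, .negSucc 12126335999)]), (2, [(0, .ofNat 8488435200)])]), (4, [(0, [(1, .negSucc 765695999), (3, .ofNat 3828480000)]), (1, [(0, .negSucc 2679935999)])]), (5, [(1, [(1, .negSucc 223948799),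 (3, .ofNat 1119744000)]), (2, [(0, .negSucc 783820799)])]), (6, [(2, [(1, .ofNat 831360000), (3, .negSucc 4156799999)]), (3, [(0, .ofNat 2909760000)])]), (7, [(1, [(1, .negSucc 863231999), (3, .ofNat 4316160000)]), (2, [(0, .negSucc 3021311999)])]), (8, [(2, [(1, .negSucc 1232947199), (3, .ofNat 6164736000)]), (3, [(0, .negSucc 4315315199)])])]), (1, [(0, [(0, [(1, .negSucc 1134412799), (3, .ofNat 5672064000)]), (1, [(0, .negSucc 3970444799)])]), (2, [(0, [(1, .ofNat 1745664000), (3, .negSucc 8728319999)]), (1, [(0, .ofNat 6109824000)])]), (3, [(1, [(1, .negSucc 2650751999), (3, .ofNat 13253760000)]), (2, [(0, .negSucc 9277631999)])]), (4, [(0, [(1, .ofNat 58675200), (3, .negSucc 293375999)]), (1, [(0, .ofNat 205363200)])]), (5, [(1, [(1, .ofNat 719308800), (3, .negSucc 3596543999)]), (2, [(0, .ofNat 2517580800)])]), (6, [(2, [(1, .ofNat 492595200), (3, .negSucc 2462975999)]), (3, [(0, .ofNat 1724083200)])])]), (2, [(0, [(0, [(1, .ofNat 793036800), (3, .negSucc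 3965183999)]), (1, [(0, .ofNat 2775628800)])]), (2, [(0, [(1, .negSucc 2302924799), (3, .ofNat 11514624000)]), (1, [(0, .negSucc 8060236799)])]), (3, [(1, [(1, .ofNat 985113600), (3, .negSucc 4925567999)]), (2, [(0, .ofNat 3447897600)])])]), (3, [(0, [(0, [(1, .ofNat 949478400), (3, .negSucc 4747391999)]), (1, [(0, .ofNat 3323174400)])])])]), (2, [(0, [(0, [(0, [(1, .negSucc 8039116799), (3, .ofNat 40195584000)]), (1, [(0, .negSucc 28136908799)])]), (2, [(0, [(1, .ofNat 6005913600), (3, .negSucc 30029567999)]), (1, [(0, .ofNat 21020697600)])]), (3, [(1, [(1, .negSucc 3622195199), (3, .ofNat 18110976000)]), (2, [(0, .negSucc 12677683199)])]), (4, [(0, [(1, .negSucc 53913599), (3, .ofNat 269568000)]), (1, [(0, .negSucc 188697599)])]), (5, [(1, [(1, .ofNat 748185600), (3, .negSucc 3740927999)]), (2, [(0, .ofNat 2618649600)])]), (6, [(2, [(1, .ofNat 2006169600), (3, .negSucc 10030847999)]), (3, [(0, .ofNat 7021593600)])])]), (1, [(0, [(0, [(1, .ofNat 9116467200), (3,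 .negSucc 45582335999)]), (1, [(0, .ofNat 31907635200)])]), (2, [(0, [(1, .negSucc 5762764799), (3, .ofNat 28813824000)]), (1, [(0, .negSucc 20169676799)])]), (3, [(1, [(1, .ofNat 2549760000), (3, .negSucc 12748799999)]), (2, [(0, .ofNat 8924160000)])])]), (2, [(0, [(0, [(1, .negSucc 1468569599), (3, .ofNat 7342848000)]), (1, [(0, .negSucc 5139993599)])])])]), (3, [(0, [(0, [(0, [(1, .negSucc 11991551999), (3, .ofNat 59957760000)]), (1, [(0, .negSucc 41970431999)])]), (2, [(0, [(1, .ofNat 195072000), (3, .negSucc 975359999)]), (1, [(0, .ofNat 682752000)])]), (3, [(1, [(1, .ofNat 2524569600), (3, .negSucc 12622847999)]), (2, [(0, .ofNat 8835993600)])])]), (1, [(0, [(0, [(1, .ofNat 8013926400), (3, .negSucc 40069631999)]), (1, [(0, .ofNat 28048742400)])])])])]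
  k22 := [(0, [(0, [(0, [(0, [(0, .ofNat 539608000), (2, .negSucc 2945967999), (4, .ofNat 5833600000)]), (1, [(1, .ofNat 1225056000)])]), (2, [(0, [(0, .negSucc 791918399), (2, .ofNat 4323446400), (4, .negSucc 8561279999)]), (1, [(1, .negSucc 1797868799)])]), (3, [(1, [(0, .negSucc 475671999), (2, .ofNat 2596912000), (4, .negSucc 5142399999)]), (2, [(1, .negSucc 1079903999)])]), (4, [(0, [(0, .ofNat 513974400), (2, .negSucc 2806022399), (4, .ofNat 5556480000)]), (1, [(1, .ofNat 1166860800)])]), (5, [(1, [(0, .ofNat 704953600), (2, .negSucc 3848665599), (4, .ofNat 7621120000)]), (2, [(1, .ofNat 1600435200)])]), (6, [(2, [(0, .ofNat 973958400), (2, .negSucc 5317286399), (4, .ofNat 10529280000)]), (3, [(1, .ofNat 2211148800)])]), (7, [(1, [(0, .negSucc 278654399), (2, .ofNat 1521302400), (4, .negSucc 3012479999)]), (2, [(1, .negSucc 632620799)])]), (8, [(2, [(0, .negSucc 1197438399), (2, .ofNat 6537366400), (4, .negSucc 12945279999)]), (3, [(1, .negSucc 2718508799)])]),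 (10, [(2, [(0, .ofNat 185355200), (2, .negSucc 1011939199), (4, .ofNat 2003840000)]), (3, [(1, .ofNat 420806400)])])]), (1, [(0, [(0, [(0, .negSucc 729343999), (2, .ofNat 3981824000), (4, .negSucc 7884799999)]), (1, [(1, .negSucc 1655807999)])]), (2, [(0, [(0, .ofNat 1476684800), (2, .negSucc 8061900799), (4, .ofNat 15964160000)]), (1, [(1, .ofNat 3352473600)])]), (3, [(1, [(0, .ofNat 2010787200), (2, .negSucc 10977811199), (4, .ofNat 21738240000)]), (2, [(1, .ofNat 4565030400)])]), (4, [(0, [(0, .negSucc 1064060799), (2, .ofNat 5809196800), (4, .negSucc 11503359999)]), (1, [(1, .negSucc 2415705599)])]), (5, [(1, [(0, .negSucc 1811223999), (2, .ofNat 9888304000), (4, .negSucc 19580799999)]), (2, [(1, .negSucc 4111967999)])]), (6, [(2, [(0, .negSucc 343300799), (2, .ofNat 1874236800), (4, .negSucc 3711359999)]), (3, [(1, .negSucc 779385599)])]), (7, [(1, [(0, .ofNat 466969600), (2, .negSucc 2549401599), (4, .ofNat 5048320000)]), (2, [(1, .ofNat 1060147200)])]), (8,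 [(2, [(0, .ofNat 641491200), (2, .negSucc 3502195199), (4, .ofNat 6935040000)]), (3, [(1, .ofNat 1456358400)])])]), (2, [(0, [(0, [(0, .ofNat 736684800), (2, .negSucc 4021900799), (4, .ofNat 7964160000)]), (1, [(1, .ofNat 1672473600)])]), (2, [(0, [(0, .negSucc 882612799), (2, .ofNat 4818588800), (4, .negSucc 9541759999)]), (1, [(1, .negSucc 2003769599)])]), (3, [(1, [(0, .negSucc 1445900799), (2, .ofNat 7893836800), (4, .negSucc 15631359999)]), (2, [(1, .negSucc 3282585599)])]), (4, [(0, [(0, .ofNat 533451200), (2, .negSucc 2912355199), (4, .ofNat 5767040000)]), (1, [(1, .ofNat 1211078400)])]), (5, [(1, [(0, .ofNat 522913600), (2, .negSucc 2854825599), (4, .ofNat 5653120000)]), (2, [(1, .ofNat 1187155200)])]), (6, [(2, [(0, .negSucc 192814399), (2, .ofNat 1052662400), (4, .negSucc 2084479999)]), (3, [(1, .negSucc 437740799)])])]), (3, [(0, [(0, [(0, .negSucc 392022399), (2, .ofNat 2140230400), (4, .negSucc 4238079999)]), (1, [(1, .negSucc 889996799)])]), (2, [(0,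 [(0, .ofNat 213416000), (2, .negSucc 1165135999), (4, .ofNat 2307200000)]), (1, [(1, .ofNat 484512000)])]), (3, [(1, [(0, .ofNat 432100800), (2, .negSucc 2359036799), (4, .ofNat 4671360000)]), (2, [(1, .ofNat 980985600)])])])]), (1, [(0, [(0, [(0, [(0, .ofNat 1146822400), (2, .negSucc 6261030399), (4, .ofNat 12398080000)]), (1, [(1, .ofNat 2603596800)])]), (2, [(0, [(0, .negSucc 2333900799), (2, .ofNat 12741836800), (4, .negSucc 25231359999)]), (1, [(1, .negSucc 5298585599)])]), (3, [(1, [(0, .negSucc 3738953599), (2, .ofNat 20412665600), (4, .negSucc 40421119999)]), (2, [(1, .negSucc 8488435199)])]), (4, [(0, [(0, .ofNat 1180448000), (2, .negSucc 6444607999), (4, .ofNat 12761600000)]), (1, [(1, .ofNat 2679936000)])]), (5, [(1, [(0, .ofNat 345254400), (2, .negSucc 1884902399), (4, .ofNat 3732480000)]), (2, [(1, .ofNat 783820800)])]), (6, [(2, [(0, .negSucc 1281679999), (2, .ofNat 6997280000), (4, .negSucc 13855999999)]), (3, [(1, .negSucc 2909759999)])]), (7, [(1,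 [(0, .ofNat 1330816000), (2, .negSucc 7265535999), (4, .ofNat 14387200000)]), (2, [(1, .ofNat 3021312000)])]), (8, [(2, [(0, .ofNat 1900793600), (2, .negSucc 10377305599), (4, .ofNat 20549120000)]), (3, [(1, .ofNat 4315315200)])])]), (1, [(0, [(0, [(0, .ofNat 1748886400), (2, .negSucc 9547974399), (4, .ofNat 18906880000)]), (1, [(1, .ofNat 3970444800)])]), (2, [(0, [(0, .negSucc 2691231999), (2, .ofNat 14692672000), (4, .negSucc 29094399999)]), (1, [(1, .negSucc 6109823999)])]), (3, [(1, [(0, .ofNat 4086576000), (2, .negSucc 22310495999), (4, .ofNat 44179200000)]), (2, [(1, .ofNat 9277632000)])]), (4, [(0, [(0, .negSucc 90457599), (2, .ofNat 493849600), (4, .negSucc 977919999)]), (1, [(1, .negSucc 205363199)])]), (5, [(1, [(0, .negSucc 1108934399), (2, .ofNat 6054182400), (4, .negSucc 11988479999)]), (2, [(1, .negSucc 2517580799)])]), (6, [(2, [(0, .negSucc 759417599), (2, .ofNat 4146009600), (4, .negSucc 8209919999)]), (3, [(1, .negSucc 1724083199)])])]), (2, [(0,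 [(0, [(0, .negSucc 1222598399), (2, .ofNat 6674726400), (4, .negSucc 13217279999)]), (1, [(1, .negSucc 2775628799)])]), (2, [(0, [(0, .ofNat 3550342400), (2, .negSucc 19382950399), (4, .ofNat 38382080000)]), (1, [(1, .ofNat 8060236800)])]), (3, [(1, [(0, .negSucc 1518716799), (2, .ofNat 8291372800), (4, .negSucc 16418559999)]), (2, [(1, .negSucc 3447897599)])])]), (3, [(0, [(0, [(0, .negSucc 1463779199), (2, .ofNat 7991443200), (4, .negSucc 15824639999)]), (1, [(1, .negSucc 3323174399)])])])]), (2, [(0, [(0, [(0, [(0, .ofNat 12393638400), (2, .negSucc 67662566399), (4, .ofNat 133985280000)]), (1, [(1, .ofNat 28136908800)])]), (2, [(0, [(0, .negSucc 9259116799), (2, .ofNat 50549772800), (4, .negSucc 100098559999)]), (1, [(1, .negSucc 21020697599)])]), (3, [(1, [(0, .ofNat 5584217600), (2, .negSucc 30486809599), (4, .ofNat 60369920000)]), (2, [(1, .ofNat 12677683200)])]), (4, [(0, [(0, .ofNat 83116800), (2, .negSucc 453772799), (4, .ofNat 898560000)]), (1, [(1, .ofNat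 188697600)])]), (5, [(1, [(0, .negSucc 1153452799), (2, .ofNat 6297228800), (4, .negSucc 12469759999)]), (2, [(1, .negSucc 2618649599)])]), (6, [(2, [(0, .negSucc 3092844799), (2, .ofNat 16885260800), (4, .negSucc 33436159999)]), (3, [(1, .negSucc 7021593599)])])]), (1, [(0, [(0, [(0, .negSucc 14054553599), (2, .ofNat 76730265600), (4, .negSucc 151941119999)]), (1, [(1, .negSucc 31907635199)])]), (2, [(0, [(0, .ofNat 8884262400), (2, .negSucc 48503270399), (4, .ofNat 96046080000)]), (1, [(1, .ofNat 20169676800)])]), (3, [(1, [(0, .negSucc 3930879999), (2, .ofNat 21460480000), (4, .negSucc 42495999999)]), (2, [(1, .negSucc 8924159999)])])]), (2, [(0, [(0, [(0, .ofNat 2264044800), (2, .negSucc 12360460799), (4, .ofNat 24476160000)]), (1, [(1, .ofNat 5139993600)])])])]), (3, [(0, [(0, [(0, [(0, .ofNat 18486976000), (2, .negSucc 100928895999), (4, .ofNat 199859200000)]), (1, [(1, .ofNat 41970432000)])]), (2, [(0, [(0, .negSucc 300735999), (2, .ofNat 1641856000), (4,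 .negSucc 3251199999)]), (1, [(1, .negSucc 682751999)])]), (3, [(1, [(0, .negSucc 3892044799), (2, .ofNat 21248460800), (4, .negSucc 42076159999)]), (2, [(1, .negSucc 8835993599)])])]), (1, [(0, [(0, [(0, .negSucc 12354803199), (2, .ofNat 67450547200), (4, .negSucc 133565439999)]), (1, [(1, .negSucc 28048742399)])])])])]
  C0 := [(0, [(0, [(0, [(0, [(0, .ofNat 256011840)])]), (1, [(1, [(0, .negSucc 2253779135)])]), (2, [(0, [(0, .ofNat 1053464832)])]), (3, [(1, [(0, .ofNat 10375085952)])]), (4, [(0, [(0, .negSucc 6990302591)]), (2, [(0, .ofNat 7550573184)])]), (5, [(1, [(0, .ofNat 7000435008)])]), (6, [(0, [(0, .ofNat 9069721920)]), (2, [(0, .ofNat 27446158656)])]), (7, [(1, [(0, .negSucc 30968711423)]), (3, [(0, .negSucc 9489715199)])]), (8, [(2, [(0, .negSucc 70626185279)])]), (9, [(1, [(0, .ofNat 9489312000)]), (3, [(0, .ofNat 14660352000)])]), (10, [(2, [(0, .ofNat 44312768640)])]), (11, [(3, [(0, .negSucc 4178361599)])]), (12, [(2, [(0, .negSucc 6312095999)])])]),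 (1, [(0, [(0, [(0, .negSucc 13108781951)])]), (1, [(1, [(0, .ofNat 17273600064)])]), (2, [(0, [(0, .ofNat 15466074624)])]), (3, [(1, [(0, .negSucc 4962105791)])]), (4, [(0, [(0, .ofNat 12944691648)]), (2, [(0, .negSucc 10725325631)])]), (5, [(1, [(0, .negSucc 50923510847)])]), (6, [(0, [(0, .negSucc 13296064319)]), (2, [(0, .negSucc 11950025471)])]), (7, [(1, [(0, .ofNat 62363722176)]), (3, [(0, .ofNat 11575872000)])]), (8, [(2, [(0, .ofNat 37693744704)])]), (9, [(1, [(0, .negSucc 15902207999)]), (3, [(0, .negSucc 9201830399)])]), (10, [(2, [(0, .negSucc 21845375999)])])]), (2, [(0, [(0, [(0, .ofNat 18918264960)])]), (1, [(1, [(0, .negSucc 21702973823)])]), (2, [(0, [(0, .negSucc 51450723071)])]), (3, [(1, [(0, .negSucc 6155763263)])]), (4, [(0, [(0, .ofNat 14447430144)]), (2, [(0, .negSucc 6001075583)])]), (5, [(1, [(0, .ofNat 47714724288)])]), (6, [(0, [(0, .ofNat 6044266368)]), (2, [(0, .negSucc 6739641215)])]), (7, [(1, [(0, .negSucc 17807327999)]), (3, [(0,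 .negSucc 3441715199)])]), (8, [(2, [(0, .ofNat 6566112000)])])]), (3, [(0, [(0, [(0, .negSucc 6512800895)])]), (1, [(1, [(0, .ofNat 6108633216)])]), (2, [(0, [(0, .ofNat 35222902848)])]), (3, [(1, [(0, .ofNat 6594182784)])]), (4, [(0, [(0, .negSucc 20624329151)]), (2, [(0, .ofNat 9494956800)])]), (5, [(1, [(0, .negSucc 14714783999)])])])]), (1, [(0, [(0, [(0, [(0, .ofNat 97008113664)])]), (1, [(1, [(0, .negSucc 78123927167)])]), (2, [(0, [(0, .negSucc 271891251071)])]), (3, [(1, [(0, .negSucc 13212476927)])]), (4, [(0, [(0, .ofNat 235515159936)]), (2, [(0, .ofNat 1508274432)])]), (5, [(1, [(0, .ofNat 92711509632)])]), (6, [(0, [(0, .negSucc 78911497727)]), (2, [(0, .negSucc 43496401535)])]), (7, [(1, [(0, .ofNat 85053233664)]), (3, [(0, .negSucc 3323174399)])]), (8, [(2, [(0, .ofNat 113944811904)])]), (9, [(1, [(0, .negSucc 63513676799)]), (3, [(0, .negSucc 6123801599)])]), (10, [(2, [(0, .negSucc 101274163199)])]), (12, [(2, [(0, .ofNat 8356723200)])])]), (1, [(0,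 [(0, [(0, .negSucc 11404221695)])]), (1, [(1, [(0, .negSucc 102055580927)])]), (2, [(0, [(0, .ofNat 38218521600)])]), (3, [(1, [(0, .ofNat 303965673984)])]), (4, [(0, [(0, .negSucc 177836932223)]), (2, [(0, .ofNat 154667149056)])]), (5, [(1, [(0, .negSucc 235397465855)])]), (6, [(0, [(0, .ofNat 129061134720)]), (2, [(0, .negSucc 182571814655)])]), (7, [(1, [(0, .negSucc 25741094399)]), (3, [(0, .ofNat 13902336000)])]), (8, [(2, [(0, .ofNat 43302067200)])]), (9, [(1, [(0, .ofNat 20687385600)])]), (10, [(2, [(0, .ofNat 18403660800)])])]), (2, [(0, [(0, [(0, .negSucc 112053352319)])]), (1, [(1, [(0, .ofNat 302318456832)])]), (2, [(0, [(0, .ofNat 340297574400)])]), (3, [(1, [(0, .negSucc 490642693631)])]), (4, [(0, [(0, .negSucc 136542026879)]), (2, [(0, .negSucc 54302169599)])]), (5, [(1, [(0, .ofNat 183207628800)])]), (6, [(0, [(0, .negSucc 60737241599)]), (2, [(0, .ofNat 44895513600)])]), (7, [(1, [(0, .ofNat 8789760000)])]), (8, [(2, [(0, .ofNat 6883430400)])])]),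 (3, [(0, [(0, [(0, .ofNat 30329792640)])]), (1, [(1, [(0, .negSucc 121713983999)])]), (2, [(0, [(0, .negSucc 104025075839)])]), (3, [(1, [(0, .ofNat 149179161600)])]), (4, [(0, [(0, .ofNat 87584716800)])]), (5, [(1, [(0, .negSucc 18989913599)])])])]), (2, [(0, [(0, [(0, [(0, .negSucc 307736110079)])]), (1, [(1, [(0, .ofNat 278440178688)])]), (2, [(0, [(0, .ofNat 739193140224)])]), (3, [(1, [(0, .ofNat 85786477056)])]), (4, [(0, [(0, .negSucc 646431690239)]), (2, [(0, .negSucc 366161628671)])]), (5, [(1, [(0, .negSucc 522208479743)])]), (6, [(0, [(0, .ofNat 269838890496)]), (2, [(0, .ofNat 276881859072)])]), (7, [(1, [(0, .ofNat 287278387200)]), (3, [(0, .ofNat 1193472000)])]), (8, [(2, [(0, .ofNat 52032153600)])]), (9, [(1, [(0, .negSucc 9094579199)])]), (10, [(2, [(0, .ofNat 12247603200)])])]), (1, [(0, [(0, [(0, .ofNat 120258496512)])]), (1, [(1, [(0, .negSucc 153312622847)])]), (2, [(0, [(0, .negSucc 404729031167)])]), (3, [(1, [(0, .ofNat 147551701248)])]),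 (4, [(0, [(0, .ofNat 650401952256)]), (2, [(0, .ofNat 195913267200)])]), (5, [(1, [(0, .ofNat 23356569600)])]), (6, [(0, [(0, .negSucc 304004735999)]), (2, [(0, .negSucc 106178687999)])]), (7, [(1, [(0, .negSucc 2825625599)])]), (8, [(2, [(0, .negSucc 27804671999)])])]), (2, [(0, [(0, [(0, .ofNat 277324524288)])]), (1, [(1, [(0, .negSucc 70276147199)])]), (2, [(0, [(0, .negSucc 308435436287)])]), (3, [(1, [(0, .ofNat 41305420800)])]), (4, [(0, [(0, .ofNat 26383795200)])]), (5, [(1, [(0, .ofNat 5046451200)])])]), (3, [(0, [(0, [(0, .negSucc 85905791999)])]), (2, [(0, [(0, .ofNat 85905792000)])])])]), (3, [(0, [(0, [(0, [(0, .negSucc 124204921343)])]), (1, [(1, [(0, .ofNat 592625392128)])]), (2, [(0, [(0, .ofNat 1194491225088)])]), (3, [(1, [(0, .negSucc 1578475196927)])]), (4, [(0, [(0, .negSucc 861315807743)]), (2, [(0, .ofNat 359589888000)])]), (5, [(1, [(0, .ofNat 861935155200)])]), (6, [(0, [(0, .negSucc 127878911999)]), (2, [(0, .negSucc 320011775999)])]), (7,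 [(1, [(0, .negSucc 123785625599)])]), (8, [(2, [(0, .negSucc 2386943999)])])]), (1, [(0, [(0, [(0, .ofNat 1036884699648)])]), (1, [(1, [(0, .negSucc 700390655999)])]), (2, [(0, [(0, .negSucc 1705725762047)])]), (3, [(1, [(0, .ofNat 743158886400)])]), (4, [(0, [(0, .ofNat 743165337600)])]), (5, [(1, [(0, .negSucc 123859814399)])])]), (2, [(0, [(0, [(0, .negSucc 667163750399)])]), (2, [(0, [(0, .ofNat 667163750400)])])])]), (4, [(0, [(0, [(0, [(0, .negSucc 531024076799)])]), (1, [(1, [(0, .negSucc 793433087999)])]), (2, [(0, [(0, .negSucc 424269619199)])]), (3, [(1, [(0, .ofNat 867815424000)])]), (4, [(0, [(0, .ofNat 955293696000)])]), (5, [(1, [(0, .negSucc 74382335999)])])]), (1, [(0, [(0, [(0, .ofNat 120250368000)])]), (2, [(0, [(0, .negSucc 120250367999)])])])])]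
  Ck := [(0, [(0, [(0, [(0, [(0, .ofNat 32480179200), (2, .ofNat 55487174400)])]), (1, [(0, [(1, .negSucc 19574553599), (3, .negSucc 27669196799)]), (1, [(0, .negSucc 21708691199)])]), (2, [(0, [(0, .negSucc 36664185599), (2, .negSucc 71768390399)]), (1, [(1, .ofNat 35588044800)])]), (3, [(0, [(1, .ofNat 15787296000), (3, .ofNat 24373440000)]), (1, [(0, .negSucc 397958399), (2, .negSucc 62739935999)])]), (4, [(0, [(0, .ofNat 10591257600), (2, .ofNat 22696934400)]), (1, [(1, .negSucc 29106604799), (3, .ofNat 45214848000)]), (2, [(0, .ofNat 13762425600)])]), (5, [(0, [(1, .ofNat 3570336000), (3, .negSucc 27669196799)]), (1, [(0, .ofNat 7940217600), (2, .ofNat 61372281600)]), (2, [(1, .negSucc 11106547199)])]), (6, [(1, [(1, .ofNat 5787936000), (3, .negSucc 72339724799)]), (2, [(0, .negSucc 2384524799), (2, .negSucc 7829740799)])]), (7, [(1, [(2, .negSucc 7464441599)]), (2, [(1, .negSucc 3671539199), (3, .negSucc 23151743999)])]), (8, [(1, [(3, .ofNat 20687385600)]),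 (2, [(2, .negSucc 7538227199)])]), (9, [(2, [(3, .ofNat 18403660800)])])]), (1, [(0, [(0, [(0, .negSucc 30818591999), (2, .negSucc 83706335999)])]), (1, [(0, [(1, .ofNat 62320608000), (3, .ofNat 81107712000)]), (1, [(0, .ofNat 18194400000)])]), (2, [(0, [(0, .ofNat 43352870400), (2, .ofNat 87581491200)]), (1, [(1, .negSucc 140144255999)])]), (3, [(0, [(1, .negSucc 48888403199), (3, .negSucc 54622310399)]), (1, [(0, .negSucc 2711519999), (2, .ofNat 59778028800)])]), (4, [(0, [(0, .negSucc 13934995199), (2, .negSucc 48246105599)]), (1, [(1, .ofNat 62734291200), (3, .ofNat 44298777600)]), (2, [(0, .negSucc 6699167999)])]), (5, [(0, [(1, .negSucc 14261990399), (3, .ofNat 27249868800)]), (1, [(2, .negSucc 13329791999)]), (2, [(1, .ofNat 22130438400)])]), (6, [(1, [(3, .ofNat 17579520000)]), (2, [(2, .ofNat 30228710400)])]), (7, [(2, [(3, .ofNat 13766860800)])])]), (2, [(0, [(0, [(0, .negSucc 6223795199), (2, .ofNat 45350323200)])]), (1, [(0, [(1, .negSucc 40737715199),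 (3, .negSucc 30462566399)]), (1, [(0, .ofNat 2317593600)])]), (2, [(0, [(0, .negSucc 1777305599), (2, .negSucc 94751999)]), (1, [(1, .ofNat 76691059200)])]), (3, [(0, [(1, .ofNat 42261408000), (3, .ofNat 5435942400)]), (1, [(2, .negSucc 35836819199)])]), (4, [(1, [(3, .negSucc 56969740799)])])]), (3, [(0, [(0, [(0, .ofNat 5142816000), (2, .negSucc 4237631999)])]), (1, [(0, [(1, .ofNat 6944716800)])])])]), (1, [(0, [(0, [(0, [(0, .ofNat 62991129600), (2, .ofNat 61931520000)])]), (1, [(0, [(1, .ofNat 32646297600), (3, .negSucc 51675724799)]), (1, [(0, .negSucc 55885132799)])]), (2, [(0, [(0, .negSucc 11581516799), (2, .negSucc 105856127999)]), (1, [(1, .ofNat 136373529600)])]), (3, [(0, [(1, .ofNat 33228518400), (3, .ofNat 92148940800)]), (1, [(0, .ofNat 36265420800), (2, .negSucc 2365977599)])]), (4, [(0, [(0, .negSucc 25174195199), (2, .negSucc 123861427199)]), (1, [(1, .negSucc 16171545599), (3, .negSucc 59101055999)]), (2, [(0, .negSucc 32239871999)])]), (5, [(0,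 [(1, .negSucc 16613452799), (3, .negSucc 25304831999)]), (1, [(2, .ofNat 37094400)]), (2, [(1, .ofNat 7788211200)])]), (6, [(0, [(2, .ofNat 61931520000)]), (1, [(3, .negSucc 2825625599)]), (2, [(2, .ofNat 4481971200)])]), (7, [(2, [(3, .negSucc 27804671999)])])]), (1, [(0, [(0, [(0, .negSucc 123858201599), (2, .negSucc 123854975999)])]), (1, [(0, [(1, .ofNat 74067840000), (3, .negSucc 149932339199)]), (1, [(0, .ofNat 61929907200)])]), (2, [(0, [(0, .ofNat 61931520000), (2, .ofNat 259402752000)]), (1, [(1, .negSucc 28619135999)])]), (3, [(0, [(1, .negSucc 76149964799), (3, .ofNat 123859814400)]), (1, [(2, .negSucc 73309823999)])]), (4, [(0, [(2, .negSucc 73617868799)]), (1, [(3, .ofNat 10092902400)])])]), (2, [(0, [(0, [(0, .ofNat 61931520000), (2, .ofNat 23924275200)])]), (1, [(0, [(1, .ofNat 56986675200), (3, .negSucc 50851583999)])]), (2, [(0, [(2, .ofNat 83336601600)])])])]), (2, [(0, [(0, [(0, [(0, .ofNat 5336755200), (2, .ofNat 371584281600)])]), (1, [(0, [(1,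 .negSucc 103048243199), (3, .negSucc 247709951999)]), (1, [(0, .ofNat 119014963200)])]), (2, [(0, [(0, .ofNat 180452966400), (2, .ofNat 61921843200)]), (1, [(1, .negSucc 61900876799)])]), (3, [(0, [(1, .ofNat 100832256000), (3, .ofNat 123850137600)]), (1, [(2, .negSucc 150106521599)])]), (4, [(0, [(2, .negSucc 123863039999)]), (1, [(3, .negSucc 123859814399)])])]), (1, [(0, [(0, [(0, .negSucc 42365030399), (2, .ofNat 121637376000)])]), (1, [(0, [(1, .ofNat 359212492800), (3, .ofNat 95697100800)])]), (2, [(0, [(2, .negSucc 18908467199)])])])]), (3, [(0, [(1, [(0, [(1, .negSucc 56486707199), (3, .ofNat 162183168000)])]), (2, [(0, [(2, .ofNat 148648550400)])])])])]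
  L1 := [(0, [(0, [(0, [(0, [(0, .negSucc 8295033599)])]), (1, [(0, [(1, .negSucc 15207494399)])]), (2, [(0, [(0, .negSucc 8506713599), (2, .ofNat 3143347200)])]), (3, [(0, [(1, .ofNat 52920000000)]), (1, [(0, .negSucc 1070092799)])]), (4, [(0, [(0, .ofNat 23534380800), (2, .ofNat 24679065600)]), (1, [(1, .negSucc 29766643199)])]), (5, [(0, [(1, .negSucc 38637849599)]), (1, [(0, .negSucc 32478969599), (2, .ofNat 112769798400)])]), (6, [(0, [(0, .negSucc 7662412799), (2, .negSucc 27822412799)]), (1, [(1, .ofNat 23502528000)]), (2, [(0, .negSucc 38080223999)])]), (7, [(1, [(0, .ofNat 22142937600), (2, .negSucc 173913465599)]), (2, [(1, .negSucc 40034937599)])]), (8, [(1, [(1, .ofNat 13199961600)]), (2, [(0, .ofNat 32743872000), (2, .negSucc 86258995199)])]), (9, [(1, [(2, .ofNat 63678988800)]), (2, [(1, .ofNat 97763904000)])]), (10, [(2, [(0, .ofNat 3271968000), (2, .ofNat 133996262400)])]), (11, [(2, [(1, .negSucc 61297689599)])]), (12, [(2, [(2, .negSucc 41783615999)])])]),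 (1, [(0, [(0, [(0, .ofNat 3883219200)])]), (1, [(0, [(1, .ofNat 5808499200)])]), (2, [(0, [(0, .negSucc 23526316799), (2, .ofNat 24373440000)])]), (3, [(0, [(1, .ofNat 3042950400)]), (1, [(0, .negSucc 23890003199)])]), (4, [(0, [(0, .ofNat 30435955200), (2, .negSucc 79711833599)]), (1, [(1, .ofNat 53378841600)])]), (5, [(0, [(1, .ofNat 3711859200)]), (1, [(0, .ofNat 36024710400), (2, .negSucc 140161996799)])]), (6, [(0, [(0, .negSucc 20869631999), (2, .ofNat 55338393600)]), (1, [(1, .negSucc 78830438399)]), (2, [(0, .ofNat 42698880000)])]), (7, [(1, [(0, .negSucc 4417459199), (2, .ofNat 222224083200)]), (2, [(1, .ofNat 7875302400)])]), (8, [(1, [(1, .ofNat 15572390400)]), (2, [(0, .negSucc 26195903999), (2, .ofNat 87858892800)])]), (9, [(1, [(2, .negSucc 72405849599)]), (2, [(1, .ofNat 37100448000)])]), (10, [(2, [(2, .negSucc 73614643199)])])]), (2, [(0, [(0, [(0, .ofNat 37281484800)])]), (1, [(0, [(1, .negSucc 1444665599)])]), (2, [(0, [(0, .negSucc 4005388799),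 (2, .negSucc 27311155199)])]), (3, [(0, [(1, .negSucc 49334745599)]), (1, [(0, .ofNat 56824588800)])]), (4, [(0, [(0, .negSucc 36584755199), (2, .ofNat 54561024000)]), (1, [(1, .negSucc 25930598399)])]), (5, [(0, [(1, .ofNat 31439923200)]), (1, [(0, .negSucc 31043980799), (2, .negSucc 24434323199)])]), (6, [(0, [(0, .ofNat 29744870400), (2, .negSucc 27249868799)]), (1, [(1, .ofNat 12623385600)]), (2, [(0, .negSucc 17269862399)])]), (7, [(1, [(2, .negSucc 21974399999)]), (2, [(1, .negSucc 46474847999)])]), (8, [(2, [(2, .negSucc 20650291199)])])]), (3, [(0, [(0, [(0, .negSucc 31869331199)])]), (1, [(0, [(1, .ofNat 5489568000)])]), (2, [(0, [(0, .ofNat 35215084800), (2, .ofNat 1811980800)])]), (3, [(0, [(1, .ofNat 2596204800)]), (1, [(0, .negSucc 22513881599)])]), (4, [(0, [(0, .negSucc 17154547199), (2, .negSucc 1811980799)]), (1, [(1, .ofNat 12366144000)])]), (5, [(1, [(2, .ofNat 28484870400)])])])]), (1, [(0, [(0, [(0, [(0, .ofNat 281069913600)])]), (1, [(0, [(1,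 .negSucc 101524147199)])]), (2, [(0, [(0, .negSucc 384311692799), (2, .negSucc 119054476799)])]), (3, [(0, [(1, .ofNat 195832627200)]), (1, [(0, .ofNat 13806374400)])]), (4, [(0, [(0, .ofNat 231955315200), (2, .ofNat 216759513600)]), (1, [(1, .ofNat 109718784000)])]), (5, [(0, [(1, .negSucc 199851724799)]), (1, [(0, .ofNat 97307481600), (2, .ofNat 125369395200)])]), (6, [(0, [(0, .negSucc 63547545599), (2, .negSucc 92897279999)]), (1, [(1, .negSucc 98046143999)]), (2, [(0, .negSucc 109854259199)])]), (7, [(0, [(1, .ofNat 54915840000)]), (1, [(0, .negSucc 68069030399), (2, .negSucc 178388582399)]), (2, [(1, .negSucc 163621785599)])]), (8, [(1, [(1, .ofNat 1165248000)]), (2, [(0, .ofNat 29969049600), (2, .negSucc 4368268799)])]), (9, [(1, [(2, .ofNat 27283737600)]), (2, [(1, .ofNat 185649408000)])]), (10, [(2, [(2, .negSucc 42866611199)])])]), (1, [(0, [(0, [(0, .negSucc 244835135999)])]), (1, [(0, [(1, .ofNat 46630886400)])]), (2, [(0, [(0, .ofNat 391769280000),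 (2, .ofNat 66311078400)])]), (3, [(0, [(1, .negSucc 274863052799)]), (1, [(0, .negSucc 67169087999)])]), (4, [(0, [(0, .negSucc 266578099199), (2, .negSucc 96684134399)]), (1, [(1, .ofNat 82476979200)])]), (5, [(0, [(1, .ofNat 371587507200)]), (1, [(0, .ofNat 9433267200), (2, .ofNat 56275430400)])]), (6, [(0, [(0, .ofNat 83609971200), (2, .ofNat 37957248000)]), (1, [(1, .negSucc 92894860799)]), (2, [(0, .ofNat 26292672000)])]), (7, [(0, [(1, .negSucc 123863039999)]), (1, [(2, .ofNat 5651251200)]), (2, [(1, .negSucc 11350886399)])]), (8, [(2, [(2, .ofNat 69511680000)])])]), (2, [(0, [(0, [(0, .negSucc 46958284799)])]), (1, [(0, [(1, .ofNat 38921702400)])]), (2, [(0, [(0, .ofNat 4298918400), (2, .ofNat 24446822400)])]), (3, [(0, [(1, .negSucc 73617868799)]), (1, [(0, .ofNat 2523225600)])]), (4, [(0, [(0, .ofNat 3554611200), (2, .negSucc 30964953599)]), (1, [(1, .ofNat 2844979200)])]), (5, [(0, [(1, .ofNat 36808934400)]), (1, [(2, .negSucc 5046451199)])])]), (3, [(0,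 [(0, [(0, .ofNat 12096000000)])]), (1, [(0, [(1, .ofNat 27778867200)])]), (2, [(0, [(0, .ofNat 10285632000), (2, .negSucc 8475263999)])])])]), (2, [(0, [(0, [(0, [(0, .ofNat 376780723200)])]), (1, [(0, [(1, .ofNat 120395520000)])]), (2, [(0, [(0, .negSucc 109210751999), (2, .negSucc 247726079999)])]), (3, [(0, [(1, .negSucc 283793126399)]), (1, [(0, .ofNat 98361446400)])]), (4, [(0, [(0, .negSucc 89113651199), (2, .ofNat 247726080000)]), (1, [(1, .negSucc 64195891199)])]), (5, [(0, [(1, .ofNat 374942131200)]), (1, [(0, .negSucc 98158233599), (2, .negSucc 245263334399)])]), (6, [(0, [(0, .ofNat 50348390400), (2, .negSucc 123863039999)]), (1, [(1, .ofNat 10650931200)]), (2, [(0, .ofNat 63286272000)])]), (7, [(0, [(1, .negSucc 117379583999)]), (1, [(2, .ofNat 185678438400)]), (2, [(1, .negSucc 103754649599)])]), (8, [(2, [(2, .ofNat 4773888000)])])]), (1, [(0, [(0, [(0, .negSucc 497790719999)])]), (1, [(0, [(1, .ofNat 309396326400)])]), (2, [(0, [(0, .ofNat 61934745600),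 (2, .negSucc 123859814399)])]), (3, [(0, [(1, .negSucc 123867878399)])]), (5, [(0, [(1, .ofNat 61931520000)]), (1, [(2, .ofNat 61929907200)])])]), (2, [(0, [(0, [(0, .ofNat 147787315200)])]), (1, [(0, [(1, .negSucc 9454233599)])]), (2, [(0, [(0, .ofNat 123863040000), (2, .ofNat 47848550400)])]), (3, [(0, [(1, .negSucc 4727116799)])])])]), (3, [(0, [(0, [(0, [(0, .ofNat 254838528000)])]), (1, [(0, [(1, .ofNat 24598425600)])]), (2, [(0, [(0, .ofNat 368018380800), (2, .ofNat 495442483200)])]), (3, [(0, [(1, .ofNat 131475456000)]), (1, [(0, .ofNat 121495449600)])]), (4, [(0, [(0, .ofNat 120301977600), (2, .negSucc 123863039999)]), (1, [(1, .negSucc 123840460799)])])]), (1, [(0, [(0, [(0, .ofNat 24604876800)])]), (1, [(0, [(1, .ofNat 148648550400)])]), (2, [(0, [(0, .negSucc 84730060799), (2, .ofNat 243274752000)])]), (3, [(0, [(1, .ofNat 148648550400)])])])])]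
  L2 := [(0, [(0, [(1, [(0, [(0, .ofNat 13160448000)])]), (2, [(0, [(1, .negSucc 46184947199)])]), (3, [(0, [(0, .negSucc 39793420799), (2, .ofNat 57759609600)])]), (4, [(0, [(1, .ofNat 39550291200)]), (1, [(0, .negSucc 44568921599)])]), (5, [(0, [(0, .ofNat 16024780800), (2, .negSucc 82515283199)]), (1, [(1, .negSucc 21247833599)])]), (6, [(0, [(1, .ofNat 3419539200)]), (1, [(0, .ofNat 40478054400), (2, .negSucc 56938291199)])]), (7, [(0, [(2, .ofNat 27290995200)]), (1, [(1, .ofNat 52956288000)])]), (8, [(1, [(0, .negSucc 679795199), (2, .ofNat 87962112000)])]), (9, [(1, [(1, .negSucc 40865126399)])]), (10, [(1, [(2, .negSucc 25070169599)])])]), (1, [(1, [(0, [(0, .negSucc 52917580799)])]), (2, [(0, [(1, .ofNat 77133772800)])]), (3, [(0, [(0, .ofNat 64162022400), (2, .negSucc 67822271999)])]), (4, [(0, [(1, .negSucc 62021030399)]), (1, [(0, .ofNat 67592448000)])]), (5, [(0, [(0, .negSucc 8856691199), (2, .ofNat 108509587200)]), (1, [(1, .ofNat 28473984000)])]),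 (6, [(0, [(1, .ofNat 7786195200)]), (1, [(0, .negSucc 35397734399), (2, .ofNat 69455232000)])]), (7, [(0, [(2, .negSucc 31031078399)]), (1, [(1, .ofNat 31800384000)])]), (8, [(1, [(2, .negSucc 55210982399)])])]), (2, [(1, [(0, [(0, .ofNat 81887500800)])]), (2, [(0, [(1, .negSucc 55914969599)])]), (3, [(0, [(0, .negSucc 35438860799), (2, .negSucc 33224083199)])]), (4, [(0, [(1, .ofNat 9467539200)]), (1, [(0, .negSucc 31067366399)])]), (5, [(0, [(2, .negSucc 13184639999)]), (1, [(1, .negSucc 55769817599)])]), (6, [(1, [(2, .negSucc 20650291199)])])]), (3, [(1, [(0, [(0, .negSucc 39056774399)])]), (2, [(0, [(1, .ofNat 18549216000)])]), (3, [(0, [(2, .ofNat 28484870400)])])])]), (1, [(0, [(1, [(0, [(0, .ofNat 130252147200)])]), (2, [(0, [(1, .negSucc 1857945599)])]), (3, [(0, [(0, .ofNat 2387750400), (2, .ofNat 67904524800)])]), (4, [(0, [(1, .negSucc 82008460799)]), (1, [(0, .negSucc 165149107199)])]), (5, [(0, [(0, .negSucc 47641305599), (2, .negSucc 120149567999)]),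 (1, [(1, .negSucc 137091225599)])]), (6, [(0, [(1, .ofNat 699148800)]), (1, [(0, .ofNat 28614297600), (2, .negSucc 19939046399)])]), (7, [(0, [(2, .ofNat 13641868800)]), (1, [(1, .ofNat 185649408000)])]), (8, [(1, [(2, .negSucc 36742809599)])])]), (1, [(1, [(0, [(0, .negSucc 109166399999)])]), (2, [(0, [(1, .ofNat 185765529600)])]), (3, [(0, [(0, .ofNat 16269120000), (2, .ofNat 88651584000)])]), (4, [(0, [(1, .negSucc 92894860799)]), (1, [(0, .ofNat 80390016000)])]), (5, [(0, [(2, .ofNat 4238438400)]), (1, [(1, .negSucc 17026329599)])]), (6, [(1, [(2, .ofNat 83414016000)])])]), (2, [(1, [(0, [(0, .negSucc 13905561599)])]), (2, [(0, [(1, .ofNat 8534937600)])]), (3, [(0, [(2, .negSucc 7569676799)])])])]), (2, [(0, [(1, [(0, [(0, .ofNat 167655398400)])]), (2, [(0, [(1, .negSucc 190787788799)])]), (3, [(0, [(0, .negSucc 108796262399), (2, .negSucc 364433126399)])]), (4, [(0, [(1, .ofNat 15976396800)]), (1, [(0, .ofNat 193439232000)])]), (5, [(0, [(2, .ofNat 185678438400)]),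 (1, [(1, .negSucc 207509299199)])]), (6, [(1, [(2, .ofNat 7160832000)])])]), (1, [(1, [(0, [(0, .negSucc 185789721599)])]), (2, [(0, [(1, .ofNat 141479654400)])]), (3, [(0, [(2, .ofNat 185789721600)])])])]), (3, [(0, [(1, [(0, [(0, .negSucc 238029926399)])]), (2, [(0, [(1, .ofNat 371521382400)])]), (3, [(0, [(2, .ofNat 111573504000)])])])])]
  Lw := [(0, [(0, [(0, [(0, [(0, .negSucc 30643199)])]), (1, [(0, [(1, .negSucc 333849599)]), (1, [(0, .ofNat 6889478400)])]), (2, [(0, [(0, .ofNat 4353350400)]), (1, [(1, .negSucc 1715212799)])]), (3, [(0, [(1, .ofNat 23106585600)]), (1, [(0, .negSucc 12886675199)])]), (4, [(0, [(0, .negSucc 7238246399)]), (1, [(1, .ofNat 16010265600)]), (2, [(0, .negSucc 6627801599)])]), (5, [(0, [(1, .negSucc 24704063999)]), (1, [(0, .ofNat 3982003200)]), (2, [(1, .negSucc 5926233599)])]), (6, [(1, [(1, .negSucc 6295564799)]), (2, [(0, .ofNat 6516115200)])]), (7, [(2, [(1, .ofNat 9875980800)])])]), (1, [(0, [(0, [(0, .ofNat 4965004800)])]),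 (1, [(0, [(1, .negSucc 11499263999)]), (1, [(0, .negSucc 6047193599)])]), (2, [(0, [(0, .negSucc 4550515199)]), (1, [(1, .ofNat 1422489600)])]), (3, [(0, [(1, .ofNat 912844800)]), (1, [(0, .ofNat 2961907200)])]), (4, [(0, [(0, .ofNat 8791776000)]), (1, [(1, .negSucc 9339724799)]), (2, [(0, .negSucc 1553932799)])]), (5, [(0, [(1, .ofNat 24150067200)]), (2, [(1, .negSucc 5060966399)])])]), (2, [(0, [(0, [(0, .negSucc 9473183999)])]), (1, [(0, [(1, .ofNat 5752857600)]), (1, [(0, .ofNat 1012838400)])]), (2, [(0, [(0, .negSucc 3062303999)]), (1, [(1, .negSucc 1543449599)])]), (3, [(0, [(1, .negSucc 19985011199)])])]), (3, [(0, [(0, [(0, .ofNat 4864608000)])])])]), (1, [(0, [(0, [(0, [(0, .negSucc 13289471999)])]), (1, [(0, [(1, .ofNat 19860019200)]), (1, [(0, .ofNat 23392051200)])]), (2, [(0, [(0, .ofNat 81852825600)]), (1, [(1, .negSucc 24188774399)])]), (3, [(0, [(1, .negSucc 18202060799)]), (1, [(0, .ofNat 16615065600)])]), (4, [(0, [(0, .negSucc 10028390399)]), (1,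 [(1, .ofNat 11847628800)]), (2, [(0, .negSucc 7622092799)])]), (5, [(0, [(1, .ofNat 35167104000)]), (2, [(1, .negSucc 6215731199)])])]), (1, [(0, [(0, [(0, .ofNat 17250508800)])]), (1, [(0, [(1, .negSucc 75785471999)]), (1, [(0, .negSucc 21626035199)])]), (2, [(0, [(0, .negSucc 61928294399)]), (1, [(1, .ofNat 8102707200)])]), (3, [(0, [(1, .negSucc 24498431999)])])]), (2, [(0, [(0, [(0, .negSucc 195148799)])]), (1, [(0, [(1, .ofNat 58375296000)])])])]), (2, [(0, [(0, [(0, [(0, .negSucc 4838399)])]), (1, [(0, [(1, .ofNat 34501017600)]), (1, [(0, .negSucc 105298099199)])]), (2, [(0, [(0, .negSucc 185789721599)]), (1, [(1, .negSucc 43252070399)])]), (3, [(0, [(1, .negSucc 123856588799)])])]), (1, [(0, [(0, [(0, .ofNat 10726732800)])]), (1, [(0, [(1, .negSucc 780595199)])])])]), (3, [(0, [(1, [(0, [(1, .ofNat 14302310400)])])])])]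
  A11 := [(0, [(0, [(2, [(0, [(0, .negSucc 14462380799)])]), (4, [(0, [(0, .ofNat 30183148800)])]), (5, [(1, [(0, .ofNat 22561459200)])]), (6, [(0, [(0, .negSucc 17502911999)])]), (7, [(1, [(0, .negSucc 36399283199)])]), (8, [(2, [(0, .negSucc 62745177599)])]), (9, [(1, [(0, .ofNat 15182899200)])]), (10, [(2, [(0, .ofNat 78449414400)])]), (12, [(2, [(0, .negSucc 13886611199)])])]), (1, [(2, [(0, [(0, .ofNat 25082265600)])]), (4, [(0, [(0, .negSucc 59160729599)])]), (5, [(1, [(0, .negSucc 79452172799)])]), (6, [(0, [(0, .ofNat 36235584000)])]), (7, [(1, [(0, .ofNat 86737190400)])]), (8, [(2, [(0, .ofNat 25105248000)])]), (9, [(1, [(0, .negSucc 25443532799)])]), (10, [(2, [(0, .negSucc 39321676799)])])]), (2, [(2, [(0, [(0, .negSucc 17040038399)])]), (4, [(0, [(0, .ofNat 32566867200)])]), (5, [(1, [(0, .ofNat 46513958400)])]), (6, [(0, [(0, .negSucc 18166175999)])]), (7, [(1, [(0, .negSucc 21368793599)])]), (8, [(2, [(0, .ofNat 9192556800)])])]), (3, [(2, [(0, [(0,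 .ofNat 5577062400)])]), (4, [(0, [(0, .negSucc 4360607999)])]), (5, [(1, [(0, .negSucc 11771827199)])])])]), (1, [(0, [(2, [(0, [(0, .negSucc 31791513599)])]), (4, [(0, [(0, .ofNat 63950745600)])]), (5, [(1, [(0, .ofNat 81098841600)])]), (6, [(0, [(0, .negSucc 32159231999)])]), (7, [(1, [(0, .ofNat 24498432000)])]), (8, [(2, [(0, .ofNat 78267571200)])]), (9, [(1, [(0, .negSucc 63447551999)])]), (10, [(2, [(0, .negSucc 103567564799)])])]), (1, [(2, [(0, [(0, .negSucc 36658943999)])]), (4, [(0, [(0, .ofNat 34194585600)])]), (5, [(1, [(0, .negSucc 98604172799)])]), (6, [(0, [(0, .ofNat 2464358400)])]), (7, [(1, [(0, .ofNat 37763712000)])]), (8, [(2, [(0, .ofNat 31033497600)])])]), (2, [(2, [(0, [(0, .ofNat 48361420800)])]), (4, [(0, [(0, .negSucc 48361420799)])]), (5, [(1, [(0, .ofNat 31031078400)])])])]), (2, [(0, [(2, [(0, [(0, .negSucc 41713459199)])]), (4, [(0, [(0, .ofNat 65326464000)])]), (5, [(1, [(0, .negSucc 91777996799)])]), (6, [(0, [(0, .negSucc 1698278399)])]),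 (7, [(1, [(0, .ofNat 31423795200)])]), (8, [(2, [(0, .ofNat 105323904000)])])]), (1, [(2, [(0, [(0, .ofNat 25295155200)])]), (4, [(0, [(0, .negSucc 60509030399)])]), (5, [(1, [(0, .ofNat 53544960000)])])]), (2, [(2, [(0, [(0, .ofNat 15419980800)])])])]), (3, [(0, [(2, [(0, [(0, .ofNat 247726080000)])]), (5, [(1, [(0, .ofNat 26507980800)])])]), (1, [(2, [(0, [(0, .negSucc 168292454399)])])])])]
  A12 := [(0, [(0, [(3, [(0, [(0, .ofNat 9719136000)])]), (5, [(0, [(0, .negSucc 14403916799)])]), (6, [(1, [(0, .negSucc 39800678399)])]), (7, [(0, [(0, .ofNat 5693587200)])]), (8, [(1, [(0, .ofNat 48933158400)])]), (10, [(1, [(0, .negSucc 7574515199)])])]), (1, [(3, [(0, [(0, .negSucc 41085273599)])]), (5, [(0, [(0, .ofNat 37007712000)])]), (6, [(1, [(0, .ofNat 14028940800)])]), (7, [(0, [(0, .negSucc 9541324799)])]), (8, [(1, [(0, .negSucc 26214451199)])])]), (2, [(3, [(0, [(0, .ofNat 29543270400)])]), (5, [(0, [(0, .negSucc 10684396799)])]), (6, [(1, [(0, .ofNat 7879334400)])])]),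 (3, [(3, [(0, [(0, .negSucc 8828870399)])])])]), (1, [(0, [(3, [(0, [(0, .ofNat 76395916800)])]), (5, [(0, [(0, .negSucc 7054387199)])]), (6, [(1, [(0, .ofNat 52375680000)])]), (7, [(0, [(0, .negSucc 27191807999)])]), (8, [(1, [(0, .negSucc 77675673599)])])]), (1, [(3, [(0, [(0, .negSucc 83498687999)])]), (5, [(0, [(0, .ofNat 22658227200)])]), (6, [(1, [(0, .ofNat 31033497600)])])]), (2, [(3, [(0, [(0, .ofNat 31031078400)])])])]), (2, [(0, [(3, [(0, [(0, .negSucc 114099148799)])]), (5, [(0, [(0, .ofNat 23567846400)])]), (6, [(1, [(0, .ofNat 126388684800)])])]), (1, [(3, [(0, [(0, .ofNat 80317440000)])])])]), (3, [(0, [(3, [(0, [(0, .ofNat 79523942400)])])])])]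
  W1 := [(0, [(0, [(0, [(0, [(0, .ofNat 7019712000)])]), (2, [(0, [(0, .negSucc 36364204799)])]), (3, [(1, [(0, .negSucc 6359270399)])]), (4, [(0, [(0, .ofNat 64400313600)])]), (5, [(1, [(0, .ofNat 13033036800)])]), (6, [(0, [(0, .negSucc 33132959999)]), (2, [(0, .negSucc 17853695999)])]), (7, [(1, [(0, .negSucc 5486745599)])]), (8, [(2, [(0, .ofNat 1852704000)])]), (10, [(2, [(0, .ofNat 21518784000)])])]), (1, [(0, [(0, [(0, .negSucc 333849599)])]), (2, [(0, [(0, .ofNat 46380096000)])]), (3, [(1, [(0, .ofNat 17725478400)])]), (4, [(0, [(0, .negSucc 108772070399)])]), (5, [(1, [(0, .negSucc 44611660799)])]), (6, [(0, [(0, .ofNat 61760160000)]), (2, [(0, .ofNat 24691564800)])]), (7, [(1, [(0, .ofNat 18886694400)])]), (8, [(2, [(0, .negSucc 34565932799)])])]), (2, [(0, [(0, [(0, .negSucc 5749631999)])]), (2, [(0, [(0, .ofNat 3787660800)])]), (3, [(1, [(0, .negSucc 5381107199)])]), (4, [(0, [(0, .ofNat 35540467200)])]), (5, [(1, [(0, .ofNat 9339724800)])]), (6, [(0,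 [(0, .negSucc 30187583999)]), (2, [(0, .ofNat 6326208000)])])]), (3, [(0, [(0, [(0, .ofNat 1917619200)])]), (2, [(0, [(0, .negSucc 14282150399)])]), (3, [(1, [(0, .ofNat 514483200)])]), (4, [(0, [(0, .ofNat 9992505600)])])])]), (1, [(0, [(0, [(0, [(0, .negSucc 122572799)])]), (2, [(0, [(0, .ofNat 34826803200)])]), (3, [(1, [(0, .negSucc 65325657599)])]), (4, [(0, [(0, .negSucc 104272358399)])]), (5, [(1, [(0, .ofNat 109176076800)])]), (6, [(0, [(0, .ofNat 57905971200)]), (2, [(0, .ofNat 79086873600)])]), (7, [(1, [(0, .negSucc 39820031999)])]), (8, [(2, [(0, .negSucc 78193382399)])])]), (1, [(0, [(0, [(0, .ofNat 19860019200)])]), (2, [(0, [(0, .negSucc 36404121599)])]), (3, [(1, [(0, .ofNat 23942016000)])]), (4, [(0, [(0, .ofNat 123703372800)])]), (5, [(1, [(0, .negSucc 17771443199)])]), (6, [(0, [(0, .negSucc 70334207999)]), (2, [(0, .ofNat 12431462400)])])]), (2, [(0, [(0, [(0, .negSucc 37892735999)])]), (2, [(0, [(0, .negSucc 24498431999)])]), (3, [(1, [(0, .negSucc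 2025676799)])]), (4, [(0, [(0, .ofNat 12249216000)])])]), (3, [(0, [(0, [(0, .ofNat 19458432000)])])])]), (2, [(0, [(0, [(0, [(0, .negSucc 26578943999)])]), (2, [(0, [(0, .ofNat 314121830400)])]), (3, [(1, [(0, .ofNat 33230131200)])]), (4, [(0, [(0, .negSucc 142023167999)])]), (5, [(1, [(0, .negSucc 33230131199)])]), (6, [(0, [(0, .ofNat 30085171200)]), (2, [(0, .ofNat 22866278400)])])]), (1, [(0, [(0, [(0, .ofNat 34501017600)])]), (2, [(0, [(0, .negSucc 230462668799)])]), (4, [(0, [(0, .ofNat 61928294400)])])]), (2, [(0, [(0, [(0, .negSucc 390297599)])]), (2, [(0, [(0, .negSucc 195148799)])])])]), (3, [(0, [(0, [(0, [(0, .negSucc 6451199)])]), (2, [(0, [(0, .negSucc 495445708799)])]), (3, [(1, [(0, .negSucc 70198732799)])])]), (1, [(0, [(0, [(0, .ofNat 14302310400)])]), (2, [(0, [(0, .ofNat 14302310400)])])])])]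
  W2 := [(0, [(0, [(1, [(0, [(0, .negSucc 2507500799)])]), (3, [(0, [(0, .ofNat 7031404800)])]), (4, [(1, [(0, .negSucc 17510169599)])]), (5, [(0, [(0, .negSucc 2743372799)])]), (6, [(1, [(0, .ofNat 9785664000)])]), (8, [(1, [(0, .ofNat 14345856000)])])]), (1, [(1, [(0, [(0, .ofNat 2572819200)])]), (3, [(0, [(0, .negSucc 24015398399)])]), (4, [(1, [(0, .ofNat 17778700800)])]), (5, [(0, [(0, .ofNat 9443347200)])]), (6, [(1, [(0, .negSucc 29627942399)])])]), (2, [(1, [(0, [(0, .negSucc 1066867199)])]), (3, [(0, [(0, .ofNat 7004793600)])]), (4, [(1, [(0, .ofNat 7591449600)])])]), (3, [(1, [(0, [(0, .ofNat 771724800)])])])]), (1, [(0, [(1, [(0, [(0, .negSucc 41336870399)])]), (3, [(0, [(0, .ofNat 77320051200)])]), (4, [(1, [(0, .ofNat 79533619200)])]), (5, [(0, [(0, .negSucc 23892019199)])]), (6, [(1, [(0, .negSucc 78193382399)])])]), (1, [(1, [(0, [(0, .ofNat 36283161600)])]), (3, [(0, [(0, .negSucc 17771443199)])]), (4, [(1, [(0, .ofNat 18647193600)])])]), (2, [(1,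 [(0, [(0, .negSucc 6077030399)])])])]), (2, [(0, [(1, [(0, [(0, .negSucc 70176153599)])]), (3, [(0, [(0, .negSucc 49845196799)])]), (4, [(1, [(0, .ofNat 45732556800)])])]), (1, [(1, [(0, [(0, .ofNat 64878105600)])])])]), (3, [(0, [(1, [(0, [(0, .ofNat 210596198400)])])])])]
  psi := [(0, [(0, [(0, [(0, [(0, .ofNat 3509856000)])]), (1, [(1, [(0, .ofNat 835833600)])]), (2, [(0, [(0, .negSucc 8213587199)])]), (3, [(1, [(0, .negSucc 2343801599)])]), (4, [(0, [(0, .ofNat 6626592000)]), (2, [(0, .ofNat 2918361600)])]), (5, [(1, [(0, .ofNat 914457600)])]), (6, [(2, [(0, .negSucc 1630943999)])]), (8, [(2, [(0, .negSucc 2390975999)])])]), (1, [(0, [(0, [(0, .negSucc 166924799)])]), (1, [(1, [(0, .negSucc 857606399)])]), (2, [(0, [(0, .ofNat 11553292800)])]), (3, [(1, [(0, .ofNat 8005132800)])]), (4, [(0, [(0, .negSucc 12352031999)]), (2, [(0, .negSucc 2963116799)])]), (5, [(1, [(0, .negSucc 3147782399)])]), (6, [(2, [(0, .ofNat 4937990400)])])]), (2, [(0, [(0, [(0, .negSucc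 2874815999)])]), (1, [(1, [(0, .ofNat 355622400)])]), (2, [(0, [(0, .ofNat 228211200)])]), (3, [(1, [(0, .negSucc 2334931199)])]), (4, [(0, [(0, .ofNat 6037516800)]), (2, [(0, .negSucc 1265241599)])])]), (3, [(0, [(0, [(0, .ofNat 958809600)])]), (1, [(1, [(0, .negSucc 257241599)])]), (2, [(0, [(0, .negSucc 3330835199)])])])]), (1, [(0, [(0, [(0, [(0, .negSucc 61286399)])]), (1, [(1, [(0, .ofNat 13778956800)])]), (2, [(0, [(0, .ofNat 8706700800)])]), (3, [(1, [(0, .negSucc 25773350399)])]), (4, [(0, [(0, .negSucc 14476492799)]), (2, [(0, .negSucc 13255603199)])]), (5, [(1, [(0, .ofNat 7964006400)])]), (6, [(2, [(0, .ofNat 13032230400)])])]), (1, [(0, [(0, [(0, .ofNat 9930009600)])]), (1, [(1, [(0, .negSucc 12094387199)])]), (2, [(0, [(0, .negSucc 9101030399)])]), (3, [(1, [(0, .ofNat 5923814400)])]), (4, [(0, [(0, .ofNat 17583552000)]), (2, [(0, .negSucc 3107865599)])])]), (2, [(0, [(0, [(0, .negSucc 18946367999)])]), (1, [(1, [(0, .ofNat 2025676800)])]), (2, [(0,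 [(0, .negSucc 6124607999)])])]), (3, [(0, [(0, [(0, .ofNat 9729216000)])])])]), (2, [(0, [(0, [(0, [(0, .negSucc 13289471999)])]), (1, [(1, [(0, .ofNat 23392051200)])]), (2, [(0, [(0, .ofNat 81852825600)])]), (3, [(1, [(0, .ofNat 16615065600)])]), (4, [(0, [(0, .negSucc 10028390399)]), (2, [(0, .negSucc 7622092799)])])]), (1, [(0, [(0, [(0, .ofNat 17250508800)])]), (1, [(1, [(0, .negSucc 21626035199)])]), (2, [(0, [(0, .negSucc 61928294399)])])]), (2, [(0, [(0, [(0, .negSucc 195148799)])])])]), (3, [(0, [(0, [(0, [(0, .negSucc 3225599)])]), (1, [(1, [(0, .negSucc 70198732799)])]), (2, [(0, [(0, .negSucc 123859814399)])])]), (1, [(0, [(0, [(0, .ofNat 7151155200)])])])])]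
  G1 := [(0, [(1, [(0, [(0, [(0, .ofNat 1)])])])]), (2, [(0, [(0, [(0, [(0, .negSucc 3)])]), (2, [(0, [(0, .ofNat 4)])])])])]
  G2 := [(0, [(0, [(0, [(0, [(0, .ofNat 5)])])]), (2, [(0, [(0, [(0, .negSucc 4)])])])]), (2, [(0, [(2, [(0, [(0, .negSucc 55)])])])])]
  G3 := [(0, [(0, [(0, [(0, [(0, .ofNat 64), (2, .negSucc 347), (4, .ofNat 840), (6, .negSucc 799)]), (1, [(1, .ofNat 288), (3, .negSucc 719)]), (2, [(0, .negSucc 191)])])])])]
  G4 := [(0, [(0, [(0, [(0, [(0, .ofNat 4), (2, .negSucc 4)])])])])]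

/-- chart data, signs `(-1, 1)` -/
def mp : CD where
  g := [(0, [(0, [(0, [(0, [(0, .ofNat 3675168000)])]), (2, [(0, [(0, .negSucc 5393606399)])]), (3, [(1, [(0, .ofNat 3239712000)])]), (4, [(0, [(0, .ofNat 3500582400)])]), (5, [(1, [(0, .negSucc 4801305599)])]), (6, [(2, [(0, .ofNat 6633446400)])]), (7, [(1, [(0, .ofNat 1897862400)])]), (8, [(2, [(0, .negSucc 8155526399)])]), (10, [(2, [(0, .ofNat 1262419200)])])]), (1, [(0, [(0, [(0, .negSucc 4967423999)])]), (2, [(0, [(0, .ofNat 10057420800)])]), (3, [(1, [(0, .negSucc 13695091199)])]), (4, [(0, [(0, .negSucc 7247116799)])]), (5, [(1, [(0, .ofNat 12335904000)])]), (6, [(2, [(0, .negSucc 2338156799)])]), (7, [(1, [(0, .negSucc 3180441599)])]), (8, [(2, [(0, .ofNat 4369075200)])])]), (2, [(0, [(0, [(0, .ofNat 5017420800)])]), (2, [(0, [(0, .negSucc 6011308799)])]), (3, [(1, [(0, .ofNat 9847756800)])]), (4, [(0, [(0, .ofNat 3633235200)])]), (5, [(1, [(0, .negSucc 3561465599)])]), (6, [(2, [(0, .negSucc 1313222399)])])]),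 (3, [(0, [(0, [(0, .negSucc 2669990399)])]), (2, [(0, [(0, .ofNat 1453536000)])]), (3, [(1, [(0, .negSucc 2942956799)])])])]), (1, [(0, [(0, [(0, [(0, .ofNat 7810790400)])]), (2, [(0, [(0, .negSucc 15895756799)])]), (3, [(1, [(0, .ofNat 25465305600)])]), (4, [(0, [(0, .ofNat 8039808000)])]), (5, [(1, [(0, .negSucc 2351462399)])]), (6, [(2, [(0, .negSucc 8729279999)])]), (7, [(1, [(0, .negSucc 9063935999)])]), (8, [(2, [(0, .ofNat 12945945600)])])]), (1, [(0, [(0, [(0, .ofNat 11911334400)])]), (2, [(0, [(0, .negSucc 18329471999)])]), (3, [(1, [(0, .negSucc 27832895999)])]), (4, [(0, [(0, .negSucc 616089599)])]), (5, [(1, [(0, .ofNat 7552742400)])]), (6, [(2, [(0, .negSucc 5172249599)])])]), (2, [(0, [(0, [(0, .negSucc 8326886399)])]), (2, [(0, [(0, .ofNat 24180710400)])]), (3, [(1, [(0, .ofNat 10343692800)])])]), (3, [(0, [(0, [(0, .negSucc 9969523199)])])])]), (2, [(0, [(0, [(0, [(0, .ofNat 84410726400)])]), (2, [(0, [(0, .negSucc 63062092799)])]), (3, [(1, [(0,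 .negSucc 38033049599)])]), (4, [(0, [(0, .ofNat 566092800)])]), (5, [(1, [(0, .ofNat 7855948800)])]), (6, [(2, [(0, .negSucc 21064780799)])])]), (1, [(0, [(0, [(0, .negSucc 95722905599)])]), (2, [(0, [(0, .ofNat 60509030400)])]), (3, [(1, [(0, .ofNat 26772480000)])])]), (2, [(0, [(0, [(0, .ofNat 15419980800)])])])]), (3, [(0, [(0, [(0, [(0, .ofNat 125911296000)])]), (2, [(0, [(0, .negSucc 2048255999)])]), (3, [(1, [(0, .ofNat 26507980800)])])]), (1, [(0, [(0, [(0, .negSucc 84146227199)])])])])]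
  k11 := [(0, [(0, [(0, [(0, [(0, .ofNat 1225056000), (2, .ofNat 1750080000)])]), (2, [(0, [(0, .negSucc 1797868799), (2, .negSucc 2568383999)])]), (3, [(1, [(0, .ofNat 1079904000), (2, .ofNat 1542720000)])]), (4, [(0, [(0, .ofNat 1166860800), (2, .ofNat 1666944000)])]), (5, [(1, [(0, .negSucc 1600435199), (2, .negSucc 2286335999)])]), (6, [(2, [(0, .ofNat 2211148800), (2, .ofNat 3158784000)])]), (7, [(1, [(0, .ofNat 632620800), (2, .ofNat 903744000)])]), (8, [(2, [(0, .negSucc 2718508799), (2, .negSucc 3883583999)])]), (10, [(2, [(0, .ofNat 420806400), (2, .ofNat 601152000)])])]), (1, [(0, [(0, [(0, .negSucc 1655807999), (2, .negSucc 2365439999)])]), (2, [(0, [(0, .ofNat 3352473600), (2, .ofNat 4789248000)])]), (3, [(1, [(0, .negSucc 4565030399), (2, .negSucc 6521471999)])]), (4, [(0, [(0, .negSucc 2415705599), (2, .negSucc 3451007999)])]), (5, [(1, [(0, .ofNat 4111968000), (2, .ofNat 5874240000)])]), (6, [(2, [(0, .negSucc 779385599), (2, .negSucc 1113407999)])]),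 (7, [(1, [(0, .negSucc 1060147199), (2, .negSucc 1514495999)])]), (8, [(2, [(0, .ofNat 1456358400), (2, .ofNat 2080512000)])])]), (2, [(0, [(0, [(0, .ofNat 1672473600), (2, .ofNat 2389248000)])]), (2, [(0, [(0, .negSucc 2003769599), (2, .negSucc 2862527999)])]), (3, [(1, [(0, .ofNat 3282585600), (2, .ofNat 4689408000)])]), (4, [(0, [(0, .ofNat 1211078400), (2, .ofNat 1730112000)])]), (5, [(1, [(0, .negSucc 1187155199), (2, .negSucc 1695935999)])]), (6, [(2, [(0, .negSucc 437740799), (2, .negSucc 625343999)])])]), (3, [(0, [(0, [(0, .negSucc 889996799), (2, .negSucc 1271423999)])]), (2, [(0, [(0, .ofNat 484512000), (2, .ofNat 692160000)])]), (3, [(1, [(0, .negSucc 980985599), (2, .negSucc 1401407999)])])])]), (1, [(0, [(0, [(0, [(0, .ofNat 2603596800), (2, .ofNat 3719424000)])]), (2, [(0, [(0, .negSucc 5298585599), (2, .negSucc 7569407999)])]), (3, [(1, [(0, .ofNat 8488435200), (2, .ofNat 12126336000)])]), (4, [(0, [(0, .ofNat 2679936000), (2, .ofNat 3828480000)])]),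 (5, [(1, [(0, .negSucc 783820799), (2, .negSucc 1119743999)])]), (6, [(2, [(0, .negSucc 2909759999), (2, .negSucc 4156799999)])]), (7, [(1, [(0, .negSucc 3021311999), (2, .negSucc 4316159999)])]), (8, [(2, [(0, .ofNat 4315315200), (2, .ofNat 6164736000)])])]), (1, [(0, [(0, [(0, .ofNat 3970444800), (2, .ofNat 5672064000)])]), (2, [(0, [(0, .negSucc 6109823999), (2, .negSucc 8728319999)])]), (3, [(1, [(0, .negSucc 9277631999), (2, .negSucc 13253759999)])]), (4, [(0, [(0, .negSucc 205363199), (2, .negSucc 293375999)])]), (5, [(1, [(0, .ofNat 2517580800), (2, .ofNat 3596544000)])]), (6, [(2, [(0, .negSucc 1724083199), (2, .negSucc 2462975999)])])]), (2, [(0, [(0, [(0, .negSucc 2775628799), (2, .negSucc 3965183999)])]), (2, [(0, [(0, .ofNat 8060236800), (2, .ofNat 11514624000)])]), (3, [(1, [(0, .ofNat 3447897600), (2, .ofNat 4925568000)])])]), (3, [(0, [(0, [(0, .negSucc 3323174399), (2, .negSucc 4747391999)])])])]), (2, [(0, [(0, [(0, [(0, .ofNat 28136908800), (2,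 .ofNat 40195584000)])]), (2, [(0, [(0, .negSucc 21020697599), (2, .negSucc 30029567999)])]), (3, [(1, [(0, .negSucc 12677683199), (2, .negSucc 18110975999)])]), (4, [(0, [(0, .ofNat 188697600), (2, .ofNat 269568000)])]), (5, [(1, [(0, .ofNat 2618649600), (2, .ofNat 3740928000)])]), (6, [(2, [(0, .negSucc 7021593599), (2, .negSucc 10030847999)])])]), (1, [(0, [(0, [(0, .negSucc 31907635199), (2, .negSucc 45582335999)])]), (2, [(0, [(0, .ofNat 20169676800), (2, .ofNat 28813824000)])]), (3, [(1, [(0, .ofNat 8924160000), (2, .ofNat 12748800000)])])]), (2, [(0, [(0, [(0, .ofNat 5139993600), (2, .ofNat 7342848000)])])])]), (3, [(0, [(0, [(0, [(0, .ofNat 41970432000), (2, .ofNat 59957760000)])]), (2, [(0, [(0, .negSucc 682751999), (2, .negSucc 975359999)])]), (3, [(1, [(0, .ofNat 8835993600), (2, .ofNat 12622848000)])])]), (1, [(0, [(0, [(0, .negSucc 28048742399), (2, .negSucc 40069631999)])])])])]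
  k12 := [(0, [(0, [(0, [(0, [(1, .ofNat 350016000), (3, .negSucc 1750079999)]), (1, [(0, .ofNat 1225056000)])]), (2, [(0, [(1, .negSucc 513676799), (3, .ofNat 2568384000)]), (1, [(0, .negSucc 1797868799)])]), (3, [(1, [(1, .ofNat 308544000), (3, .negSucc 1542719999)]), (2, [(0, .ofNat 1079904000)])]), (4, [(0, [(1, .ofNat 333388800), (3, .negSucc 1666943999)]), (1, [(0, .ofNat 1166860800)])]), (5, [(1, [(1, .negSucc 457267199), (3, .ofNat 2286336000)]), (2, [(0, .negSucc 1600435199)])]), (6, [(2, [(1, .ofNat 631756800), (3, .negSucc 3158783999)]), (3, [(0, .ofNat 2211148800)])]), (7, [(1, [(1, .ofNat 180748800), (3, .negSucc 903743999)]), (2, [(0, .ofNat 632620800)])]), (8, [(2, [(1, .negSucc 776716799), (3, .ofNat 3883584000)]), (3, [(0, .negSucc 2718508799)])]), (10, [(2, [(1, .ofNat 120230400), (3, .negSucc 601151999)]), (3, [(0, .ofNat 420806400)])])]), (1, [(0, [(0, [(1, .negSucc 473087999), (3, .ofNat 2365440000)]), (1, [(0, .negSucc 1655807999)])]), (2,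 [(0, [(1, .ofNat 957849600), (3, .negSucc 4789247999)]), (1, [(0, .ofNat 3352473600)])]), (3, [(1, [(1, .negSucc 1304294399), (3, .ofNat 6521472000)]), (2, [(0, .negSucc 4565030399)])]), (4, [(0, [(1, .negSucc 690201599), (3, .ofNat 3451008000)]), (1, [(0, .negSucc 2415705599)])]), (5, [(1, [(1, .ofNat 1174848000), (3, .negSucc 5874239999)]), (2, [(0, .ofNat 4111968000)])]), (6, [(2, [(1, .negSucc 222681599), (3, .ofNat 1113408000)]), (3, [(0, .negSucc 779385599)])]), (7, [(1, [(1, .negSucc 302899199), (3, .ofNat 1514496000)]), (2, [(0, .negSucc 1060147199)])]), (8, [(2, [(1, .ofNat 416102400), (3, .negSucc 2080511999)]), (3, [(0, .ofNat 1456358400)])])]), (2, [(0, [(0, [(1, .ofNat 477849600), (3, .negSucc 2389247999)]), (1, [(0, .ofNat 1672473600)])]), (2, [(0, [(1, .negSucc 572505599), (3, .ofNat 2862528000)]), (1, [(0, .negSucc 2003769599)])]), (3, [(1, [(1, .ofNat 937881600), (3, .negSucc 4689407999)]), (2, [(0, .ofNat 3282585600)])]), (4, [(0, [(1, .ofNat 346022400),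 (3, .negSucc 1730111999)]), (1, [(0, .ofNat 1211078400)])]), (5, [(1, [(1, .negSucc 339187199), (3, .ofNat 1695936000)]), (2, [(0, .negSucc 1187155199)])]), (6, [(2, [(1, .negSucc 125068799), (3, .ofNat 625344000)]), (3, [(0, .negSucc 437740799)])])]), (3, [(0, [(0, [(1, .negSucc 254284799), (3, .ofNat 1271424000)]), (1, [(0, .negSucc 889996799)])]), (2, [(0, [(1, .ofNat 138432000), (3, .negSucc 692159999)]), (1, [(0, .ofNat 484512000)])]), (3, [(1, [(1, .negSucc 280281599), (3, .ofNat 1401408000)]), (2, [(0, .negSucc 980985599)])])])]), (1, [(0, [(0, [(0, [(1, .ofNat 743884800), (3, .negSucc 3719423999)]), (1, [(0, .ofNat 2603596800)])]), (2, [(0, [(1, .negSucc 1513881599), (3, .ofNat 7569408000)]), (1, [(0, .negSucc 5298585599)])]), (3, [(1, [(1, .ofNat 2425267200), (3, .negSucc 12126335999)]), (2, [(0, .ofNat 8488435200)])]), (4, [(0, [(1, .ofNat 765696000), (3, .negSucc 3828479999)]), (1, [(0, .ofNat 2679936000)])]), (5, [(1, [(1, .negSucc 223948799), (3, .ofNat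 1119744000)]), (2, [(0, .negSucc 783820799)])]), (6, [(2, [(1, .negSucc 831359999), (3, .ofNat 4156800000)]), (3, [(0, .negSucc 2909759999)])]), (7, [(1, [(1, .negSucc 863231999), (3, .ofNat 4316160000)]), (2, [(0, .negSucc 3021311999)])]), (8, [(2, [(1, .ofNat 1232947200), (3, .negSucc 6164735999)]), (3, [(0, .ofNat 4315315200)])])]), (1, [(0, [(0, [(1, .ofNat 1134412800), (3, .negSucc 5672063999)]), (1, [(0, .ofNat 3970444800)])]), (2, [(0, [(1, .negSucc 1745663999), (3, .ofNat 8728320000)]), (1, [(0, .negSucc 6109823999)])]), (3, [(1, [(1, .negSucc 2650751999), (3, .ofNat 13253760000)]), (2, [(0, .negSucc 9277631999)])]), (4, [(0, [(1, .negSucc 58675199), (3, .ofNat 293376000)]), (1, [(0, .negSucc 205363199)])]), (5, [(1, [(1, .ofNat 719308800), (3, .negSucc 3596543999)]), (2, [(0, .ofNat 2517580800)])]), (6, [(2, [(1, .negSucc 492595199), (3, .ofNat 2462976000)]), (3, [(0, .negSucc 1724083199)])])]), (2, [(0, [(0, [(1, .negSucc 793036799), (3, .ofNat 3965184000)]),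 (1, [(0, .negSucc 2775628799)])]), (2, [(0, [(1, .ofNat 2302924800), (3, .negSucc 11514623999)]), (1, [(0, .ofNat 8060236800)])]), (3, [(1, [(1, .ofNat 985113600), (3, .negSucc 4925567999)]), (2, [(0, .ofNat 3447897600)])])]), (3, [(0, [(0, [(1, .negSucc 949478399), (3, .ofNat 4747392000)]), (1, [(0, .negSucc 3323174399)])])])]), (2, [(0, [(0, [(0, [(1, .ofNat 8039116800), (3, .negSucc 40195583999)]), (1, [(0, .ofNat 28136908800)])]), (2, [(0, [(1, .negSucc 6005913599), (3, .ofNat 30029568000)]), (1, [(0, .negSucc 21020697599)])]), (3, [(1, [(1, .negSucc 3622195199), (3, .ofNat 18110976000)]), (2, [(0, .negSucc 12677683199)])]), (4, [(0, [(1, .ofNat 53913600), (3, .negSucc 269567999)]), (1, [(0, .ofNat 188697600)])]), (5, [(1, [(1, .ofNat 748185600), (3, .negSucc 3740927999)]), (2, [(0, .ofNat 2618649600)])]), (6, [(2, [(1, .negSucc 2006169599), (3, .ofNat 10030848000)]), (3, [(0, .negSucc 7021593599)])])]), (1, [(0, [(0, [(1, .negSucc 9116467199), (3, .ofNat 45582336000)]),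 (1, [(0, .negSucc 31907635199)])]), (2, [(0, [(1, .ofNat 5762764800), (3, .negSucc 28813823999)]), (1, [(0, .ofNat 20169676800)])]), (3, [(1, [(1, .ofNat 2549760000), (3, .negSucc 12748799999)]), (2, [(0, .ofNat 8924160000)])])]), (2, [(0, [(0, [(1, .ofNat 1468569600), (3, .negSucc 7342847999)]), (1, [(0, .ofNat 5139993600)])])])]), (3, [(0, [(0, [(0, [(1, .ofNat 11991552000), (3, .negSucc 59957759999)]), (1, [(0, .ofNat 41970432000)])]), (2, [(0, [(1, .negSucc 195071999), (3, .ofNat 975360000)]), (1, [(0, .negSucc 682751999)])]), (3, [(1, [(1, .ofNat 2524569600), (3, .negSucc 12622847999)]), (2, [(0, .ofNat 8835993600)])])]), (1, [(0, [(0, [(1, .negSucc 8013926399), (3, .ofNat 40069632000)]), (1, [(0, .negSucc 28048742399)])])])])]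
  k22 := [(0, [(0, [(0, [(0, [(0, .ofNat 539608000), (2, .negSucc 2945967999), (4, .ofNat 5833600000)]), (1, [(1, .ofNat 1225056000)])]), (2, [(0, [(0, .negSucc 791918399), (2, .ofNat 4323446400), (4, .negSucc 8561279999)]), (1, [(1, .negSucc 1797868799)])]), (3, [(1, [(0, .ofNat 475672000), (2, .negSucc 2596911999), (4, .ofNat 5142400000)]), (2, [(1, .ofNat 1079904000)])]), (4, [(0, [(0, .ofNat 513974400), (2, .negSucc 2806022399), (4, .ofNat 5556480000)]), (1, [(1, .ofNat 1166860800)])]), (5, [(1, [(0, .negSucc 704953599), (2, .ofNat 3848665600), (4, .negSucc 7621119999)]), (2, [(1, .negSucc 1600435199)])]), (6, [(2, [(0, .ofNat 973958400), (2, .negSucc 5317286399), (4, .ofNat 10529280000)]), (3, [(1, .ofNat 2211148800)])]), (7, [(1, [(0, .ofNat 278654400), (2, .negSucc 1521302399), (4, .ofNat 3012480000)]), (2, [(1, .ofNat 632620800)])]), (8, [(2, [(0, .negSucc 1197438399), (2, .ofNat 6537366400), (4, .negSucc 12945279999)]), (3, [(1, .negSucc 2718508799)])]),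 (10, [(2, [(0, .ofNat 185355200), (2, .negSucc 1011939199), (4, .ofNat 2003840000)]), (3, [(1, .ofNat 420806400)])])]), (1, [(0, [(0, [(0, .negSucc 729343999), (2, .ofNat 3981824000), (4, .negSucc 7884799999)]), (1, [(1, .negSucc 1655807999)])]), (2, [(0, [(0, .ofNat 1476684800), (2, .negSucc 8061900799), (4, .ofNat 15964160000)]), (1, [(1, .ofNat 3352473600)])]), (3, [(1, [(0, .negSucc 2010787199), (2, .ofNat 10977811200), (4, .negSucc 21738239999)]), (2, [(1, .negSucc 4565030399)])]), (4, [(0, [(0, .negSucc 1064060799), (2, .ofNat 5809196800), (4, .negSucc 11503359999)]), (1, [(1, .negSucc 2415705599)])]), (5, [(1, [(0, .ofNat 1811224000), (2, .negSucc 9888303999), (4, .ofNat 19580800000)]), (2, [(1, .ofNat 4111968000)])]), (6, [(2, [(0, .negSucc 343300799), (2, .ofNat 1874236800), (4, .negSucc 3711359999)]), (3, [(1, .negSucc 779385599)])]), (7, [(1, [(0, .negSucc 466969599), (2, .ofNat 2549401600), (4, .negSucc 5048319999)]), (2, [(1, .negSucc 1060147199)])]),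 (8, [(2, [(0, .ofNat 641491200), (2, .negSucc 3502195199), (4, .ofNat 6935040000)]), (3, [(1, .ofNat 1456358400)])])]), (2, [(0, [(0, [(0, .ofNat 736684800), (2, .negSucc 4021900799), (4, .ofNat 7964160000)]), (1, [(1, .ofNat 1672473600)])]), (2, [(0, [(0, .negSucc 882612799), (2, .ofNat 4818588800), (4, .negSucc 9541759999)]), (1, [(1, .negSucc 2003769599)])]), (3, [(1, [(0, .ofNat 1445900800), (2, .negSucc 7893836799), (4, .ofNat 15631360000)]), (2, [(1, .ofNat 3282585600)])]), (4, [(0, [(0, .ofNat 533451200), (2, .negSucc 2912355199), (4, .ofNat 5767040000)]), (1, [(1, .ofNat 1211078400)])]), (5, [(1, [(0, .negSucc 522913599), (2, .ofNat 2854825600), (4, .negSucc 5653119999)]), (2, [(1, .negSucc 1187155199)])]), (6, [(2, [(0, .negSucc 192814399), (2, .ofNat 1052662400), (4, .negSucc 2084479999)]), (3, [(1, .negSucc 437740799)])])]), (3, [(0, [(0, [(0, .negSucc 392022399), (2, .ofNat 2140230400), (4, .negSucc 4238079999)]), (1, [(1, .negSucc 889996799)])]), (2,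 [(0, [(0, .ofNat 213416000), (2, .negSucc 1165135999), (4, .ofNat 2307200000)]), (1, [(1, .ofNat 484512000)])]), (3, [(1, [(0, .negSucc 432100799), (2, .ofNat 2359036800), (4, .negSucc 4671359999)]), (2, [(1, .negSucc 980985599)])])])]), (1, [(0, [(0, [(0, [(0, .ofNat 1146822400), (2, .negSucc 6261030399), (4, .ofNat 12398080000)]), (1, [(1, .ofNat 2603596800)])]), (2, [(0, [(0, .negSucc 2333900799), (2, .ofNat 12741836800), (4, .negSucc 25231359999)]), (1, [(1, .negSucc 5298585599)])]), (3, [(1, [(0, .ofNat 3738953600), (2, .negSucc 20412665599), (4, .ofNat 40421120000)]), (2, [(1, .ofNat 8488435200)])]), (4, [(0, [(0, .ofNat 1180448000), (2, .negSucc 6444607999), (4, .ofNat 12761600000)]), (1, [(1, .ofNat 2679936000)])]), (5, [(1, [(0, .negSucc 345254399), (2, .ofNat 1884902400), (4, .negSucc 3732479999)]), (2, [(1, .negSucc 783820799)])]), (6, [(2, [(0, .negSucc 1281679999), (2, .ofNat 6997280000), (4, .negSucc 13855999999)]), (3, [(1, .negSucc 2909759999)])]),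 (7, [(1, [(0, .negSucc 1330815999), (2, .ofNat 7265536000), (4, .negSucc 14387199999)]), (2, [(1, .negSucc 3021311999)])]), (8, [(2, [(0, .ofNat 1900793600), (2, .negSucc 10377305599), (4, .ofNat 20549120000)]), (3, [(1, .ofNat 4315315200)])])]), (1, [(0, [(0, [(0, .ofNat 1748886400), (2, .negSucc 9547974399), (4, .ofNat 18906880000)]), (1, [(1, .ofNat 3970444800)])]), (2, [(0, [(0, .negSucc 2691231999), (2, .ofNat 14692672000), (4, .negSucc 29094399999)]), (1, [(1, .negSucc 6109823999)])]), (3, [(1, [(0, .negSucc 4086575999), (2, .ofNat 22310496000), (4, .negSucc 44179199999)]), (2, [(1, .negSucc 9277631999)])]), (4, [(0, [(0, .negSucc 90457599), (2, .ofNat 493849600), (4, .negSucc 977919999)]), (1, [(1, .negSucc 205363199)])]), (5, [(1, [(0, .ofNat 1108934400), (2, .negSucc 6054182399), (4, .ofNat 11988480000)]), (2, [(1, .ofNat 2517580800)])]), (6, [(2, [(0, .negSucc 759417599), (2, .ofNat 4146009600), (4, .negSucc 8209919999)]), (3, [(1, .negSucc 1724083199)])])]),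 (2, [(0, [(0, [(0, .negSucc 1222598399), (2, .ofNat 6674726400), (4, .negSucc 13217279999)]), (1, [(1, .negSucc 2775628799)])]), (2, [(0, [(0, .ofNat 3550342400), (2, .negSucc 19382950399), (4, .ofNat 38382080000)]), (1, [(1, .ofNat 8060236800)])]), (3, [(1, [(0, .ofNat 1518716800), (2, .negSucc 8291372799), (4, .ofNat 16418560000)]), (2, [(1, .ofNat 3447897600)])])]), (3, [(0, [(0, [(0, .negSucc 1463779199), (2, .ofNat 7991443200), (4, .negSucc 15824639999)]), (1, [(1, .negSucc 3323174399)])])])]), (2, [(0, [(0, [(0, [(0, .ofNat 12393638400), (2, .negSucc 67662566399), (4, .ofNat 133985280000)]), (1, [(1, .ofNat 28136908800)])]), (2, [(0, [(0, .negSucc 9259116799), (2, .ofNat 50549772800), (4, .negSucc 100098559999)]), (1, [(1, .negSucc 21020697599)])]), (3, [(1, [(0, .negSucc 5584217599), (2, .ofNat 30486809600), (4, .negSucc 60369919999)]), (2, [(1, .negSucc 12677683199)])]), (4, [(0, [(0, .ofNat 83116800), (2, .negSucc 453772799), (4, .ofNat 898560000)]), (1,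 [(1, .ofNat 188697600)])]), (5, [(1, [(0, .ofNat 1153452800), (2, .negSucc 6297228799), (4, .ofNat 12469760000)]), (2, [(1, .ofNat 2618649600)])]), (6, [(2, [(0, .negSucc 3092844799), (2, .ofNat 16885260800), (4, .negSucc 33436159999)]), (3, [(1, .negSucc 7021593599)])])]), (1, [(0, [(0, [(0, .negSucc 14054553599), (2, .ofNat 76730265600), (4, .negSucc 151941119999)]), (1, [(1, .negSucc 31907635199)])]), (2, [(0, [(0, .ofNat 8884262400), (2, .negSucc 48503270399), (4, .ofNat 96046080000)]), (1, [(1, .ofNat 20169676800)])]), (3, [(1, [(0, .ofNat 3930880000), (2, .negSucc 21460479999), (4, .ofNat 42496000000)]), (2, [(1, .ofNat 8924160000)])])]), (2, [(0, [(0, [(0, .ofNat 2264044800), (2, .negSucc 12360460799), (4, .ofNat 24476160000)]), (1, [(1, .ofNat 5139993600)])])])]), (3, [(0, [(0, [(0, [(0, .ofNat 18486976000), (2, .negSucc 100928895999), (4, .ofNat 199859200000)]), (1, [(1, .ofNat 41970432000)])]), (2, [(0, [(0, .negSucc 300735999), (2, .ofNat 1641856000),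 (4, .negSucc 3251199999)]), (1, [(1, .negSucc 682751999)])]), (3, [(1, [(0, .ofNat 3892044800), (2, .negSucc 21248460799), (4, .ofNat 42076160000)]), (2, [(1, .ofNat 8835993600)])])]), (1, [(0, [(0, [(0, .negSucc 12354803199), (2, .ofNat 67450547200), (4, .negSucc 133565439999)]), (1, [(1, .negSucc 28048742399)])])])])]
  C0 := [(0, [(0, [(0, [(0, [(0, .ofNat 256011840)])]), (1, [(1, [(0, .ofNat 2253779136)])]), (2, [(0, [(0, .ofNat 1053464832)])]), (3, [(1, [(0, .negSucc 10375085951)])]), (4, [(0, [(0, .negSucc 6990302591)]), (2, [(0, .ofNat 7550573184)])]), (5, [(1, [(0, .negSucc 7000435007)])]), (6, [(0, [(0, .ofNat 9069721920)]), (2, [(0, .ofNat 27446158656)])]), (7, [(1, [(0, .ofNat 30968711424)]), (3, [(0, .ofNat 9489715200)])]), (8, [(2, [(0, .negSucc 70626185279)])]), (9, [(1, [(0, .negSucc 9489311999)]), (3, [(0, .negSucc 14660351999)])]), (10, [(2, [(0, .ofNat 44312768640)])]), (11, [(3, [(0, .ofNat 4178361600)])]), (12, [(2, [(0, .negSucc 6312095999)])])]),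 (1, [(0, [(0, [(0, .negSucc 13108781951)])]), (1, [(1, [(0, .negSucc 17273600063)])]), (2, [(0, [(0, .ofNat 15466074624)])]), (3, [(1, [(0, .ofNat 4962105792)])]), (4, [(0, [(0, .ofNat 12944691648)]), (2, [(0, .negSucc 10725325631)])]), (5, [(1, [(0, .ofNat 50923510848)])]), (6, [(0, [(0, .negSucc 13296064319)]), (2, [(0, .negSucc 11950025471)])]), (7, [(1, [(0, .negSucc 62363722175)]), (3, [(0, .negSucc 11575871999)])]), (8, [(2, [(0, .ofNat 37693744704)])]), (9, [(1, [(0, .ofNat 15902208000)]), (3, [(0, .ofNat 9201830400)])]), (10, [(2, [(0, .negSucc 21845375999)])])]), (2, [(0, [(0, [(0, .ofNat 18918264960)])]), (1, [(1, [(0, .ofNat 21702973824)])]), (2, [(0, [(0, .negSucc 51450723071)])]), (3, [(1, [(0, .ofNat 6155763264)])]), (4, [(0, [(0, .ofNat 14447430144)]), (2, [(0, .negSucc 6001075583)])]), (5, [(1, [(0, .negSucc 47714724287)])]), (6, [(0, [(0, .ofNat 6044266368)]), (2, [(0, .negSucc 6739641215)])]), (7, [(1, [(0, .ofNat 17807328000)]), (3, [(0, .ofNat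 3441715200)])]), (8, [(2, [(0, .ofNat 6566112000)])])]), (3, [(0, [(0, [(0, .negSucc 6512800895)])]), (1, [(1, [(0, .negSucc 6108633215)])]), (2, [(0, [(0, .ofNat 35222902848)])]), (3, [(1, [(0, .negSucc 6594182783)])]), (4, [(0, [(0, .negSucc 20624329151)]), (2, [(0, .ofNat 9494956800)])]), (5, [(1, [(0, .ofNat 14714784000)])])])]), (1, [(0, [(0, [(0, [(0, .ofNat 97008113664)])]), (1, [(1, [(0, .ofNat 78123927168)])]), (2, [(0, [(0, .negSucc 271891251071)])]), (3, [(1, [(0, .ofNat 13212476928)])]), (4, [(0, [(0, .ofNat 235515159936)]), (2, [(0, .ofNat 1508274432)])]), (5, [(1, [(0, .negSucc 92711509631)])]), (6, [(0, [(0, .negSucc 78911497727)]), (2, [(0, .negSucc 43496401535)])]), (7, [(1, [(0, .negSucc 85053233663)]), (3, [(0, .ofNat 3323174400)])]), (8, [(2, [(0, .ofNat 113944811904)])]), (9, [(1, [(0, .ofNat 63513676800)]), (3, [(0, .ofNat 6123801600)])]), (10, [(2, [(0, .negSucc 101274163199)])]), (12, [(2, [(0, .ofNat 8356723200)])])]), (1, [(0, [(0, [(0,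 .negSucc 11404221695)])]), (1, [(1, [(0, .ofNat 102055580928)])]), (2, [(0, [(0, .ofNat 38218521600)])]), (3, [(1, [(0, .negSucc 303965673983)])]), (4, [(0, [(0, .negSucc 177836932223)]), (2, [(0, .ofNat 154667149056)])]), (5, [(1, [(0, .ofNat 235397465856)])]), (6, [(0, [(0, .ofNat 129061134720)]), (2, [(0, .negSucc 182571814655)])]), (7, [(1, [(0, .ofNat 25741094400)]), (3, [(0, .negSucc 13902335999)])]), (8, [(2, [(0, .ofNat 43302067200)])]), (9, [(1, [(0, .negSucc 20687385599)])]), (10, [(2, [(0, .ofNat 18403660800)])])]), (2, [(0, [(0, [(0, .negSucc 112053352319)])]), (1, [(1, [(0, .negSucc 302318456831)])]), (2, [(0, [(0, .ofNat 340297574400)])]), (3, [(1, [(0, .ofNat 490642693632)])]), (4, [(0, [(0, .negSucc 136542026879)]), (2, [(0, .negSucc 54302169599)])]), (5, [(1, [(0, .negSucc 183207628799)])]), (6, [(0, [(0, .negSucc 60737241599)]), (2, [(0, .ofNat 44895513600)])]), (7, [(1, [(0, .negSucc 8789759999)])]), (8, [(2, [(0, .ofNat 6883430400)])])]), (3,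 [(0, [(0, [(0, .ofNat 30329792640)])]), (1, [(1, [(0, .ofNat 121713984000)])]), (2, [(0, [(0, .negSucc 104025075839)])]), (3, [(1, [(0, .negSucc 149179161599)])]), (4, [(0, [(0, .ofNat 87584716800)])]), (5, [(1, [(0, .ofNat 18989913600)])])])]), (2, [(0, [(0, [(0, [(0, .negSucc 307736110079)])]), (1, [(1, [(0, .negSucc 278440178687)])]), (2, [(0, [(0, .ofNat 739193140224)])]), (3, [(1, [(0, .negSucc 85786477055)])]), (4, [(0, [(0, .negSucc 646431690239)]), (2, [(0, .negSucc 366161628671)])]), (5, [(1, [(0, .ofNat 522208479744)])]), (6, [(0, [(0, .ofNat 269838890496)]), (2, [(0, .ofNat 276881859072)])]), (7, [(1, [(0, .negSucc 287278387199)]), (3, [(0, .negSucc 1193471999)])]), (8, [(2, [(0, .ofNat 52032153600)])]), (9, [(1, [(0, .ofNat 9094579200)])]), (10, [(2, [(0, .ofNat 12247603200)])])]), (1, [(0, [(0, [(0, .ofNat 120258496512)])]), (1, [(1, [(0, .ofNat 153312622848)])]), (2, [(0, [(0, .negSucc 404729031167)])]), (3, [(1, [(0, .negSucc 147551701247)])]), (4,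 [(0, [(0, .ofNat 650401952256)]), (2, [(0, .ofNat 195913267200)])]), (5, [(1, [(0, .negSucc 23356569599)])]), (6, [(0, [(0, .negSucc 304004735999)]), (2, [(0, .negSucc 106178687999)])]), (7, [(1, [(0, .ofNat 2825625600)])]), (8, [(2, [(0, .negSucc 27804671999)])])]), (2, [(0, [(0, [(0, .ofNat 277324524288)])]), (1, [(1, [(0, .ofNat 70276147200)])]), (2, [(0, [(0, .negSucc 308435436287)])]), (3, [(1, [(0, .negSucc 41305420799)])]), (4, [(0, [(0, .ofNat 26383795200)])]), (5, [(1, [(0, .negSucc 5046451199)])])]), (3, [(0, [(0, [(0, .negSucc 85905791999)])]), (2, [(0, [(0, .ofNat 85905792000)])])])]), (3, [(0, [(0, [(0, [(0, .negSucc 124204921343)])]), (1, [(1, [(0, .negSucc 592625392127)])]), (2, [(0, [(0, .ofNat 1194491225088)])]), (3, [(1, [(0, .ofNat 1578475196928)])]), (4, [(0, [(0, .negSucc 861315807743)]), (2, [(0, .ofNat 359589888000)])]), (5, [(1, [(0, .negSucc 861935155199)])]), (6, [(0, [(0, .negSucc 127878911999)]), (2, [(0, .negSucc 320011775999)])]), (7,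 [(1, [(0, .ofNat 123785625600)])]), (8, [(2, [(0, .negSucc 2386943999)])])]), (1, [(0, [(0, [(0, .ofNat 1036884699648)])]), (1, [(1, [(0, .ofNat 700390656000)])]), (2, [(0, [(0, .negSucc 1705725762047)])]), (3, [(1, [(0, .negSucc 743158886399)])]), (4, [(0, [(0, .ofNat 743165337600)])]), (5, [(1, [(0, .ofNat 123859814400)])])]), (2, [(0, [(0, [(0, .negSucc 667163750399)])]), (2, [(0, [(0, .ofNat 667163750400)])])])]), (4, [(0, [(0, [(0, [(0, .negSucc 531024076799)])]), (1, [(1, [(0, .ofNat 793433088000)])]), (2, [(0, [(0, .negSucc 424269619199)])]), (3, [(1, [(0, .negSucc 867815423999)])]), (4, [(0, [(0, .ofNat 955293696000)])]), (5, [(1, [(0, .ofNat 74382336000)])])]), (1, [(0, [(0, [(0, .ofNat 120250368000)])]), (2, [(0, [(0, .negSucc 120250367999)])])])])]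
  Ck := [(0, [(0, [(0, [(0, [(0, .ofNat 32480179200), (2, .ofNat 55487174400)])]), (1, [(0, [(1, .ofNat 19574553600), (3, .ofNat 27669196800)]), (1, [(0, .ofNat 21708691200)])]), (2, [(0, [(0, .negSucc 36664185599), (2, .negSucc 71768390399)]), (1, [(1, .ofNat 35588044800)])]), (3, [(0, [(1, .negSucc 15787295999), (3, .negSucc 24373439999)]), (1, [(0, .ofNat 397958400), (2, .ofNat 62739936000)])]), (4, [(0, [(0, .ofNat 10591257600), (2, .ofNat 22696934400)]), (1, [(1, .negSucc 29106604799), (3, .ofNat 45214848000)]), (2, [(0, .ofNat 13762425600)])]), (5, [(0, [(1, .negSucc 3570335999), (3, .ofNat 27669196800)]), (1, [(0, .negSucc 7940217599), (2, .negSucc 61372281599)]), (2, [(1, .ofNat 11106547200)])]), (6, [(1, [(1, .ofNat 5787936000), (3, .negSucc 72339724799)]), (2, [(0, .negSucc 2384524799), (2, .negSucc 7829740799)])]), (7, [(1, [(2, .ofNat 7464441600)]), (2, [(1, .ofNat 3671539200), (3, .ofNat 23151744000)])]), (8, [(1, [(3, .ofNat 20687385600)]), (2, [(2,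 .negSucc 7538227199)])]), (9, [(2, [(3, .negSucc 18403660799)])])]), (1, [(0, [(0, [(0, .negSucc 30818591999), (2, .negSucc 83706335999)])]), (1, [(0, [(1, .negSucc 62320607999), (3, .negSucc 81107711999)]), (1, [(0, .negSucc 18194399999)])]), (2, [(0, [(0, .ofNat 43352870400), (2, .ofNat 87581491200)]), (1, [(1, .negSucc 140144255999)])]), (3, [(0, [(1, .ofNat 48888403200), (3, .ofNat 54622310400)]), (1, [(0, .ofNat 2711520000), (2, .negSucc 59778028799)])]), (4, [(0, [(0, .negSucc 13934995199), (2, .negSucc 48246105599)]), (1, [(1, .ofNat 62734291200), (3, .ofNat 44298777600)]), (2, [(0, .negSucc 6699167999)])]), (5, [(0, [(1, .ofNat 14261990400), (3, .negSucc 27249868799)]), (1, [(2, .ofNat 13329792000)]), (2, [(1, .negSucc 22130438399)])]), (6, [(1, [(3, .ofNat 17579520000)]), (2, [(2, .ofNat 30228710400)])]), (7, [(2, [(3, .negSucc 13766860799)])])]), (2, [(0, [(0, [(0, .negSucc 6223795199), (2, .ofNat 45350323200)])]), (1, [(0, [(1, .ofNat 40737715200), (3,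 .ofNat 30462566400)]), (1, [(0, .negSucc 2317593599)])]), (2, [(0, [(0, .negSucc 1777305599), (2, .negSucc 94751999)]), (1, [(1, .ofNat 76691059200)])]), (3, [(0, [(1, .negSucc 42261407999), (3, .negSucc 5435942399)]), (1, [(2, .ofNat 35836819200)])]), (4, [(1, [(3, .negSucc 56969740799)])])]), (3, [(0, [(0, [(0, .ofNat 5142816000), (2, .negSucc 4237631999)])]), (1, [(0, [(1, .negSucc 6944716799)])])])]), (1, [(0, [(0, [(0, [(0, .ofNat 62991129600), (2, .ofNat 61931520000)])]), (1, [(0, [(1, .negSucc 32646297599), (3, .ofNat 51675724800)]), (1, [(0, .ofNat 55885132800)])]), (2, [(0, [(0, .negSucc 11581516799), (2, .negSucc 105856127999)]), (1, [(1, .ofNat 136373529600)])]), (3, [(0, [(1, .negSucc 33228518399), (3, .negSucc 92148940799)]), (1, [(0, .negSucc 36265420799), (2, .ofNat 2365977600)])]), (4, [(0, [(0, .negSucc 25174195199), (2, .negSucc 123861427199)]), (1, [(1, .negSucc 16171545599), (3, .negSucc 59101055999)]), (2, [(0, .negSucc 32239871999)])]), (5,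 [(0, [(1, .ofNat 16613452800), (3, .ofNat 25304832000)]), (1, [(2, .negSucc 37094399)]), (2, [(1, .negSucc 7788211199)])]), (6, [(0, [(2, .ofNat 61931520000)]), (1, [(3, .negSucc 2825625599)]), (2, [(2, .ofNat 4481971200)])]), (7, [(2, [(3, .ofNat 27804672000)])])]), (1, [(0, [(0, [(0, .negSucc 123858201599), (2, .negSucc 123854975999)])]), (1, [(0, [(1, .negSucc 74067839999), (3, .ofNat 149932339200)]), (1, [(0, .negSucc 61929907199)])]), (2, [(0, [(0, .ofNat 61931520000), (2, .ofNat 259402752000)]), (1, [(1, .negSucc 28619135999)])]), (3, [(0, [(1, .ofNat 76149964800), (3, .negSucc 123859814399)]), (1, [(2, .ofNat 73309824000)])]), (4, [(0, [(2, .negSucc 73617868799)]), (1, [(3, .ofNat 10092902400)])])]), (2, [(0, [(0, [(0, .ofNat 61931520000), (2, .ofNat 23924275200)])]), (1, [(0, [(1, .negSucc 56986675199), (3, .ofNat 50851584000)])]), (2, [(0, [(2, .ofNat 83336601600)])])])]), (2, [(0, [(0, [(0, [(0, .ofNat 5336755200), (2, .ofNat 371584281600)])]), (1, [(0,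 [(1, .ofNat 103048243200), (3, .ofNat 247709952000)]), (1, [(0, .negSucc 119014963199)])]), (2, [(0, [(0, .ofNat 180452966400), (2, .ofNat 61921843200)]), (1, [(1, .negSucc 61900876799)])]), (3, [(0, [(1, .negSucc 100832255999), (3, .negSucc 123850137599)]), (1, [(2, .ofNat 150106521600)])]), (4, [(0, [(2, .negSucc 123863039999)]), (1, [(3, .negSucc 123859814399)])])]), (1, [(0, [(0, [(0, .negSucc 42365030399), (2, .ofNat 121637376000)])]), (1, [(0, [(1, .negSucc 359212492799), (3, .negSucc 95697100799)])]), (2, [(0, [(2, .negSucc 18908467199)])])])]), (3, [(0, [(1, [(0, [(1, .ofNat 56486707200), (3, .negSucc 162183167999)])]), (2, [(0, [(2, .ofNat 148648550400)])])])])]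
  L1 := [(0, [(0, [(0, [(0, [(0, .negSucc 8295033599)])]), (1, [(0, [(1, .ofNat 15207494400)])]), (2, [(0, [(0, .negSucc 8506713599), (2, .ofNat 3143347200)])]), (3, [(0, [(1, .negSucc 52919999999)]), (1, [(0, .ofNat 1070092800)])]), (4, [(0, [(0, .ofNat 23534380800), (2, .ofNat 24679065600)]), (1, [(1, .negSucc 29766643199)])]), (5, [(0, [(1, .ofNat 38637849600)]), (1, [(0, .ofNat 32478969600), (2, .negSucc 112769798399)])]), (6, [(0, [(0, .negSucc 7662412799), (2, .negSucc 27822412799)]), (1, [(1, .ofNat 23502528000)]), (2, [(0, .negSucc 38080223999)])]), (7, [(1, [(0, .negSucc 22142937599), (2, .ofNat 173913465600)]), (2, [(1, .ofNat 40034937600)])]), (8, [(1, [(1, .ofNat 13199961600)]), (2, [(0, .ofNat 32743872000), (2, .negSucc 86258995199)])]), (9, [(1, [(2, .negSucc 63678988799)]), (2, [(1, .negSucc 97763903999)])]), (10, [(2, [(0, .ofNat 3271968000), (2, .ofNat 133996262400)])]), (11, [(2, [(1, .ofNat 61297689600)])]), (12, [(2, [(2, .negSucc 41783615999)])])]),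 (1, [(0, [(0, [(0, .ofNat 3883219200)])]), (1, [(0, [(1, .negSucc 5808499199)])]), (2, [(0, [(0, .negSucc 23526316799), (2, .ofNat 24373440000)])]), (3, [(0, [(1, .negSucc 3042950399)]), (1, [(0, .ofNat 23890003200)])]), (4, [(0, [(0, .ofNat 30435955200), (2, .negSucc 79711833599)]), (1, [(1, .ofNat 53378841600)])]), (5, [(0, [(1, .negSucc 3711859199)]), (1, [(0, .negSucc 36024710399), (2, .ofNat 140161996800)])]), (6, [(0, [(0, .negSucc 20869631999), (2, .ofNat 55338393600)]), (1, [(1, .negSucc 78830438399)]), (2, [(0, .ofNat 42698880000)])]), (7, [(1, [(0, .ofNat 4417459200), (2, .negSucc 222224083199)]), (2, [(1, .negSucc 7875302399)])]), (8, [(1, [(1, .ofNat 15572390400)]), (2, [(0, .negSucc 26195903999), (2, .ofNat 87858892800)])]), (9, [(1, [(2, .ofNat 72405849600)]), (2, [(1, .negSucc 37100447999)])]), (10, [(2, [(2, .negSucc 73614643199)])])]), (2, [(0, [(0, [(0, .ofNat 37281484800)])]), (1, [(0, [(1, .ofNat 1444665600)])]), (2, [(0, [(0, .negSucc 4005388799),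 (2, .negSucc 27311155199)])]), (3, [(0, [(1, .ofNat 49334745600)]), (1, [(0, .negSucc 56824588799)])]), (4, [(0, [(0, .negSucc 36584755199), (2, .ofNat 54561024000)]), (1, [(1, .negSucc 25930598399)])]), (5, [(0, [(1, .negSucc 31439923199)]), (1, [(0, .ofNat 31043980800), (2, .ofNat 24434323200)])]), (6, [(0, [(0, .ofNat 29744870400), (2, .negSucc 27249868799)]), (1, [(1, .ofNat 12623385600)]), (2, [(0, .negSucc 17269862399)])]), (7, [(1, [(2, .ofNat 21974400000)]), (2, [(1, .ofNat 46474848000)])]), (8, [(2, [(2, .negSucc 20650291199)])])]), (3, [(0, [(0, [(0, .negSucc 31869331199)])]), (1, [(0, [(1, .negSucc 5489567999)])]), (2, [(0, [(0, .ofNat 35215084800), (2, .ofNat 1811980800)])]), (3, [(0, [(1, .negSucc 2596204799)]), (1, [(0, .ofNat 22513881600)])]), (4, [(0, [(0, .negSucc 17154547199), (2, .negSucc 1811980799)]), (1, [(1, .ofNat 12366144000)])]), (5, [(1, [(2, .negSucc 28484870399)])])])]), (1, [(0, [(0, [(0, [(0, .ofNat 281069913600)])]), (1, [(0, [(1,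 .ofNat 101524147200)])]), (2, [(0, [(0, .negSucc 384311692799), (2, .negSucc 119054476799)])]), (3, [(0, [(1, .negSucc 195832627199)]), (1, [(0, .negSucc 13806374399)])]), (4, [(0, [(0, .ofNat 231955315200), (2, .ofNat 216759513600)]), (1, [(1, .ofNat 109718784000)])]), (5, [(0, [(1, .ofNat 199851724800)]), (1, [(0, .negSucc 97307481599), (2, .negSucc 125369395199)])]), (6, [(0, [(0, .negSucc 63547545599), (2, .negSucc 92897279999)]), (1, [(1, .negSucc 98046143999)]), (2, [(0, .negSucc 109854259199)])]), (7, [(0, [(1, .negSucc 54915839999)]), (1, [(0, .ofNat 68069030400), (2, .ofNat 178388582400)]), (2, [(1, .ofNat 163621785600)])]), (8, [(1, [(1, .ofNat 1165248000)]), (2, [(0, .ofNat 29969049600), (2, .negSucc 4368268799)])]), (9, [(1, [(2, .negSucc 27283737599)]), (2, [(1, .negSucc 185649407999)])]), (10, [(2, [(2, .negSucc 42866611199)])])]), (1, [(0, [(0, [(0, .negSucc 244835135999)])]), (1, [(0, [(1, .negSucc 46630886399)])]), (2, [(0, [(0, .ofNat 391769280000),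 (2, .ofNat 66311078400)])]), (3, [(0, [(1, .ofNat 274863052800)]), (1, [(0, .ofNat 67169088000)])]), (4, [(0, [(0, .negSucc 266578099199), (2, .negSucc 96684134399)]), (1, [(1, .ofNat 82476979200)])]), (5, [(0, [(1, .negSucc 371587507199)]), (1, [(0, .negSucc 9433267199), (2, .negSucc 56275430399)])]), (6, [(0, [(0, .ofNat 83609971200), (2, .ofNat 37957248000)]), (1, [(1, .negSucc 92894860799)]), (2, [(0, .ofNat 26292672000)])]), (7, [(0, [(1, .ofNat 123863040000)]), (1, [(2, .negSucc 5651251199)]), (2, [(1, .ofNat 11350886400)])]), (8, [(2, [(2, .ofNat 69511680000)])])]), (2, [(0, [(0, [(0, .negSucc 46958284799)])]), (1, [(0, [(1, .negSucc 38921702399)])]), (2, [(0, [(0, .ofNat 4298918400), (2, .ofNat 24446822400)])]), (3, [(0, [(1, .ofNat 73617868800)]), (1, [(0, .negSucc 2523225599)])]), (4, [(0, [(0, .ofNat 3554611200), (2, .negSucc 30964953599)]), (1, [(1, .ofNat 2844979200)])]), (5, [(0, [(1, .negSucc 36808934399)]), (1, [(2, .ofNat 5046451200)])])]), (3,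 [(0, [(0, [(0, .ofNat 12096000000)])]), (1, [(0, [(1, .negSucc 27778867199)])]), (2, [(0, [(0, .ofNat 10285632000), (2, .negSucc 8475263999)])])])]), (2, [(0, [(0, [(0, [(0, .ofNat 376780723200)])]), (1, [(0, [(1, .negSucc 120395519999)])]), (2, [(0, [(0, .negSucc 109210751999), (2, .negSucc 247726079999)])]), (3, [(0, [(1, .ofNat 283793126400)]), (1, [(0, .negSucc 98361446399)])]), (4, [(0, [(0, .negSucc 89113651199), (2, .ofNat 247726080000)]), (1, [(1, .negSucc 64195891199)])]), (5, [(0, [(1, .negSucc 374942131199)]), (1, [(0, .ofNat 98158233600), (2, .ofNat 245263334400)])]), (6, [(0, [(0, .ofNat 50348390400), (2, .negSucc 123863039999)]), (1, [(1, .ofNat 10650931200)]), (2, [(0, .ofNat 63286272000)])]), (7, [(0, [(1, .ofNat 117379584000)]), (1, [(2, .negSucc 185678438399)]), (2, [(1, .ofNat 103754649600)])]), (8, [(2, [(2, .ofNat 4773888000)])])]), (1, [(0, [(0, [(0, .negSucc 497790719999)])]), (1, [(0, [(1, .negSucc 309396326399)])]), (2, [(0, [(0, .ofNat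 61934745600), (2, .negSucc 123859814399)])]), (3, [(0, [(1, .ofNat 123867878400)])]), (5, [(0, [(1, .negSucc 61931519999)]), (1, [(2, .negSucc 61929907199)])])]), (2, [(0, [(0, [(0, .ofNat 147787315200)])]), (1, [(0, [(1, .ofNat 9454233600)])]), (2, [(0, [(0, .ofNat 123863040000), (2, .ofNat 47848550400)])]), (3, [(0, [(1, .ofNat 4727116800)])])])]), (3, [(0, [(0, [(0, [(0, .ofNat 254838528000)])]), (1, [(0, [(1, .negSucc 24598425599)])]), (2, [(0, [(0, .ofNat 368018380800), (2, .ofNat 495442483200)])]), (3, [(0, [(1, .negSucc 131475455999)]), (1, [(0, .negSucc 121495449599)])]), (4, [(0, [(0, .ofNat 120301977600), (2, .negSucc 123863039999)]), (1, [(1, .negSucc 123840460799)])])]), (1, [(0, [(0, [(0, .ofNat 24604876800)])]), (1, [(0, [(1, .negSucc 148648550399)])]), (2, [(0, [(0, .negSucc 84730060799), (2, .ofNat 243274752000)])]), (3, [(0, [(1, .negSucc 148648550399)])])])])]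
  L2 := [(0, [(0, [(1, [(0, [(0, .ofNat 13160448000)])]), (2, [(0, [(1, .ofNat 46184947200)])]), (3, [(0, [(0, .negSucc 39793420799), (2, .ofNat 57759609600)])]), (4, [(0, [(1, .negSucc 39550291199)]), (1, [(0, .ofNat 44568921600)])]), (5, [(0, [(0, .ofNat 16024780800), (2, .negSucc 82515283199)]), (1, [(1, .negSucc 21247833599)])]), (6, [(0, [(1, .negSucc 3419539199)]), (1, [(0, .negSucc 40478054399), (2, .ofNat 56938291200)])]), (7, [(0, [(2, .ofNat 27290995200)]), (1, [(1, .ofNat 52956288000)])]), (8, [(1, [(0, .ofNat 679795200), (2, .negSucc 87962111999)])]), (9, [(1, [(1, .negSucc 40865126399)])]), (10, [(1, [(2, .ofNat 25070169600)])])]), (1, [(1, [(0, [(0, .negSucc 52917580799)])]), (2, [(0, [(1, .negSucc 77133772799)])]), (3, [(0, [(0, .ofNat 64162022400), (2, .negSucc 67822271999)])]), (4, [(0, [(1, .ofNat 62021030400)]), (1, [(0, .negSucc 67592447999)])]), (5, [(0, [(0, .negSucc 8856691199), (2, .ofNat 108509587200)]), (1, [(1, .ofNat 28473984000)])]),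 (6, [(0, [(1, .negSucc 7786195199)]), (1, [(0, .ofNat 35397734400), (2, .negSucc 69455231999)])]), (7, [(0, [(2, .negSucc 31031078399)]), (1, [(1, .ofNat 31800384000)])]), (8, [(1, [(2, .ofNat 55210982400)])])]), (2, [(1, [(0, [(0, .ofNat 81887500800)])]), (2, [(0, [(1, .ofNat 55914969600)])]), (3, [(0, [(0, .negSucc 35438860799), (2, .negSucc 33224083199)])]), (4, [(0, [(1, .negSucc 9467539199)]), (1, [(0, .ofNat 31067366400)])]), (5, [(0, [(2, .negSucc 13184639999)]), (1, [(1, .negSucc 55769817599)])]), (6, [(1, [(2, .ofNat 20650291200)])])]), (3, [(1, [(0, [(0, .negSucc 39056774399)])]), (2, [(0, [(1, .negSucc 18549215999)])]), (3, [(0, [(2, .ofNat 28484870400)])])])]), (1, [(0, [(1, [(0, [(0, .ofNat 130252147200)])]), (2, [(0, [(1, .ofNat 1857945600)])]), (3, [(0, [(0, .ofNat 2387750400), (2, .ofNat 67904524800)])]), (4, [(0, [(1, .ofNat 82008460800)]), (1, [(0, .ofNat 165149107200)])]), (5, [(0, [(0, .negSucc 47641305599), (2, .negSucc 120149567999)]), (1,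 [(1, .negSucc 137091225599)])]), (6, [(0, [(1, .negSucc 699148799)]), (1, [(0, .negSucc 28614297599), (2, .ofNat 19939046400)])]), (7, [(0, [(2, .ofNat 13641868800)]), (1, [(1, .ofNat 185649408000)])]), (8, [(1, [(2, .ofNat 36742809600)])])]), (1, [(1, [(0, [(0, .negSucc 109166399999)])]), (2, [(0, [(1, .negSucc 185765529599)])]), (3, [(0, [(0, .ofNat 16269120000), (2, .ofNat 88651584000)])]), (4, [(0, [(1, .ofNat 92894860800)]), (1, [(0, .negSucc 80390015999)])]), (5, [(0, [(2, .ofNat 4238438400)]), (1, [(1, .negSucc 17026329599)])]), (6, [(1, [(2, .negSucc 83414015999)])])]), (2, [(1, [(0, [(0, .negSucc 13905561599)])]), (2, [(0, [(1, .negSucc 8534937599)])]), (3, [(0, [(2, .negSucc 7569676799)])])])]), (2, [(0, [(1, [(0, [(0, .ofNat 167655398400)])]), (2, [(0, [(1, .ofNat 190787788800)])]), (3, [(0, [(0, .negSucc 108796262399), (2, .negSucc 364433126399)])]), (4, [(0, [(1, .negSucc 15976396799)]), (1, [(0, .negSucc 193439231999)])]), (5, [(0, [(2, .ofNat 185678438400)]),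 (1, [(1, .negSucc 207509299199)])]), (6, [(1, [(2, .negSucc 7160831999)])])]), (1, [(1, [(0, [(0, .negSucc 185789721599)])]), (2, [(0, [(1, .negSucc 141479654399)])]), (3, [(0, [(2, .ofNat 185789721600)])])])]), (3, [(0, [(1, [(0, [(0, .negSucc 238029926399)])]), (2, [(0, [(1, .negSucc 371521382399)])]), (3, [(0, [(2, .ofNat 111573504000)])])])])]
  Lw := [(0, [(0, [(0, [(0, [(0, .negSucc 30643199)])]), (1, [(0, [(1, .ofNat 333849600)]), (1, [(0, .negSucc 6889478399)])]), (2, [(0, [(0, .ofNat 4353350400)]), (1, [(1, .negSucc 1715212799)])]), (3, [(0, [(1, .negSucc 23106585599)]), (1, [(0, .ofNat 12886675200)])]), (4, [(0, [(0, .negSucc 7238246399)]), (1, [(1, .ofNat 16010265600)]), (2, [(0, .negSucc 6627801599)])]), (5, [(0, [(1, .ofNat 24704064000)]), (1, [(0, .negSucc 3982003199)]), (2, [(1, .ofNat 5926233600)])]), (6, [(1, [(1, .negSucc 6295564799)]), (2, [(0, .ofNat 6516115200)])]), (7, [(2, [(1, .negSucc 9875980799)])])]), (1, [(0, [(0, [(0, .ofNat 4965004800)])]),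 (1, [(0, [(1, .ofNat 11499264000)]), (1, [(0, .ofNat 6047193600)])]), (2, [(0, [(0, .negSucc 4550515199)]), (1, [(1, .ofNat 1422489600)])]), (3, [(0, [(1, .negSucc 912844799)]), (1, [(0, .negSucc 2961907199)])]), (4, [(0, [(0, .ofNat 8791776000)]), (1, [(1, .negSucc 9339724799)]), (2, [(0, .negSucc 1553932799)])]), (5, [(0, [(1, .negSucc 24150067199)]), (2, [(1, .ofNat 5060966400)])])]), (2, [(0, [(0, [(0, .negSucc 9473183999)])]), (1, [(0, [(1, .negSucc 5752857599)]), (1, [(0, .negSucc 1012838399)])]), (2, [(0, [(0, .negSucc 3062303999)]), (1, [(1, .negSucc 1543449599)])]), (3, [(0, [(1, .ofNat 19985011200)])])]), (3, [(0, [(0, [(0, .ofNat 4864608000)])])])]), (1, [(0, [(0, [(0, [(0, .negSucc 13289471999)])]), (1, [(0, [(1, .negSucc 19860019199)]), (1, [(0, .negSucc 23392051199)])]), (2, [(0, [(0, .ofNat 81852825600)]), (1, [(1, .negSucc 24188774399)])]), (3, [(0, [(1, .ofNat 18202060800)]), (1, [(0, .negSucc 16615065599)])]), (4, [(0, [(0, .negSucc 10028390399)]),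 (1, [(1, .ofNat 11847628800)]), (2, [(0, .negSucc 7622092799)])]), (5, [(0, [(1, .negSucc 35167103999)]), (2, [(1, .ofNat 6215731200)])])]), (1, [(0, [(0, [(0, .ofNat 17250508800)])]), (1, [(0, [(1, .ofNat 75785472000)]), (1, [(0, .ofNat 21626035200)])]), (2, [(0, [(0, .negSucc 61928294399)]), (1, [(1, .ofNat 8102707200)])]), (3, [(0, [(1, .ofNat 24498432000)])])]), (2, [(0, [(0, [(0, .negSucc 195148799)])]), (1, [(0, [(1, .negSucc 58375295999)])])])]), (2, [(0, [(0, [(0, [(0, .negSucc 4838399)])]), (1, [(0, [(1, .negSucc 34501017599)]), (1, [(0, .ofNat 105298099200)])]), (2, [(0, [(0, .negSucc 185789721599)]), (1, [(1, .negSucc 43252070399)])]), (3, [(0, [(1, .ofNat 123856588800)])])]), (1, [(0, [(0, [(0, .ofNat 10726732800)])]), (1, [(0, [(1, .ofNat 780595200)])])])]), (3, [(0, [(1, [(0, [(1, .negSucc 14302310399)])])])])]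
  A11 := [(0, [(0, [(2, [(0, [(0, .negSucc 14462380799)])]), (4, [(0, [(0, .ofNat 30183148800)])]), (5, [(1, [(0, .negSucc 22561459199)])]), (6, [(0, [(0, .negSucc 17502911999)])]), (7, [(1, [(0, .ofNat 36399283200)])]), (8, [(2, [(0, .negSucc 62745177599)])]), (9, [(1, [(0, .negSucc 15182899199)])]), (10, [(2, [(0, .ofNat 78449414400)])]), (12, [(2, [(0, .negSucc 13886611199)])])]), (1, [(2, [(0, [(0, .ofNat 25082265600)])]), (4, [(0, [(0, .negSucc 59160729599)])]), (5, [(1, [(0, .ofNat 79452172800)])]), (6, [(0, [(0, .ofNat 36235584000)])]), (7, [(1, [(0, .negSucc 86737190399)])]), (8, [(2, [(0, .ofNat 25105248000)])]), (9, [(1, [(0, .ofNat 25443532800)])]), (10, [(2, [(0, .negSucc 39321676799)])])]), (2, [(2, [(0, [(0, .negSucc 17040038399)])]), (4, [(0, [(0, .ofNat 32566867200)])]), (5, [(1, [(0, .negSucc 46513958399)])]), (6, [(0, [(0, .negSucc 18166175999)])]), (7, [(1, [(0, .ofNat 21368793600)])]), (8, [(2, [(0, .ofNat 9192556800)])])]), (3, [(2, [(0, [(0,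 .ofNat 5577062400)])]), (4, [(0, [(0, .negSucc 4360607999)])]), (5, [(1, [(0, .ofNat 11771827200)])])])]), (1, [(0, [(2, [(0, [(0, .negSucc 31791513599)])]), (4, [(0, [(0, .ofNat 63950745600)])]), (5, [(1, [(0, .negSucc 81098841599)])]), (6, [(0, [(0, .negSucc 32159231999)])]), (7, [(1, [(0, .negSucc 24498431999)])]), (8, [(2, [(0, .ofNat 78267571200)])]), (9, [(1, [(0, .ofNat 63447552000)])]), (10, [(2, [(0, .negSucc 103567564799)])])]), (1, [(2, [(0, [(0, .negSucc 36658943999)])]), (4, [(0, [(0, .ofNat 34194585600)])]), (5, [(1, [(0, .ofNat 98604172800)])]), (6, [(0, [(0, .ofNat 2464358400)])]), (7, [(1, [(0, .negSucc 37763711999)])]), (8, [(2, [(0, .ofNat 31033497600)])])]), (2, [(2, [(0, [(0, .ofNat 48361420800)])]), (4, [(0, [(0, .negSucc 48361420799)])]), (5, [(1, [(0, .negSucc 31031078399)])])])]), (2, [(0, [(2, [(0, [(0, .negSucc 41713459199)])]), (4, [(0, [(0, .ofNat 65326464000)])]), (5, [(1, [(0, .ofNat 91777996800)])]), (6, [(0, [(0, .negSucc 1698278399)])]),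 (7, [(1, [(0, .negSucc 31423795199)])]), (8, [(2, [(0, .ofNat 105323904000)])])]), (1, [(2, [(0, [(0, .ofNat 25295155200)])]), (4, [(0, [(0, .negSucc 60509030399)])]), (5, [(1, [(0, .negSucc 53544959999)])])]), (2, [(2, [(0, [(0, .ofNat 15419980800)])])])]), (3, [(0, [(2, [(0, [(0, .ofNat 247726080000)])]), (5, [(1, [(0, .negSucc 26507980799)])])]), (1, [(2, [(0, [(0, .negSucc 168292454399)])])])])]
  A12 := [(0, [(0, [(3, [(0, [(0, .ofNat 9719136000)])]), (5, [(0, [(0, .negSucc 14403916799)])]), (6, [(1, [(0, .ofNat 39800678400)])]), (7, [(0, [(0, .ofNat 5693587200)])]), (8, [(1, [(0, .negSucc 48933158399)])]), (10, [(1, [(0, .ofNat 7574515200)])])]), (1, [(3, [(0, [(0, .negSucc 41085273599)])]), (5, [(0, [(0, .ofNat 37007712000)])]), (6, [(1, [(0, .negSucc 14028940799)])]), (7, [(0, [(0, .negSucc 9541324799)])]), (8, [(1, [(0, .ofNat 26214451200)])])]), (2, [(3, [(0, [(0, .ofNat 29543270400)])]), (5, [(0, [(0, .negSucc 10684396799)])]), (6, [(1, [(0, .negSucc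 7879334399)])])]), (3, [(3, [(0, [(0, .negSucc 8828870399)])])])]), (1, [(0, [(3, [(0, [(0, .ofNat 76395916800)])]), (5, [(0, [(0, .negSucc 7054387199)])]), (6, [(1, [(0, .negSucc 52375679999)])]), (7, [(0, [(0, .negSucc 27191807999)])]), (8, [(1, [(0, .ofNat 77675673600)])])]), (1, [(3, [(0, [(0, .negSucc 83498687999)])]), (5, [(0, [(0, .ofNat 22658227200)])]), (6, [(1, [(0, .negSucc 31033497599)])])]), (2, [(3, [(0, [(0, .ofNat 31031078400)])])])]), (2, [(0, [(3, [(0, [(0, .negSucc 114099148799)])]), (5, [(0, [(0, .ofNat 23567846400)])]), (6, [(1, [(0, .negSucc 126388684799)])])]), (1, [(3, [(0, [(0, .ofNat 80317440000)])])])]), (3, [(0, [(3, [(0, [(0, .ofNat 79523942400)])])])])]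
  W1 := [(0, [(0, [(0, [(0, [(0, .ofNat 7019712000)])]), (2, [(0, [(0, .negSucc 36364204799)])]), (3, [(1, [(0, .ofNat 6359270400)])]), (4, [(0, [(0, .ofNat 64400313600)])]), (5, [(1, [(0, .negSucc 13033036799)])]), (6, [(0, [(0, .negSucc 33132959999)]), (2, [(0, .negSucc 17853695999)])]), (7, [(1, [(0, .ofNat 5486745600)])]), (8, [(2, [(0, .ofNat 1852704000)])]), (10, [(2, [(0, .ofNat 21518784000)])])]), (1, [(0, [(0, [(0, .negSucc 333849599)])]), (2, [(0, [(0, .ofNat 46380096000)])]), (3, [(1, [(0, .negSucc 17725478399)])]), (4, [(0, [(0, .negSucc 108772070399)])]), (5, [(1, [(0, .ofNat 44611660800)])]), (6, [(0, [(0, .ofNat 61760160000)]), (2, [(0, .ofNat 24691564800)])]), (7, [(1, [(0, .negSucc 18886694399)])]), (8, [(2, [(0, .negSucc 34565932799)])])]), (2, [(0, [(0, [(0, .negSucc 5749631999)])]), (2, [(0, [(0, .ofNat 3787660800)])]), (3, [(1, [(0, .ofNat 5381107200)])]), (4, [(0, [(0, .ofNat 35540467200)])]), (5, [(1, [(0, .negSucc 9339724799)])]), (6, [(0,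 [(0, .negSucc 30187583999)]), (2, [(0, .ofNat 6326208000)])])]), (3, [(0, [(0, [(0, .ofNat 1917619200)])]), (2, [(0, [(0, .negSucc 14282150399)])]), (3, [(1, [(0, .negSucc 514483199)])]), (4, [(0, [(0, .ofNat 9992505600)])])])]), (1, [(0, [(0, [(0, [(0, .negSucc 122572799)])]), (2, [(0, [(0, .ofNat 34826803200)])]), (3, [(1, [(0, .ofNat 65325657600)])]), (4, [(0, [(0, .negSucc 104272358399)])]), (5, [(1, [(0, .negSucc 109176076799)])]), (6, [(0, [(0, .ofNat 57905971200)]), (2, [(0, .ofNat 79086873600)])]), (7, [(1, [(0, .ofNat 39820032000)])]), (8, [(2, [(0, .negSucc 78193382399)])])]), (1, [(0, [(0, [(0, .ofNat 19860019200)])]), (2, [(0, [(0, .negSucc 36404121599)])]), (3, [(1, [(0, .negSucc 23942015999)])]), (4, [(0, [(0, .ofNat 123703372800)])]), (5, [(1, [(0, .ofNat 17771443200)])]), (6, [(0, [(0, .negSucc 70334207999)]), (2, [(0, .ofNat 12431462400)])])]), (2, [(0, [(0, [(0, .negSucc 37892735999)])]), (2, [(0, [(0, .negSucc 24498431999)])]), (3, [(1, [(0, .ofNat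 2025676800)])]), (4, [(0, [(0, .ofNat 12249216000)])])]), (3, [(0, [(0, [(0, .ofNat 19458432000)])])])]), (2, [(0, [(0, [(0, [(0, .negSucc 26578943999)])]), (2, [(0, [(0, .ofNat 314121830400)])]), (3, [(1, [(0, .negSucc 33230131199)])]), (4, [(0, [(0, .negSucc 142023167999)])]), (5, [(1, [(0, .ofNat 33230131200)])]), (6, [(0, [(0, .ofNat 30085171200)]), (2, [(0, .ofNat 22866278400)])])]), (1, [(0, [(0, [(0, .ofNat 34501017600)])]), (2, [(0, [(0, .negSucc 230462668799)])]), (4, [(0, [(0, .ofNat 61928294400)])])]), (2, [(0, [(0, [(0, .negSucc 390297599)])]), (2, [(0, [(0, .negSucc 195148799)])])])]), (3, [(0, [(0, [(0, [(0, .negSucc 6451199)])]), (2, [(0, [(0, .negSucc 495445708799)])]), (3, [(1, [(0, .ofNat 70198732800)])])]), (1, [(0, [(0, [(0, .ofNat 14302310400)])]), (2, [(0, [(0, .ofNat 14302310400)])])])])]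
  W2 := [(0, [(0, [(1, [(0, [(0, .negSucc 2507500799)])]), (3, [(0, [(0, .ofNat 7031404800)])]), (4, [(1, [(0, .ofNat 17510169600)])]), (5, [(0, [(0, .negSucc 2743372799)])]), (6, [(1, [(0, .negSucc 9785663999)])]), (8, [(1, [(0, .negSucc 14345855999)])])]), (1, [(1, [(0, [(0, .ofNat 2572819200)])]), (3, [(0, [(0, .negSucc 24015398399)])]), (4, [(1, [(0, .negSucc 17778700799)])]), (5, [(0, [(0, .ofNat 9443347200)])]), (6, [(1, [(0, .ofNat 29627942400)])])]), (2, [(1, [(0, [(0, .negSucc 1066867199)])]), (3, [(0, [(0, .ofNat 7004793600)])]), (4, [(1, [(0, .negSucc 7591449599)])])]), (3, [(1, [(0, [(0, .ofNat 771724800)])])])]), (1, [(0, [(1, [(0, [(0, .negSucc 41336870399)])]), (3, [(0, [(0, .ofNat 77320051200)])]), (4, [(1, [(0, .negSucc 79533619199)])]), (5, [(0, [(0, .negSucc 23892019199)])]), (6, [(1, [(0, .ofNat 78193382400)])])]), (1, [(1, [(0, [(0, .ofNat 36283161600)])]), (3, [(0, [(0, .negSucc 17771443199)])]), (4, [(1, [(0, .negSucc 18647193599)])])]), (2,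 [(1, [(0, [(0, .negSucc 6077030399)])])])]), (2, [(0, [(1, [(0, [(0, .negSucc 70176153599)])]), (3, [(0, [(0, .negSucc 49845196799)])]), (4, [(1, [(0, .negSucc 45732556799)])])]), (1, [(1, [(0, [(0, .ofNat 64878105600)])])])]), (3, [(0, [(1, [(0, [(0, .ofNat 210596198400)])])])])]
  psi := [(0, [(0, [(0, [(0, [(0, .ofNat 3509856000)])]), (1, [(1, [(0, .negSucc 835833599)])]), (2, [(0, [(0, .negSucc 8213587199)])]), (3, [(1, [(0, .ofNat 2343801600)])]), (4, [(0, [(0, .ofNat 6626592000)]), (2, [(0, .ofNat 2918361600)])]), (5, [(1, [(0, .negSucc 914457599)])]), (6, [(2, [(0, .negSucc 1630943999)])]), (8, [(2, [(0, .negSucc 2390975999)])])]), (1, [(0, [(0, [(0, .negSucc 166924799)])]), (1, [(1, [(0, .ofNat 857606400)])]), (2, [(0, [(0, .ofNat 11553292800)])]), (3, [(1, [(0, .negSucc 8005132799)])]), (4, [(0, [(0, .negSucc 12352031999)]), (2, [(0, .negSucc 2963116799)])]), (5, [(1, [(0, .ofNat 3147782400)])]), (6, [(2, [(0, .ofNat 4937990400)])])]), (2, [(0, [(0, [(0,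 .negSucc 2874815999)])]), (1, [(1, [(0, .negSucc 355622399)])]), (2, [(0, [(0, .ofNat 228211200)])]), (3, [(1, [(0, .ofNat 2334931200)])]), (4, [(0, [(0, .ofNat 6037516800)]), (2, [(0, .negSucc 1265241599)])])]), (3, [(0, [(0, [(0, .ofNat 958809600)])]), (1, [(1, [(0, .ofNat 257241600)])]), (2, [(0, [(0, .negSucc 3330835199)])])])]), (1, [(0, [(0, [(0, [(0, .negSucc 61286399)])]), (1, [(1, [(0, .negSucc 13778956799)])]), (2, [(0, [(0, .ofNat 8706700800)])]), (3, [(1, [(0, .ofNat 25773350400)])]), (4, [(0, [(0, .negSucc 14476492799)]), (2, [(0, .negSucc 13255603199)])]), (5, [(1, [(0, .negSucc 7964006399)])]), (6, [(2, [(0, .ofNat 13032230400)])])]), (1, [(0, [(0, [(0, .ofNat 9930009600)])]), (1, [(1, [(0, .ofNat 12094387200)])]), (2, [(0, [(0, .negSucc 9101030399)])]), (3, [(1, [(0, .negSucc 5923814399)])]), (4, [(0, [(0, .ofNat 17583552000)]), (2, [(0, .negSucc 3107865599)])])]), (2, [(0, [(0, [(0, .negSucc 18946367999)])]), (1, [(1, [(0, .negSucc 2025676799)])]),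 (2, [(0, [(0, .negSucc 6124607999)])])]), (3, [(0, [(0, [(0, .ofNat 9729216000)])])])]), (2, [(0, [(0, [(0, [(0, .negSucc 13289471999)])]), (1, [(1, [(0, .negSucc 23392051199)])]), (2, [(0, [(0, .ofNat 81852825600)])]), (3, [(1, [(0, .negSucc 16615065599)])]), (4, [(0, [(0, .negSucc 10028390399)]), (2, [(0, .negSucc 7622092799)])])]), (1, [(0, [(0, [(0, .ofNat 17250508800)])]), (1, [(1, [(0, .ofNat 21626035200)])]), (2, [(0, [(0, .negSucc 61928294399)])])]), (2, [(0, [(0, [(0, .negSucc 195148799)])])])]), (3, [(0, [(0, [(0, [(0, .negSucc 3225599)])]), (1, [(1, [(0, .ofNat 70198732800)])]), (2, [(0, [(0, .negSucc 123859814399)])])]), (1, [(0, [(0, [(0, .ofNat 7151155200)])])])])]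
  G1 := [(0, [(1, [(0, [(0, [(0, .ofNat 1)])])])]), (2, [(0, [(0, [(0, [(0, .negSucc 3)])]), (2, [(0, [(0, .ofNat 4)])])])])]
  G2 := [(0, [(0, [(0, [(0, [(0, .ofNat 5)])])]), (2, [(0, [(0, [(0, .negSucc 4)])])])]), (2, [(0, [(2, [(0, [(0, .negSucc 55)])])])])]
  G3 := [(0, [(0, [(0, [(0, [(0, .ofNat 64), (2, .negSucc 347), (4, .ofNat 840), (6, .negSucc 799)]), (1, [(1, .ofNat 288), (3, .negSucc 719)]), (2, [(0, .negSucc 191)])])])])]
  G4 := [(0, [(0, [(0, [(0, [(0, .ofNat 4), (2, .negSucc 4)])])])])]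

/-- chart data, signs `(-1, -1)` -/
def mm : CD where
  g := [(0, [(0, [(0, [(0, [(0, .ofNat 3675168000)])]), (2, [(0, [(0, .negSucc 5393606399)])]), (3, [(1, [(0, .negSucc 3239711999)])]), (4, [(0, [(0, .ofNat 3500582400)])]), (5, [(1, [(0, .ofNat 4801305600)])]), (6, [(2, [(0, .ofNat 6633446400)])]), (7, [(1, [(0, .negSucc 1897862399)])]), (8, [(2, [(0, .negSucc 8155526399)])]), (10, [(2, [(0, .ofNat 1262419200)])])]), (1, [(0, [(0, [(0, .negSucc 4967423999)])]), (2, [(0, [(0, .ofNat 10057420800)])]), (3, [(1, [(0, .ofNat 13695091200)])]), (4, [(0, [(0, .negSucc 7247116799)])]), (5, [(1, [(0, .negSucc 12335903999)])]), (6, [(2, [(0, .negSucc 2338156799)])]), (7, [(1, [(0, .ofNat 3180441600)])]), (8, [(2, [(0, .ofNat 4369075200)])])]), (2, [(0, [(0, [(0, .ofNat 5017420800)])]), (2, [(0, [(0, .negSucc 6011308799)])]), (3, [(1, [(0, .negSucc 9847756799)])]), (4, [(0, [(0, .ofNat 3633235200)])]), (5, [(1, [(0, .ofNat 3561465600)])]), (6, [(2, [(0, .negSucc 1313222399)])])]),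 (3, [(0, [(0, [(0, .negSucc 2669990399)])]), (2, [(0, [(0, .ofNat 1453536000)])]), (3, [(1, [(0, .ofNat 2942956800)])])])]), (1, [(0, [(0, [(0, [(0, .ofNat 7810790400)])]), (2, [(0, [(0, .negSucc 15895756799)])]), (3, [(1, [(0, .negSucc 25465305599)])]), (4, [(0, [(0, .ofNat 8039808000)])]), (5, [(1, [(0, .ofNat 2351462400)])]), (6, [(2, [(0, .negSucc 8729279999)])]), (7, [(1, [(0, .ofNat 9063936000)])]), (8, [(2, [(0, .ofNat 12945945600)])])]), (1, [(0, [(0, [(0, .ofNat 11911334400)])]), (2, [(0, [(0, .negSucc 18329471999)])]), (3, [(1, [(0, .ofNat 27832896000)])]), (4, [(0, [(0, .negSucc 616089599)])]), (5, [(1, [(0, .negSucc 7552742399)])]), (6, [(2, [(0, .negSucc 5172249599)])])]), (2, [(0, [(0, [(0, .negSucc 8326886399)])]), (2, [(0, [(0, .ofNat 24180710400)])]), (3, [(1, [(0, .negSucc 10343692799)])])]), (3, [(0, [(0, [(0, .negSucc 9969523199)])])])]), (2, [(0, [(0, [(0, [(0, .ofNat 84410726400)])]), (2, [(0, [(0, .negSucc 63062092799)])]), (3, [(1, [(0, .ofNat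 38033049600)])]), (4, [(0, [(0, .ofNat 566092800)])]), (5, [(1, [(0, .negSucc 7855948799)])]), (6, [(2, [(0, .negSucc 21064780799)])])]), (1, [(0, [(0, [(0, .negSucc 95722905599)])]), (2, [(0, [(0, .ofNat 60509030400)])]), (3, [(1, [(0, .negSucc 26772479999)])])]), (2, [(0, [(0, [(0, .ofNat 15419980800)])])])]), (3, [(0, [(0, [(0, [(0, .ofNat 125911296000)])]), (2, [(0, [(0, .negSucc 2048255999)])]), (3, [(1, [(0, .negSucc 26507980799)])])]), (1, [(0, [(0, [(0, .negSucc 84146227199)])])])])]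
  k11 := [(0, [(0, [(0, [(0, [(0, .ofNat 1225056000), (2, .ofNat 1750080000)])]), (2, [(0, [(0, .negSucc 1797868799), (2, .negSucc 2568383999)])]), (3, [(1, [(0, .negSucc 1079903999), (2, .negSucc 1542719999)])]), (4, [(0, [(0, .ofNat 1166860800), (2, .ofNat 1666944000)])]), (5, [(1, [(0, .ofNat 1600435200), (2, .ofNat 2286336000)])]), (6, [(2, [(0, .ofNat 2211148800), (2, .ofNat 3158784000)])]), (7, [(1, [(0, .negSucc 632620799), (2, .negSucc 903743999)])]), (8, [(2, [(0, .negSucc 2718508799), (2, .negSucc 3883583999)])]), (10, [(2, [(0, .ofNat 420806400), (2, .ofNat 601152000)])])]), (1, [(0, [(0, [(0, .negSucc 1655807999), (2, .negSucc 2365439999)])]), (2, [(0, [(0, .ofNat 3352473600), (2, .ofNat 4789248000)])]), (3, [(1, [(0, .ofNat 4565030400), (2, .ofNat 6521472000)])]), (4, [(0, [(0, .negSucc 2415705599), (2, .negSucc 3451007999)])]), (5, [(1, [(0, .negSucc 4111967999), (2, .negSucc 5874239999)])]), (6, [(2, [(0, .negSucc 779385599), (2, .negSucc 1113407999)])]),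 (7, [(1, [(0, .ofNat 1060147200), (2, .ofNat 1514496000)])]), (8, [(2, [(0, .ofNat 1456358400), (2, .ofNat 2080512000)])])]), (2, [(0, [(0, [(0, .ofNat 1672473600), (2, .ofNat 2389248000)])]), (2, [(0, [(0, .negSucc 2003769599), (2, .negSucc 2862527999)])]), (3, [(1, [(0, .negSucc 3282585599), (2, .negSucc 4689407999)])]), (4, [(0, [(0, .ofNat 1211078400), (2, .ofNat 1730112000)])]), (5, [(1, [(0, .ofNat 1187155200), (2, .ofNat 1695936000)])]), (6, [(2, [(0, .negSucc 437740799), (2, .negSucc 625343999)])])]), (3, [(0, [(0, [(0, .negSucc 889996799), (2, .negSucc 1271423999)])]), (2, [(0, [(0, .ofNat 484512000), (2, .ofNat 692160000)])]), (3, [(1, [(0, .ofNat 980985600), (2, .ofNat 1401408000)])])])]), (1, [(0, [(0, [(0, [(0, .ofNat 2603596800), (2, .ofNat 3719424000)])]), (2, [(0, [(0, .negSucc 5298585599), (2, .negSucc 7569407999)])]), (3, [(1, [(0, .negSucc 8488435199), (2, .negSucc 12126335999)])]), (4, [(0, [(0, .ofNat 2679936000), (2, .ofNat 3828480000)])]),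 (5, [(1, [(0, .ofNat 783820800), (2, .ofNat 1119744000)])]), (6, [(2, [(0, .negSucc 2909759999), (2, .negSucc 4156799999)])]), (7, [(1, [(0, .ofNat 3021312000), (2, .ofNat 4316160000)])]), (8, [(2, [(0, .ofNat 4315315200), (2, .ofNat 6164736000)])])]), (1, [(0, [(0, [(0, .ofNat 3970444800), (2, .ofNat 5672064000)])]), (2, [(0, [(0, .negSucc 6109823999), (2, .negSucc 8728319999)])]), (3, [(1, [(0, .ofNat 9277632000), (2, .ofNat 13253760000)])]), (4, [(0, [(0, .negSucc 205363199), (2, .negSucc 293375999)])]), (5, [(1, [(0, .negSucc 2517580799), (2, .negSucc 3596543999)])]), (6, [(2, [(0, .negSucc 1724083199), (2, .negSucc 2462975999)])])]), (2, [(0, [(0, [(0, .negSucc 2775628799), (2, .negSucc 3965183999)])]), (2, [(0, [(0, .ofNat 8060236800), (2, .ofNat 11514624000)])]), (3, [(1, [(0, .negSucc 3447897599), (2, .negSucc 4925567999)])])]), (3, [(0, [(0, [(0, .negSucc 3323174399), (2, .negSucc 4747391999)])])])]), (2, [(0, [(0, [(0, [(0, .ofNat 28136908800), (2, .ofNat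 40195584000)])]), (2, [(0, [(0, .negSucc 21020697599), (2, .negSucc 30029567999)])]), (3, [(1, [(0, .ofNat 12677683200), (2, .ofNat 18110976000)])]), (4, [(0, [(0, .ofNat 188697600), (2, .ofNat 269568000)])]), (5, [(1, [(0, .negSucc 2618649599), (2, .negSucc 3740927999)])]), (6, [(2, [(0, .negSucc 7021593599), (2, .negSucc 10030847999)])])]), (1, [(0, [(0, [(0, .negSucc 31907635199), (2, .negSucc 45582335999)])]), (2, [(0, [(0, .ofNat 20169676800), (2, .ofNat 28813824000)])]), (3, [(1, [(0, .negSucc 8924159999), (2, .negSucc 12748799999)])])]), (2, [(0, [(0, [(0, .ofNat 5139993600), (2, .ofNat 7342848000)])])])]), (3, [(0, [(0, [(0, [(0, .ofNat 41970432000), (2, .ofNat 59957760000)])]), (2, [(0, [(0, .negSucc 682751999), (2, .negSucc 975359999)])]), (3, [(1, [(0, .negSucc 8835993599), (2, .negSucc 12622847999)])])]), (1, [(0, [(0, [(0, .negSucc 28048742399), (2, .negSucc 40069631999)])])])])]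
  k12 := [(0, [(0, [(0, [(0, [(1, .ofNat 350016000), (3, .negSucc 1750079999)]), (1, [(0, .negSucc 1225055999)])]), (2, [(0, [(1, .negSucc 513676799), (3, .ofNat 2568384000)]), (1, [(0, .ofNat 1797868800)])]), (3, [(1, [(1, .negSucc 308543999), (3, .ofNat 1542720000)]), (2, [(0, .ofNat 1079904000)])]), (4, [(0, [(1, .ofNat 333388800), (3, .negSucc 1666943999)]), (1, [(0, .negSucc 1166860799)])]), (5, [(1, [(1, .ofNat 457267200), (3, .negSucc 2286335999)]), (2, [(0, .negSucc 1600435199)])]), (6, [(2, [(1, .ofNat 631756800), (3, .negSucc 3158783999)]), (3, [(0, .negSucc 2211148799)])]), (7, [(1, [(1, .negSucc 180748799), (3, .ofNat 903744000)]), (2, [(0, .ofNat 632620800)])]), (8, [(2, [(1, .negSucc 776716799), (3, .ofNat 3883584000)]), (3, [(0, .ofNat 2718508800)])]), (10, [(2, [(1, .ofNat 120230400), (3, .negSucc 601151999)]), (3, [(0, .negSucc 420806399)])])]), (1, [(0, [(0, [(1, .negSucc 473087999), (3, .ofNat 2365440000)]), (1, [(0, .ofNat 1655808000)])]), (2,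 [(0, [(1, .ofNat 957849600), (3, .negSucc 4789247999)]), (1, [(0, .negSucc 3352473599)])]), (3, [(1, [(1, .ofNat 1304294400), (3, .negSucc 6521471999)]), (2, [(0, .negSucc 4565030399)])]), (4, [(0, [(1, .negSucc 690201599), (3, .ofNat 3451008000)]), (1, [(0, .ofNat 2415705600)])]), (5, [(1, [(1, .negSucc 1174847999), (3, .ofNat 5874240000)]), (2, [(0, .ofNat 4111968000)])]), (6, [(2, [(1, .negSucc 222681599), (3, .ofNat 1113408000)]), (3, [(0, .ofNat 779385600)])]), (7, [(1, [(1, .ofNat 302899200), (3, .negSucc 1514495999)]), (2, [(0, .negSucc 1060147199)])]), (8, [(2, [(1, .ofNat 416102400), (3, .negSucc 2080511999)]), (3, [(0, .negSucc 1456358399)])])]), (2, [(0, [(0, [(1, .ofNat 477849600), (3, .negSucc 2389247999)]), (1, [(0, .negSucc 1672473599)])]), (2, [(0, [(1, .negSucc 572505599), (3, .ofNat 2862528000)]), (1, [(0, .ofNat 2003769600)])]), (3, [(1, [(1, .negSucc 937881599), (3, .ofNat 4689408000)]), (2, [(0, .ofNat 3282585600)])]), (4, [(0, [(1, .ofNat 346022400),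 (3, .negSucc 1730111999)]), (1, [(0, .negSucc 1211078399)])]), (5, [(1, [(1, .ofNat 339187200), (3, .negSucc 1695935999)]), (2, [(0, .negSucc 1187155199)])]), (6, [(2, [(1, .negSucc 125068799), (3, .ofNat 625344000)]), (3, [(0, .ofNat 437740800)])])]), (3, [(0, [(0, [(1, .negSucc 254284799), (3, .ofNat 1271424000)]), (1, [(0, .ofNat 889996800)])]), (2, [(0, [(1, .ofNat 138432000), (3, .negSucc 692159999)]), (1, [(0, .negSucc 484511999)])]), (3, [(1, [(1, .ofNat 280281600), (3, .negSucc 1401407999)]), (2, [(0, .negSucc 980985599)])])])]), (1, [(0, [(0, [(0, [(1, .ofNat 743884800), (3, .negSucc 3719423999)]), (1, [(0, .negSucc 2603596799)])]), (2, [(0, [(1, .negSucc 1513881599), (3, .ofNat 7569408000)]), (1, [(0, .ofNat 5298585600)])]), (3, [(1, [(1, .negSucc 2425267199), (3, .ofNat 12126336000)]), (2, [(0, .ofNat 8488435200)])]), (4, [(0, [(1, .ofNat 765696000), (3, .negSucc 3828479999)]), (1, [(0, .negSucc 2679935999)])]), (5, [(1, [(1, .ofNat 223948800), (3, .negSucc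 1119743999)]), (2, [(0, .negSucc 783820799)])]), (6, [(2, [(1, .negSucc 831359999), (3, .ofNat 4156800000)]), (3, [(0, .ofNat 2909760000)])]), (7, [(1, [(1, .ofNat 863232000), (3, .negSucc 4316159999)]), (2, [(0, .negSucc 3021311999)])]), (8, [(2, [(1, .ofNat 1232947200), (3, .negSucc 6164735999)]), (3, [(0, .negSucc 4315315199)])])]), (1, [(0, [(0, [(1, .ofNat 1134412800), (3, .negSucc 5672063999)]), (1, [(0, .negSucc 3970444799)])]), (2, [(0, [(1, .negSucc 1745663999), (3, .ofNat 8728320000)]), (1, [(0, .ofNat 6109824000)])]), (3, [(1, [(1, .ofNat 2650752000), (3, .negSucc 13253759999)]), (2, [(0, .negSucc 9277631999)])]), (4, [(0, [(1, .negSucc 58675199), (3, .ofNat 293376000)]), (1, [(0, .ofNat 205363200)])]), (5, [(1, [(1, .negSucc 719308799), (3, .ofNat 3596544000)]), (2, [(0, .ofNat 2517580800)])]), (6, [(2, [(1, .negSucc 492595199), (3, .ofNat 2462976000)]), (3, [(0, .ofNat 1724083200)])])]), (2, [(0, [(0, [(1, .negSucc 793036799), (3, .ofNat 3965184000)]),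 (1, [(0, .ofNat 2775628800)])]), (2, [(0, [(1, .ofNat 2302924800), (3, .negSucc 11514623999)]), (1, [(0, .negSucc 8060236799)])]), (3, [(1, [(1, .negSucc 985113599), (3, .ofNat 4925568000)]), (2, [(0, .ofNat 3447897600)])])]), (3, [(0, [(0, [(1, .negSucc 949478399), (3, .ofNat 4747392000)]), (1, [(0, .ofNat 3323174400)])])])]), (2, [(0, [(0, [(0, [(1, .ofNat 8039116800), (3, .negSucc 40195583999)]), (1, [(0, .negSucc 28136908799)])]), (2, [(0, [(1, .negSucc 6005913599), (3, .ofNat 30029568000)]), (1, [(0, .ofNat 21020697600)])]), (3, [(1, [(1, .ofNat 3622195200), (3, .negSucc 18110975999)]), (2, [(0, .negSucc 12677683199)])]), (4, [(0, [(1, .ofNat 53913600), (3, .negSucc 269567999)]), (1, [(0, .negSucc 188697599)])]), (5, [(1, [(1, .negSucc 748185599), (3, .ofNat 3740928000)]), (2, [(0, .ofNat 2618649600)])]), (6, [(2, [(1, .negSucc 2006169599), (3, .ofNat 10030848000)]), (3, [(0, .ofNat 7021593600)])])]), (1, [(0, [(0, [(1, .negSucc 9116467199), (3, .ofNat 45582336000)]),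 (1, [(0, .ofNat 31907635200)])]), (2, [(0, [(1, .ofNat 5762764800), (3, .negSucc 28813823999)]), (1, [(0, .negSucc 20169676799)])]), (3, [(1, [(1, .negSucc 2549759999), (3, .ofNat 12748800000)]), (2, [(0, .ofNat 8924160000)])])]), (2, [(0, [(0, [(1, .ofNat 1468569600), (3, .negSucc 7342847999)]), (1, [(0, .negSucc 5139993599)])])])]), (3, [(0, [(0, [(0, [(1, .ofNat 11991552000), (3, .negSucc 59957759999)]), (1, [(0, .negSucc 41970431999)])]), (2, [(0, [(1, .negSucc 195071999), (3, .ofNat 975360000)]), (1, [(0, .ofNat 682752000)])]), (3, [(1, [(1, .negSucc 2524569599), (3, .ofNat 12622848000)]), (2, [(0, .ofNat 8835993600)])])]), (1, [(0, [(0, [(1, .negSucc 8013926399), (3, .ofNat 40069632000)]), (1, [(0, .ofNat 28048742400)])])])])]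
  k22 := [(0, [(0, [(0, [(0, [(0, .ofNat 539608000), (2, .negSucc 2945967999), (4, .ofNat 5833600000)]), (1, [(1, .negSucc 1225055999)])]), (2, [(0, [(0, .negSucc 791918399), (2, .ofNat 4323446400), (4, .negSucc 8561279999)]), (1, [(1, .ofNat 1797868800)])]), (3, [(1, [(0, .negSucc 475671999), (2, .ofNat 2596912000), (4, .negSucc 5142399999)]), (2, [(1, .ofNat 1079904000)])]), (4, [(0, [(0, .ofNat 513974400), (2, .negSucc 2806022399), (4, .ofNat 5556480000)]), (1, [(1, .negSucc 1166860799)])]), (5, [(1, [(0, .ofNat 704953600), (2, .negSucc 3848665599), (4, .ofNat 7621120000)]), (2, [(1, .negSucc 1600435199)])]), (6, [(2, [(0, .ofNat 973958400), (2, .negSucc 5317286399), (4, .ofNat 10529280000)]), (3, [(1, .negSucc 2211148799)])]), (7, [(1, [(0, .negSucc 278654399), (2, .ofNat 1521302400), (4, .negSucc 3012479999)]), (2, [(1, .ofNat 632620800)])]), (8, [(2, [(0, .negSucc 1197438399), (2, .ofNat 6537366400), (4, .negSucc 12945279999)]), (3, [(1, .ofNat 2718508800)])]),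 (10, [(2, [(0, .ofNat 185355200), (2, .negSucc 1011939199), (4, .ofNat 2003840000)]), (3, [(1, .negSucc 420806399)])])]), (1, [(0, [(0, [(0, .negSucc 729343999), (2, .ofNat 3981824000), (4, .negSucc 7884799999)]), (1, [(1, .ofNat 1655808000)])]), (2, [(0, [(0, .ofNat 1476684800), (2, .negSucc 8061900799), (4, .ofNat 15964160000)]), (1, [(1, .negSucc 3352473599)])]), (3, [(1, [(0, .ofNat 2010787200), (2, .negSucc 10977811199), (4, .ofNat 21738240000)]), (2, [(1, .negSucc 4565030399)])]), (4, [(0, [(0, .negSucc 1064060799), (2, .ofNat 5809196800), (4, .negSucc 11503359999)]), (1, [(1, .ofNat 2415705600)])]), (5, [(1, [(0, .negSucc 1811223999), (2, .ofNat 9888304000), (4, .negSucc 19580799999)]), (2, [(1, .ofNat 4111968000)])]), (6, [(2, [(0, .negSucc 343300799), (2, .ofNat 1874236800), (4, .negSucc 3711359999)]), (3, [(1, .ofNat 779385600)])]), (7, [(1, [(0, .ofNat 466969600), (2, .negSucc 2549401599), (4, .ofNat 5048320000)]), (2, [(1, .negSucc 1060147199)])]), (8,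 [(2, [(0, .ofNat 641491200), (2, .negSucc 3502195199), (4, .ofNat 6935040000)]), (3, [(1, .negSucc 1456358399)])])]), (2, [(0, [(0, [(0, .ofNat 736684800), (2, .negSucc 4021900799), (4, .ofNat 7964160000)]), (1, [(1, .negSucc 1672473599)])]), (2, [(0, [(0, .negSucc 882612799), (2, .ofNat 4818588800), (4, .negSucc 9541759999)]), (1, [(1, .ofNat 2003769600)])]), (3, [(1, [(0, .negSucc 1445900799), (2, .ofNat 7893836800), (4, .negSucc 15631359999)]), (2, [(1, .ofNat 3282585600)])]), (4, [(0, [(0, .ofNat 533451200), (2, .negSucc 2912355199), (4, .ofNat 5767040000)]), (1, [(1, .negSucc 1211078399)])]), (5, [(1, [(0, .ofNat 522913600), (2, .negSucc 2854825599), (4, .ofNat 5653120000)]), (2, [(1, .negSucc 1187155199)])]), (6, [(2, [(0, .negSucc 192814399), (2, .ofNat 1052662400), (4, .negSucc 2084479999)]), (3, [(1, .ofNat 437740800)])])]), (3, [(0, [(0, [(0, .negSucc 392022399), (2, .ofNat 2140230400), (4, .negSucc 4238079999)]), (1, [(1, .ofNat 889996800)])]), (2, [(0,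 [(0, .ofNat 213416000), (2, .negSucc 1165135999), (4, .ofNat 2307200000)]), (1, [(1, .negSucc 484511999)])]), (3, [(1, [(0, .ofNat 432100800), (2, .negSucc 2359036799), (4, .ofNat 4671360000)]), (2, [(1, .negSucc 980985599)])])])]), (1, [(0, [(0, [(0, [(0, .ofNat 1146822400), (2, .negSucc 6261030399), (4, .ofNat 12398080000)]), (1, [(1, .negSucc 2603596799)])]), (2, [(0, [(0, .negSucc 2333900799), (2, .ofNat 12741836800), (4, .negSucc 25231359999)]), (1, [(1, .ofNat 5298585600)])]), (3, [(1, [(0, .negSucc 3738953599), (2, .ofNat 20412665600), (4, .negSucc 40421119999)]), (2, [(1, .ofNat 8488435200)])]), (4, [(0, [(0, .ofNat 1180448000), (2, .negSucc 6444607999), (4, .ofNat 12761600000)]), (1, [(1, .negSucc 2679935999)])]), (5, [(1, [(0, .ofNat 345254400), (2, .negSucc 1884902399), (4, .ofNat 3732480000)]), (2, [(1, .negSucc 783820799)])]), (6, [(2, [(0, .negSucc 1281679999), (2, .ofNat 6997280000), (4, .negSucc 13855999999)]), (3, [(1, .ofNat 2909760000)])]), (7,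 [(1, [(0, .ofNat 1330816000), (2, .negSucc 7265535999), (4, .ofNat 14387200000)]), (2, [(1, .negSucc 3021311999)])]), (8, [(2, [(0, .ofNat 1900793600), (2, .negSucc 10377305599), (4, .ofNat 20549120000)]), (3, [(1, .negSucc 4315315199)])])]), (1, [(0, [(0, [(0, .ofNat 1748886400), (2, .negSucc 9547974399), (4, .ofNat 18906880000)]), (1, [(1, .negSucc 3970444799)])]), (2, [(0, [(0, .negSucc 2691231999), (2, .ofNat 14692672000), (4, .negSucc 29094399999)]), (1, [(1, .ofNat 6109824000)])]), (3, [(1, [(0, .ofNat 4086576000), (2, .negSucc 22310495999), (4, .ofNat 44179200000)]), (2, [(1, .negSucc 9277631999)])]), (4, [(0, [(0, .negSucc 90457599), (2, .ofNat 493849600), (4, .negSucc 977919999)]), (1, [(1, .ofNat 205363200)])]), (5, [(1, [(0, .negSucc 1108934399), (2, .ofNat 6054182400), (4, .negSucc 11988479999)]), (2, [(1, .ofNat 2517580800)])]), (6, [(2, [(0, .negSucc 759417599), (2, .ofNat 4146009600), (4, .negSucc 8209919999)]), (3, [(1, .ofNat 1724083200)])])]),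 (2, [(0, [(0, [(0, .negSucc 1222598399), (2, .ofNat 6674726400), (4, .negSucc 13217279999)]), (1, [(1, .ofNat 2775628800)])]), (2, [(0, [(0, .ofNat 3550342400), (2, .negSucc 19382950399), (4, .ofNat 38382080000)]), (1, [(1, .negSucc 8060236799)])]), (3, [(1, [(0, .negSucc 1518716799), (2, .ofNat 8291372800), (4, .negSucc 16418559999)]), (2, [(1, .ofNat 3447897600)])])]), (3, [(0, [(0, [(0, .negSucc 1463779199), (2, .ofNat 7991443200), (4, .negSucc 15824639999)]), (1, [(1, .ofNat 3323174400)])])])]), (2, [(0, [(0, [(0, [(0, .ofNat 12393638400), (2, .negSucc 67662566399), (4, .ofNat 133985280000)]), (1, [(1, .negSucc 28136908799)])]), (2, [(0, [(0, .negSucc 9259116799), (2, .ofNat 50549772800), (4, .negSucc 100098559999)]), (1, [(1, .ofNat 21020697600)])]), (3, [(1, [(0, .ofNat 5584217600), (2, .negSucc 30486809599), (4, .ofNat 60369920000)]), (2, [(1, .negSucc 12677683199)])]), (4, [(0, [(0, .ofNat 83116800), (2, .negSucc 453772799), (4, .ofNat 898560000)]), (1,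 [(1, .negSucc 188697599)])]), (5, [(1, [(0, .negSucc 1153452799), (2, .ofNat 6297228800), (4, .negSucc 12469759999)]), (2, [(1, .ofNat 2618649600)])]), (6, [(2, [(0, .negSucc 3092844799), (2, .ofNat 16885260800), (4, .negSucc 33436159999)]), (3, [(1, .ofNat 7021593600)])])]), (1, [(0, [(0, [(0, .negSucc 14054553599), (2, .ofNat 76730265600), (4, .negSucc 151941119999)]), (1, [(1, .ofNat 31907635200)])]), (2, [(0, [(0, .ofNat 8884262400), (2, .negSucc 48503270399), (4, .ofNat 96046080000)]), (1, [(1, .negSucc 20169676799)])]), (3, [(1, [(0, .negSucc 3930879999), (2, .ofNat 21460480000), (4, .negSucc 42495999999)]), (2, [(1, .ofNat 8924160000)])])]), (2, [(0, [(0, [(0, .ofNat 2264044800), (2, .negSucc 12360460799), (4, .ofNat 24476160000)]), (1, [(1, .negSucc 5139993599)])])])]), (3, [(0, [(0, [(0, [(0, .ofNat 18486976000), (2, .negSucc 100928895999), (4, .ofNat 199859200000)]), (1, [(1, .negSucc 41970431999)])]), (2, [(0, [(0, .negSucc 300735999), (2, .ofNat 1641856000),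 (4, .negSucc 3251199999)]), (1, [(1, .ofNat 682752000)])]), (3, [(1, [(0, .negSucc 3892044799), (2, .ofNat 21248460800), (4, .negSucc 42076159999)]), (2, [(1, .ofNat 8835993600)])])]), (1, [(0, [(0, [(0, .negSucc 12354803199), (2, .ofNat 67450547200), (4, .negSucc 133565439999)]), (1, [(1, .ofNat 28048742400)])])])])]
  C0 := [(0, [(0, [(0, [(0, [(0, .ofNat 256011840)])]), (1, [(1, [(0, .negSucc 2253779135)])]), (2, [(0, [(0, .ofNat 1053464832)])]), (3, [(1, [(0, .ofNat 10375085952)])]), (4, [(0, [(0, .negSucc 6990302591)]), (2, [(0, .ofNat 7550573184)])]), (5, [(1, [(0, .ofNat 7000435008)])]), (6, [(0, [(0, .ofNat 9069721920)]), (2, [(0, .ofNat 27446158656)])]), (7, [(1, [(0, .negSucc 30968711423)]), (3, [(0, .negSucc 9489715199)])]), (8, [(2, [(0, .negSucc 70626185279)])]), (9, [(1, [(0, .ofNat 9489312000)]), (3, [(0, .ofNat 14660352000)])]), (10, [(2, [(0, .ofNat 44312768640)])]), (11, [(3, [(0, .negSucc 4178361599)])]), (12, [(2, [(0, .negSucc 6312095999)])])]),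 (1, [(0, [(0, [(0, .negSucc 13108781951)])]), (1, [(1, [(0, .ofNat 17273600064)])]), (2, [(0, [(0, .ofNat 15466074624)])]), (3, [(1, [(0, .negSucc 4962105791)])]), (4, [(0, [(0, .ofNat 12944691648)]), (2, [(0, .negSucc 10725325631)])]), (5, [(1, [(0, .negSucc 50923510847)])]), (6, [(0, [(0, .negSucc 13296064319)]), (2, [(0, .negSucc 11950025471)])]), (7, [(1, [(0, .ofNat 62363722176)]), (3, [(0, .ofNat 11575872000)])]), (8, [(2, [(0, .ofNat 37693744704)])]), (9, [(1, [(0, .negSucc 15902207999)]), (3, [(0, .negSucc 9201830399)])]), (10, [(2, [(0, .negSucc 21845375999)])])]), (2, [(0, [(0, [(0, .ofNat 18918264960)])]), (1, [(1, [(0, .negSucc 21702973823)])]), (2, [(0, [(0, .negSucc 51450723071)])]), (3, [(1, [(0, .negSucc 6155763263)])]), (4, [(0, [(0, .ofNat 14447430144)]), (2, [(0, .negSucc 6001075583)])]), (5, [(1, [(0, .ofNat 47714724288)])]), (6, [(0, [(0, .ofNat 6044266368)]), (2, [(0, .negSucc 6739641215)])]), (7, [(1, [(0, .negSucc 17807327999)]), (3, [(0,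 .negSucc 3441715199)])]), (8, [(2, [(0, .ofNat 6566112000)])])]), (3, [(0, [(0, [(0, .negSucc 6512800895)])]), (1, [(1, [(0, .ofNat 6108633216)])]), (2, [(0, [(0, .ofNat 35222902848)])]), (3, [(1, [(0, .ofNat 6594182784)])]), (4, [(0, [(0, .negSucc 20624329151)]), (2, [(0, .ofNat 9494956800)])]), (5, [(1, [(0, .negSucc 14714783999)])])])]), (1, [(0, [(0, [(0, [(0, .ofNat 97008113664)])]), (1, [(1, [(0, .negSucc 78123927167)])]), (2, [(0, [(0, .negSucc 271891251071)])]), (3, [(1, [(0, .negSucc 13212476927)])]), (4, [(0, [(0, .ofNat 235515159936)]), (2, [(0, .ofNat 1508274432)])]), (5, [(1, [(0, .ofNat 92711509632)])]), (6, [(0, [(0, .negSucc 78911497727)]), (2, [(0, .negSucc 43496401535)])]), (7, [(1, [(0, .ofNat 85053233664)]), (3, [(0, .negSucc 3323174399)])]), (8, [(2, [(0, .ofNat 113944811904)])]), (9, [(1, [(0, .negSucc 63513676799)]), (3, [(0, .negSucc 6123801599)])]), (10, [(2, [(0, .negSucc 101274163199)])]), (12, [(2, [(0, .ofNat 8356723200)])])]), (1, [(0,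 [(0, [(0, .negSucc 11404221695)])]), (1, [(1, [(0, .negSucc 102055580927)])]), (2, [(0, [(0, .ofNat 38218521600)])]), (3, [(1, [(0, .ofNat 303965673984)])]), (4, [(0, [(0, .negSucc 177836932223)]), (2, [(0, .ofNat 154667149056)])]), (5, [(1, [(0, .negSucc 235397465855)])]), (6, [(0, [(0, .ofNat 129061134720)]), (2, [(0, .negSucc 182571814655)])]), (7, [(1, [(0, .negSucc 25741094399)]), (3, [(0, .ofNat 13902336000)])]), (8, [(2, [(0, .ofNat 43302067200)])]), (9, [(1, [(0, .ofNat 20687385600)])]), (10, [(2, [(0, .ofNat 18403660800)])])]), (2, [(0, [(0, [(0, .negSucc 112053352319)])]), (1, [(1, [(0, .ofNat 302318456832)])]), (2, [(0, [(0, .ofNat 340297574400)])]), (3, [(1, [(0, .negSucc 490642693631)])]), (4, [(0, [(0, .negSucc 136542026879)]), (2, [(0, .negSucc 54302169599)])]), (5, [(1, [(0, .ofNat 183207628800)])]), (6, [(0, [(0, .negSucc 60737241599)]), (2, [(0, .ofNat 44895513600)])]), (7, [(1, [(0, .ofNat 8789760000)])]), (8, [(2, [(0, .ofNat 6883430400)])])]),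 (3, [(0, [(0, [(0, .ofNat 30329792640)])]), (1, [(1, [(0, .negSucc 121713983999)])]), (2, [(0, [(0, .negSucc 104025075839)])]), (3, [(1, [(0, .ofNat 149179161600)])]), (4, [(0, [(0, .ofNat 87584716800)])]), (5, [(1, [(0, .negSucc 18989913599)])])])]), (2, [(0, [(0, [(0, [(0, .negSucc 307736110079)])]), (1, [(1, [(0, .ofNat 278440178688)])]), (2, [(0, [(0, .ofNat 739193140224)])]), (3, [(1, [(0, .ofNat 85786477056)])]), (4, [(0, [(0, .negSucc 646431690239)]), (2, [(0, .negSucc 366161628671)])]), (5, [(1, [(0, .negSucc 522208479743)])]), (6, [(0, [(0, .ofNat 269838890496)]), (2, [(0, .ofNat 276881859072)])]), (7, [(1, [(0, .ofNat 287278387200)]), (3, [(0, .ofNat 1193472000)])]), (8, [(2, [(0, .ofNat 52032153600)])]), (9, [(1, [(0, .negSucc 9094579199)])]), (10, [(2, [(0, .ofNat 12247603200)])])]), (1, [(0, [(0, [(0, .ofNat 120258496512)])]), (1, [(1, [(0, .negSucc 153312622847)])]), (2, [(0, [(0, .negSucc 404729031167)])]), (3, [(1, [(0, .ofNat 147551701248)])]),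 (4, [(0, [(0, .ofNat 650401952256)]), (2, [(0, .ofNat 195913267200)])]), (5, [(1, [(0, .ofNat 23356569600)])]), (6, [(0, [(0, .negSucc 304004735999)]), (2, [(0, .negSucc 106178687999)])]), (7, [(1, [(0, .negSucc 2825625599)])]), (8, [(2, [(0, .negSucc 27804671999)])])]), (2, [(0, [(0, [(0, .ofNat 277324524288)])]), (1, [(1, [(0, .negSucc 70276147199)])]), (2, [(0, [(0, .negSucc 308435436287)])]), (3, [(1, [(0, .ofNat 41305420800)])]), (4, [(0, [(0, .ofNat 26383795200)])]), (5, [(1, [(0, .ofNat 5046451200)])])]), (3, [(0, [(0, [(0, .negSucc 85905791999)])]), (2, [(0, [(0, .ofNat 85905792000)])])])]), (3, [(0, [(0, [(0, [(0, .negSucc 124204921343)])]), (1, [(1, [(0, .ofNat 592625392128)])]), (2, [(0, [(0, .ofNat 1194491225088)])]), (3, [(1, [(0, .negSucc 1578475196927)])]), (4, [(0, [(0, .negSucc 861315807743)]), (2, [(0, .ofNat 359589888000)])]), (5, [(1, [(0, .ofNat 861935155200)])]), (6, [(0, [(0, .negSucc 127878911999)]), (2, [(0, .negSucc 320011775999)])]), (7,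 [(1, [(0, .negSucc 123785625599)])]), (8, [(2, [(0, .negSucc 2386943999)])])]), (1, [(0, [(0, [(0, .ofNat 1036884699648)])]), (1, [(1, [(0, .negSucc 700390655999)])]), (2, [(0, [(0, .negSucc 1705725762047)])]), (3, [(1, [(0, .ofNat 743158886400)])]), (4, [(0, [(0, .ofNat 743165337600)])]), (5, [(1, [(0, .negSucc 123859814399)])])]), (2, [(0, [(0, [(0, .negSucc 667163750399)])]), (2, [(0, [(0, .ofNat 667163750400)])])])]), (4, [(0, [(0, [(0, [(0, .negSucc 531024076799)])]), (1, [(1, [(0, .negSucc 793433087999)])]), (2, [(0, [(0, .negSucc 424269619199)])]), (3, [(1, [(0, .ofNat 867815424000)])]), (4, [(0, [(0, .ofNat 955293696000)])]), (5, [(1, [(0, .negSucc 74382335999)])])]), (1, [(0, [(0, [(0, .ofNat 120250368000)])]), (2, [(0, [(0, .negSucc 120250367999)])])])])]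
  Ck := [(0, [(0, [(0, [(0, [(0, .ofNat 32480179200), (2, .ofNat 55487174400)])]), (1, [(0, [(1, .ofNat 19574553600), (3, .ofNat 27669196800)]), (1, [(0, .negSucc 21708691199)])]), (2, [(0, [(0, .negSucc 36664185599), (2, .negSucc 71768390399)]), (1, [(1, .negSucc 35588044799)])]), (3, [(0, [(1, .negSucc 15787295999), (3, .negSucc 24373439999)]), (1, [(0, .negSucc 397958399), (2, .negSucc 62739935999)])]), (4, [(0, [(0, .ofNat 10591257600), (2, .ofNat 22696934400)]), (1, [(1, .ofNat 29106604800), (3, .negSucc 45214847999)]), (2, [(0, .ofNat 13762425600)])]), (5, [(0, [(1, .negSucc 3570335999), (3, .ofNat 27669196800)]), (1, [(0, .ofNat 7940217600), (2, .ofNat 61372281600)]), (2, [(1, .ofNat 11106547200)])]), (6, [(1, [(1, .negSucc 5787935999), (3, .ofNat 72339724800)]), (2, [(0, .negSucc 2384524799), (2, .negSucc 7829740799)])]), (7, [(1, [(2, .negSucc 7464441599)]), (2, [(1, .ofNat 3671539200), (3, .ofNat 23151744000)])]), (8, [(1, [(3, .negSucc 20687385599)]),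 (2, [(2, .negSucc 7538227199)])]), (9, [(2, [(3, .negSucc 18403660799)])])]), (1, [(0, [(0, [(0, .negSucc 30818591999), (2, .negSucc 83706335999)])]), (1, [(0, [(1, .negSucc 62320607999), (3, .negSucc 81107711999)]), (1, [(0, .ofNat 18194400000)])]), (2, [(0, [(0, .ofNat 43352870400), (2, .ofNat 87581491200)]), (1, [(1, .ofNat 140144256000)])]), (3, [(0, [(1, .ofNat 48888403200), (3, .ofNat 54622310400)]), (1, [(0, .negSucc 2711519999), (2, .ofNat 59778028800)])]), (4, [(0, [(0, .negSucc 13934995199), (2, .negSucc 48246105599)]), (1, [(1, .negSucc 62734291199), (3, .negSucc 44298777599)]), (2, [(0, .negSucc 6699167999)])]), (5, [(0, [(1, .ofNat 14261990400), (3, .negSucc 27249868799)]), (1, [(2, .negSucc 13329791999)]), (2, [(1, .negSucc 22130438399)])]), (6, [(1, [(3, .negSucc 17579519999)]), (2, [(2, .ofNat 30228710400)])]), (7, [(2, [(3, .negSucc 13766860799)])])]), (2, [(0, [(0, [(0, .negSucc 6223795199), (2, .ofNat 45350323200)])]), (1, [(0, [(1, .ofNat 40737715200),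 (3, .ofNat 30462566400)]), (1, [(0, .ofNat 2317593600)])]), (2, [(0, [(0, .negSucc 1777305599), (2, .negSucc 94751999)]), (1, [(1, .negSucc 76691059199)])]), (3, [(0, [(1, .negSucc 42261407999), (3, .negSucc 5435942399)]), (1, [(2, .negSucc 35836819199)])]), (4, [(1, [(3, .ofNat 56969740800)])])]), (3, [(0, [(0, [(0, .ofNat 5142816000), (2, .negSucc 4237631999)])]), (1, [(0, [(1, .negSucc 6944716799)])])])]), (1, [(0, [(0, [(0, [(0, .ofNat 62991129600), (2, .ofNat 61931520000)])]), (1, [(0, [(1, .negSucc 32646297599), (3, .ofNat 51675724800)]), (1, [(0, .negSucc 55885132799)])]), (2, [(0, [(0, .negSucc 11581516799), (2, .negSucc 105856127999)]), (1, [(1, .negSucc 136373529599)])]), (3, [(0, [(1, .negSucc 33228518399), (3, .negSucc 92148940799)]), (1, [(0, .ofNat 36265420800), (2, .negSucc 2365977599)])]), (4, [(0, [(0, .negSucc 25174195199), (2, .negSucc 123861427199)]), (1, [(1, .ofNat 16171545600), (3, .ofNat 59101056000)]), (2, [(0, .negSucc 32239871999)])]),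 (5, [(0, [(1, .ofNat 16613452800), (3, .ofNat 25304832000)]), (1, [(2, .ofNat 37094400)]), (2, [(1, .negSucc 7788211199)])]), (6, [(0, [(2, .ofNat 61931520000)]), (1, [(3, .ofNat 2825625600)]), (2, [(2, .ofNat 4481971200)])]), (7, [(2, [(3, .ofNat 27804672000)])])]), (1, [(0, [(0, [(0, .negSucc 123858201599), (2, .negSucc 123854975999)])]), (1, [(0, [(1, .negSucc 74067839999), (3, .ofNat 149932339200)]), (1, [(0, .ofNat 61929907200)])]), (2, [(0, [(0, .ofNat 61931520000), (2, .ofNat 259402752000)]), (1, [(1, .ofNat 28619136000)])]), (3, [(0, [(1, .ofNat 76149964800), (3, .negSucc 123859814399)]), (1, [(2, .negSucc 73309823999)])]), (4, [(0, [(2, .negSucc 73617868799)]), (1, [(3, .negSucc 10092902399)])])]), (2, [(0, [(0, [(0, .ofNat 61931520000), (2, .ofNat 23924275200)])]), (1, [(0, [(1, .negSucc 56986675199), (3, .ofNat 50851584000)])]), (2, [(0, [(2, .ofNat 83336601600)])])])]), (2, [(0, [(0, [(0, [(0, .ofNat 5336755200), (2, .ofNat 371584281600)])]), (1, [(0,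 [(1, .ofNat 103048243200), (3, .ofNat 247709952000)]), (1, [(0, .ofNat 119014963200)])]), (2, [(0, [(0, .ofNat 180452966400), (2, .ofNat 61921843200)]), (1, [(1, .ofNat 61900876800)])]), (3, [(0, [(1, .negSucc 100832255999), (3, .negSucc 123850137599)]), (1, [(2, .negSucc 150106521599)])]), (4, [(0, [(2, .negSucc 123863039999)]), (1, [(3, .ofNat 123859814400)])])]), (1, [(0, [(0, [(0, .negSucc 42365030399), (2, .ofNat 121637376000)])]), (1, [(0, [(1, .negSucc 359212492799), (3, .negSucc 95697100799)])]), (2, [(0, [(2, .negSucc 18908467199)])])])]), (3, [(0, [(1, [(0, [(1, .ofNat 56486707200), (3, .negSucc 162183167999)])]), (2, [(0, [(2, .ofNat 148648550400)])])])])]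
  L1 := [(0, [(0, [(0, [(0, [(0, .negSucc 8295033599)])]), (1, [(0, [(1, .ofNat 15207494400)])]), (2, [(0, [(0, .negSucc 8506713599), (2, .ofNat 3143347200)])]), (3, [(0, [(1, .negSucc 52919999999)]), (1, [(0, .negSucc 1070092799)])]), (4, [(0, [(0, .ofNat 23534380800), (2, .ofNat 24679065600)]), (1, [(1, .ofNat 29766643200)])]), (5, [(0, [(1, .ofNat 38637849600)]), (1, [(0, .negSucc 32478969599), (2, .ofNat 112769798400)])]), (6, [(0, [(0, .negSucc 7662412799), (2, .negSucc 27822412799)]), (1, [(1, .negSucc 23502527999)]), (2, [(0, .negSucc 38080223999)])]), (7, [(1, [(0, .ofNat 22142937600), (2, .negSucc 173913465599)]), (2, [(1, .ofNat 40034937600)])]), (8, [(1, [(1, .negSucc 13199961599)]), (2, [(0, .ofNat 32743872000), (2, .negSucc 86258995199)])]), (9, [(1, [(2, .ofNat 63678988800)]), (2, [(1, .negSucc 97763903999)])]), (10, [(2, [(0, .ofNat 3271968000), (2, .ofNat 133996262400)])]), (11, [(2, [(1, .ofNat 61297689600)])]), (12, [(2, [(2, .negSucc 41783615999)])])]),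 (1, [(0, [(0, [(0, .ofNat 3883219200)])]), (1, [(0, [(1, .negSucc 5808499199)])]), (2, [(0, [(0, .negSucc 23526316799), (2, .ofNat 24373440000)])]), (3, [(0, [(1, .negSucc 3042950399)]), (1, [(0, .negSucc 23890003199)])]), (4, [(0, [(0, .ofNat 30435955200), (2, .negSucc 79711833599)]), (1, [(1, .negSucc 53378841599)])]), (5, [(0, [(1, .negSucc 3711859199)]), (1, [(0, .ofNat 36024710400), (2, .negSucc 140161996799)])]), (6, [(0, [(0, .negSucc 20869631999), (2, .ofNat 55338393600)]), (1, [(1, .ofNat 78830438400)]), (2, [(0, .ofNat 42698880000)])]), (7, [(1, [(0, .negSucc 4417459199), (2, .ofNat 222224083200)]), (2, [(1, .negSucc 7875302399)])]), (8, [(1, [(1, .negSucc 15572390399)]), (2, [(0, .negSucc 26195903999), (2, .ofNat 87858892800)])]), (9, [(1, [(2, .negSucc 72405849599)]), (2, [(1, .negSucc 37100447999)])]), (10, [(2, [(2, .negSucc 73614643199)])])]), (2, [(0, [(0, [(0, .ofNat 37281484800)])]), (1, [(0, [(1, .ofNat 1444665600)])]), (2, [(0, [(0, .negSucc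 4005388799), (2, .negSucc 27311155199)])]), (3, [(0, [(1, .ofNat 49334745600)]), (1, [(0, .ofNat 56824588800)])]), (4, [(0, [(0, .negSucc 36584755199), (2, .ofNat 54561024000)]), (1, [(1, .ofNat 25930598400)])]), (5, [(0, [(1, .negSucc 31439923199)]), (1, [(0, .negSucc 31043980799), (2, .negSucc 24434323199)])]), (6, [(0, [(0, .ofNat 29744870400), (2, .negSucc 27249868799)]), (1, [(1, .negSucc 12623385599)]), (2, [(0, .negSucc 17269862399)])]), (7, [(1, [(2, .negSucc 21974399999)]), (2, [(1, .ofNat 46474848000)])]), (8, [(2, [(2, .negSucc 20650291199)])])]), (3, [(0, [(0, [(0, .negSucc 31869331199)])]), (1, [(0, [(1, .negSucc 5489567999)])]), (2, [(0, [(0, .ofNat 35215084800), (2, .ofNat 1811980800)])]), (3, [(0, [(1, .negSucc 2596204799)]), (1, [(0, .negSucc 22513881599)])]), (4, [(0, [(0, .negSucc 17154547199), (2, .negSucc 1811980799)]), (1, [(1, .negSucc 12366143999)])]), (5, [(1, [(2, .ofNat 28484870400)])])])]), (1, [(0, [(0, [(0, [(0, .ofNat 281069913600)])]),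 (1, [(0, [(1, .ofNat 101524147200)])]), (2, [(0, [(0, .negSucc 384311692799), (2, .negSucc 119054476799)])]), (3, [(0, [(1, .negSucc 195832627199)]), (1, [(0, .ofNat 13806374400)])]), (4, [(0, [(0, .ofNat 231955315200), (2, .ofNat 216759513600)]), (1, [(1, .negSucc 109718783999)])]), (5, [(0, [(1, .ofNat 199851724800)]), (1, [(0, .ofNat 97307481600), (2, .ofNat 125369395200)])]), (6, [(0, [(0, .negSucc 63547545599), (2, .negSucc 92897279999)]), (1, [(1, .ofNat 98046144000)]), (2, [(0, .negSucc 109854259199)])]), (7, [(0, [(1, .negSucc 54915839999)]), (1, [(0, .negSucc 68069030399), (2, .negSucc 178388582399)]), (2, [(1, .ofNat 163621785600)])]), (8, [(1, [(1, .negSucc 1165247999)]), (2, [(0, .ofNat 29969049600), (2, .negSucc 4368268799)])]), (9, [(1, [(2, .ofNat 27283737600)]), (2, [(1, .negSucc 185649407999)])]), (10, [(2, [(2, .negSucc 42866611199)])])]), (1, [(0, [(0, [(0, .negSucc 244835135999)])]), (1, [(0, [(1, .negSucc 46630886399)])]), (2, [(0, [(0, .ofNat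 391769280000), (2, .ofNat 66311078400)])]), (3, [(0, [(1, .ofNat 274863052800)]), (1, [(0, .negSucc 67169087999)])]), (4, [(0, [(0, .negSucc 266578099199), (2, .negSucc 96684134399)]), (1, [(1, .negSucc 82476979199)])]), (5, [(0, [(1, .negSucc 371587507199)]), (1, [(0, .ofNat 9433267200), (2, .ofNat 56275430400)])]), (6, [(0, [(0, .ofNat 83609971200), (2, .ofNat 37957248000)]), (1, [(1, .ofNat 92894860800)]), (2, [(0, .ofNat 26292672000)])]), (7, [(0, [(1, .ofNat 123863040000)]), (1, [(2, .ofNat 5651251200)]), (2, [(1, .ofNat 11350886400)])]), (8, [(2, [(2, .ofNat 69511680000)])])]), (2, [(0, [(0, [(0, .negSucc 46958284799)])]), (1, [(0, [(1, .negSucc 38921702399)])]), (2, [(0, [(0, .ofNat 4298918400), (2, .ofNat 24446822400)])]), (3, [(0, [(1, .ofNat 73617868800)]), (1, [(0, .ofNat 2523225600)])]), (4, [(0, [(0, .ofNat 3554611200), (2, .negSucc 30964953599)]), (1, [(1, .negSucc 2844979199)])]), (5, [(0, [(1, .negSucc 36808934399)]), (1, [(2, .negSucc 5046451199)])])]),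 (3, [(0, [(0, [(0, .ofNat 12096000000)])]), (1, [(0, [(1, .negSucc 27778867199)])]), (2, [(0, [(0, .ofNat 10285632000), (2, .negSucc 8475263999)])])])]), (2, [(0, [(0, [(0, [(0, .ofNat 376780723200)])]), (1, [(0, [(1, .negSucc 120395519999)])]), (2, [(0, [(0, .negSucc 109210751999), (2, .negSucc 247726079999)])]), (3, [(0, [(1, .ofNat 283793126400)]), (1, [(0, .ofNat 98361446400)])]), (4, [(0, [(0, .negSucc 89113651199), (2, .ofNat 247726080000)]), (1, [(1, .ofNat 64195891200)])]), (5, [(0, [(1, .negSucc 374942131199)]), (1, [(0, .negSucc 98158233599), (2, .negSucc 245263334399)])]), (6, [(0, [(0, .ofNat 50348390400), (2, .negSucc 123863039999)]), (1, [(1, .negSucc 10650931199)]), (2, [(0, .ofNat 63286272000)])]), (7, [(0, [(1, .ofNat 117379584000)]), (1, [(2, .ofNat 185678438400)]), (2, [(1, .ofNat 103754649600)])]), (8, [(2, [(2, .ofNat 4773888000)])])]), (1, [(0, [(0, [(0, .negSucc 497790719999)])]), (1, [(0, [(1, .negSucc 309396326399)])]), (2, [(0, [(0, .ofNat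 61934745600), (2, .negSucc 123859814399)])]), (3, [(0, [(1, .ofNat 123867878400)])]), (5, [(0, [(1, .negSucc 61931519999)]), (1, [(2, .ofNat 61929907200)])])]), (2, [(0, [(0, [(0, .ofNat 147787315200)])]), (1, [(0, [(1, .ofNat 9454233600)])]), (2, [(0, [(0, .ofNat 123863040000), (2, .ofNat 47848550400)])]), (3, [(0, [(1, .ofNat 4727116800)])])])]), (3, [(0, [(0, [(0, [(0, .ofNat 254838528000)])]), (1, [(0, [(1, .negSucc 24598425599)])]), (2, [(0, [(0, .ofNat 368018380800), (2, .ofNat 495442483200)])]), (3, [(0, [(1, .negSucc 131475455999)]), (1, [(0, .ofNat 121495449600)])]), (4, [(0, [(0, .ofNat 120301977600), (2, .negSucc 123863039999)]), (1, [(1, .ofNat 123840460800)])])]), (1, [(0, [(0, [(0, .ofNat 24604876800)])]), (1, [(0, [(1, .negSucc 148648550399)])]), (2, [(0, [(0, .negSucc 84730060799), (2, .ofNat 243274752000)])]), (3, [(0, [(1, .negSucc 148648550399)])])])])]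
  L2 := [(0, [(0, [(1, [(0, [(0, .ofNat 13160448000)])]), (2, [(0, [(1, .ofNat 46184947200)])]), (3, [(0, [(0, .negSucc 39793420799), (2, .ofNat 57759609600)])]), (4, [(0, [(1, .negSucc 39550291199)]), (1, [(0, .negSucc 44568921599)])]), (5, [(0, [(0, .ofNat 16024780800), (2, .negSucc 82515283199)]), (1, [(1, .ofNat 21247833600)])]), (6, [(0, [(1, .negSucc 3419539199)]), (1, [(0, .ofNat 40478054400), (2, .negSucc 56938291199)])]), (7, [(0, [(2, .ofNat 27290995200)]), (1, [(1, .negSucc 52956287999)])]), (8, [(1, [(0, .negSucc 679795199), (2, .ofNat 87962112000)])]), (9, [(1, [(1, .ofNat 40865126400)])]), (10, [(1, [(2, .negSucc 25070169599)])])]), (1, [(1, [(0, [(0, .negSucc 52917580799)])]), (2, [(0, [(1, .negSucc 77133772799)])]), (3, [(0, [(0, .ofNat 64162022400), (2, .negSucc 67822271999)])]), (4, [(0, [(1, .ofNat 62021030400)]), (1, [(0, .ofNat 67592448000)])]), (5, [(0, [(0, .negSucc 8856691199), (2, .ofNat 108509587200)]), (1, [(1, .negSucc 28473983999)])]),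 (6, [(0, [(1, .negSucc 7786195199)]), (1, [(0, .negSucc 35397734399), (2, .ofNat 69455232000)])]), (7, [(0, [(2, .negSucc 31031078399)]), (1, [(1, .negSucc 31800383999)])]), (8, [(1, [(2, .negSucc 55210982399)])])]), (2, [(1, [(0, [(0, .ofNat 81887500800)])]), (2, [(0, [(1, .ofNat 55914969600)])]), (3, [(0, [(0, .negSucc 35438860799), (2, .negSucc 33224083199)])]), (4, [(0, [(1, .negSucc 9467539199)]), (1, [(0, .negSucc 31067366399)])]), (5, [(0, [(2, .negSucc 13184639999)]), (1, [(1, .ofNat 55769817600)])]), (6, [(1, [(2, .negSucc 20650291199)])])]), (3, [(1, [(0, [(0, .negSucc 39056774399)])]), (2, [(0, [(1, .negSucc 18549215999)])]), (3, [(0, [(2, .ofNat 28484870400)])])])]), (1, [(0, [(1, [(0, [(0, .ofNat 130252147200)])]), (2, [(0, [(1, .ofNat 1857945600)])]), (3, [(0, [(0, .ofNat 2387750400), (2, .ofNat 67904524800)])]), (4, [(0, [(1, .ofNat 82008460800)]), (1, [(0, .negSucc 165149107199)])]), (5, [(0, [(0, .negSucc 47641305599), (2, .negSucc 120149567999)]),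 (1, [(1, .ofNat 137091225600)])]), (6, [(0, [(1, .negSucc 699148799)]), (1, [(0, .ofNat 28614297600), (2, .negSucc 19939046399)])]), (7, [(0, [(2, .ofNat 13641868800)]), (1, [(1, .negSucc 185649407999)])]), (8, [(1, [(2, .negSucc 36742809599)])])]), (1, [(1, [(0, [(0, .negSucc 109166399999)])]), (2, [(0, [(1, .negSucc 185765529599)])]), (3, [(0, [(0, .ofNat 16269120000), (2, .ofNat 88651584000)])]), (4, [(0, [(1, .ofNat 92894860800)]), (1, [(0, .ofNat 80390016000)])]), (5, [(0, [(2, .ofNat 4238438400)]), (1, [(1, .ofNat 17026329600)])]), (6, [(1, [(2, .ofNat 83414016000)])])]), (2, [(1, [(0, [(0, .negSucc 13905561599)])]), (2, [(0, [(1, .negSucc 8534937599)])]), (3, [(0, [(2, .negSucc 7569676799)])])])]), (2, [(0, [(1, [(0, [(0, .ofNat 167655398400)])]), (2, [(0, [(1, .ofNat 190787788800)])]), (3, [(0, [(0, .negSucc 108796262399), (2, .negSucc 364433126399)])]), (4, [(0, [(1, .negSucc 15976396799)]), (1, [(0, .ofNat 193439232000)])]), (5, [(0, [(2, .ofNat 185678438400)]),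 (1, [(1, .ofNat 207509299200)])]), (6, [(1, [(2, .ofNat 7160832000)])])]), (1, [(1, [(0, [(0, .negSucc 185789721599)])]), (2, [(0, [(1, .negSucc 141479654399)])]), (3, [(0, [(2, .ofNat 185789721600)])])])]), (3, [(0, [(1, [(0, [(0, .negSucc 238029926399)])]), (2, [(0, [(1, .negSucc 371521382399)])]), (3, [(0, [(2, .ofNat 111573504000)])])])])]
  Lw := [(0, [(0, [(0, [(0, [(0, .negSucc 30643199)])]), (1, [(0, [(1, .ofNat 333849600)]), (1, [(0, .ofNat 6889478400)])]), (2, [(0, [(0, .ofNat 4353350400)]), (1, [(1, .ofNat 1715212800)])]), (3, [(0, [(1, .negSucc 23106585599)]), (1, [(0, .negSucc 12886675199)])]), (4, [(0, [(0, .negSucc 7238246399)]), (1, [(1, .negSucc 16010265599)]), (2, [(0, .negSucc 6627801599)])]), (5, [(0, [(1, .ofNat 24704064000)]), (1, [(0, .ofNat 3982003200)]), (2, [(1, .ofNat 5926233600)])]), (6, [(1, [(1, .ofNat 6295564800)]), (2, [(0, .ofNat 6516115200)])]), (7, [(2, [(1, .negSucc 9875980799)])])]), (1, [(0, [(0, [(0, .ofNat 4965004800)])]),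 (1, [(0, [(1, .ofNat 11499264000)]), (1, [(0, .negSucc 6047193599)])]), (2, [(0, [(0, .negSucc 4550515199)]), (1, [(1, .negSucc 1422489599)])]), (3, [(0, [(1, .negSucc 912844799)]), (1, [(0, .ofNat 2961907200)])]), (4, [(0, [(0, .ofNat 8791776000)]), (1, [(1, .ofNat 9339724800)]), (2, [(0, .negSucc 1553932799)])]), (5, [(0, [(1, .negSucc 24150067199)]), (2, [(1, .ofNat 5060966400)])])]), (2, [(0, [(0, [(0, .negSucc 9473183999)])]), (1, [(0, [(1, .negSucc 5752857599)]), (1, [(0, .ofNat 1012838400)])]), (2, [(0, [(0, .negSucc 3062303999)]), (1, [(1, .ofNat 1543449600)])]), (3, [(0, [(1, .ofNat 19985011200)])])]), (3, [(0, [(0, [(0, .ofNat 4864608000)])])])]), (1, [(0, [(0, [(0, [(0, .negSucc 13289471999)])]), (1, [(0, [(1, .negSucc 19860019199)]), (1, [(0, .ofNat 23392051200)])]), (2, [(0, [(0, .ofNat 81852825600)]), (1, [(1, .ofNat 24188774400)])]), (3, [(0, [(1, .ofNat 18202060800)]), (1, [(0, .ofNat 16615065600)])]), (4, [(0, [(0, .negSucc 10028390399)]), (1, [(1,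 .negSucc 11847628799)]), (2, [(0, .negSucc 7622092799)])]), (5, [(0, [(1, .negSucc 35167103999)]), (2, [(1, .ofNat 6215731200)])])]), (1, [(0, [(0, [(0, .ofNat 17250508800)])]), (1, [(0, [(1, .ofNat 75785472000)]), (1, [(0, .negSucc 21626035199)])]), (2, [(0, [(0, .negSucc 61928294399)]), (1, [(1, .negSucc 8102707199)])]), (3, [(0, [(1, .ofNat 24498432000)])])]), (2, [(0, [(0, [(0, .negSucc 195148799)])]), (1, [(0, [(1, .negSucc 58375295999)])])])]), (2, [(0, [(0, [(0, [(0, .negSucc 4838399)])]), (1, [(0, [(1, .negSucc 34501017599)]), (1, [(0, .negSucc 105298099199)])]), (2, [(0, [(0, .negSucc 185789721599)]), (1, [(1, .ofNat 43252070400)])]), (3, [(0, [(1, .ofNat 123856588800)])])]), (1, [(0, [(0, [(0, .ofNat 10726732800)])]), (1, [(0, [(1, .ofNat 780595200)])])])]), (3, [(0, [(1, [(0, [(1, .negSucc 14302310399)])])])])]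
  A11 := [(0, [(0, [(2, [(0, [(0, .negSucc 14462380799)])]), (4, [(0, [(0, .ofNat 30183148800)])]), (5, [(1, [(0, .ofNat 22561459200)])]), (6, [(0, [(0, .negSucc 17502911999)])]), (7, [(1, [(0, .negSucc 36399283199)])]), (8, [(2, [(0, .negSucc 62745177599)])]), (9, [(1, [(0, .ofNat 15182899200)])]), (10, [(2, [(0, .ofNat 78449414400)])]), (12, [(2, [(0, .negSucc 13886611199)])])]), (1, [(2, [(0, [(0, .ofNat 25082265600)])]), (4, [(0, [(0, .negSucc 59160729599)])]), (5, [(1, [(0, .negSucc 79452172799)])]), (6, [(0, [(0, .ofNat 36235584000)])]), (7, [(1, [(0, .ofNat 86737190400)])]), (8, [(2, [(0, .ofNat 25105248000)])]), (9, [(1, [(0, .negSucc 25443532799)])]), (10, [(2, [(0, .negSucc 39321676799)])])]), (2, [(2, [(0, [(0, .negSucc 17040038399)])]), (4, [(0, [(0, .ofNat 32566867200)])]), (5, [(1, [(0, .ofNat 46513958400)])]), (6, [(0, [(0, .negSucc 18166175999)])]), (7, [(1, [(0, .negSucc 21368793599)])]), (8, [(2, [(0, .ofNat 9192556800)])])]), (3, [(2, [(0, [(0,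 .ofNat 5577062400)])]), (4, [(0, [(0, .negSucc 4360607999)])]), (5, [(1, [(0, .negSucc 11771827199)])])])]), (1, [(0, [(2, [(0, [(0, .negSucc 31791513599)])]), (4, [(0, [(0, .ofNat 63950745600)])]), (5, [(1, [(0, .ofNat 81098841600)])]), (6, [(0, [(0, .negSucc 32159231999)])]), (7, [(1, [(0, .ofNat 24498432000)])]), (8, [(2, [(0, .ofNat 78267571200)])]), (9, [(1, [(0, .negSucc 63447551999)])]), (10, [(2, [(0, .negSucc 103567564799)])])]), (1, [(2, [(0, [(0, .negSucc 36658943999)])]), (4, [(0, [(0, .ofNat 34194585600)])]), (5, [(1, [(0, .negSucc 98604172799)])]), (6, [(0, [(0, .ofNat 2464358400)])]), (7, [(1, [(0, .ofNat 37763712000)])]), (8, [(2, [(0, .ofNat 31033497600)])])]), (2, [(2, [(0, [(0, .ofNat 48361420800)])]), (4, [(0, [(0, .negSucc 48361420799)])]), (5, [(1, [(0, .ofNat 31031078400)])])])]), (2, [(0, [(2, [(0, [(0, .negSucc 41713459199)])]), (4, [(0, [(0, .ofNat 65326464000)])]), (5, [(1, [(0, .negSucc 91777996799)])]), (6, [(0, [(0, .negSucc 1698278399)])]),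 (7, [(1, [(0, .ofNat 31423795200)])]), (8, [(2, [(0, .ofNat 105323904000)])])]), (1, [(2, [(0, [(0, .ofNat 25295155200)])]), (4, [(0, [(0, .negSucc 60509030399)])]), (5, [(1, [(0, .ofNat 53544960000)])])]), (2, [(2, [(0, [(0, .ofNat 15419980800)])])])]), (3, [(0, [(2, [(0, [(0, .ofNat 247726080000)])]), (5, [(1, [(0, .ofNat 26507980800)])])]), (1, [(2, [(0, [(0, .negSucc 168292454399)])])])])]
  A12 := [(0, [(0, [(3, [(0, [(0, .ofNat 9719136000)])]), (5, [(0, [(0, .negSucc 14403916799)])]), (6, [(1, [(0, .negSucc 39800678399)])]), (7, [(0, [(0, .ofNat 5693587200)])]), (8, [(1, [(0, .ofNat 48933158400)])]), (10, [(1, [(0, .negSucc 7574515199)])])]), (1, [(3, [(0, [(0, .negSucc 41085273599)])]), (5, [(0, [(0, .ofNat 37007712000)])]), (6, [(1, [(0, .ofNat 14028940800)])]), (7, [(0, [(0, .negSucc 9541324799)])]), (8, [(1, [(0, .negSucc 26214451199)])])]), (2, [(3, [(0, [(0, .ofNat 29543270400)])]), (5, [(0, [(0, .negSucc 10684396799)])]), (6, [(1, [(0, .ofNat 7879334400)])])]),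 (3, [(3, [(0, [(0, .negSucc 8828870399)])])])]), (1, [(0, [(3, [(0, [(0, .ofNat 76395916800)])]), (5, [(0, [(0, .negSucc 7054387199)])]), (6, [(1, [(0, .ofNat 52375680000)])]), (7, [(0, [(0, .negSucc 27191807999)])]), (8, [(1, [(0, .negSucc 77675673599)])])]), (1, [(3, [(0, [(0, .negSucc 83498687999)])]), (5, [(0, [(0, .ofNat 22658227200)])]), (6, [(1, [(0, .ofNat 31033497600)])])]), (2, [(3, [(0, [(0, .ofNat 31031078400)])])])]), (2, [(0, [(3, [(0, [(0, .negSucc 114099148799)])]), (5, [(0, [(0, .ofNat 23567846400)])]), (6, [(1, [(0, .ofNat 126388684800)])])]), (1, [(3, [(0, [(0, .ofNat 80317440000)])])])]), (3, [(0, [(3, [(0, [(0, .ofNat 79523942400)])])])])]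
  W1 := [(0, [(0, [(0, [(0, [(0, .ofNat 7019712000)])]), (2, [(0, [(0, .negSucc 36364204799)])]), (3, [(1, [(0, .negSucc 6359270399)])]), (4, [(0, [(0, .ofNat 64400313600)])]), (5, [(1, [(0, .ofNat 13033036800)])]), (6, [(0, [(0, .negSucc 33132959999)]), (2, [(0, .negSucc 17853695999)])]), (7, [(1, [(0, .negSucc 5486745599)])]), (8, [(2, [(0, .ofNat 1852704000)])]), (10, [(2, [(0, .ofNat 21518784000)])])]), (1, [(0, [(0, [(0, .negSucc 333849599)])]), (2, [(0, [(0, .ofNat 46380096000)])]), (3, [(1, [(0, .ofNat 17725478400)])]), (4, [(0, [(0, .negSucc 108772070399)])]), (5, [(1, [(0, .negSucc 44611660799)])]), (6, [(0, [(0, .ofNat 61760160000)]), (2, [(0, .ofNat 24691564800)])]), (7, [(1, [(0, .ofNat 18886694400)])]), (8, [(2, [(0, .negSucc 34565932799)])])]), (2, [(0, [(0, [(0, .negSucc 5749631999)])]), (2, [(0, [(0, .ofNat 3787660800)])]), (3, [(1, [(0, .negSucc 5381107199)])]), (4, [(0, [(0, .ofNat 35540467200)])]), (5, [(1, [(0, .ofNat 9339724800)])]), (6, [(0,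 [(0, .negSucc 30187583999)]), (2, [(0, .ofNat 6326208000)])])]), (3, [(0, [(0, [(0, .ofNat 1917619200)])]), (2, [(0, [(0, .negSucc 14282150399)])]), (3, [(1, [(0, .ofNat 514483200)])]), (4, [(0, [(0, .ofNat 9992505600)])])])]), (1, [(0, [(0, [(0, [(0, .negSucc 122572799)])]), (2, [(0, [(0, .ofNat 34826803200)])]), (3, [(1, [(0, .negSucc 65325657599)])]), (4, [(0, [(0, .negSucc 104272358399)])]), (5, [(1, [(0, .ofNat 109176076800)])]), (6, [(0, [(0, .ofNat 57905971200)]), (2, [(0, .ofNat 79086873600)])]), (7, [(1, [(0, .negSucc 39820031999)])]), (8, [(2, [(0, .negSucc 78193382399)])])]), (1, [(0, [(0, [(0, .ofNat 19860019200)])]), (2, [(0, [(0, .negSucc 36404121599)])]), (3, [(1, [(0, .ofNat 23942016000)])]), (4, [(0, [(0, .ofNat 123703372800)])]), (5, [(1, [(0, .negSucc 17771443199)])]), (6, [(0, [(0, .negSucc 70334207999)]), (2, [(0, .ofNat 12431462400)])])]), (2, [(0, [(0, [(0, .negSucc 37892735999)])]), (2, [(0, [(0, .negSucc 24498431999)])]), (3, [(1, [(0, .negSucc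 2025676799)])]), (4, [(0, [(0, .ofNat 12249216000)])])]), (3, [(0, [(0, [(0, .ofNat 19458432000)])])])]), (2, [(0, [(0, [(0, [(0, .negSucc 26578943999)])]), (2, [(0, [(0, .ofNat 314121830400)])]), (3, [(1, [(0, .ofNat 33230131200)])]), (4, [(0, [(0, .negSucc 142023167999)])]), (5, [(1, [(0, .negSucc 33230131199)])]), (6, [(0, [(0, .ofNat 30085171200)]), (2, [(0, .ofNat 22866278400)])])]), (1, [(0, [(0, [(0, .ofNat 34501017600)])]), (2, [(0, [(0, .negSucc 230462668799)])]), (4, [(0, [(0, .ofNat 61928294400)])])]), (2, [(0, [(0, [(0, .negSucc 390297599)])]), (2, [(0, [(0, .negSucc 195148799)])])])]), (3, [(0, [(0, [(0, [(0, .negSucc 6451199)])]), (2, [(0, [(0, .negSucc 495445708799)])]), (3, [(1, [(0, .negSucc 70198732799)])])]), (1, [(0, [(0, [(0, .ofNat 14302310400)])]), (2, [(0, [(0, .ofNat 14302310400)])])])])]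
  W2 := [(0, [(0, [(1, [(0, [(0, .negSucc 2507500799)])]), (3, [(0, [(0, .ofNat 7031404800)])]), (4, [(1, [(0, .negSucc 17510169599)])]), (5, [(0, [(0, .negSucc 2743372799)])]), (6, [(1, [(0, .ofNat 9785664000)])]), (8, [(1, [(0, .ofNat 14345856000)])])]), (1, [(1, [(0, [(0, .ofNat 2572819200)])]), (3, [(0, [(0, .negSucc 24015398399)])]), (4, [(1, [(0, .ofNat 17778700800)])]), (5, [(0, [(0, .ofNat 9443347200)])]), (6, [(1, [(0, .negSucc 29627942399)])])]), (2, [(1, [(0, [(0, .negSucc 1066867199)])]), (3, [(0, [(0, .ofNat 7004793600)])]), (4, [(1, [(0, .ofNat 7591449600)])])]), (3, [(1, [(0, [(0, .ofNat 771724800)])])])]), (1, [(0, [(1, [(0, [(0, .negSucc 41336870399)])]), (3, [(0, [(0, .ofNat 77320051200)])]), (4, [(1, [(0, .ofNat 79533619200)])]), (5, [(0, [(0, .negSucc 23892019199)])]), (6, [(1, [(0, .negSucc 78193382399)])])]), (1, [(1, [(0, [(0, .ofNat 36283161600)])]), (3, [(0, [(0, .negSucc 17771443199)])]), (4, [(1, [(0, .ofNat 18647193600)])])]), (2, [(1,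 [(0, [(0, .negSucc 6077030399)])])])]), (2, [(0, [(1, [(0, [(0, .negSucc 70176153599)])]), (3, [(0, [(0, .negSucc 49845196799)])]), (4, [(1, [(0, .ofNat 45732556800)])])]), (1, [(1, [(0, [(0, .ofNat 64878105600)])])])]), (3, [(0, [(1, [(0, [(0, .ofNat 210596198400)])])])])]
  psi := [(0, [(0, [(0, [(0, [(0, .ofNat 3509856000)])]), (1, [(1, [(0, .ofNat 835833600)])]), (2, [(0, [(0, .negSucc 8213587199)])]), (3, [(1, [(0, .negSucc 2343801599)])]), (4, [(0, [(0, .ofNat 6626592000)]), (2, [(0, .ofNat 2918361600)])]), (5, [(1, [(0, .ofNat 914457600)])]), (6, [(2, [(0, .negSucc 1630943999)])]), (8, [(2, [(0, .negSucc 2390975999)])])]), (1, [(0, [(0, [(0, .negSucc 166924799)])]), (1, [(1, [(0, .negSucc 857606399)])]), (2, [(0, [(0, .ofNat 11553292800)])]), (3, [(1, [(0, .ofNat 8005132800)])]), (4, [(0, [(0, .negSucc 12352031999)]), (2, [(0, .negSucc 2963116799)])]), (5, [(1, [(0, .negSucc 3147782399)])]), (6, [(2, [(0, .ofNat 4937990400)])])]), (2, [(0, [(0, [(0, .negSucc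 2874815999)])]), (1, [(1, [(0, .ofNat 355622400)])]), (2, [(0, [(0, .ofNat 228211200)])]), (3, [(1, [(0, .negSucc 2334931199)])]), (4, [(0, [(0, .ofNat 6037516800)]), (2, [(0, .negSucc 1265241599)])])]), (3, [(0, [(0, [(0, .ofNat 958809600)])]), (1, [(1, [(0, .negSucc 257241599)])]), (2, [(0, [(0, .negSucc 3330835199)])])])]), (1, [(0, [(0, [(0, [(0, .negSucc 61286399)])]), (1, [(1, [(0, .ofNat 13778956800)])]), (2, [(0, [(0, .ofNat 8706700800)])]), (3, [(1, [(0, .negSucc 25773350399)])]), (4, [(0, [(0, .negSucc 14476492799)]), (2, [(0, .negSucc 13255603199)])]), (5, [(1, [(0, .ofNat 7964006400)])]), (6, [(2, [(0, .ofNat 13032230400)])])]), (1, [(0, [(0, [(0, .ofNat 9930009600)])]), (1, [(1, [(0, .negSucc 12094387199)])]), (2, [(0, [(0, .negSucc 9101030399)])]), (3, [(1, [(0, .ofNat 5923814400)])]), (4, [(0, [(0, .ofNat 17583552000)]), (2, [(0, .negSucc 3107865599)])])]), (2, [(0, [(0, [(0, .negSucc 18946367999)])]), (1, [(1, [(0, .ofNat 2025676800)])]), (2, [(0,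 [(0, .negSucc 6124607999)])])]), (3, [(0, [(0, [(0, .ofNat 9729216000)])])])]), (2, [(0, [(0, [(0, [(0, .negSucc 13289471999)])]), (1, [(1, [(0, .ofNat 23392051200)])]), (2, [(0, [(0, .ofNat 81852825600)])]), (3, [(1, [(0, .ofNat 16615065600)])]), (4, [(0, [(0, .negSucc 10028390399)]), (2, [(0, .negSucc 7622092799)])])]), (1, [(0, [(0, [(0, .ofNat 17250508800)])]), (1, [(1, [(0, .negSucc 21626035199)])]), (2, [(0, [(0, .negSucc 61928294399)])])]), (2, [(0, [(0, [(0, .negSucc 195148799)])])])]), (3, [(0, [(0, [(0, [(0, .negSucc 3225599)])]), (1, [(1, [(0, .negSucc 70198732799)])]), (2, [(0, [(0, .negSucc 123859814399)])])]), (1, [(0, [(0, [(0, .ofNat 7151155200)])])])])]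
  G1 := [(0, [(1, [(0, [(0, [(0, .ofNat 1)])])])]), (2, [(0, [(0, [(0, [(0, .negSucc 3)])]), (2, [(0, [(0, .ofNat 4)])])])])]
  G2 := [(0, [(0, [(0, [(0, [(0, .ofNat 5)])])]), (2, [(0, [(0, [(0, .negSucc 4)])])])]), (2, [(0, [(2, [(0, [(0, .negSucc 55)])])])])]
  G3 := [(0, [(0, [(0, [(0, [(0, .ofNat 64), (2, .negSucc 347), (4, .ofNat 840), (6, .negSucc 799)]), (1, [(1, .negSucc 287), (3, .ofNat 720)]), (2, [(0, .negSucc 191)])])])])]
  G4 := [(0, [(0, [(0, [(0, [(0, .ofNat 4), (2, .negSucc 4)])])])])]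

/-- data of the chart `pp` -/
def ds_pp : DS := ⟨1, 1, 4, 3, 12, 3, 3, pp, cn⟩
/-- data of the chart `pm` -/
def ds_pm : DS := ⟨1, 1, 4, 3, 12, 3, 3, pm, cn⟩
/-- data of the chart `mp` -/
def ds_mp : DS := ⟨1, 1, 4, 3, 12, 3, 3, mp, cn⟩
/-- data of the chart `mm` -/
def ds_mm : DS := ⟨1, 1, 4, 3, 12, 3, 3, mm, cn⟩

theorem pp_st : ds_pp.static = true := by decide +kernel
theorem pp_chk : CD.chk 1 1 V5.P B pp = true := by decide +kernel
theorem ok_pp : DSok ds_pp V5.P V5.D 1 1 := dsok_pp par bs rfl rfl pp_st pp_chk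

theorem pm_st : ds_pm.static = true := by decide +kernel
theorem pm_chk : CD.chk 1 (-1) V5.P B pm = true := by decide +kernel
theorem ok_pm : DSok ds_pm V5.P V5.D 1 (-1) := dsok_pm par bs rfl rfl pm_st pm_chk

theorem mp_st : ds_mp.static = true := by decide +kernel
theorem mp_chk : CD.chk (-1) 1 V5.P B mp = true := by decide +kernel
theorem ok_mp : DSok ds_mp V5.P V5.D (-1) 1 := dsok_mp par bs rfl rfl mp_st mp_chk

theorem mm_st : ds_mm.static = true := by decide +kernel
theorem mm_chk : CD.chk (-1) (-1) V5.P B mm = true := by decide +kernel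
theorem ok_mm : DSok ds_mm V5.P V5.D (-1) (-1) := dsok_mm par bs rfl rfl mm_st mm_chk

end Crest.Agent.R097.T5
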