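import Crest.Agent.R097.V5
import Crest.Agent.R097.KA3

/-!
# Row 97, KBA checker: base polynomials of chart S in dimension `n = 5` (generated, helper141)
-/

set_option autoImplicit false
set_option Elab.async false
set_option maxRecDepth 100000

namespace Crest.Agent.R097.T5

open Crest.Agent.R097.KA Crest.Agent.R097.CQ

/-- the base polynomials of chart S -/
def B : BaseP where
  g := [(.ofNat 3675168000, [0, 0, 0, 0, 0]), (.ofNat 3905395200, [0, 0, 0, 0, 1]), (.ofNat 21102681600, [0, 0, 0, 0, 2]), (.ofNat 15738912000, [0, 0, 0, 0, 3]), (.negSucc 4967423999, [0, 0, 0, 1, 0]), (.ofNat 5955667200, [0, 0, 0, 1, 1]), (.negSucc 23930726399, [0, 0, 0, 1, 2]), (.negSucc 10518278399, [0, 0, 0, 1, 3]), (.ofNat 5017420800, [0, 0, 0, 2, 0]), (.negSucc 4163443199, [0, 0, 0, 2, 1]), (.ofNat 3854995200, [0, 0, 0, 2, 2]), (.negSucc 2669990399, [0, 0,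 0, 3, 0]), (.negSucc 4984761599, [0, 0, 0, 3, 1]), (.negSucc 5393606399, [0, 0, 2, 0, 0]), (.negSucc 7947878399, [0, 0, 2, 0, 1]), (.negSucc 15765523199, [0, 0, 2, 0, 2]), (.negSucc 256031999, [0, 0, 2, 0, 3]), (.ofNat 10057420800, [0, 0, 2, 1, 0]), (.negSucc 9164735999, [0, 0, 2, 1, 1]), (.ofNat 15127257600, [0, 0, 2, 1, 2]), (.negSucc 6011308799, [0, 0, 2, 2, 0]), (.ofNat 12090355200, [0, 0, 2, 2, 1]), (.ofNat 1453536000, [0, 0, 2, 3, 0]), (.ofNat 3500582400, [0, 0, 4, 0, 0]), (.ofNat 4019904000, [0, 0, 4, 0, 1]), (.ofNat 141523200, [0, 0, 4, 0, 2]), (.negSucc 7247116799, [0, 0, 4, 1, 0]), (.negSucc 308044799, [0, 0, 4, 1, 1]), (.ofNat 3633235200, [0, 0, 4, 2, 0]), (.ofNat 3239712000, [0, 1, 3, 0, 0]), (.ofNat 12732652800, [0, 1, 3, 0, 1]), (.negSucc 9508262399, [0, 1, 3, 0, 2]), (.ofNat 3313497600, [0, 1, 3, 0, 3]), (.negSucc 13695091199,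 [0, 1, 3, 1, 0]), (.negSucc 13916447999, [0, 1, 3, 1, 1]), (.ofNat 6693120000, [0, 1, 3, 1, 2]), (.ofNat 9847756800, [0, 1, 3, 2, 0]), (.ofNat 5171846400, [0, 1, 3, 2, 1]), (.negSucc 2942956799, [0, 1, 3, 3, 0]), (.negSucc 4801305599, [0, 1, 5, 0, 0]), (.negSucc 1175731199, [0, 1, 5, 0, 1]), (.ofNat 1963987200, [0, 1, 5, 0, 2]), (.ofNat 12335904000, [0, 1, 5, 1, 0]), (.ofNat 3776371200, [0, 1, 5, 1, 1]), (.negSucc 3561465599, [0, 1, 5, 2, 0]), (.ofNat 1897862400, [0, 1, 7, 0, 0]), (.negSucc 4531967999, [0, 1, 7, 0, 1]), (.negSucc 3180441599, [0, 1, 7, 1, 0]), (.ofNat 6633446400, [0, 2, 6, 0, 0]), (.negSucc 4364639999, [0, 2, 6, 0, 1]), (.negSucc 5266195199, [0, 2, 6, 0, 2]), (.negSucc 2338156799, [0, 2, 6, 1, 0]), (.negSucc 2586124799, [0, 2, 6, 1, 1]), (.negSucc 1313222399, [0, 2, 6, 2, 0]), (.negSucc 8155526399, [0, 2, 8, 0, 0]), (.ofNat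 6472972800, [0, 2, 8, 0, 1]), (.ofNat 4369075200, [0, 2, 8, 1, 0]), (.ofNat 1262419200, [0, 2, 10, 0, 0])]
  k11 := [(.ofNat 1225056000, [0, 0, 0, 0, 0]), (.ofNat 1301798400, [0, 0, 0, 0, 1]), (.ofNat 7034227200, [0, 0, 0, 0, 2]), (.ofNat 5246304000, [0, 0, 0, 0, 3]), (.negSucc 1655807999, [0, 0, 0, 1, 0]), (.ofNat 1985222400, [0, 0, 0, 1, 1]), (.negSucc 7976908799, [0, 0, 0, 1, 2]), (.negSucc 3506092799, [0, 0, 0, 1, 3]), (.ofNat 1672473600, [0, 0, 0, 2, 0]), (.negSucc 1387814399, [0, 0, 0, 2, 1]), (.ofNat 1284998400, [0, 0, 0, 2, 2]), (.negSucc 889996799, [0, 0, 0, 3, 0]), (.negSucc 1661587199, [0, 0, 0, 3, 1]), (.negSucc 1797868799, [0, 0, 2, 0, 0]), (.negSucc 2649292799, [0, 0, 2, 0, 1]), (.negSucc 5255174399, [0, 0, 2, 0, 2]), (.negSucc 85343999, [0, 0, 2, 0, 3]), (.ofNat 3352473600, [0, 0, 2, 1, 0]), (.negSucc 3054911999, [0, 0, 2,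 1, 1]), (.ofNat 5042419200, [0, 0, 2, 1, 2]), (.negSucc 2003769599, [0, 0, 2, 2, 0]), (.ofNat 4030118400, [0, 0, 2, 2, 1]), (.ofNat 484512000, [0, 0, 2, 3, 0]), (.ofNat 1166860800, [0, 0, 4, 0, 0]), (.ofNat 1339968000, [0, 0, 4, 0, 1]), (.ofNat 47174400, [0, 0, 4, 0, 2]), (.negSucc 2415705599, [0, 0, 4, 1, 0]), (.negSucc 102681599, [0, 0, 4, 1, 1]), (.ofNat 1211078400, [0, 0, 4, 2, 0]), (.ofNat 1079904000, [0, 1, 3, 0, 0]), (.ofNat 4244217600, [0, 1, 3, 0, 1]), (.negSucc 3169420799, [0, 1, 3, 0, 2]), (.ofNat 1104499200, [0, 1, 3, 0, 3]), (.negSucc 4565030399, [0, 1, 3, 1, 0]), (.negSucc 4638815999, [0, 1, 3, 1, 1]), (.ofNat 2231040000, [0, 1, 3, 1, 2]), (.ofNat 3282585600, [0, 1, 3, 2, 0]), (.ofNat 1723948800, [0, 1, 3, 2, 1]), (.negSucc 980985599, [0, 1, 3, 3, 0]), (.negSucc 1600435199, [0, 1, 5, 0, 0]), (.negSucc 391910399, [0, 1, 5, 0,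 1]), (.ofNat 654662400, [0, 1, 5, 0, 2]), (.ofNat 4111968000, [0, 1, 5, 1, 0]), (.ofNat 1258790400, [0, 1, 5, 1, 1]), (.negSucc 1187155199, [0, 1, 5, 2, 0]), (.ofNat 632620800, [0, 1, 7, 0, 0]), (.negSucc 1510655999, [0, 1, 7, 0, 1]), (.negSucc 1060147199, [0, 1, 7, 1, 0]), (.ofNat 2211148800, [0, 2, 6, 0, 0]), (.negSucc 1454879999, [0, 2, 6, 0, 1]), (.negSucc 1755398399, [0, 2, 6, 0, 2]), (.negSucc 779385599, [0, 2, 6, 1, 0]), (.negSucc 862041599, [0, 2, 6, 1, 1]), (.negSucc 437740799, [0, 2, 6, 2, 0]), (.negSucc 2718508799, [0, 2, 8, 0, 0]), (.ofNat 2157657600, [0, 2, 8, 0, 1]), (.ofNat 1456358400, [0, 2, 8, 1, 0]), (.ofNat 420806400, [0, 2, 10, 0, 0]), (.ofNat 1750080000, [2, 0, 0, 0, 0]), (.ofNat 1859712000, [2, 0, 0, 0, 1]), (.ofNat 10048896000, [2, 0, 0, 0, 2]), (.ofNat 7494720000, [2, 0, 0, 0, 3]), (.negSucc 2365439999, [2, 0, 0,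 1, 0]), (.ofNat 2836032000, [2, 0, 0, 1, 1]), (.negSucc 11395583999, [2, 0, 0, 1, 2]), (.negSucc 5008703999, [2, 0, 0, 1, 3]), (.ofNat 2389248000, [2, 0, 0, 2, 0]), (.negSucc 1982591999, [2, 0, 0, 2, 1]), (.ofNat 1835712000, [2, 0, 0, 2, 2]), (.negSucc 1271423999, [2, 0, 0, 3, 0]), (.negSucc 2373695999, [2, 0, 0, 3, 1]), (.negSucc 2568383999, [2, 0, 2, 0, 0]), (.negSucc 3784703999, [2, 0, 2, 0, 1]), (.negSucc 7507391999, [2, 0, 2, 0, 2]), (.negSucc 121919999, [2, 0, 2, 0, 3]), (.ofNat 4789248000, [2, 0, 2, 1, 0]), (.negSucc 4364159999, [2, 0, 2, 1, 1]), (.ofNat 7203456000, [2, 0, 2, 1, 2]), (.negSucc 2862527999, [2, 0, 2, 2, 0]), (.ofNat 5757312000, [2, 0, 2, 2, 1]), (.ofNat 692160000, [2, 0, 2, 3, 0]), (.ofNat 1666944000, [2, 0, 4, 0, 0]), (.ofNat 1914240000, [2, 0, 4, 0, 1]), (.ofNat 67392000, [2, 0, 4, 0, 2]), (.negSucc 3451007999, [2,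 0, 4, 1, 0]), (.negSucc 146687999, [2, 0, 4, 1, 1]), (.ofNat 1730112000, [2, 0, 4, 2, 0]), (.ofNat 1542720000, [2, 1, 3, 0, 0]), (.ofNat 6063168000, [2, 1, 3, 0, 1]), (.negSucc 4527743999, [2, 1, 3, 0, 2]), (.ofNat 1577856000, [2, 1, 3, 0, 3]), (.negSucc 6521471999, [2, 1, 3, 1, 0]), (.negSucc 6626879999, [2, 1, 3, 1, 1]), (.ofNat 3187200000, [2, 1, 3, 1, 2]), (.ofNat 4689408000, [2, 1, 3, 2, 0]), (.ofNat 2462784000, [2, 1, 3, 2, 1]), (.negSucc 1401407999, [2, 1, 3, 3, 0]), (.negSucc 2286335999, [2, 1, 5, 0, 0]), (.negSucc 559871999, [2, 1, 5, 0, 1]), (.ofNat 935232000, [2, 1, 5, 0, 2]), (.ofNat 5874240000, [2, 1, 5, 1, 0]), (.ofNat 1798272000, [2, 1, 5, 1, 1]), (.negSucc 1695935999, [2, 1, 5, 2, 0]), (.ofNat 903744000, [2, 1, 7, 0, 0]), (.negSucc 2158079999, [2, 1, 7, 0, 1]), (.negSucc 1514495999, [2, 1, 7, 1, 0]), (.ofNat 3158784000, [2,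 2, 6, 0, 0]), (.negSucc 2078399999, [2, 2, 6, 0, 1]), (.negSucc 2507711999, [2, 2, 6, 0, 2]), (.negSucc 1113407999, [2, 2, 6, 1, 0]), (.negSucc 1231487999, [2, 2, 6, 1, 1]), (.negSucc 625343999, [2, 2, 6, 2, 0]), (.negSucc 3883583999, [2, 2, 8, 0, 0]), (.ofNat 3082368000, [2, 2, 8, 0, 1]), (.ofNat 2080512000, [2, 2, 8, 1, 0]), (.ofNat 601152000, [2, 2, 10, 0, 0])]
  k12 := [(.ofNat 1225056000, [0, 1, 0, 0, 0]), (.ofNat 1301798400, [0, 1, 0, 0, 1]), (.ofNat 7034227200, [0, 1, 0, 0, 2]), (.ofNat 5246304000, [0, 1, 0, 0, 3]), (.negSucc 1655807999, [0, 1, 0, 1, 0]), (.ofNat 1985222400, [0, 1, 0, 1, 1]), (.negSucc 7976908799, [0, 1, 0, 1, 2]), (.negSucc 3506092799, [0, 1, 0, 1, 3]), (.ofNat 1672473600, [0, 1, 0, 2, 0]), (.negSucc 1387814399, [0, 1, 0, 2, 1]), (.ofNat 1284998400, [0, 1, 0, 2, 2]), (.negSucc 889996799, [0, 1, 0, 3, 0]), (.negSucc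 1661587199, [0, 1, 0, 3, 1]), (.negSucc 1797868799, [0, 1, 2, 0, 0]), (.negSucc 2649292799, [0, 1, 2, 0, 1]), (.negSucc 5255174399, [0, 1, 2, 0, 2]), (.negSucc 85343999, [0, 1, 2, 0, 3]), (.ofNat 3352473600, [0, 1, 2, 1, 0]), (.negSucc 3054911999, [0, 1, 2, 1, 1]), (.ofNat 5042419200, [0, 1, 2, 1, 2]), (.negSucc 2003769599, [0, 1, 2, 2, 0]), (.ofNat 4030118400, [0, 1, 2, 2, 1]), (.ofNat 484512000, [0, 1, 2, 3, 0]), (.ofNat 1166860800, [0, 1, 4, 0, 0]), (.ofNat 1339968000, [0, 1, 4, 0, 1]), (.ofNat 47174400, [0, 1, 4, 0, 2]), (.negSucc 2415705599, [0, 1, 4, 1, 0]), (.negSucc 102681599, [0, 1, 4, 1, 1]), (.ofNat 1211078400, [0, 1, 4, 2, 0]), (.ofNat 1079904000, [0, 2, 3, 0, 0]), (.ofNat 4244217600, [0, 2, 3, 0, 1]), (.negSucc 3169420799, [0, 2, 3, 0, 2]), (.ofNat 1104499200, [0, 2, 3, 0, 3]), (.negSucc 4565030399, [0, 2, 3, 1, 0]), (.negSucc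 4638815999, [0, 2, 3, 1, 1]), (.ofNat 2231040000, [0, 2, 3, 1, 2]), (.ofNat 3282585600, [0, 2, 3, 2, 0]), (.ofNat 1723948800, [0, 2, 3, 2, 1]), (.negSucc 980985599, [0, 2, 3, 3, 0]), (.negSucc 1600435199, [0, 2, 5, 0, 0]), (.negSucc 391910399, [0, 2, 5, 0, 1]), (.ofNat 654662400, [0, 2, 5, 0, 2]), (.ofNat 4111968000, [0, 2, 5, 1, 0]), (.ofNat 1258790400, [0, 2, 5, 1, 1]), (.negSucc 1187155199, [0, 2, 5, 2, 0]), (.ofNat 632620800, [0, 2, 7, 0, 0]), (.negSucc 1510655999, [0, 2, 7, 0, 1]), (.negSucc 1060147199, [0, 2, 7, 1, 0]), (.ofNat 2211148800, [0, 3, 6, 0, 0]), (.negSucc 1454879999, [0, 3, 6, 0, 1]), (.negSucc 1755398399, [0, 3, 6, 0, 2]), (.negSucc 779385599, [0, 3, 6, 1, 0]), (.negSucc 862041599, [0, 3, 6, 1, 1]), (.negSucc 437740799, [0, 3, 6, 2, 0]), (.negSucc 2718508799, [0, 3, 8, 0, 0]), (.ofNat 2157657600, [0, 3, 8, 0, 1]), (.ofNat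 1456358400, [0, 3, 8, 1, 0]), (.ofNat 420806400, [0, 3, 10, 0, 0]), (.negSucc 350015999, [1, 0, 0, 0, 0]), (.negSucc 371942399, [1, 0, 0, 0, 1]), (.negSucc 2009779199, [1, 0, 0, 0, 2]), (.negSucc 1498943999, [1, 0, 0, 0, 3]), (.ofNat 473088000, [1, 0, 0, 1, 0]), (.negSucc 567206399, [1, 0, 0, 1, 1]), (.ofNat 2279116800, [1, 0, 0, 1, 2]), (.ofNat 1001740800, [1, 0, 0, 1, 3]), (.negSucc 477849599, [1, 0, 0, 2, 0]), (.ofNat 396518400, [1, 0, 0, 2, 1]), (.negSucc 367142399, [1, 0, 0, 2, 2]), (.ofNat 254284800, [1, 0, 0, 3, 0]), (.ofNat 474739200, [1, 0, 0, 3, 1]), (.ofNat 513676800, [1, 0, 2, 0, 0]), (.ofNat 756940800, [1, 0, 2, 0, 1]), (.ofNat 1501478400, [1, 0, 2, 0, 2]), (.ofNat 24384000, [1, 0, 2, 0, 3]), (.negSucc 957849599, [1, 0, 2, 1, 0]), (.ofNat 872832000, [1, 0, 2, 1, 1]), (.negSucc 1440691199, [1, 0, 2, 1, 2]), (.ofNat 572505600,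 [1, 0, 2, 2, 0]), (.negSucc 1151462399, [1, 0, 2, 2, 1]), (.negSucc 138431999, [1, 0, 2, 3, 0]), (.negSucc 333388799, [1, 0, 4, 0, 0]), (.negSucc 382847999, [1, 0, 4, 0, 1]), (.negSucc 13478399, [1, 0, 4, 0, 2]), (.ofNat 690201600, [1, 0, 4, 1, 0]), (.ofNat 29337600, [1, 0, 4, 1, 1]), (.negSucc 346022399, [1, 0, 4, 2, 0]), (.negSucc 308543999, [1, 1, 3, 0, 0]), (.negSucc 1212633599, [1, 1, 3, 0, 1]), (.ofNat 905548800, [1, 1, 3, 0, 2]), (.negSucc 315571199, [1, 1, 3, 0, 3]), (.ofNat 1304294400, [1, 1, 3, 1, 0]), (.ofNat 1325376000, [1, 1, 3, 1, 1]), (.negSucc 637439999, [1, 1, 3, 1, 2]), (.negSucc 937881599, [1, 1, 3, 2, 0]), (.negSucc 492556799, [1, 1, 3, 2, 1]), (.ofNat 280281600, [1, 1, 3, 3, 0]), (.ofNat 457267200, [1, 1, 5, 0, 0]), (.ofNat 111974400, [1, 1, 5, 0, 1]), (.negSucc 187046399, [1, 1, 5, 0, 2]), (.negSucc 1174847999, [1,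 1, 5, 1, 0]), (.negSucc 359654399, [1, 1, 5, 1, 1]), (.ofNat 339187200, [1, 1, 5, 2, 0]), (.negSucc 180748799, [1, 1, 7, 0, 0]), (.ofNat 431616000, [1, 1, 7, 0, 1]), (.ofNat 302899200, [1, 1, 7, 1, 0]), (.negSucc 631756799, [1, 2, 6, 0, 0]), (.ofNat 415680000, [1, 2, 6, 0, 1]), (.ofNat 501542400, [1, 2, 6, 0, 2]), (.ofNat 222681600, [1, 2, 6, 1, 0]), (.ofNat 246297600, [1, 2, 6, 1, 1]), (.ofNat 125068800, [1, 2, 6, 2, 0]), (.ofNat 776716800, [1, 2, 8, 0, 0]), (.negSucc 616473599, [1, 2, 8, 0, 1]), (.negSucc 416102399, [1, 2, 8, 1, 0]), (.negSucc 120230399, [1, 2, 10, 0, 0]), (.ofNat 1750080000, [3, 0, 0, 0, 0]), (.ofNat 1859712000, [3, 0, 0, 0, 1]), (.ofNat 10048896000, [3, 0, 0, 0, 2]), (.ofNat 7494720000, [3, 0, 0, 0, 3]), (.negSucc 2365439999, [3, 0, 0, 1, 0]), (.ofNat 2836032000, [3, 0, 0, 1, 1]), (.negSucc 11395583999, [3, 0, 0, 1,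 2]), (.negSucc 5008703999, [3, 0, 0, 1, 3]), (.ofNat 2389248000, [3, 0, 0, 2, 0]), (.negSucc 1982591999, [3, 0, 0, 2, 1]), (.ofNat 1835712000, [3, 0, 0, 2, 2]), (.negSucc 1271423999, [3, 0, 0, 3, 0]), (.negSucc 2373695999, [3, 0, 0, 3, 1]), (.negSucc 2568383999, [3, 0, 2, 0, 0]), (.negSucc 3784703999, [3, 0, 2, 0, 1]), (.negSucc 7507391999, [3, 0, 2, 0, 2]), (.negSucc 121919999, [3, 0, 2, 0, 3]), (.ofNat 4789248000, [3, 0, 2, 1, 0]), (.negSucc 4364159999, [3, 0, 2, 1, 1]), (.ofNat 7203456000, [3, 0, 2, 1, 2]), (.negSucc 2862527999, [3, 0, 2, 2, 0]), (.ofNat 5757312000, [3, 0, 2, 2, 1]), (.ofNat 692160000, [3, 0, 2, 3, 0]), (.ofNat 1666944000, [3, 0, 4, 0, 0]), (.ofNat 1914240000, [3, 0, 4, 0, 1]), (.ofNat 67392000, [3, 0, 4, 0, 2]), (.negSucc 3451007999, [3, 0, 4, 1, 0]), (.negSucc 146687999, [3, 0, 4, 1, 1]), (.ofNat 1730112000, [3, 0,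 4, 2, 0]), (.ofNat 1542720000, [3, 1, 3, 0, 0]), (.ofNat 6063168000, [3, 1, 3, 0, 1]), (.negSucc 4527743999, [3, 1, 3, 0, 2]), (.ofNat 1577856000, [3, 1, 3, 0, 3]), (.negSucc 6521471999, [3, 1, 3, 1, 0]), (.negSucc 6626879999, [3, 1, 3, 1, 1]), (.ofNat 3187200000, [3, 1, 3, 1, 2]), (.ofNat 4689408000, [3, 1, 3, 2, 0]), (.ofNat 2462784000, [3, 1, 3, 2, 1]), (.negSucc 1401407999, [3, 1, 3, 3, 0]), (.negSucc 2286335999, [3, 1, 5, 0, 0]), (.negSucc 559871999, [3, 1, 5, 0, 1]), (.ofNat 935232000, [3, 1, 5, 0, 2]), (.ofNat 5874240000, [3, 1, 5, 1, 0]), (.ofNat 1798272000, [3, 1, 5, 1, 1]), (.negSucc 1695935999, [3, 1, 5, 2, 0]), (.ofNat 903744000, [3, 1, 7, 0, 0]), (.negSucc 2158079999, [3, 1, 7, 0, 1]), (.negSucc 1514495999, [3, 1, 7, 1, 0]), (.ofNat 3158784000, [3, 2, 6, 0, 0]), (.negSucc 2078399999, [3, 2, 6, 0, 1]), (.negSucc 2507711999, [3,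 2, 6, 0, 2]), (.negSucc 1113407999, [3, 2, 6, 1, 0]), (.negSucc 1231487999, [3, 2, 6, 1, 1]), (.negSucc 625343999, [3, 2, 6, 2, 0]), (.negSucc 3883583999, [3, 2, 8, 0, 0]), (.ofNat 3082368000, [3, 2, 8, 0, 1]), (.ofNat 2080512000, [3, 2, 8, 1, 0]), (.ofNat 601152000, [3, 2, 10, 0, 0])]
  k22 := [(.ofNat 539608000, [0, 0, 0, 0, 0]), (.ofNat 573411200, [0, 0, 0, 0, 1]), (.ofNat 3098409600, [0, 0, 0, 0, 2]), (.ofNat 2310872000, [0, 0, 0, 0, 3]), (.negSucc 729343999, [0, 0, 0, 1, 0]), (.ofNat 874443200, [0, 0, 0, 1, 1]), (.negSucc 3513638399, [0, 0, 0, 1, 2]), (.negSucc 1544350399, [0, 0, 0, 1, 3]), (.ofNat 736684800, [0, 0, 0, 2, 0]), (.negSucc 611299199, [0, 0, 0, 2, 1]), (.ofNat 566011200, [0, 0, 0, 2, 2]), (.negSucc 392022399, [0, 0, 0, 3, 0]), (.negSucc 731889599, [0, 0, 0, 3, 1]), (.negSucc 791918399, [0, 0, 2, 0, 0]), (.negSucc 1166950399,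 [0, 0, 2, 0, 1]), (.negSucc 2314779199, [0, 0, 2, 0, 2]), (.negSucc 37591999, [0, 0, 2, 0, 3]), (.ofNat 1476684800, [0, 0, 2, 1, 0]), (.negSucc 1345615999, [0, 0, 2, 1, 1]), (.ofNat 2221065600, [0, 0, 2, 1, 2]), (.negSucc 882612799, [0, 0, 2, 2, 0]), (.ofNat 1775171200, [0, 0, 2, 2, 1]), (.ofNat 213416000, [0, 0, 2, 3, 0]), (.ofNat 513974400, [0, 0, 4, 0, 0]), (.ofNat 590224000, [0, 0, 4, 0, 1]), (.ofNat 20779200, [0, 0, 4, 0, 2]), (.negSucc 1064060799, [0, 0, 4, 1, 0]), (.negSucc 45228799, [0, 0, 4, 1, 1]), (.ofNat 533451200, [0, 0, 4, 2, 0]), (.ofNat 475672000, [0, 1, 3, 0, 0]), (.ofNat 1869476800, [0, 1, 3, 0, 1]), (.negSucc 1396054399, [0, 1, 3, 0, 2]), (.ofNat 486505600, [0, 1, 3, 0, 3]), (.negSucc 2010787199, [0, 1, 3, 1, 0]), (.negSucc 2043287999, [0, 1, 3, 1, 1]), (.ofNat 982720000, [0, 1, 3, 1, 2]), (.ofNat 1445900800, [0, 1, 3,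 2, 0]), (.ofNat 759358400, [0, 1, 3, 2, 1]), (.negSucc 432100799, [0, 1, 3, 3, 0]), (.negSucc 704953599, [0, 1, 5, 0, 0]), (.negSucc 172627199, [0, 1, 5, 0, 1]), (.ofNat 288363200, [0, 1, 5, 0, 2]), (.ofNat 1811224000, [0, 1, 5, 1, 0]), (.ofNat 554467200, [0, 1, 5, 1, 1]), (.negSucc 522913599, [0, 1, 5, 2, 0]), (.ofNat 278654400, [0, 1, 7, 0, 0]), (.negSucc 665407999, [0, 1, 7, 0, 1]), (.negSucc 466969599, [0, 1, 7, 1, 0]), (.ofNat 973958400, [0, 2, 6, 0, 0]), (.negSucc 640839999, [0, 2, 6, 0, 1]), (.negSucc 773211199, [0, 2, 6, 0, 2]), (.negSucc 343300799, [0, 2, 6, 1, 0]), (.negSucc 379708799, [0, 2, 6, 1, 1]), (.negSucc 192814399, [0, 2, 6, 2, 0]), (.negSucc 1197438399, [0, 2, 8, 0, 0]), (.ofNat 950396800, [0, 2, 8, 0, 1]), (.ofNat 641491200, [0, 2, 8, 1, 0]), (.ofNat 185355200, [0, 2, 10, 0, 0]), (.negSucc 1225055999, [1, 1, 0, 0, 0]),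 (.negSucc 1301798399, [1, 1, 0, 0, 1]), (.negSucc 7034227199, [1, 1, 0, 0, 2]), (.negSucc 5246303999, [1, 1, 0, 0, 3]), (.ofNat 1655808000, [1, 1, 0, 1, 0]), (.negSucc 1985222399, [1, 1, 0, 1, 1]), (.ofNat 7976908800, [1, 1, 0, 1, 2]), (.ofNat 3506092800, [1, 1, 0, 1, 3]), (.negSucc 1672473599, [1, 1, 0, 2, 0]), (.ofNat 1387814400, [1, 1, 0, 2, 1]), (.negSucc 1284998399, [1, 1, 0, 2, 2]), (.ofNat 889996800, [1, 1, 0, 3, 0]), (.ofNat 1661587200, [1, 1, 0, 3, 1]), (.ofNat 1797868800, [1, 1, 2, 0, 0]), (.ofNat 2649292800, [1, 1, 2, 0, 1]), (.ofNat 5255174400, [1, 1, 2, 0, 2]), (.ofNat 85344000, [1, 1, 2, 0, 3]), (.negSucc 3352473599, [1, 1, 2, 1, 0]), (.ofNat 3054912000, [1, 1, 2, 1, 1]), (.negSucc 5042419199, [1, 1, 2, 1, 2]), (.ofNat 2003769600, [1, 1, 2, 2, 0]), (.negSucc 4030118399, [1, 1, 2, 2, 1]), (.negSucc 484511999, [1, 1, 2, 3, 0]),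 (.negSucc 1166860799, [1, 1, 4, 0, 0]), (.negSucc 1339967999, [1, 1, 4, 0, 1]), (.negSucc 47174399, [1, 1, 4, 0, 2]), (.ofNat 2415705600, [1, 1, 4, 1, 0]), (.ofNat 102681600, [1, 1, 4, 1, 1]), (.negSucc 1211078399, [1, 1, 4, 2, 0]), (.negSucc 1079903999, [1, 2, 3, 0, 0]), (.negSucc 4244217599, [1, 2, 3, 0, 1]), (.ofNat 3169420800, [1, 2, 3, 0, 2]), (.negSucc 1104499199, [1, 2, 3, 0, 3]), (.ofNat 4565030400, [1, 2, 3, 1, 0]), (.ofNat 4638816000, [1, 2, 3, 1, 1]), (.negSucc 2231039999, [1, 2, 3, 1, 2]), (.negSucc 3282585599, [1, 2, 3, 2, 0]), (.negSucc 1723948799, [1, 2, 3, 2, 1]), (.ofNat 980985600, [1, 2, 3, 3, 0]), (.ofNat 1600435200, [1, 2, 5, 0, 0]), (.ofNat 391910400, [1, 2, 5, 0, 1]), (.negSucc 654662399, [1, 2, 5, 0, 2]), (.negSucc 4111967999, [1, 2, 5, 1, 0]), (.negSucc 1258790399, [1, 2, 5, 1, 1]), (.ofNat 1187155200, [1, 2, 5, 2,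 0]), (.negSucc 632620799, [1, 2, 7, 0, 0]), (.ofNat 1510656000, [1, 2, 7, 0, 1]), (.ofNat 1060147200, [1, 2, 7, 1, 0]), (.negSucc 2211148799, [1, 3, 6, 0, 0]), (.ofNat 1454880000, [1, 3, 6, 0, 1]), (.ofNat 1755398400, [1, 3, 6, 0, 2]), (.ofNat 779385600, [1, 3, 6, 1, 0]), (.ofNat 862041600, [1, 3, 6, 1, 1]), (.ofNat 437740800, [1, 3, 6, 2, 0]), (.ofNat 2718508800, [1, 3, 8, 0, 0]), (.negSucc 2157657599, [1, 3, 8, 0, 1]), (.negSucc 1456358399, [1, 3, 8, 1, 0]), (.negSucc 420806399, [1, 3, 10, 0, 0]), (.negSucc 2945967999, [2, 0, 0, 0, 0]), (.negSucc 3130515199, [2, 0, 0, 0, 1]), (.negSucc 16915641599, [2, 0, 0, 0, 2]), (.negSucc 12616111999, [2, 0, 0, 0, 3]), (.ofNat 3981824000, [2, 0, 0, 1, 0]), (.negSucc 4773987199, [2, 0, 0, 1, 1]), (.ofNat 19182566400, [2, 0, 0, 1, 2]), (.ofNat 8431318400, [2, 0, 0, 1, 3]), (.negSucc 4021900799, [2, 0,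 0, 2, 0]), (.ofNat 3337363200, [2, 0, 0, 2, 1]), (.negSucc 3090115199, [2, 0, 0, 2, 2]), (.ofNat 2140230400, [2, 0, 0, 3, 0]), (.ofNat 3995721600, [2, 0, 0, 3, 1]), (.ofNat 4323446400, [2, 0, 2, 0, 0]), (.ofNat 6370918400, [2, 0, 2, 0, 1]), (.ofNat 12637443200, [2, 0, 2, 0, 2]), (.ofNat 205232000, [2, 0, 2, 0, 3]), (.negSucc 8061900799, [2, 0, 2, 1, 0]), (.ofNat 7346336000, [2, 0, 2, 1, 1]), (.negSucc 12125817599, [2, 0, 2, 1, 2]), (.ofNat 4818588800, [2, 0, 2, 2, 0]), (.negSucc 9691475199, [2, 0, 2, 2, 1]), (.negSucc 1165135999, [2, 0, 2, 3, 0]), (.negSucc 2806022399, [2, 0, 4, 0, 0]), (.negSucc 3222303999, [2, 0, 4, 0, 1]), (.negSucc 113443199, [2, 0, 4, 0, 2]), (.ofNat 5809196800, [2, 0, 4, 1, 0]), (.ofNat 246924800, [2, 0, 4, 1, 1]), (.negSucc 2912355199, [2, 0, 4, 2, 0]), (.negSucc 2596911999, [2, 1, 3, 0, 0]), (.negSucc 10206332799,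 [2, 1, 3, 0, 1]), (.ofNat 7621702400, [2, 1, 3, 0, 2]), (.negSucc 2656057599, [2, 1, 3, 0, 3]), (.ofNat 10977811200, [2, 1, 3, 1, 0]), (.ofNat 11155248000, [2, 1, 3, 1, 1]), (.negSucc 5365119999, [2, 1, 3, 1, 2]), (.negSucc 7893836799, [2, 1, 3, 2, 0]), (.negSucc 4145686399, [2, 1, 3, 2, 1]), (.ofNat 2359036800, [2, 1, 3, 3, 0]), (.ofNat 3848665600, [2, 1, 5, 0, 0]), (.ofNat 942451200, [2, 1, 5, 0, 1]), (.negSucc 1574307199, [2, 1, 5, 0, 2]), (.negSucc 9888303999, [2, 1, 5, 1, 0]), (.negSucc 3027091199, [2, 1, 5, 1, 1]), (.ofNat 2854825600, [2, 1, 5, 2, 0]), (.negSucc 1521302399, [2, 1, 7, 0, 0]), (.ofNat 3632768000, [2, 1, 7, 0, 1]), (.ofNat 2549401600, [2, 1, 7, 1, 0]), (.negSucc 5317286399, [2, 2, 6, 0, 0]), (.ofNat 3498640000, [2, 2, 6, 0, 1]), (.ofNat 4221315200, [2, 2, 6, 0, 2]), (.ofNat 1874236800, [2, 2, 6, 1, 0]), (.ofNat 2073004800,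 [2, 2, 6, 1, 1]), (.ofNat 1052662400, [2, 2, 6, 2, 0]), (.ofNat 6537366400, [2, 2, 8, 0, 0]), (.negSucc 5188652799, [2, 2, 8, 0, 1]), (.negSucc 3502195199, [2, 2, 8, 1, 0]), (.negSucc 1011939199, [2, 2, 10, 0, 0]), (.ofNat 5833600000, [4, 0, 0, 0, 0]), (.ofNat 6199040000, [4, 0, 0, 0, 1]), (.ofNat 33496320000, [4, 0, 0, 0, 2]), (.ofNat 24982400000, [4, 0, 0, 0, 3]), (.negSucc 7884799999, [4, 0, 0, 1, 0]), (.ofNat 9453440000, [4, 0, 0, 1, 1]), (.negSucc 37985279999, [4, 0, 0, 1, 2]), (.negSucc 16695679999, [4, 0, 0, 1, 3]), (.ofNat 7964160000, [4, 0, 0, 2, 0]), (.negSucc 6608639999, [4, 0, 0, 2, 1]), (.ofNat 6119040000, [4, 0, 0, 2, 2]), (.negSucc 4238079999, [4, 0, 0, 3, 0]), (.negSucc 7912319999, [4, 0, 0, 3, 1]), (.negSucc 8561279999, [4, 0, 2, 0, 0]), (.negSucc 12615679999, [4, 0, 2, 0, 1]), (.negSucc 25024639999, [4, 0, 2, 0, 2]), (.negSucc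 406399999, [4, 0, 2, 0, 3]), (.ofNat 15964160000, [4, 0, 2, 1, 0]), (.negSucc 14547199999, [4, 0, 2, 1, 1]), (.ofNat 24011520000, [4, 0, 2, 1, 2]), (.negSucc 9541759999, [4, 0, 2, 2, 0]), (.ofNat 19191040000, [4, 0, 2, 2, 1]), (.ofNat 2307200000, [4, 0, 2, 3, 0]), (.ofNat 5556480000, [4, 0, 4, 0, 0]), (.ofNat 6380800000, [4, 0, 4, 0, 1]), (.ofNat 224640000, [4, 0, 4, 0, 2]), (.negSucc 11503359999, [4, 0, 4, 1, 0]), (.negSucc 488959999, [4, 0, 4, 1, 1]), (.ofNat 5767040000, [4, 0, 4, 2, 0]), (.ofNat 5142400000, [4, 1, 3, 0, 0]), (.ofNat 20210560000, [4, 1, 3, 0, 1]), (.negSucc 15092479999, [4, 1, 3, 0, 2]), (.ofNat 5259520000, [4, 1, 3, 0, 3]), (.negSucc 21738239999, [4, 1, 3, 1, 0]), (.negSucc 22089599999, [4, 1, 3, 1, 1]), (.ofNat 10624000000, [4, 1, 3, 1, 2]), (.ofNat 15631360000, [4, 1, 3, 2, 0]), (.ofNat 8209280000, [4, 1, 3, 2, 1]),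 (.negSucc 4671359999, [4, 1, 3, 3, 0]), (.negSucc 7621119999, [4, 1, 5, 0, 0]), (.negSucc 1866239999, [4, 1, 5, 0, 1]), (.ofNat 3117440000, [4, 1, 5, 0, 2]), (.ofNat 19580800000, [4, 1, 5, 1, 0]), (.ofNat 5994240000, [4, 1, 5, 1, 1]), (.negSucc 5653119999, [4, 1, 5, 2, 0]), (.ofNat 3012480000, [4, 1, 7, 0, 0]), (.negSucc 7193599999, [4, 1, 7, 0, 1]), (.negSucc 5048319999, [4, 1, 7, 1, 0]), (.ofNat 10529280000, [4, 2, 6, 0, 0]), (.negSucc 6927999999, [4, 2, 6, 0, 1]), (.negSucc 8359039999, [4, 2, 6, 0, 2]), (.negSucc 3711359999, [4, 2, 6, 1, 0]), (.negSucc 4104959999, [4, 2, 6, 1, 1]), (.negSucc 2084479999, [4, 2, 6, 2, 0]), (.negSucc 12945279999, [4, 2, 8, 0, 0]), (.ofNat 10274560000, [4, 2, 8, 0, 1]), (.ofNat 6935040000, [4, 2, 8, 1, 0]), (.ofNat 2003840000, [4, 2, 10, 0, 0])]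
  C0 := [(.ofNat 256011840, [0, 0, 0, 0, 0]), (.ofNat 48504056832, [0, 0, 0, 0, 1]), (.negSucc 76934027519, [0, 0, 0, 0, 2]), (.negSucc 15525615167, [0, 0, 0, 0, 3]), (.negSucc 33189004799, [0, 0, 0, 0, 4]), (.negSucc 13108781951, [0, 0, 0, 1, 0]), (.negSucc 5702110847, [0, 0, 0, 1, 1]), (.ofNat 30064624128, [0, 0, 0, 1, 2]), (.ofNat 129610587456, [0, 0, 0, 1, 3]), (.ofNat 7515648000, [0, 0, 0, 1, 4]), (.ofNat 18918264960, [0, 0, 0, 2, 0]), (.negSucc 56026676159, [0, 0, 0, 2, 1]), (.ofNat 69331131072, [0, 0, 0, 2, 2]), (.negSucc 83395468799, [0, 0, 0, 2, 3]), (.negSucc 6512800895, [0, 0, 0, 3, 0]), (.ofNat 15164896320, [0, 0, 0, 3, 1]), (.negSucc 21476447999, [0, 0, 0, 3, 2]), (.ofNat 1053464832, [0, 0, 2, 0, 0]), (.negSucc 135945625535, [0, 0, 2, 0, 1]), (.ofNat 184798285056, [0, 0, 2, 0, 2]), (.ofNat 149311403136, [0, 0, 2, 0, 3]), (.negSucc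 26516851199, [0, 0, 2, 0, 4]), (.ofNat 15466074624, [0, 0, 2, 1, 0]), (.ofNat 19109260800, [0, 0, 2, 1, 1]), (.negSucc 101182257791, [0, 0, 2, 1, 2]), (.negSucc 213215720255, [0, 0, 2, 1, 3]), (.negSucc 7515647999, [0, 0, 2, 1, 4]), (.negSucc 51450723071, [0, 0, 2, 2, 0]), (.ofNat 170148787200, [0, 0, 2, 2, 1]), (.negSucc 77108859071, [0, 0, 2, 2, 2]), (.ofNat 83395468800, [0, 0, 2, 2, 3]), (.ofNat 35222902848, [0, 0, 2, 3, 0]), (.negSucc 52012537919, [0, 0, 2, 3, 1]), (.ofNat 21476448000, [0, 0, 2, 3, 2]), (.negSucc 6990302591, [0, 0, 4, 0, 0]), (.ofNat 117757579968, [0, 0, 4, 0, 1]), (.negSucc 161607922559, [0, 0, 4, 0, 2]), (.negSucc 107664475967, [0, 0, 4, 0, 3]), (.ofNat 59705856000, [0, 0, 4, 0, 4]), (.ofNat 12944691648, [0, 0, 4, 1, 0]), (.negSucc 88918466111, [0, 0, 4, 1, 1]), (.ofNat 162600488064, [0, 0, 4, 1, 2]), (.ofNat 92895667200,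 [0, 0, 4, 1, 3]), (.ofNat 14447430144, [0, 0, 4, 2, 0]), (.negSucc 68271013439, [0, 0, 4, 2, 1]), (.ofNat 6595948800, [0, 0, 4, 2, 2]), (.negSucc 20624329151, [0, 0, 4, 3, 0]), (.ofNat 43792358400, [0, 0, 4, 3, 1]), (.ofNat 9069721920, [0, 0, 6, 0, 0]), (.negSucc 39455748863, [0, 0, 6, 0, 1]), (.ofNat 67459722624, [0, 0, 6, 0, 2]), (.negSucc 15984863999, [0, 0, 6, 0, 3]), (.negSucc 13296064319, [0, 0, 6, 1, 0]), (.ofNat 64530567360, [0, 0, 6, 1, 1]), (.negSucc 76001183999, [0, 0, 6, 1, 2]), (.ofNat 6044266368, [0, 0, 6, 2, 0]), (.negSucc 30368620799, [0, 0, 6, 2, 1]), (.ofNat 2253779136, [0, 1, 1, 0, 0]), (.ofNat 39061963584, [0, 1, 1, 0, 1]), (.negSucc 69610044671, [0, 1, 1, 0, 2]), (.negSucc 74078174015, [0, 1, 1, 0, 3]), (.ofNat 49589568000, [0, 1, 1, 0, 4]), (.negSucc 17273600063, [0, 1, 1, 1, 0]), (.ofNat 51027790464, [0, 1, 1, 1, 1]),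 (.ofNat 38328155712, [0, 1, 1, 1, 2]), (.ofNat 87548832000, [0, 1, 1, 1, 3]), (.ofNat 21702973824, [0, 1, 1, 2, 0]), (.negSucc 151159228415, [0, 1, 1, 2, 1]), (.ofNat 17569036800, [0, 1, 1, 2, 2]), (.negSucc 6108633215, [0, 1, 1, 3, 0]), (.ofNat 60856992000, [0, 1, 1, 3, 1]), (.negSucc 10375085951, [0, 1, 3, 0, 0]), (.ofNat 6606238464, [0, 1, 3, 0, 1]), (.negSucc 21446619263, [0, 1, 3, 0, 2]), (.ofNat 197309399616, [0, 1, 3, 0, 3]), (.negSucc 54238463999, [0, 1, 3, 0, 4]), (.ofNat 4962105792, [0, 1, 3, 1, 0]), (.negSucc 151982836991, [0, 1, 3, 1, 1]), (.negSucc 36887925311, [0, 1, 3, 1, 2]), (.negSucc 92894860799, [0, 1, 3, 1, 3]), (.ofNat 6155763264, [0, 1, 3, 2, 0]), (.ofNat 245321346816, [0, 1, 3, 2, 1]), (.negSucc 10326355199, [0, 1, 3, 2, 2]), (.negSucc 6594182783, [0, 1, 3, 3, 0]), (.negSucc 74589580799, [0, 1, 3, 3, 1]), (.negSucc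 7000435007, [0, 1, 5, 0, 0]), (.negSucc 46355754815, [0, 1, 5, 0, 1]), (.ofNat 130552119936, [0, 1, 5, 0, 2]), (.negSucc 107741894399, [0, 1, 5, 0, 3]), (.ofNat 4648896000, [0, 1, 5, 0, 4]), (.ofNat 50923510848, [0, 1, 5, 1, 0]), (.ofNat 117698732928, [0, 1, 5, 1, 1]), (.negSucc 5839142399, [0, 1, 5, 1, 2]), (.ofNat 15482476800, [0, 1, 5, 1, 3]), (.negSucc 47714724287, [0, 1, 5, 2, 0]), (.negSucc 91603814399, [0, 1, 5, 2, 1]), (.negSucc 1261612799, [0, 1, 5, 2, 2]), (.ofNat 14714784000, [0, 1, 5, 3, 0]), (.ofNat 9494956800, [0, 1, 5, 3, 1]), (.ofNat 30968711424, [0, 1, 7, 0, 0]), (.negSucc 42526616831, [0, 1, 7, 0, 1]), (.negSucc 71819596799, [0, 1, 7, 0, 2]), (.ofNat 15473203200, [0, 1, 7, 0, 3]), (.negSucc 62363722175, [0, 1, 7, 1, 0]), (.ofNat 12870547200, [0, 1, 7, 1, 1]), (.ofNat 706406400, [0, 1, 7, 1, 2]), (.ofNat 17807328000, [0,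 1, 7, 2, 0]), (.negSucc 4394879999, [0, 1, 7, 2, 1]), (.negSucc 9489311999, [0, 1, 9, 0, 0]), (.ofNat 31756838400, [0, 1, 9, 0, 1]), (.ofNat 2273644800, [0, 1, 9, 0, 2]), (.ofNat 15902208000, [0, 1, 9, 1, 0]), (.negSucc 10343692799, [0, 1, 9, 1, 1]), (.ofNat 7550573184, [0, 2, 4, 0, 0]), (.ofNat 754137216, [0, 2, 4, 0, 1]), (.negSucc 91540407167, [0, 2, 4, 0, 2]), (.ofNat 44948736000, [0, 2, 4, 0, 3]), (.negSucc 10725325631, [0, 2, 4, 1, 0]), (.ofNat 77333574528, [0, 2, 4, 1, 1]), (.ofNat 48978316800, [0, 2, 4, 1, 2]), (.negSucc 6001075583, [0, 2, 4, 2, 0]), (.negSucc 27151084799, [0, 2, 4, 2, 1]), (.ofNat 9494956800, [0, 2, 4, 3, 0]), (.ofNat 27446158656, [0, 2, 6, 0, 0]), (.negSucc 21748200767, [0, 2, 6, 0, 1]), (.ofNat 69220464768, [0, 2, 6, 0, 2]), (.negSucc 40001471999, [0, 2, 6, 0, 3]), (.negSucc 11950025471, [0, 2, 6, 1, 0]), (.negSucc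 91285907327, [0, 2, 6, 1, 1]), (.negSucc 26544671999, [0, 2, 6, 1, 2]), (.negSucc 6739641215, [0, 2, 6, 2, 0]), (.ofNat 22447756800, [0, 2, 6, 2, 1]), (.negSucc 70626185279, [0, 2, 8, 0, 0]), (.ofNat 56972405952, [0, 2, 8, 0, 1]), (.ofNat 13008038400, [0, 2, 8, 0, 2]), (.negSucc 298367999, [0, 2, 8, 0, 3]), (.ofNat 37693744704, [0, 2, 8, 1, 0]), (.ofNat 21651033600, [0, 2, 8, 1, 1]), (.negSucc 6951167999, [0, 2, 8, 1, 2]), (.ofNat 6566112000, [0, 2, 8, 2, 0]), (.ofNat 3441715200, [0, 2, 8, 2, 1]), (.ofNat 44312768640, [0, 2, 10, 0, 0]), (.negSucc 50637081599, [0, 2, 10, 0, 1]), (.ofNat 3061900800, [0, 2, 10, 0, 2]), (.negSucc 21845375999, [0, 2, 10, 1, 0]), (.ofNat 9201830400, [0, 2, 10, 1, 1]), (.negSucc 6312095999, [0, 2, 12, 0, 0]), (.ofNat 4178361600, [0, 2, 12, 0, 1]), (.ofNat 9489715200, [0, 3, 7, 0, 0]), (.ofNat 1661587200, [0, 3,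 7, 0, 1]), (.negSucc 298367999, [0, 3, 7, 0, 2]), (.negSucc 11575871999, [0, 3, 7, 1, 0]), (.negSucc 6951167999, [0, 3, 7, 1, 1]), (.ofNat 3441715200, [0, 3, 7, 2, 0]), (.negSucc 14660351999, [0, 3, 9, 0, 0]), (.ofNat 3061900800, [0, 3, 9, 0, 1]), (.ofNat 9201830400, [0, 3, 9, 1, 0]), (.ofNat 4178361600, [0, 3, 11, 0, 0])]
  Ck := [(.ofNat 32480179200, [0, 0, 0, 0, 0]), (.ofNat 31495564800, [0, 0, 0, 0, 1]), (.ofNat 1334188800, [0, 0, 0, 0, 2]), (.negSucc 30818591999, [0, 0, 0, 1, 0]), (.negSucc 61929100799, [0, 0, 0, 1, 1]), (.negSucc 10591257599, [0, 0, 0, 1, 2]), (.negSucc 6223795199, [0, 0, 0, 2, 0]), (.ofNat 30965760000, [0, 0, 0, 2, 1]), (.ofNat 5142816000, [0, 0, 0, 3, 0]), (.negSucc 36664185599, [0, 0, 2, 0, 0]), (.negSucc 5790758399, [0, 0, 2, 0, 1]), (.ofNat 45113241600, [0, 0, 2, 0, 2]), (.ofNat 43352870400, [0, 0, 2, 1, 0]),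 (.ofNat 30965760000, [0, 0, 2, 1, 1]), (.negSucc 1777305599, [0, 0, 2, 2, 0]), (.ofNat 10591257600, [0, 0, 4, 0, 0]), (.negSucc 12587097599, [0, 0, 4, 0, 1]), (.negSucc 13934995199, [0, 0, 4, 1, 0]), (.ofNat 21708691200, [0, 1, 1, 0, 0]), (.ofNat 27942566400, [0, 1, 1, 0, 1]), (.negSucc 29753740799, [0, 1, 1, 0, 2]), (.negSucc 18194399999, [0, 1, 1, 1, 0]), (.negSucc 30964953599, [0, 1, 1, 1, 1]), (.negSucc 2317593599, [0, 1, 1, 2, 0]), (.ofNat 397958400, [0, 1, 3, 0, 0]), (.negSucc 18132710399, [0, 1, 3, 0, 1]), (.ofNat 2711520000, [0, 1, 3, 1, 0]), (.negSucc 7940217599, [0, 1, 5, 0, 0]), (.ofNat 13762425600, [0, 2, 4, 0, 0]), (.negSucc 16119935999, [0, 2, 4, 0, 1]), (.negSucc 6699167999, [0, 2, 4, 1, 0]), (.negSucc 2384524799, [0, 2, 6, 0, 0]), (.negSucc 19574553599, [1, 0, 1, 0, 0]), (.ofNat 16323148800, [1, 0, 1, 0, 1]), (.negSucc 25762060799,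 [1, 0, 1, 0, 2]), (.negSucc 7060838399, [1, 0, 1, 0, 3]), (.ofNat 62320608000, [1, 0, 1, 1, 0]), (.ofNat 37033920000, [1, 0, 1, 1, 1]), (.ofNat 89803123200, [1, 0, 1, 1, 2]), (.negSucc 40737715199, [1, 0, 1, 2, 0]), (.ofNat 28493337600, [1, 0, 1, 2, 1]), (.ofNat 6944716800, [1, 0, 1, 3, 0]), (.ofNat 15787296000, [1, 0, 3, 0, 0]), (.ofNat 16614259200, [1, 0, 3, 0, 1]), (.ofNat 25208064000, [1, 0, 3, 0, 2]), (.negSucc 48888403199, [1, 0, 3, 1, 0]), (.negSucc 38074982399, [1, 0, 3, 1, 1]), (.ofNat 42261408000, [1, 0, 3, 2, 0]), (.ofNat 3570336000, [1, 0, 5, 0, 0]), (.negSucc 8306726399, [1, 0, 5, 0, 1]), (.negSucc 14261990399, [1, 0, 5, 1, 0]), (.negSucc 35588044799, [1, 1, 2, 0, 0]), (.negSucc 68186764799, [1, 1, 2, 0, 1]), (.ofNat 15475219200, [1, 1, 2, 0, 2]), (.ofNat 140144256000, [1, 1, 2, 1, 0]), (.ofNat 14309568000, [1, 1, 2, 1, 1]),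 (.negSucc 76691059199, [1, 1, 2, 2, 0]), (.ofNat 29106604800, [1, 1, 4, 0, 0]), (.ofNat 8085772800, [1, 1, 4, 0, 1]), (.negSucc 62734291199, [1, 1, 4, 1, 0]), (.negSucc 5787935999, [1, 1, 6, 0, 0]), (.negSucc 11106547199, [1, 2, 5, 0, 0]), (.ofNat 3894105600, [1, 2, 5, 0, 1]), (.ofNat 22130438400, [1, 2, 5, 1, 0]), (.negSucc 3671539199, [1, 2, 7, 0, 0]), (.ofNat 55487174400, [2, 0, 0, 0, 0]), (.ofNat 30965760000, [2, 0, 0, 0, 1]), (.ofNat 92896070400, [2, 0, 0, 0, 2]), (.negSucc 83706335999, [2, 0, 0, 1, 0]), (.negSucc 61927487999, [2, 0, 0, 1, 1]), (.ofNat 30409344000, [2, 0, 0, 1, 2]), (.ofNat 45350323200, [2, 0, 0, 2, 0]), (.ofNat 11962137600, [2, 0, 0, 2, 1]), (.negSucc 4237631999, [2, 0, 0, 3, 0]), (.negSucc 71768390399, [2, 0, 2, 0, 0]), (.negSucc 52928063999, [2, 0, 2, 0, 1]), (.ofNat 15480460800, [2, 0, 2, 0, 2]), (.ofNat 18581068800,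 [2, 0, 2, 0, 3]), (.ofNat 87581491200, [2, 0, 2, 1, 0]), (.ofNat 129701376000, [2, 0, 2, 1, 1]), (.negSucc 4727116799, [2, 0, 2, 1, 2]), (.negSucc 94751999, [2, 0, 2, 2, 0]), (.ofNat 41668300800, [2, 0, 2, 2, 1]), (.ofNat 22696934400, [2, 0, 4, 0, 0]), (.negSucc 61930713599, [2, 0, 4, 0, 1]), (.negSucc 30965759999, [2, 0, 4, 0, 2]), (.negSucc 48246105599, [2, 0, 4, 1, 0]), (.negSucc 36808934399, [2, 0, 4, 1, 1]), (.ofNat 30965760000, [2, 0, 6, 0, 1]), (.ofNat 62739936000, [2, 1, 3, 0, 0]), (.ofNat 1182988800, [2, 1, 3, 0, 1]), (.ofNat 37526630400, [2, 1, 3, 0, 2]), (.negSucc 59778028799, [2, 1, 3, 1, 0]), (.ofNat 36654912000, [2, 1, 3, 1, 1]), (.ofNat 35836819200, [2, 1, 3, 2, 0]), (.negSucc 61372281599, [2, 1, 5, 0, 0]), (.negSucc 18547199, [2, 1, 5, 0, 1]), (.ofNat 13329792000, [2, 1, 5, 1, 0]), (.ofNat 7464441600, [2, 1, 7, 0, 0]), (.negSucc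 7829740799, [2, 2, 6, 0, 0]), (.ofNat 2240985600, [2, 2, 6, 0, 1]), (.ofNat 30228710400, [2, 2, 6, 1, 0]), (.negSucc 7538227199, [2, 2, 8, 0, 0]), (.negSucc 27669196799, [3, 0, 1, 0, 0]), (.negSucc 25837862399, [3, 0, 1, 0, 1]), (.negSucc 61927487999, [3, 0, 1, 0, 2]), (.ofNat 20272896000, [3, 0, 1, 0, 3]), (.ofNat 81107712000, [3, 0, 1, 1, 0]), (.negSucc 74966169599, [3, 0, 1, 1, 1]), (.ofNat 23924275200, [3, 0, 1, 1, 2]), (.negSucc 30462566399, [3, 0, 1, 2, 0]), (.negSucc 25425791999, [3, 0, 1, 2, 1]), (.ofNat 24373440000, [3, 0, 3, 0, 0]), (.ofNat 46074470400, [3, 0, 3, 0, 1]), (.ofNat 30962534400, [3, 0, 3, 0, 2]), (.negSucc 54622310399, [3, 0, 3, 1, 0]), (.ofNat 61929907200, [3, 0, 3, 1, 1]), (.ofNat 5435942400, [3, 0, 3, 2, 0]), (.negSucc 27669196799, [3, 0, 5, 0, 0]), (.negSucc 12652415999, [3, 0, 5, 0, 1]), (.ofNat 27249868800, [3,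 0, 5, 1, 0]), (.negSucc 45214847999, [3, 1, 4, 0, 0]), (.ofNat 29550528000, [3, 1, 4, 0, 1]), (.ofNat 30964953600, [3, 1, 4, 0, 2]), (.negSucc 44298777599, [3, 1, 4, 1, 0]), (.negSucc 5046451199, [3, 1, 4, 1, 1]), (.ofNat 56969740800, [3, 1, 4, 2, 0]), (.ofNat 72339724800, [3, 1, 6, 0, 0]), (.ofNat 1412812800, [3, 1, 6, 0, 1]), (.negSucc 17579519999, [3, 1, 6, 1, 0]), (.negSucc 20687385599, [3, 1, 8, 0, 0]), (.negSucc 23151743999, [3, 2, 7, 0, 0]), (.negSucc 13902335999, [3, 2, 7, 0, 1]), (.ofNat 13766860800, [3, 2, 7, 1, 0]), (.ofNat 18403660800, [3, 2, 9, 0, 0])]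
  L1 := [(.negSucc 8295033599, [0, 0, 0, 0, 0]), (.ofNat 140534956800, [0, 0, 0, 0, 1]), (.ofNat 94195180800, [0, 0, 0, 0, 2]), (.ofNat 31854816000, [0, 0, 0, 0, 3]), (.ofNat 3883219200, [0, 0, 0, 1, 0]), (.negSucc 122417567999, [0, 0, 0, 1, 1]), (.negSucc 124447679999, [0, 0, 0, 1, 2]), (.ofNat 3075609600, [0, 0, 0, 1, 3]), (.ofNat 37281484800, [0, 0, 0, 2, 0]), (.negSucc 23479142399, [0, 0, 0, 2, 1]), (.ofNat 36946828800, [0, 0, 0, 2, 2]), (.negSucc 31869331199, [0, 0, 0, 3, 0]), (.ofNat 6048000000, [0, 0, 0, 3, 1]), (.negSucc 8506713599, [0, 0, 2, 0, 0]), (.negSucc 192155846399, [0, 0, 2, 0, 1]), (.negSucc 27302687999, [0, 0, 2, 0, 2]), (.ofNat 46002297600, [0, 0, 2, 0, 3]), (.negSucc 23526316799, [0, 0, 2, 1, 0]), (.ofNat 195884640000, [0, 0, 2, 1, 1]), (.ofNat 15483686400, [0, 0, 2, 1, 2]), (.negSucc 10591257599, [0, 0, 2, 1, 3]), (.negSucc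 4005388799, [0, 0, 2, 2, 0]), (.ofNat 2149459200, [0, 0, 2, 2, 1]), (.ofNat 30965760000, [0, 0, 2, 2, 2]), (.ofNat 35215084800, [0, 0, 2, 3, 0]), (.ofNat 5142816000, [0, 0, 2, 3, 1]), (.ofNat 23534380800, [0, 0, 4, 0, 0]), (.ofNat 115977657600, [0, 0, 4, 0, 1]), (.negSucc 22278412799, [0, 0, 4, 0, 2]), (.ofNat 15037747200, [0, 0, 4, 0, 3]), (.ofNat 30435955200, [0, 0, 4, 1, 0]), (.negSucc 133289049599, [0, 0, 4, 1, 1]), (.negSucc 36584755199, [0, 0, 4, 2, 0]), (.ofNat 1777305600, [0, 0, 4, 2, 1]), (.negSucc 17154547199, [0, 0, 4, 3, 0]), (.negSucc 7662412799, [0, 0, 6, 0, 0]), (.negSucc 31773772799, [0, 0, 6, 0, 1]), (.ofNat 12587097600, [0, 0, 6, 0, 2]), (.negSucc 20869631999, [0, 0, 6, 1, 0]), (.ofNat 41804985600, [0, 0, 6, 1, 1]), (.ofNat 29744870400, [0, 0, 6, 2, 0]), (.ofNat 1070092800, [0, 1, 3, 0, 0]), (.negSucc 6903187199, [0, 1,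 3, 0, 1]), (.negSucc 24590361599, [0, 1, 3, 0, 2]), (.negSucc 15186931199, [0, 1, 3, 0, 3]), (.ofNat 23890003200, [0, 1, 3, 1, 0]), (.ofNat 33584544000, [0, 1, 3, 1, 1]), (.negSucc 56824588799, [0, 1, 3, 2, 0]), (.negSucc 1261612799, [0, 1, 3, 2, 1]), (.ofNat 22513881600, [0, 1, 3, 3, 0]), (.ofNat 32478969600, [0, 1, 5, 0, 0]), (.negSucc 48653740799, [0, 1, 5, 0, 1]), (.ofNat 24539558400, [0, 1, 5, 0, 2]), (.negSucc 36024710399, [0, 1, 5, 1, 0]), (.negSucc 4716633599, [0, 1, 5, 1, 1]), (.ofNat 31043980800, [0, 1, 5, 2, 0]), (.negSucc 22142937599, [0, 1, 7, 0, 0]), (.ofNat 34034515200, [0, 1, 7, 0, 1]), (.ofNat 4417459200, [0, 1, 7, 1, 0]), (.negSucc 38080223999, [0, 2, 6, 0, 0]), (.negSucc 54927129599, [0, 2, 6, 0, 1]), (.ofNat 15821568000, [0, 2, 6, 0, 2]), (.ofNat 42698880000, [0, 2, 6, 1, 0]), (.ofNat 13146336000, [0, 2, 6, 1, 1]), (.negSucc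 17269862399, [0, 2, 6, 2, 0]), (.ofNat 32743872000, [0, 2, 8, 0, 0]), (.ofNat 14984524800, [0, 2, 8, 0, 1]), (.negSucc 26195903999, [0, 2, 8, 1, 0]), (.ofNat 3271968000, [0, 2, 10, 0, 0]), (.negSucc 15207494399, [1, 0, 1, 0, 0]), (.negSucc 50762073599, [1, 0, 1, 0, 1]), (.ofNat 30098880000, [1, 0, 1, 0, 2]), (.ofNat 3074803200, [1, 0, 1, 0, 3]), (.ofNat 5808499200, [1, 0, 1, 1, 0]), (.ofNat 23315443200, [1, 0, 1, 1, 1]), (.ofNat 77349081600, [1, 0, 1, 1, 2]), (.ofNat 18581068800, [1, 0, 1, 1, 3]), (.negSucc 1444665599, [1, 0, 1, 2, 0]), (.ofNat 19460851200, [1, 0, 1, 2, 1]), (.negSucc 2363558399, [1, 0, 1, 2, 2]), (.ofNat 5489568000, [1, 0, 1, 3, 0]), (.ofNat 13889433600, [1, 0, 1, 3, 1]), (.ofNat 52920000000, [1, 0, 3, 0, 0]), (.ofNat 97916313600, [1, 0, 3, 0, 1]), (.negSucc 70948281599, [1, 0, 3, 0, 2]), (.ofNat 16434432000, [1, 0, 3,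 0, 3]), (.ofNat 3042950400, [1, 0, 3, 1, 0]), (.negSucc 137431526399, [1, 0, 3, 1, 1]), (.negSucc 30966969599, [1, 0, 3, 1, 2]), (.ofNat 18581068800, [1, 0, 3, 1, 3]), (.negSucc 49334745599, [1, 0, 3, 2, 0]), (.negSucc 36808934399, [1, 0, 3, 2, 1]), (.negSucc 1181779199, [1, 0, 3, 2, 2]), (.ofNat 2596204800, [1, 0, 3, 3, 0]), (.negSucc 38637849599, [1, 0, 5, 0, 0]), (.negSucc 99925862399, [1, 0, 5, 0, 1]), (.ofNat 93735532800, [1, 0, 5, 0, 2]), (.ofNat 3711859200, [1, 0, 5, 1, 0]), (.ofNat 185793753600, [1, 0, 5, 1, 1]), (.ofNat 15482880000, [1, 0, 5, 1, 2]), (.ofNat 31439923200, [1, 0, 5, 2, 0]), (.ofNat 18404467200, [1, 0, 5, 2, 1]), (.ofNat 27457920000, [1, 0, 7, 0, 1]), (.negSucc 29344895999, [1, 0, 7, 0, 2]), (.negSucc 61931519999, [1, 0, 7, 1, 1]), (.ofNat 29766643200, [1, 1, 4, 0, 0]), (.negSucc 54859391999, [1, 1, 4, 0, 1]), (.ofNat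 16048972800, [1, 1, 4, 0, 2]), (.ofNat 15480057600, [1, 1, 4, 0, 3]), (.negSucc 53378841599, [1, 1, 4, 1, 0]), (.negSucc 41238489599, [1, 1, 4, 1, 1]), (.ofNat 25930598400, [1, 1, 4, 2, 0]), (.negSucc 1422489599, [1, 1, 4, 2, 1]), (.negSucc 12366143999, [1, 1, 4, 3, 0]), (.negSucc 23502527999, [1, 1, 6, 0, 0]), (.ofNat 49023072000, [1, 1, 6, 0, 1]), (.negSucc 2662732799, [1, 1, 6, 0, 2]), (.ofNat 78830438400, [1, 1, 6, 1, 0]), (.ofNat 46447430400, [1, 1, 6, 1, 1]), (.negSucc 12623385599, [1, 1, 6, 2, 0]), (.negSucc 13199961599, [1, 1, 8, 0, 0]), (.negSucc 582623999, [1, 1, 8, 0, 1]), (.negSucc 15572390399, [1, 1, 8, 1, 0]), (.negSucc 40034937599, [1, 2, 7, 0, 0]), (.negSucc 81810892799, [1, 2, 7, 0, 1]), (.negSucc 25938662399, [1, 2, 7, 0, 2]), (.ofNat 7875302400, [1, 2, 7, 1, 0]), (.negSucc 5675443199, [1, 2, 7, 1, 1]), (.negSucc 46474847999,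 [1, 2, 7, 2, 0]), (.ofNat 97763904000, [1, 2, 9, 0, 0]), (.ofNat 92824704000, [1, 2, 9, 0, 1]), (.ofNat 37100448000, [1, 2, 9, 1, 0]), (.negSucc 61297689599, [1, 2, 11, 0, 0]), (.ofNat 3143347200, [2, 0, 2, 0, 0]), (.negSucc 59527238399, [2, 0, 2, 0, 1]), (.negSucc 61931519999, [2, 0, 2, 0, 2]), (.ofNat 61930310400, [2, 0, 2, 0, 3]), (.ofNat 24373440000, [2, 0, 2, 1, 0]), (.ofNat 33155539200, [2, 0, 2, 1, 1]), (.negSucc 30964953599, [2, 0, 2, 1, 2]), (.ofNat 30409344000, [2, 0, 2, 1, 3]), (.negSucc 27311155199, [2, 0, 2, 2, 0]), (.ofNat 12223411200, [2, 0, 2, 2, 1]), (.ofNat 11962137600, [2, 0, 2, 2, 2]), (.ofNat 1811980800, [2, 0, 2, 3, 0]), (.negSucc 4237631999, [2, 0, 2, 3, 1]), (.ofNat 24679065600, [2, 0, 4, 0, 0]), (.ofNat 108379756800, [2, 0, 4, 0, 1]), (.ofNat 61931520000, [2, 0, 4, 0, 2]), (.negSucc 15482879999, [2, 0, 4, 0, 3]),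 (.negSucc 79711833599, [2, 0, 4, 1, 0]), (.negSucc 48342067199, [2, 0, 4, 1, 1]), (.ofNat 54561024000, [2, 0, 4, 2, 0]), (.negSucc 15482476799, [2, 0, 4, 2, 1]), (.negSucc 1811980799, [2, 0, 4, 3, 0]), (.negSucc 27822412799, [2, 0, 6, 0, 0]), (.negSucc 46448639999, [2, 0, 6, 0, 1]), (.negSucc 30965759999, [2, 0, 6, 0, 2]), (.ofNat 55338393600, [2, 0, 6, 1, 0]), (.ofNat 18978624000, [2, 0, 6, 1, 1]), (.negSucc 27249868799, [2, 0, 6, 2, 0]), (.negSucc 112769798399, [2, 1, 5, 0, 0]), (.negSucc 62684697599, [2, 1, 5, 0, 1]), (.ofNat 61315833600, [2, 1, 5, 0, 2]), (.ofNat 140161996800, [2, 1, 5, 1, 0]), (.negSucc 28137715199, [2, 1, 5, 1, 1]), (.negSucc 15482476799, [2, 1, 5, 1, 2]), (.ofNat 24434323200, [2, 1, 5, 2, 0]), (.ofNat 2523225600, [2, 1, 5, 2, 1]), (.negSucc 28484870399, [2, 1, 5, 3, 0]), (.ofNat 173913465600, [2, 1, 7, 0, 0]), (.ofNat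 89194291200, [2, 1, 7, 0, 1]), (.negSucc 46419609599, [2, 1, 7, 0, 2]), (.negSucc 222224083199, [2, 1, 7, 1, 0]), (.negSucc 2825625599, [2, 1, 7, 1, 1]), (.ofNat 21974400000, [2, 1, 7, 2, 0]), (.negSucc 63678988799, [2, 1, 9, 0, 0]), (.negSucc 13641868799, [2, 1, 9, 0, 1]), (.ofNat 72405849600, [2, 1, 9, 1, 0]), (.negSucc 86258995199, [2, 2, 8, 0, 0]), (.negSucc 2184134399, [2, 2, 8, 0, 1]), (.ofNat 1193472000, [2, 2, 8, 0, 2]), (.ofNat 87858892800, [2, 2, 8, 1, 0]), (.ofNat 34755840000, [2, 2, 8, 1, 1]), (.negSucc 20650291199, [2, 2, 8, 2, 0]), (.ofNat 133996262400, [2, 2, 10, 0, 0]), (.negSucc 21433305599, [2, 2, 10, 0, 1]), (.negSucc 73614643199, [2, 2, 10, 1, 0]), (.negSucc 41783615999, [2, 2, 12, 0, 0])]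
  L2 := [(.ofNat 13160448000, [0, 0, 1, 0, 0]), (.ofNat 65126073600, [0, 0, 1, 0, 1]), (.ofNat 41913849600, [0, 0, 1, 0, 2]), (.negSucc 29753740799, [0, 0, 1, 0, 3]), (.negSucc 52917580799, [0, 0, 1, 1, 0]), (.negSucc 54583199999, [0, 0, 1, 1, 1]), (.negSucc 46447430399, [0, 0, 1, 1, 2]), (.ofNat 81887500800, [0, 0, 1, 2, 0]), (.negSucc 6952780799, [0, 0, 1, 2, 1]), (.negSucc 39056774399, [0, 0, 1, 3, 0]), (.negSucc 39793420799, [0, 0, 3, 0, 0]), (.ofNat 1193875200, [0, 0, 3, 0, 1]), (.negSucc 27199065599, [0, 0, 3, 0, 2]), (.ofNat 64162022400, [0, 0, 3, 1, 0]), (.ofNat 8134560000, [0, 0, 3, 1, 1]), (.negSucc 35438860799, [0, 0, 3, 2, 0]), (.ofNat 16024780800, [0, 0, 5, 0, 0]), (.negSucc 23820652799, [0, 0, 5, 0, 1]), (.negSucc 8856691199, [0, 0, 5, 1, 0]), (.ofNat 44568921600, [0, 1, 4, 0, 0]), (.ofNat 82574553600, [0, 1, 4, 0, 1]), (.negSucc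 48359807999, [0, 1, 4, 0, 2]), (.negSucc 67592447999, [0, 1, 4, 1, 0]), (.negSucc 40195007999, [0, 1, 4, 1, 1]), (.ofNat 31067366400, [0, 1, 4, 2, 0]), (.negSucc 40478054399, [0, 1, 6, 0, 0]), (.negSucc 14307148799, [0, 1, 6, 0, 1]), (.ofNat 35397734400, [0, 1, 6, 1, 0]), (.ofNat 679795200, [0, 1, 8, 0, 0]), (.negSucc 46184947199, [1, 0, 2, 0, 0]), (.negSucc 928972799, [1, 0, 2, 0, 1]), (.negSucc 47696947199, [1, 0, 2, 0, 2]), (.ofNat 46440172800, [1, 0, 2, 0, 3]), (.ofNat 77133772800, [1, 0, 2, 1, 0]), (.ofNat 92882764800, [1, 0, 2, 1, 1]), (.ofNat 35369913600, [1, 0, 2, 1, 2]), (.negSucc 55914969599, [1, 0, 2, 2, 0]), (.ofNat 4267468800, [1, 0, 2, 2, 1]), (.ofNat 18549216000, [1, 0, 2, 3, 0]), (.ofNat 39550291200, [1, 0, 4, 0, 0]), (.negSucc 41004230399, [1, 0, 4, 0, 1]), (.ofNat 3994099200, [1, 0, 4, 0, 2]), (.negSucc 62021030399, [1,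 0, 4, 1, 0]), (.negSucc 46447430399, [1, 0, 4, 1, 1]), (.ofNat 9467539200, [1, 0, 4, 2, 0]), (.ofNat 3419539200, [1, 0, 6, 0, 0]), (.ofNat 349574400, [1, 0, 6, 0, 1]), (.ofNat 7786195200, [1, 0, 6, 1, 0]), (.ofNat 21247833600, [1, 1, 5, 0, 0]), (.ofNat 68545612800, [1, 1, 5, 0, 1]), (.ofNat 51877324800, [1, 1, 5, 0, 2]), (.negSucc 28473983999, [1, 1, 5, 1, 0]), (.ofNat 8513164800, [1, 1, 5, 1, 1]), (.ofNat 55769817600, [1, 1, 5, 2, 0]), (.negSucc 52956287999, [1, 1, 7, 0, 0]), (.negSucc 92824703999, [1, 1, 7, 0, 1]), (.negSucc 31800383999, [1, 1, 7, 1, 0]), (.ofNat 40865126400, [1, 1, 9, 0, 0]), (.ofNat 57759609600, [2, 0, 3, 0, 0]), (.ofNat 33952262400, [2, 0, 3, 0, 1]), (.negSucc 91108281599, [2, 0, 3, 0, 2]), (.ofNat 13946688000, [2, 0, 3, 0, 3]), (.negSucc 67822271999, [2, 0, 3, 1, 0]), (.ofNat 44325792000, [2, 0, 3, 1, 1]), (.ofNat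 46447430400, [2, 0, 3, 1, 2]), (.negSucc 33224083199, [2, 0, 3, 2, 0]), (.negSucc 3784838399, [2, 0, 3, 2, 1]), (.ofNat 28484870400, [2, 0, 3, 3, 0]), (.negSucc 82515283199, [2, 0, 5, 0, 0]), (.negSucc 60074783999, [2, 0, 5, 0, 1]), (.ofNat 46419609600, [2, 0, 5, 0, 2]), (.ofNat 108509587200, [2, 0, 5, 1, 0]), (.ofNat 2119219200, [2, 0, 5, 1, 1]), (.negSucc 13184639999, [2, 0, 5, 2, 0]), (.ofNat 27290995200, [2, 0, 7, 0, 0]), (.ofNat 6820934400, [2, 0, 7, 0, 1]), (.negSucc 31031078399, [2, 0, 7, 1, 0]), (.ofNat 56938291200, [2, 1, 6, 0, 0]), (.ofNat 9969523200, [2, 1, 6, 0, 1]), (.negSucc 1790207999, [2, 1, 6, 0, 2]), (.negSucc 69455231999, [2, 1, 6, 1, 0]), (.negSucc 41707007999, [2, 1, 6, 1, 1]), (.ofNat 20650291200, [2, 1, 6, 2, 0]), (.negSucc 87962111999, [2, 1, 8, 0, 0]), (.ofNat 18371404800, [2, 1, 8, 0, 1]), (.ofNat 55210982400, [2,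 1, 8, 1, 0]), (.ofNat 25070169600, [2, 1, 10, 0, 0])]
  Lw := [(.negSucc 30643199, [0, 0, 0, 0, 0]), (.negSucc 6644735999, [0, 0, 0, 0, 1]), (.negSucc 1209599, [0, 0, 0, 0, 2]), (.ofNat 4965004800, [0, 0, 0, 1, 0]), (.ofNat 8625254400, [0, 0, 0, 1, 1]), (.ofNat 2681683200, [0, 0, 0, 1, 2]), (.negSucc 9473183999, [0, 0, 0, 2, 0]), (.negSucc 97574399, [0, 0, 0, 2, 1]), (.ofNat 4864608000, [0, 0, 0, 3, 0]), (.ofNat 4353350400, [0, 0, 2, 0, 0]), (.ofNat 40926412800, [0, 0, 2, 0, 1]), (.negSucc 46447430399, [0, 0, 2, 0, 2]), (.negSucc 4550515199, [0, 0, 2, 1, 0]), (.negSucc 30964147199, [0, 0, 2, 1, 1]), (.negSucc 3062303999, [0, 0, 2, 2, 0]), (.negSucc 7238246399, [0, 0, 4, 0, 0]), (.negSucc 5014195199, [0, 0, 4, 0, 1]), (.ofNat 8791776000, [0, 0, 4, 1, 0]), (.negSucc 6889478399, [0, 1, 1, 0, 0]), (.negSucc 11696025599, [0, 1, 1, 0, 1]), (.ofNat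 26324524800, [0, 1, 1, 0, 2]), (.ofNat 6047193600, [0, 1, 1, 1, 0]), (.ofNat 10813017600, [0, 1, 1, 1, 1]), (.negSucc 1012838399, [0, 1, 1, 2, 0]), (.ofNat 12886675200, [0, 1, 3, 0, 0]), (.negSucc 8307532799, [0, 1, 3, 0, 1]), (.negSucc 2961907199, [0, 1, 3, 1, 0]), (.negSucc 3982003199, [0, 1, 5, 0, 0]), (.negSucc 6627801599, [0, 2, 4, 0, 0]), (.negSucc 3811046399, [0, 2, 4, 0, 1]), (.negSucc 1553932799, [0, 2, 4, 1, 0]), (.ofNat 6516115200, [0, 2, 6, 0, 0]), (.negSucc 333849599, [1, 0, 1, 0, 0]), (.ofNat 9930009600, [1, 0, 1, 0, 1]), (.ofNat 8625254400, [1, 0, 1, 0, 2]), (.ofNat 1787788800, [1, 0, 1, 0, 3]), (.negSucc 11499263999, [1, 0, 1, 1, 0]), (.negSucc 37892735999, [1, 0, 1, 1, 1]), (.negSucc 195148799, [1, 0, 1, 1, 2]), (.ofNat 5752857600, [1, 0, 1, 2, 0]), (.ofNat 29187648000, [1, 0, 1, 2, 1]), (.ofNat 23106585600, [1, 0, 3, 0,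 0]), (.negSucc 9101030399, [1, 0, 3, 0, 1]), (.negSucc 30964147199, [1, 0, 3, 0, 2]), (.ofNat 912844800, [1, 0, 3, 1, 0]), (.negSucc 12249215999, [1, 0, 3, 1, 1]), (.negSucc 19985011199, [1, 0, 3, 2, 0]), (.negSucc 24704063999, [1, 0, 5, 0, 0]), (.ofNat 17583552000, [1, 0, 5, 0, 1]), (.ofNat 24150067200, [1, 0, 5, 1, 0]), (.ofNat 1715212800, [1, 1, 2, 0, 0]), (.ofNat 12094387200, [1, 1, 2, 0, 1]), (.ofNat 10813017600, [1, 1, 2, 0, 2]), (.negSucc 1422489599, [1, 1, 2, 1, 0]), (.negSucc 4051353599, [1, 1, 2, 1, 1]), (.ofNat 1543449600, [1, 1, 2, 2, 0]), (.negSucc 16010265599, [1, 1, 4, 0, 0]), (.negSucc 5923814399, [1, 1, 4, 0, 1]), (.ofNat 9339724800, [1, 1, 4, 1, 0]), (.ofNat 6295564800, [1, 1, 6, 0, 0]), (.negSucc 5926233599, [1, 2, 5, 0, 0]), (.negSucc 3107865599, [1, 2, 5, 0, 1]), (.negSucc 5060966399, [1, 2, 5, 1, 0]), (.ofNat 9875980800,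 [1, 2, 7, 0, 0])]
  A11 := [(.negSucc 14462380799, [0, 0, 2, 0, 0]), (.negSucc 15895756799, [0, 0, 2, 0, 1]), (.negSucc 10428364799, [0, 0, 2, 0, 2]), (.ofNat 30965760000, [0, 0, 2, 0, 3]), (.ofNat 25082265600, [0, 0, 2, 1, 0]), (.negSucc 18329471999, [0, 0, 2, 1, 1]), (.ofNat 6323788800, [0, 0, 2, 1, 2]), (.negSucc 21036556799, [0, 0, 2, 1, 3]), (.negSucc 17040038399, [0, 0, 2, 2, 0]), (.ofNat 24180710400, [0, 0, 2, 2, 1]), (.ofNat 3854995200, [0, 0, 2, 2, 2]), (.ofNat 5577062400, [0, 0, 2, 3, 0]), (.ofNat 30183148800, [0, 0, 4, 0, 0]), (.ofNat 31975372800, [0, 0, 4, 0, 1]), (.ofNat 16331616000, [0, 0, 4, 0, 2]), (.negSucc 59160729599, [0, 0, 4, 1, 0]), (.ofNat 17097292800, [0, 0, 4, 1, 1]), (.negSucc 15127257599, [0, 0, 4, 1, 2]), (.ofNat 32566867200, [0, 0, 4, 2, 0]), (.negSucc 24180710399, [0, 0, 4, 2, 1]), (.negSucc 4360607999, [0,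 0, 4, 3, 0]), (.negSucc 17502911999, [0, 0, 6, 0, 0]), (.negSucc 16079615999, [0, 0, 6, 0, 1]), (.negSucc 424569599, [0, 0, 6, 0, 2]), (.ofNat 36235584000, [0, 0, 6, 1, 0]), (.ofNat 1232179200, [0, 0, 6, 1, 1]), (.negSucc 18166175999, [0, 0, 6, 2, 0]), (.negSucc 22561459199, [0, 1, 5, 0, 0]), (.negSucc 40549420799, [0, 1, 5, 0, 1]), (.ofNat 22944499200, [0, 1, 5, 0, 2]), (.negSucc 3313497599, [0, 1, 5, 0, 3]), (.ofNat 79452172800, [0, 1, 5, 1, 0]), (.ofNat 49302086400, [0, 1, 5, 1, 1]), (.negSucc 13386239999, [0, 1, 5, 1, 2]), (.negSucc 46513958399, [0, 1, 5, 2, 0]), (.negSucc 15515539199, [0, 1, 5, 2, 1]), (.ofNat 11771827200, [0, 1, 5, 3, 0]), (.ofNat 36399283200, [0, 1, 7, 0, 0]), (.negSucc 12249215999, [0, 1, 7, 0, 1]), (.negSucc 7855948799, [0, 1, 7, 0, 2]), (.negSucc 86737190399, [0, 1, 7, 1, 0]), (.negSucc 18881855999, [0, 1, 7, 1,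 1]), (.ofNat 21368793600, [0, 1, 7, 2, 0]), (.negSucc 15182899199, [0, 1, 9, 0, 0]), (.ofNat 31723776000, [0, 1, 9, 0, 1]), (.ofNat 25443532800, [0, 1, 9, 1, 0]), (.negSucc 62745177599, [0, 2, 8, 0, 0]), (.ofNat 39133785600, [0, 2, 8, 0, 1]), (.ofNat 26330976000, [0, 2, 8, 0, 2]), (.ofNat 25105248000, [0, 2, 8, 1, 0]), (.ofNat 15516748800, [0, 2, 8, 1, 1]), (.ofNat 9192556800, [0, 2, 8, 2, 0]), (.ofNat 78449414400, [0, 2, 10, 0, 0]), (.negSucc 51783782399, [0, 2, 10, 0, 1]), (.negSucc 39321676799, [0, 2, 10, 1, 0]), (.negSucc 13886611199, [0, 2, 12, 0, 0])]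
  A12 := [(.ofNat 9719136000, [0, 0, 3, 0, 0]), (.ofNat 38197958400, [0, 0, 3, 0, 1]), (.negSucc 28524787199, [0, 0, 3, 0, 2]), (.ofNat 9940492800, [0, 0, 3, 0, 3]), (.negSucc 41085273599, [0, 0, 3, 1, 0]), (.negSucc 41749343999, [0, 0, 3, 1, 1]), (.ofNat 20079360000, [0, 0, 3, 1, 2]), (.ofNat 29543270400, [0, 0, 3, 2, 0]), (.ofNat 15515539200, [0, 0, 3, 2, 1]), (.negSucc 8828870399, [0, 0, 3, 3, 0]), (.negSucc 14403916799, [0, 0, 5, 0, 0]), (.negSucc 3527193599, [0, 0, 5, 0, 1]), (.ofNat 5891961600, [0, 0, 5, 0, 2]), (.ofNat 37007712000, [0, 0, 5, 1, 0]), (.ofNat 11329113600, [0, 0, 5, 1, 1]), (.negSucc 10684396799, [0, 0, 5, 2, 0]), (.ofNat 5693587200, [0, 0, 7, 0, 0]), (.negSucc 13595903999, [0, 0, 7, 0, 1]), (.negSucc 9541324799, [0, 0, 7, 1, 0]), (.ofNat 39800678400, [0, 1, 6, 0, 0]), (.negSucc 26187839999, [0, 1, 6, 0, 1]), (.negSucc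 31597171199, [0, 1, 6, 0, 2]), (.negSucc 14028940799, [0, 1, 6, 1, 0]), (.negSucc 15516748799, [0, 1, 6, 1, 1]), (.negSucc 7879334399, [0, 1, 6, 2, 0]), (.negSucc 48933158399, [0, 1, 8, 0, 0]), (.ofNat 38837836800, [0, 1, 8, 0, 1]), (.ofNat 26214451200, [0, 1, 8, 1, 0]), (.ofNat 7574515200, [0, 1, 10, 0, 0])]
  W1 := [(.ofNat 7019712000, [0, 0, 0, 0, 0]), (.negSucc 61286399, [0, 0, 0, 0, 1]), (.negSucc 6644735999, [0, 0, 0, 0, 2]), (.negSucc 806399, [0, 0, 0, 0, 3]), (.negSucc 333849599, [0, 0, 0, 1, 0]), (.ofNat 9930009600, [0, 0, 0, 1, 1]), (.ofNat 8625254400, [0, 0, 0, 1, 2]), (.ofNat 1787788800, [0, 0, 0, 1, 3]), (.negSucc 5749631999, [0, 0, 0, 2, 0]), (.negSucc 18946367999, [0, 0, 0, 2, 1]), (.negSucc 97574399, [0, 0, 0, 2, 2]), (.ofNat 1917619200, [0, 0, 0, 3, 0]), (.ofNat 9729216000, [0, 0, 0, 3, 1]), (.negSucc 36364204799, [0, 0,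 2, 0, 0]), (.ofNat 17413401600, [0, 0, 2, 0, 1]), (.ofNat 78530457600, [0, 0, 2, 0, 2]), (.negSucc 61930713599, [0, 0, 2, 0, 3]), (.ofNat 46380096000, [0, 0, 2, 1, 0]), (.negSucc 18202060799, [0, 0, 2, 1, 1]), (.negSucc 57615667199, [0, 0, 2, 1, 2]), (.ofNat 1787788800, [0, 0, 2, 1, 3]), (.ofNat 3787660800, [0, 0, 2, 2, 0]), (.negSucc 12249215999, [0, 0, 2, 2, 1]), (.negSucc 48787199, [0, 0, 2, 2, 2]), (.negSucc 14282150399, [0, 0, 2, 3, 0]), (.ofNat 64400313600, [0, 0, 4, 0, 0]), (.negSucc 52136179199, [0, 0, 4, 0, 1]), (.negSucc 35505791999, [0, 0, 4, 0, 2]), (.negSucc 108772070399, [0, 0, 4, 1, 0]), (.ofNat 61851686400, [0, 0, 4, 1, 1]), (.ofNat 15482073600, [0, 0, 4, 1, 2]), (.ofNat 35540467200, [0, 0, 4, 2, 0]), (.ofNat 6124608000, [0, 0, 4, 2, 1]), (.ofNat 9992505600, [0, 0, 4, 3, 0]), (.negSucc 33132959999, [0, 0, 6, 0, 0]), (.ofNat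 28952985600, [0, 0, 6, 0, 1]), (.ofNat 7521292800, [0, 0, 6, 0, 2]), (.ofNat 61760160000, [0, 0, 6, 1, 0]), (.negSucc 35167103999, [0, 0, 6, 1, 1]), (.negSucc 30187583999, [0, 0, 6, 2, 0]), (.ofNat 6359270400, [0, 1, 3, 0, 0]), (.ofNat 32662828800, [0, 1, 3, 0, 1]), (.negSucc 8307532799, [0, 1, 3, 0, 2]), (.ofNat 8774841600, [0, 1, 3, 0, 3]), (.negSucc 17725478399, [0, 1, 3, 1, 0]), (.negSucc 11971007999, [0, 1, 3, 1, 1]), (.ofNat 5381107200, [0, 1, 3, 2, 0]), (.ofNat 1012838400, [0, 1, 3, 2, 1]), (.negSucc 514483199, [0, 1, 3, 3, 0]), (.negSucc 13033036799, [0, 1, 5, 0, 0]), (.negSucc 54588038399, [0, 1, 5, 0, 1]), (.ofNat 8307532800, [0, 1, 5, 0, 2]), (.ofNat 44611660800, [0, 1, 5, 1, 0]), (.ofNat 8885721600, [0, 1, 5, 1, 1]), (.negSucc 9339724799, [0, 1, 5, 2, 0]), (.ofNat 5486745600, [0, 1, 7, 0, 0]), (.ofNat 19910016000, [0, 1, 7, 0,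 1]), (.negSucc 18886694399, [0, 1, 7, 1, 0]), (.negSucc 17853695999, [0, 2, 6, 0, 0]), (.ofNat 39543436800, [0, 2, 6, 0, 1]), (.ofNat 5716569600, [0, 2, 6, 0, 2]), (.ofNat 24691564800, [0, 2, 6, 1, 0]), (.ofNat 6215731200, [0, 2, 6, 1, 1]), (.ofNat 6326208000, [0, 2, 6, 2, 0]), (.ofNat 1852704000, [0, 2, 8, 0, 0]), (.negSucc 39096691199, [0, 2, 8, 0, 1]), (.negSucc 34565932799, [0, 2, 8, 1, 0]), (.ofNat 21518784000, [0, 2, 10, 0, 0])]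
  W2 := [(.negSucc 2507500799, [0, 0, 1, 0, 0]), (.negSucc 20668435199, [0, 0, 1, 0, 1]), (.negSucc 17544038399, [0, 0, 1, 0, 2]), (.ofNat 26324524800, [0, 0, 1, 0, 3]), (.ofNat 2572819200, [0, 0, 1, 1, 0]), (.ofNat 18141580800, [0, 0, 1, 1, 1]), (.ofNat 16219526400, [0, 0, 1, 1, 2]), (.negSucc 1066867199, [0, 0, 1, 2, 0]), (.negSucc 3038515199, [0, 0, 1, 2, 1]), (.ofNat 771724800, [0, 0, 1, 3, 0]), (.ofNat 7031404800, [0, 0, 3, 0, 0]), (.ofNat 38660025600, [0, 0, 3, 0, 1]), (.negSucc 12461299199, [0, 0, 3, 0, 2]), (.negSucc 24015398399, [0, 0, 3, 1, 0]), (.negSucc 8885721599, [0, 0, 3, 1, 1]), (.ofNat 7004793600, [0, 0, 3, 2, 0]), (.negSucc 2743372799, [0, 0, 5, 0, 0]), (.negSucc 11946009599, [0, 0, 5, 0, 1]), (.ofNat 9443347200, [0, 0, 5, 1, 0]), (.ofNat 17510169600, [0, 1, 4, 0, 0]), (.negSucc 39766809599, [0, 1, 4, 0, 1]), (.negSucc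 11433139199, [0, 1, 4, 0, 2]), (.negSucc 17778700799, [0, 1, 4, 1, 0]), (.negSucc 9323596799, [0, 1, 4, 1, 1]), (.negSucc 7591449599, [0, 1, 4, 2, 0]), (.negSucc 9785663999, [0, 1, 6, 0, 0]), (.ofNat 39096691200, [0, 1, 6, 0, 1]), (.ofNat 29627942400, [0, 1, 6, 1, 0]), (.negSucc 14345855999, [0, 1, 8, 0, 0])]
  psi := [(.ofNat 3509856000, [0, 0, 0, 0, 0]), (.negSucc 30643199, [0, 0, 0, 0, 1]), (.negSucc 3322367999, [0, 0, 0, 0, 2]), (.negSucc 403199, [0, 0, 0, 0, 3]), (.negSucc 166924799, [0, 0, 0, 1, 0]), (.ofNat 4965004800, [0, 0, 0, 1, 1]), (.ofNat 4312627200, [0, 0, 0, 1, 2]), (.ofNat 893894400, [0, 0, 0, 1, 3]), (.negSucc 2874815999, [0, 0, 0, 2, 0]), (.negSucc 9473183999, [0, 0, 0, 2, 1]), (.negSucc 48787199, [0, 0, 0, 2, 2]), (.ofNat 958809600, [0, 0, 0, 3, 0]), (.ofNat 4864608000, [0, 0, 0, 3, 1]), (.negSucc 8213587199, [0, 0, 2,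 0, 0]), (.ofNat 4353350400, [0, 0, 2, 0, 1]), (.ofNat 20463206400, [0, 0, 2, 0, 2]), (.negSucc 15482476799, [0, 0, 2, 0, 3]), (.ofNat 11553292800, [0, 0, 2, 1, 0]), (.negSucc 4550515199, [0, 0, 2, 1, 1]), (.negSucc 15482073599, [0, 0, 2, 1, 2]), (.ofNat 228211200, [0, 0, 2, 2, 0]), (.negSucc 3062303999, [0, 0, 2, 2, 1]), (.negSucc 3330835199, [0, 0, 2, 3, 0]), (.ofNat 6626592000, [0, 0, 4, 0, 0]), (.negSucc 7238246399, [0, 0, 4, 0, 1]), (.negSucc 2507097599, [0, 0, 4, 0, 2]), (.negSucc 12352031999, [0, 0, 4, 1, 0]), (.ofNat 8791776000, [0, 0, 4, 1, 1]), (.ofNat 6037516800, [0, 0, 4, 2, 0]), (.negSucc 835833599, [0, 1, 1, 0, 0]), (.negSucc 6889478399, [0, 1, 1, 0, 1]), (.negSucc 5848012799, [0, 1, 1, 0, 2]), (.ofNat 8774841600, [0, 1, 1, 0, 3]), (.ofNat 857606400, [0, 1, 1, 1, 0]), (.ofNat 6047193600, [0, 1, 1, 1, 1]), (.ofNat 5406508800,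 [0, 1, 1, 1, 2]), (.negSucc 355622399, [0, 1, 1, 2, 0]), (.negSucc 1012838399, [0, 1, 1, 2, 1]), (.ofNat 257241600, [0, 1, 1, 3, 0]), (.ofNat 2343801600, [0, 1, 3, 0, 0]), (.ofNat 12886675200, [0, 1, 3, 0, 1]), (.negSucc 4153766399, [0, 1, 3, 0, 2]), (.negSucc 8005132799, [0, 1, 3, 1, 0]), (.negSucc 2961907199, [0, 1, 3, 1, 1]), (.ofNat 2334931200, [0, 1, 3, 2, 0]), (.negSucc 914457599, [0, 1, 5, 0, 0]), (.negSucc 3982003199, [0, 1, 5, 0, 1]), (.ofNat 3147782400, [0, 1, 5, 1, 0]), (.ofNat 2918361600, [0, 2, 4, 0, 0]), (.negSucc 6627801599, [0, 2, 4, 0, 1]), (.negSucc 1905523199, [0, 2, 4, 0, 2]), (.negSucc 2963116799, [0, 2, 4, 1, 0]), (.negSucc 1553932799, [0, 2, 4, 1, 1]), (.negSucc 1265241599, [0, 2, 4, 2, 0]), (.negSucc 1630943999, [0, 2, 6, 0, 0]), (.ofNat 6516115200, [0, 2, 6, 0, 1]), (.ofNat 4937990400, [0, 2, 6, 1, 0]), (.negSucc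 2390975999, [0, 2, 8, 0, 0])]

theorem bs : BS V5.P V5.D = some B := eqB_spec (by decide +kernel)

theorem par : parOK V5.P = true := by decide +kernel

end Crest.Agent.R097.T5
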