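import Crest.Agent.R097.T5
import Crest.Agent.R097.KP6

/-!
# Row 97, KBA checker: straight-line base evaluation, chart `mm` (generated, helper351)
-/

set_option autoImplicit false
set_option Elab.async false

namespace Crest.Agent.R097.T5.Ymm

open Crest.Agent.R097.KA

def t0a (b : Bx) (w : ℕ) : ℕ → ℕ := FN b.k0 (b.k0 + 1) (2 ^ b.r0) 4 4 (Nat.pow 2 (Nat.mul w 1))
def t1a (b : Bx) (w : ℕ) : ℕ → ℕ := FN b.k1 (b.k1 + 1) (2 ^ b.r1) 3 3 (Nat.pow 2 (Nat.mul w 7))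
def t2a (b : Bx) (w : ℕ) : ℕ → ℕ := FN b.k2 (b.k2 + 1) (2 ^ b.r2) 12 12 (Nat.pow 2 (Nat.mul w 42))
def ea (b : Bx) (w : ℕ) : ℕ → ℕ → ℕ → ℕ := ET (t0a b w) (t1a b w) (t2a b w)
def t3a (b : Bx) : ℕ → ℕ → ℕ := fun e k => nthN (cfl b.k3 (b.k3 + 1) (2 ^ b.r3) 3 3 e) k
def t4a (b : Bx) : ℕ → ℕ → ℕ := fun e k => nthN (cfl b.k4 (b.k4 + 1) (2 ^ b.r4) 3 3 e) k
def t0k (b : Bx) (w : ℕ) : ℕ → ℕ := FN b.k0 (b.k0 + 1) (2 ^ b.r0) 4 6 (Nat.pow 2 (Nat.mul w 1))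
def t1k (b : Bx) (w : ℕ) : ℕ → ℕ := FN b.k1 (b.k1 + 1) (2 ^ b.r1) 3 5 (Nat.pow 2 (Nat.mul w 7))
def t2k (b : Bx) (w : ℕ) : ℕ → ℕ := FN b.k2 (b.k2 + 1) (2 ^ b.r2) 12 14 (Nat.pow 2 (Nat.mul w 42))
def ek (b : Bx) (w : ℕ) : ℕ → ℕ → ℕ → ℕ := ET (t0k b w) (t1k b w) (t2k b w)
def t3k (b : Bx) : ℕ → ℕ → ℕ := fun e k => nthN (cfl b.k3 (b.k3 + 1) (2 ^ b.r3) 3 5 e) k
def t4k (b : Bx) : ℕ → ℕ → ℕ := fun e k => nthN (cfl b.k4 (b.k4 + 1) (2 ^ b.r4) 3 5 e) k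
def t0c (b : Bx) (w : ℕ) : ℕ → ℕ := FN b.k0 (b.k0 + 1) (2 ^ b.r0) 4 6 (Nat.pow 2 (Nat.mul w 1))
def t1c (b : Bx) (w : ℕ) : ℕ → ℕ := FN b.k1 (b.k1 + 1) (2 ^ b.r1) 3 5 (Nat.pow 2 (Nat.mul w 7))
def t2c (b : Bx) (w : ℕ) : ℕ → ℕ := FN b.k2 (b.k2 + 1) (2 ^ b.r2) 14 16 (Nat.pow 2 (Nat.mul w 42))
def ec (b : Bx) (w : ℕ) : ℕ → ℕ → ℕ → ℕ := ET (t0c b w) (t1c b w) (t2c b w)
def t3c (b : Bx) : ℕ → ℕ → ℕ := fun e k => nthN (cfl b.k3 (b.k3 + 1) (2 ^ b.r3) 4 6 e) k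
def t4c (b : Bx) : ℕ → ℕ → ℕ := fun e k => nthN (cfl b.k4 (b.k4 + 1) (2 ^ b.r4) 5 7 e) k
def t0g1 (b : Bx) (w : ℕ) : ℕ → ℕ := FN b.k0 (b.k0 + 1) (2 ^ b.r0) 0 6 (Nat.pow 2 (Nat.mul w 1))
def t1g1 (b : Bx) (w : ℕ) : ℕ → ℕ := FN b.k1 (b.k1 + 1) (2 ^ b.r1) 0 5 (Nat.pow 2 (Nat.mul w 7))
def t2g1 (b : Bx) (w : ℕ) : ℕ → ℕ := FN b.k2 (b.k2 + 1) (2 ^ b.r2) 2 16 (Nat.pow 2 (Nat.mul w 42))
def eg1 (b : Bx) (w : ℕ) : ℕ → ℕ → ℕ → ℕ := ET (t0g1 b w) (t1g1 b w) (t2g1 b w)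
def t3g1 (b : Bx) : ℕ → ℕ → ℕ := fun e k => nthN (cfl b.k3 (b.k3 + 1) (2 ^ b.r3) 1 6 e) k
def t4g1 (b : Bx) : ℕ → ℕ → ℕ := fun e k => nthN (cfl b.k4 (b.k4 + 1) (2 ^ b.r4) 2 7 e) k
def t0f1 (b : Bx) (w : ℕ) : ℕ → ℕ := FN b.k0 (b.k0 + 1) (2 ^ b.r0) 0 6 (Nat.pow 2 (Nat.mul w 1))
def t1f1 (b : Bx) (w : ℕ) : ℕ → ℕ := FN b.k1 (b.k1 + 1) (2 ^ b.r1) 0 4 (Nat.pow 2 (Nat.mul w 7))
def t2f1 (b : Bx) (w : ℕ) : ℕ → ℕ := FN b.k2 (b.k2 + 1) (2 ^ b.r2) 2 13 (Nat.pow 2 (Nat.mul w 42))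
def ef1 (b : Bx) (w : ℕ) : ℕ → ℕ → ℕ → ℕ := ET (t0f1 b w) (t1f1 b w) (t2f1 b w)
def t3f1 (b : Bx) : ℕ → ℕ → ℕ := fun e k => nthN (cfl b.k3 (b.k3 + 1) (2 ^ b.r3) 1 4 e) k
def t4f1 (b : Bx) : ℕ → ℕ → ℕ := fun e k => nthN (cfl b.k4 (b.k4 + 1) (2 ^ b.r4) 2 4 e) k
def t0g2 (b : Bx) (w : ℕ) : ℕ → ℕ := FN b.k0 (b.k0 + 1) (2 ^ b.r0) 0 6 (Nat.pow 2 (Nat.mul w 1))
def t1g2 (b : Bx) (w : ℕ) : ℕ → ℕ := FN b.k1 (b.k1 + 1) (2 ^ b.r1) 0 5 (Nat.pow 2 (Nat.mul w 7))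
def t2g2 (b : Bx) (w : ℕ) : ℕ → ℕ := FN b.k2 (b.k2 + 1) (2 ^ b.r2) 2 16 (Nat.pow 2 (Nat.mul w 42))
def eg2 (b : Bx) (w : ℕ) : ℕ → ℕ → ℕ → ℕ := ET (t0g2 b w) (t1g2 b w) (t2g2 b w)
def t3g2 (b : Bx) : ℕ → ℕ → ℕ := fun e k => nthN (cfl b.k3 (b.k3 + 1) (2 ^ b.r3) 2 6 e) k
def t4g2 (b : Bx) : ℕ → ℕ → ℕ := fun e k => nthN (cfl b.k4 (b.k4 + 1) (2 ^ b.r4) 2 7 e) k
def t0f2 (b : Bx) (w : ℕ) : ℕ → ℕ := FN b.k0 (b.k0 + 1) (2 ^ b.r0) 0 6 (Nat.pow 2 (Nat.mul w 1))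
def t1f2 (b : Bx) (w : ℕ) : ℕ → ℕ := FN b.k1 (b.k1 + 1) (2 ^ b.r1) 0 4 (Nat.pow 2 (Nat.mul w 7))
def t2f2 (b : Bx) (w : ℕ) : ℕ → ℕ := FN b.k2 (b.k2 + 1) (2 ^ b.r2) 2 13 (Nat.pow 2 (Nat.mul w 42))
def ef2 (b : Bx) (w : ℕ) : ℕ → ℕ → ℕ → ℕ := ET (t0f2 b w) (t1f2 b w) (t2f2 b w)
def t3f2 (b : Bx) : ℕ → ℕ → ℕ := fun e k => nthN (cfl b.k3 (b.k3 + 1) (2 ^ b.r3) 2 4 e) k
def t4f2 (b : Bx) : ℕ → ℕ → ℕ := fun e k => nthN (cfl b.k4 (b.k4 + 1) (2 ^ b.r4) 2 4 e) k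
def t0g3 (b : Bx) (w : ℕ) : ℕ → ℕ := FN b.k0 (b.k0 + 1) (2 ^ b.r0) 6 6 (Nat.pow 2 (Nat.mul w 1))
def t1g3 (b : Bx) (w : ℕ) : ℕ → ℕ := FN b.k1 (b.k1 + 1) (2 ^ b.r1) 2 5 (Nat.pow 2 (Nat.mul w 7))
def t2g3 (b : Bx) (w : ℕ) : ℕ → ℕ := FN b.k2 (b.k2 + 1) (2 ^ b.r2) 0 16 (Nat.pow 2 (Nat.mul w 42))
def eg3 (b : Bx) (w : ℕ) : ℕ → ℕ → ℕ → ℕ := ET (t0g3 b w) (t1g3 b w) (t2g3 b w)
def t3g3 (b : Bx) : ℕ → ℕ → ℕ := fun e k => nthN (cfl b.k3 (b.k3 + 1) (2 ^ b.r3) 0 6 e) k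
def t4g3 (b : Bx) : ℕ → ℕ → ℕ := fun e k => nthN (cfl b.k4 (b.k4 + 1) (2 ^ b.r4) 0 7 e) k
def t0f3 (b : Bx) (w : ℕ) : ℕ → ℕ := FN b.k0 (b.k0 + 1) (2 ^ b.r0) 6 6 (Nat.pow 2 (Nat.mul w 1))
def t1f3 (b : Bx) (w : ℕ) : ℕ → ℕ := FN b.k1 (b.k1 + 1) (2 ^ b.r1) 2 4 (Nat.pow 2 (Nat.mul w 7))
def t2f3 (b : Bx) (w : ℕ) : ℕ → ℕ := FN b.k2 (b.k2 + 1) (2 ^ b.r2) 0 13 (Nat.pow 2 (Nat.mul w 42))
def ef3 (b : Bx) (w : ℕ) : ℕ → ℕ → ℕ → ℕ := ET (t0f3 b w) (t1f3 b w) (t2f3 b w)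
def t3f3 (b : Bx) : ℕ → ℕ → ℕ := fun e k => nthN (cfl b.k3 (b.k3 + 1) (2 ^ b.r3) 0 4 e) k
def t4f3 (b : Bx) : ℕ → ℕ → ℕ := fun e k => nthN (cfl b.k4 (b.k4 + 1) (2 ^ b.r4) 0 4 e) k
def t0g4 (b : Bx) (w : ℕ) : ℕ → ℕ := FN b.k0 (b.k0 + 1) (2 ^ b.r0) 2 6 (Nat.pow 2 (Nat.mul w 1))
def t1g4 (b : Bx) (w : ℕ) : ℕ → ℕ := FN b.k1 (b.k1 + 1) (2 ^ b.r1) 0 5 (Nat.pow 2 (Nat.mul w 7))
def t2g4 (b : Bx) (w : ℕ) : ℕ → ℕ := FN b.k2 (b.k2 + 1) (2 ^ b.r2) 0 16 (Nat.pow 2 (Nat.mul w 42))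
def eg4 (b : Bx) (w : ℕ) : ℕ → ℕ → ℕ → ℕ := ET (t0g4 b w) (t1g4 b w) (t2g4 b w)
def t3g4 (b : Bx) : ℕ → ℕ → ℕ := fun e k => nthN (cfl b.k3 (b.k3 + 1) (2 ^ b.r3) 0 6 e) k
def t4g4 (b : Bx) : ℕ → ℕ → ℕ := fun e k => nthN (cfl b.k4 (b.k4 + 1) (2 ^ b.r4) 0 7 e) k
def t0f4 (b : Bx) (w : ℕ) : ℕ → ℕ := FN b.k0 (b.k0 + 1) (2 ^ b.r0) 2 6 (Nat.pow 2 (Nat.mul w 1))
def t1f4 (b : Bx) (w : ℕ) : ℕ → ℕ := FN b.k1 (b.k1 + 1) (2 ^ b.r1) 0 4 (Nat.pow 2 (Nat.mul w 7))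
def t2f4 (b : Bx) (w : ℕ) : ℕ → ℕ := FN b.k2 (b.k2 + 1) (2 ^ b.r2) 0 13 (Nat.pow 2 (Nat.mul w 42))
def ef4 (b : Bx) (w : ℕ) : ℕ → ℕ → ℕ → ℕ := ET (t0f4 b w) (t1f4 b w) (t2f4 b w)
def t3f4 (b : Bx) : ℕ → ℕ → ℕ := fun e k => nthN (cfl b.k3 (b.k3 + 1) (2 ^ b.r3) 0 4 e) k
def t4f4 (b : Bx) : ℕ → ℕ → ℕ := fun e k => nthN (cfl b.k4 (b.k4 + 1) (2 ^ b.r4) 0 4 e) k

def L1_p (E : ℕ → ℕ → ℕ → ℕ) (c3 : ℕ → ℕ → ℕ) (sh3 : ℕ) (c4 : ℕ → ℕ → ℕ) (sh4 : ℕ) : ℕ :=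
  (fun V0 V1 V2 V3 : ℕ => Nat.add (Nat.add (Nat.add (Nat.add (Nat.add 0 (Nat.mul (c4 3 0) V3)) (Nat.mul (c4 2 0) V2)) (Nat.mul (c4 1 0) V1)) (Nat.mul (c4 0 0) V0)) (Nat.shiftLeft (Nat.add (Nat.add (Nat.add (Nat.add (Nat.add 0 (Nat.mul (c4 3 1) V3)) (Nat.mul (c4 2 1) V2)) (Nat.mul (c4 1 1) V1)) (Nat.mul (c4 0 1) V0)) (Nat.shiftLeft (Nat.add (Nat.add (Nat.add (Nat.add (Nat.add 0 (Nat.mul (c4 3 2) V3)) (Nat.mul (c4 2 2) V2)) (Nat.mul (c4 1 2) V1)) (Nat.mul (c4 0 2) V0)) (Nat.shiftLeft (Nat.add (Nat.add (Nat.add (Nat.add (Nat.add 0 (Nat.mul (c4 3 3) V3)) (Nat.mul (c4 2 3) V2)) (Nat.mul (c4 1 3) V1)) (Nat.mul (c4 0 3) V0)) (Nat.shiftLeft 0 sh4)) sh4)) sh4)) sh4)) ((fun U0 U1 U2 U3 : ℕ => Nat.add (Nat.add (Nat.add (Nat.add (Nat.add 0 (Nat.mul (c3 3 0) U3)) (Nat.mul (c3 2 0)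 U2)) (Nat.mul (c3 1 0) U1)) (Nat.mul (c3 0 0) U0)) (Nat.shiftLeft (Nat.add (Nat.add (Nat.add (Nat.add (Nat.add 0 (Nat.mul (c3 3 1) U3)) (Nat.mul (c3 2 1) U2)) (Nat.mul (c3 1 1) U1)) (Nat.mul (c3 0 1) U0)) (Nat.shiftLeft (Nat.add (Nat.add (Nat.add (Nat.add (Nat.add 0 (Nat.mul (c3 3 2) U3)) (Nat.mul (c3 2 2) U2)) (Nat.mul (c3 1 2) U1)) (Nat.mul (c3 0 2) U0)) (Nat.shiftLeft (Nat.add (Nat.add (Nat.add (Nat.add (Nat.add 0 (Nat.mul (c3 3 3) U3)) (Nat.mul (c3 2 3) U2)) (Nat.mul (c3 1 3) U1)) (Nat.mul (c3 0 3) U0)) (Nat.shiftLeft 0 sh3)) sh3)) sh3)) sh3)) (Nat.add (Nat.add (Nat.add (Nat.add (Nat.add (Nat.add (Nat.add (Nat.add (Nat.add (Nat.add (Nat.add (Nat.add (Nat.add (Nat.add 0 (Nat.mul 61297689600 (E 11 2 1))) (Nat.mul 133996262400 (E 10 2 2))) (Nat.mul 3271968000 (E 10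 2 0))) (Nat.mul 63678988800 (E 9 1 2))) (Nat.mul 32743872000 (E 8 2 0))) (Nat.mul 40034937600 (E 7 2 1))) (Nat.mul 22142937600 (E 7 1 0))) (Nat.mul 112769798400 (E 5 1 2))) (Nat.mul 38637849600 (E 5 0 1))) (Nat.mul 29766643200 (E 4 1 1))) (Nat.mul 24679065600 (E 4 0 2))) (Nat.mul 23534380800 (E 4 0 0))) (Nat.mul 3143347200 (E 2 0 2))) (Nat.mul 15207494400 (E 1 0 1))) (Nat.add (Nat.add (Nat.add (Nat.add (Nat.add (Nat.add (Nat.add (Nat.add (Nat.add 0 (Nat.mul 87858892800 (E 8 2 2))) (Nat.mul 222224083200 (E 7 1 2))) (Nat.mul 42698880000 (E 6 2 0))) (Nat.mul 78830438400 (E 6 1 1))) (Nat.mul 55338393600 (E 6 0 2))) (Nat.mul 36024710400 (E 5 1 0))) (Nat.mul 30435955200 (E 4 0 0))) (Nat.mul 24373440000 (E 2 0 2))) (Nat.mul 3883219200 (E 0 0 0))) (Nat.add (Nat.add (Nat.add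 (Nat.add (Nat.add (Nat.add (Nat.add (Nat.add 0 (Nat.mul 46474848000 (E 7 2 1))) (Nat.mul 29744870400 (E 6 0 0))) (Nat.mul 25930598400 (E 4 1 1))) (Nat.mul 54561024000 (E 4 0 2))) (Nat.mul 56824588800 (E 3 1 0))) (Nat.mul 49334745600 (E 3 0 1))) (Nat.mul 1444665600 (E 1 0 1))) (Nat.mul 37281484800 (E 0 0 0))) (Nat.add (Nat.add (Nat.add 0 (Nat.mul 28484870400 (E 5 1 2))) (Nat.mul 1811980800 (E 2 0 2))) (Nat.mul 35215084800 (E 2 0 0)))) ((fun U0 U1 U2 U3 : ℕ => Nat.add (Nat.add (Nat.add (Nat.add (Nat.add 0 (Nat.mul (c3 3 0) U3)) (Nat.mul (c3 2 0) U2)) (Nat.mul (c3 1 0) U1)) (Nat.mul (c3 0 0) U0)) (Nat.shiftLeft (Nat.add (Nat.add (Nat.add (Nat.add (Nat.add 0 (Nat.mul (c3 3 1) U3)) (Nat.mul (c3 2 1) U2)) (Nat.mul (c3 1 1) U1)) (Nat.mul (c3 0 1) U0)) (Nat.shiftLeft (Nat.add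 (Nat.add (Nat.add (Nat.add (Nat.add 0 (Nat.mul (c3 3 2) U3)) (Nat.mul (c3 2 2) U2)) (Nat.mul (c3 1 2) U1)) (Nat.mul (c3 0 2) U0)) (Nat.shiftLeft (Nat.add (Nat.add (Nat.add (Nat.add (Nat.add 0 (Nat.mul (c3 3 3) U3)) (Nat.mul (c3 2 3) U2)) (Nat.mul (c3 1 3) U1)) (Nat.mul (c3 0 3) U0)) (Nat.shiftLeft 0 sh3)) sh3)) sh3)) sh3)) (Nat.add (Nat.add (Nat.add (Nat.add (Nat.add (Nat.add (Nat.add (Nat.add (Nat.add (Nat.add (Nat.add (Nat.add 0 (Nat.mul 27283737600 (E 9 1 2))) (Nat.mul 29969049600 (E 8 2 0))) (Nat.mul 163621785600 (E 7 2 1))) (Nat.mul 98046144000 (E 6 1 1))) (Nat.mul 125369395200 (E 5 1 2))) (Nat.mul 97307481600 (E 5 1 0))) (Nat.mul 199851724800 (E 5 0 1))) (Nat.mul 216759513600 (E 4 0 2))) (Nat.mul 231955315200 (E 4 0 0))) (Nat.mul 13806374400 (E 3 1 0))) (Nat.mul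 101524147200 (E 1 0 1))) (Nat.mul 281069913600 (E 0 0 0))) (Nat.add (Nat.add (Nat.add (Nat.add (Nat.add (Nat.add (Nat.add (Nat.add (Nat.add (Nat.add (Nat.add (Nat.add (Nat.add 0 (Nat.mul 69511680000 (E 8 2 2))) (Nat.mul 11350886400 (E 7 2 1))) (Nat.mul 5651251200 (E 7 1 2))) (Nat.mul 123863040000 (E 7 0 1))) (Nat.mul 26292672000 (E 6 2 0))) (Nat.mul 92894860800 (E 6 1 1))) (Nat.mul 37957248000 (E 6 0 2))) (Nat.mul 83609971200 (E 6 0 0))) (Nat.mul 56275430400 (E 5 1 2))) (Nat.mul 9433267200 (E 5 1 0))) (Nat.mul 274863052800 (E 3 0 1))) (Nat.mul 66311078400 (E 2 0 2))) (Nat.mul 391769280000 (E 2 0 0))) (Nat.add (Nat.add (Nat.add (Nat.add (Nat.add 0 (Nat.mul 3554611200 (E 4 0 0))) (Nat.mul 2523225600 (E 3 1 0))) (Nat.mul 73617868800 (E 3 0 1))) (Nat.mul 24446822400 (E 2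 0 2))) (Nat.mul 4298918400 (E 2 0 0))) (Nat.add (Nat.add 0 (Nat.mul 10285632000 (E 2 0 0))) (Nat.mul 12096000000 (E 0 0 0)))) ((fun U0 U1 U2 : ℕ => Nat.add (Nat.add (Nat.add (Nat.add 0 (Nat.mul (c3 2 0) U2)) (Nat.mul (c3 1 0) U1)) (Nat.mul (c3 0 0) U0)) (Nat.shiftLeft (Nat.add (Nat.add (Nat.add (Nat.add 0 (Nat.mul (c3 2 1) U2)) (Nat.mul (c3 1 1) U1)) (Nat.mul (c3 0 1) U0)) (Nat.shiftLeft (Nat.add (Nat.add (Nat.add (Nat.add 0 (Nat.mul (c3 2 2) U2)) (Nat.mul (c3 1 2) U1)) (Nat.mul (c3 0 2) U0)) (Nat.shiftLeft (Nat.add (Nat.add (Nat.add (Nat.add 0 (Nat.mul (c3 2 3) U2)) (Nat.mul (c3 1 3) U1)) (Nat.mul (c3 0 3) U0)) (Nat.shiftLeft 0 sh3)) sh3)) sh3)) sh3)) (Nat.add (Nat.add (Nat.add (Nat.add (Nat.add (Nat.add (Nat.add (Nat.add (Nat.add (Nat.add (Nat.add 0 (Nat.mul 4773888000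 (E 8 2 2))) (Nat.mul 103754649600 (E 7 2 1))) (Nat.mul 185678438400 (E 7 1 2))) (Nat.mul 117379584000 (E 7 0 1))) (Nat.mul 63286272000 (E 6 2 0))) (Nat.mul 50348390400 (E 6 0 0))) (Nat.mul 64195891200 (E 4 1 1))) (Nat.mul 247726080000 (E 4 0 2))) (Nat.mul 98361446400 (E 3 1 0))) (Nat.mul 283793126400 (E 3 0 1))) (Nat.mul 376780723200 (E 0 0 0))) (Nat.add (Nat.add (Nat.add 0 (Nat.mul 61929907200 (E 5 1 2))) (Nat.mul 123867878400 (E 3 0 1))) (Nat.mul 61934745600 (E 2 0 0))) (Nat.add (Nat.add (Nat.add (Nat.add (Nat.add 0 (Nat.mul 4727116800 (E 3 0 1))) (Nat.mul 47848550400 (E 2 0 2))) (Nat.mul 123863040000 (E 2 0 0))) (Nat.mul 9454233600 (E 1 0 1))) (Nat.mul 147787315200 (E 0 0 0)))) ((fun U0 U1 : ℕ => Nat.add (Nat.add (Nat.add 0 (Nat.mul (c3 1 0) U1)) (Nat.mul (c3 0 0)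 U0)) (Nat.shiftLeft (Nat.add (Nat.add (Nat.add 0 (Nat.mul (c3 1 1) U1)) (Nat.mul (c3 0 1) U0)) (Nat.shiftLeft (Nat.add (Nat.add (Nat.add 0 (Nat.mul (c3 1 2) U1)) (Nat.mul (c3 0 2) U0)) (Nat.shiftLeft (Nat.add (Nat.add (Nat.add 0 (Nat.mul (c3 1 3) U1)) (Nat.mul (c3 0 3) U0)) (Nat.shiftLeft 0 sh3)) sh3)) sh3)) sh3)) (Nat.add (Nat.add (Nat.add (Nat.add (Nat.add (Nat.add 0 (Nat.mul 123840460800 (E 4 1 1))) (Nat.mul 120301977600 (E 4 0 0))) (Nat.mul 121495449600 (E 3 1 0))) (Nat.mul 495442483200 (E 2 0 2))) (Nat.mul 368018380800 (E 2 0 0))) (Nat.mul 254838528000 (E 0 0 0))) (Nat.add (Nat.add 0 (Nat.mul 243274752000 (E 2 0 2))) (Nat.mul 24604876800 (E 0 0 0))))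
theorem L1_p_eq (E : ℕ → ℕ → ℕ → ℕ) (c3 : ℕ → ℕ → ℕ) (sh3 : ℕ) (c4 : ℕ → ℕ → ℕ) (sh4 : ℕ) :
    zN1 true E c3 sh3 4 c4 sh4 4 mm.L1 = L1_p E c3 sh3 c4 sh4 := rfl
def L1_n (E : ℕ → ℕ → ℕ → ℕ) (c3 : ℕ → ℕ → ℕ) (sh3 : ℕ) (c4 : ℕ → ℕ → ℕ) (sh4 : ℕ) : ℕ :=
  (fun V0 V1 V2 V3 : ℕ => Nat.add (Nat.add (Nat.add (Nat.add (Nat.add 0 (Nat.mul (c4 3 0) V3)) (Nat.mul (c4 2 0) V2)) (Nat.mul (c4 1 0) V1)) (Nat.mul (c4 0 0) V0)) (Nat.shiftLeft (Nat.add (Nat.add (Nat.add (Nat.add (Nat.add 0 (Nat.mul (c4 3 1) V3)) (Nat.mul (c4 2 1) V2)) (Nat.mul (c4 1 1) V1)) (Nat.mul (c4 0 1) V0)) (Nat.shiftLeft (Nat.add (Nat.add (Nat.add (Nat.add (Nat.add 0 (Nat.mul (c4 3 2) V3)) (Nat.mul (c4 2 2) V2)) (Nat.mul (c4 1 2) V1)) (Nat.mul (c4 0 2) V0)) (Nat.shiftLeft (Nat.add (Nat.add (Nat.add (Nat.add (Nat.add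 0 (Nat.mul (c4 3 3) V3)) (Nat.mul (c4 2 3) V2)) (Nat.mul (c4 1 3) V1)) (Nat.mul (c4 0 3) V0)) (Nat.shiftLeft 0 sh4)) sh4)) sh4)) sh4)) ((fun U0 U1 U2 U3 : ℕ => Nat.add (Nat.add (Nat.add (Nat.add (Nat.add 0 (Nat.mul (c3 3 0) U3)) (Nat.mul (c3 2 0) U2)) (Nat.mul (c3 1 0) U1)) (Nat.mul (c3 0 0) U0)) (Nat.shiftLeft (Nat.add (Nat.add (Nat.add (Nat.add (Nat.add 0 (Nat.mul (c3 3 1) U3)) (Nat.mul (c3 2 1) U2)) (Nat.mul (c3 1 1) U1)) (Nat.mul (c3 0 1) U0)) (Nat.shiftLeft (Nat.add (Nat.add (Nat.add (Nat.add (Nat.add 0 (Nat.mul (c3 3 2) U3)) (Nat.mul (c3 2 2) U2)) (Nat.mul (c3 1 2) U1)) (Nat.mul (c3 0 2) U0)) (Nat.shiftLeft (Nat.add (Nat.add (Nat.add (Nat.add (Nat.add 0 (Nat.mul (c3 3 3) U3)) (Nat.mul (c3 2 3) U2)) (Nat.mul (c3 1 3) U1)) (Nat.mul (c3 0 3) U0)) (Nat.shiftLeft 0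 sh3)) sh3)) sh3)) sh3)) (Nat.add (Nat.add (Nat.add (Nat.add (Nat.add (Nat.add (Nat.add (Nat.add (Nat.add (Nat.add (Nat.add (Nat.add (Nat.add (Nat.add 0 (Nat.mul 41783616000 (E 12 2 2))) (Nat.mul 97763904000 (E 9 2 1))) (Nat.mul 86258995200 (E 8 2 2))) (Nat.mul 13199961600 (E 8 1 1))) (Nat.mul 173913465600 (E 7 1 2))) (Nat.mul 38080224000 (E 6 2 0))) (Nat.mul 23502528000 (E 6 1 1))) (Nat.mul 27822412800 (E 6 0 2))) (Nat.mul 7662412800 (E 6 0 0))) (Nat.mul 32478969600 (E 5 1 0))) (Nat.mul 1070092800 (E 3 1 0))) (Nat.mul 52920000000 (E 3 0 1))) (Nat.mul 8506713600 (E 2 0 0))) (Nat.mul 8295033600 (E 0 0 0))) (Nat.add (Nat.add (Nat.add (Nat.add (Nat.add (Nat.add (Nat.add (Nat.add (Nat.add (Nat.add (Nat.add (Nat.add (Nat.add (Nat.add (Nat.add (Nat.add 0 (Nat.mul 73614643200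 (E 10 2 2))) (Nat.mul 37100448000 (E 9 2 1))) (Nat.mul 72405849600 (E 9 1 2))) (Nat.mul 26195904000 (E 8 2 0))) (Nat.mul 15572390400 (E 8 1 1))) (Nat.mul 7875302400 (E 7 2 1))) (Nat.mul 4417459200 (E 7 1 0))) (Nat.mul 20869632000 (E 6 0 0))) (Nat.mul 140161996800 (E 5 1 2))) (Nat.mul 3711859200 (E 5 0 1))) (Nat.mul 53378841600 (E 4 1 1))) (Nat.mul 79711833600 (E 4 0 2))) (Nat.mul 23890003200 (E 3 1 0))) (Nat.mul 3042950400 (E 3 0 1))) (Nat.mul 23526316800 (E 2 0 0))) (Nat.mul 5808499200 (E 1 0 1))) (Nat.add (Nat.add (Nat.add (Nat.add (Nat.add (Nat.add (Nat.add (Nat.add (Nat.add (Nat.add (Nat.add 0 (Nat.mul 20650291200 (E 8 2 2))) (Nat.mul 21974400000 (E 7 1 2))) (Nat.mul 17269862400 (E 6 2 0))) (Nat.mul 12623385600 (E 6 1 1))) (Nat.mul 27249868800 (E 6 0 2))) (Nat.mul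 24434323200 (E 5 1 2))) (Nat.mul 31043980800 (E 5 1 0))) (Nat.mul 31439923200 (E 5 0 1))) (Nat.mul 36584755200 (E 4 0 0))) (Nat.mul 27311155200 (E 2 0 2))) (Nat.mul 4005388800 (E 2 0 0))) (Nat.add (Nat.add (Nat.add (Nat.add (Nat.add (Nat.add (Nat.add 0 (Nat.mul 12366144000 (E 4 1 1))) (Nat.mul 1811980800 (E 4 0 2))) (Nat.mul 17154547200 (E 4 0 0))) (Nat.mul 22513881600 (E 3 1 0))) (Nat.mul 2596204800 (E 3 0 1))) (Nat.mul 5489568000 (E 1 0 1))) (Nat.mul 31869331200 (E 0 0 0)))) ((fun U0 U1 U2 U3 : ℕ => Nat.add (Nat.add (Nat.add (Nat.add (Nat.add 0 (Nat.mul (c3 3 0) U3)) (Nat.mul (c3 2 0) U2)) (Nat.mul (c3 1 0) U1)) (Nat.mul (c3 0 0) U0)) (Nat.shiftLeft (Nat.add (Nat.add (Nat.add (Nat.add (Nat.add 0 (Nat.mul (c3 3 1) U3)) (Nat.mul (c3 2 1) U2)) (Nat.mul (c3 1 1) U1)) (Nat.mul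 (c3 0 1) U0)) (Nat.shiftLeft (Nat.add (Nat.add (Nat.add (Nat.add (Nat.add 0 (Nat.mul (c3 3 2) U3)) (Nat.mul (c3 2 2) U2)) (Nat.mul (c3 1 2) U1)) (Nat.mul (c3 0 2) U0)) (Nat.shiftLeft (Nat.add (Nat.add (Nat.add (Nat.add (Nat.add 0 (Nat.mul (c3 3 3) U3)) (Nat.mul (c3 2 3) U2)) (Nat.mul (c3 1 3) U1)) (Nat.mul (c3 0 3) U0)) (Nat.shiftLeft 0 sh3)) sh3)) sh3)) sh3)) (Nat.add (Nat.add (Nat.add (Nat.add (Nat.add (Nat.add (Nat.add (Nat.add (Nat.add (Nat.add (Nat.add (Nat.add (Nat.add (Nat.add 0 (Nat.mul 42866611200 (E 10 2 2))) (Nat.mul 185649408000 (E 9 2 1))) (Nat.mul 4368268800 (E 8 2 2))) (Nat.mul 1165248000 (E 8 1 1))) (Nat.mul 178388582400 (E 7 1 2))) (Nat.mul 68069030400 (E 7 1 0))) (Nat.mul 54915840000 (E 7 0 1))) (Nat.mul 109854259200 (E 6 2 0))) (Nat.mul 92897280000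 (E 6 0 2))) (Nat.mul 63547545600 (E 6 0 0))) (Nat.mul 109718784000 (E 4 1 1))) (Nat.mul 195832627200 (E 3 0 1))) (Nat.mul 119054476800 (E 2 0 2))) (Nat.mul 384311692800 (E 2 0 0))) (Nat.add (Nat.add (Nat.add (Nat.add (Nat.add (Nat.add (Nat.add 0 (Nat.mul 371587507200 (E 5 0 1))) (Nat.mul 82476979200 (E 4 1 1))) (Nat.mul 96684134400 (E 4 0 2))) (Nat.mul 266578099200 (E 4 0 0))) (Nat.mul 67169088000 (E 3 1 0))) (Nat.mul 46630886400 (E 1 0 1))) (Nat.mul 244835136000 (E 0 0 0))) (Nat.add (Nat.add (Nat.add (Nat.add (Nat.add (Nat.add 0 (Nat.mul 5046451200 (E 5 1 2))) (Nat.mul 36808934400 (E 5 0 1))) (Nat.mul 2844979200 (E 4 1 1))) (Nat.mul 30964953600 (E 4 0 2))) (Nat.mul 38921702400 (E 1 0 1))) (Nat.mul 46958284800 (E 0 0 0))) (Nat.add (Nat.add 0 (Nat.mul 8475264000 (E 2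 0 2))) (Nat.mul 27778867200 (E 1 0 1)))) ((fun U0 U1 : ℕ => Nat.add (Nat.add (Nat.add 0 (Nat.mul (c3 1 0) U1)) (Nat.mul (c3 0 0) U0)) (Nat.shiftLeft (Nat.add (Nat.add (Nat.add 0 (Nat.mul (c3 1 1) U1)) (Nat.mul (c3 0 1) U0)) (Nat.shiftLeft (Nat.add (Nat.add (Nat.add 0 (Nat.mul (c3 1 2) U1)) (Nat.mul (c3 0 2) U0)) (Nat.shiftLeft (Nat.add (Nat.add (Nat.add 0 (Nat.mul (c3 1 3) U1)) (Nat.mul (c3 0 3) U0)) (Nat.shiftLeft 0 sh3)) sh3)) sh3)) sh3)) (Nat.add (Nat.add (Nat.add (Nat.add (Nat.add (Nat.add (Nat.add (Nat.add (Nat.add 0 (Nat.mul 10650931200 (E 6 1 1))) (Nat.mul 123863040000 (E 6 0 2))) (Nat.mul 245263334400 (E 5 1 2))) (Nat.mul 98158233600 (E 5 1 0))) (Nat.mul 374942131200 (E 5 0 1))) (Nat.mul 89113651200 (E 4 0 0))) (Nat.mul 247726080000 (E 2 0 2))) (Nat.mul 109210752000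 (E 2 0 0))) (Nat.mul 120395520000 (E 1 0 1))) (Nat.add (Nat.add (Nat.add (Nat.add 0 (Nat.mul 61931520000 (E 5 0 1))) (Nat.mul 123859814400 (E 2 0 2))) (Nat.mul 309396326400 (E 1 0 1))) (Nat.mul 497790720000 (E 0 0 0)))) ((fun U0 U1 : ℕ => Nat.add (Nat.add (Nat.add 0 (Nat.mul (c3 1 0) U1)) (Nat.mul (c3 0 0) U0)) (Nat.shiftLeft (Nat.add (Nat.add (Nat.add 0 (Nat.mul (c3 1 1) U1)) (Nat.mul (c3 0 1) U0)) (Nat.shiftLeft (Nat.add (Nat.add (Nat.add 0 (Nat.mul (c3 1 2) U1)) (Nat.mul (c3 0 2) U0)) (Nat.shiftLeft (Nat.add (Nat.add (Nat.add 0 (Nat.mul (c3 1 3) U1)) (Nat.mul (c3 0 3) U0)) (Nat.shiftLeft 0 sh3)) sh3)) sh3)) sh3)) (Nat.add (Nat.add (Nat.add 0 (Nat.mul 123863040000 (E 4 0 2))) (Nat.mul 131475456000 (E 3 0 1))) (Nat.mul 24598425600 (E 1 0 1))) (Nat.add (Nat.add (Nat.add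 0 (Nat.mul 148648550400 (E 3 0 1))) (Nat.mul 84730060800 (E 2 0 0))) (Nat.mul 148648550400 (E 1 0 1))))
theorem L1_n_eq (E : ℕ → ℕ → ℕ → ℕ) (c3 : ℕ → ℕ → ℕ) (sh3 : ℕ) (c4 : ℕ → ℕ → ℕ) (sh4 : ℕ) :
    zN1 false E c3 sh3 4 c4 sh4 4 mm.L1 = L1_n E c3 sh3 c4 sh4 := rfl
def L2_p (E : ℕ → ℕ → ℕ → ℕ) (c3 : ℕ → ℕ → ℕ) (sh3 : ℕ) (c4 : ℕ → ℕ → ℕ) (sh4 : ℕ) : ℕ :=
  (fun V0 V1 V2 V3 : ℕ => Nat.add (Nat.add (Nat.add (Nat.add (Nat.add 0 (Nat.mul (c4 3 0) V3)) (Nat.mul (c4 2 0) V2)) (Nat.mul (c4 1 0) V1)) (Nat.mul (c4 0 0) V0)) (Nat.shiftLeft (Nat.add (Nat.add (Nat.add (Nat.add (Nat.add 0 (Nat.mul (c4 3 1) V3)) (Nat.mul (c4 2 1) V2)) (Nat.mul (c4 1 1) V1)) (Nat.mul (c4 0 1) V0)) (Nat.shiftLeft (Nat.add (Nat.add (Nat.add (Nat.add (Nat.add 0 (Nat.mul (c4 3 2) V3)) (Nat.mul (c4 2 2)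 V2)) (Nat.mul (c4 1 2) V1)) (Nat.mul (c4 0 2) V0)) (Nat.shiftLeft (Nat.add (Nat.add (Nat.add (Nat.add (Nat.add 0 (Nat.mul (c4 3 3) V3)) (Nat.mul (c4 2 3) V2)) (Nat.mul (c4 1 3) V1)) (Nat.mul (c4 0 3) V0)) (Nat.shiftLeft 0 sh4)) sh4)) sh4)) sh4)) ((fun U0 U1 U2 U3 : ℕ => Nat.add (Nat.add (Nat.add (Nat.add (Nat.add 0 (Nat.mul (c3 3 0) U3)) (Nat.mul (c3 2 0) U2)) (Nat.mul (c3 1 0) U1)) (Nat.mul (c3 0 0) U0)) (Nat.shiftLeft (Nat.add (Nat.add (Nat.add (Nat.add (Nat.add 0 (Nat.mul (c3 3 1) U3)) (Nat.mul (c3 2 1) U2)) (Nat.mul (c3 1 1) U1)) (Nat.mul (c3 0 1) U0)) (Nat.shiftLeft (Nat.add (Nat.add (Nat.add (Nat.add (Nat.add 0 (Nat.mul (c3 3 2) U3)) (Nat.mul (c3 2 2) U2)) (Nat.mul (c3 1 2) U1)) (Nat.mul (c3 0 2) U0)) (Nat.shiftLeft (Nat.add (Nat.add (Nat.add (Nat.add (Nat.add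 0 (Nat.mul (c3 3 3) U3)) (Nat.mul (c3 2 3) U2)) (Nat.mul (c3 1 3) U1)) (Nat.mul (c3 0 3) U0)) (Nat.shiftLeft 0 sh3)) sh3)) sh3)) sh3)) (Nat.add (Nat.add (Nat.add (Nat.add (Nat.add (Nat.add (Nat.add (Nat.add (Nat.add 0 (Nat.mul 40865126400 (E 9 1 1))) (Nat.mul 87962112000 (E 8 1 2))) (Nat.mul 27290995200 (E 7 0 2))) (Nat.mul 40478054400 (E 6 1 0))) (Nat.mul 21247833600 (E 5 1 1))) (Nat.mul 16024780800 (E 5 0 0))) (Nat.mul 57759609600 (E 3 0 2))) (Nat.mul 46184947200 (E 2 0 1))) (Nat.mul 13160448000 (E 1 0 0))) (Nat.add (Nat.add (Nat.add (Nat.add (Nat.add 0 (Nat.mul 69455232000 (E 6 1 2))) (Nat.mul 108509587200 (E 5 0 2))) (Nat.mul 67592448000 (E 4 1 0))) (Nat.mul 62021030400 (E 4 0 1))) (Nat.mul 64162022400 (E 3 0 0))) (Nat.add (Nat.add (Nat.add 0 (Nat.mul 55769817600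 (E 5 1 1))) (Nat.mul 55914969600 (E 2 0 1))) (Nat.mul 81887500800 (E 1 0 0))) (Nat.add 0 (Nat.mul 28484870400 (E 3 0 2)))) ((fun U0 U1 : ℕ => Nat.add (Nat.add (Nat.add 0 (Nat.mul (c3 1 0) U1)) (Nat.mul (c3 0 0) U0)) (Nat.shiftLeft (Nat.add (Nat.add (Nat.add 0 (Nat.mul (c3 1 1) U1)) (Nat.mul (c3 0 1) U0)) (Nat.shiftLeft (Nat.add (Nat.add (Nat.add 0 (Nat.mul (c3 1 2) U1)) (Nat.mul (c3 0 2) U0)) (Nat.shiftLeft (Nat.add (Nat.add (Nat.add 0 (Nat.mul (c3 1 3) U1)) (Nat.mul (c3 0 3) U0)) (Nat.shiftLeft 0 sh3)) sh3)) sh3)) sh3)) (Nat.add (Nat.add (Nat.add (Nat.add (Nat.add (Nat.add (Nat.add (Nat.add 0 (Nat.mul 13641868800 (E 7 0 2))) (Nat.mul 28614297600 (E 6 1 0))) (Nat.mul 137091225600 (E 5 1 1))) (Nat.mul 82008460800 (E 4 0 1))) (Nat.mul 67904524800 (E 3 0 2))) (Nat.mul 2387750400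 (E 3 0 0))) (Nat.mul 1857945600 (E 2 0 1))) (Nat.mul 130252147200 (E 1 0 0))) (Nat.add (Nat.add (Nat.add (Nat.add (Nat.add (Nat.add (Nat.add 0 (Nat.mul 83414016000 (E 6 1 2))) (Nat.mul 17026329600 (E 5 1 1))) (Nat.mul 4238438400 (E 5 0 2))) (Nat.mul 80390016000 (E 4 1 0))) (Nat.mul 92894860800 (E 4 0 1))) (Nat.mul 88651584000 (E 3 0 2))) (Nat.mul 16269120000 (E 3 0 0)))) ((fun U0 U1 : ℕ => Nat.add (Nat.add (Nat.add 0 (Nat.mul (c3 1 0) U1)) (Nat.mul (c3 0 0) U0)) (Nat.shiftLeft (Nat.add (Nat.add (Nat.add 0 (Nat.mul (c3 1 1) U1)) (Nat.mul (c3 0 1) U0)) (Nat.shiftLeft (Nat.add (Nat.add (Nat.add 0 (Nat.mul (c3 1 2) U1)) (Nat.mul (c3 0 2) U0)) (Nat.shiftLeft (Nat.add (Nat.add (Nat.add 0 (Nat.mul (c3 1 3) U1)) (Nat.mul (c3 0 3) U0)) (Nat.shiftLeft 0 sh3)) sh3)) sh3)) sh3))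 (Nat.add (Nat.add (Nat.add (Nat.add (Nat.add (Nat.add 0 (Nat.mul 7160832000 (E 6 1 2))) (Nat.mul 207509299200 (E 5 1 1))) (Nat.mul 185678438400 (E 5 0 2))) (Nat.mul 193439232000 (E 4 1 0))) (Nat.mul 190787788800 (E 2 0 1))) (Nat.mul 167655398400 (E 1 0 0))) (Nat.add 0 (Nat.mul 185789721600 (E 3 0 2)))) ((fun U0 : ℕ => Nat.add (Nat.add 0 (Nat.mul (c3 0 0) U0)) (Nat.shiftLeft (Nat.add (Nat.add 0 (Nat.mul (c3 0 1) U0)) (Nat.shiftLeft (Nat.add (Nat.add 0 (Nat.mul (c3 0 2) U0)) (Nat.shiftLeft (Nat.add (Nat.add 0 (Nat.mul (c3 0 3) U0)) (Nat.shiftLeft 0 sh3)) sh3)) sh3)) sh3)) (Nat.add 0 (Nat.mul 111573504000 (E 3 0 2))))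
theorem L2_p_eq (E : ℕ → ℕ → ℕ → ℕ) (c3 : ℕ → ℕ → ℕ) (sh3 : ℕ) (c4 : ℕ → ℕ → ℕ) (sh4 : ℕ) :
    zN1 true E c3 sh3 4 c4 sh4 4 mm.L2 = L2_p E c3 sh3 c4 sh4 := rfl
def L2_n (E : ℕ → ℕ → ℕ → ℕ) (c3 : ℕ → ℕ → ℕ) (sh3 : ℕ) (c4 : ℕ → ℕ → ℕ) (sh4 : ℕ) : ℕ :=
  (fun V0 V1 V2 V3 : ℕ => Nat.add (Nat.add (Nat.add (Nat.add (Nat.add 0 (Nat.mul (c4 3 0) V3)) (Nat.mul (c4 2 0) V2)) (Nat.mul (c4 1 0) V1)) (Nat.mul (c4 0 0) V0)) (Nat.shiftLeft (Nat.add (Nat.add (Nat.add (Nat.add (Nat.add 0 (Nat.mul (c4 3 1) V3)) (Nat.mul (c4 2 1) V2)) (Nat.mul (c4 1 1) V1)) (Nat.mul (c4 0 1) V0)) (Nat.shiftLeft (Nat.add (Nat.add (Nat.add (Nat.add (Nat.add 0 (Nat.mul (c4 3 2) V3)) (Nat.mul (c4 2 2) V2)) (Nat.mul (c4 1 2) V1)) (Nat.mul (c4 0 2) V0)) (Nat.shiftLeft (Nat.add (Nat.add (Nat.add (Nat.add (Nat.add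 0 (Nat.mul (c4 3 3) V3)) (Nat.mul (c4 2 3) V2)) (Nat.mul (c4 1 3) V1)) (Nat.mul (c4 0 3) V0)) (Nat.shiftLeft 0 sh4)) sh4)) sh4)) sh4)) ((fun U0 U1 U2 U3 : ℕ => Nat.add (Nat.add (Nat.add (Nat.add (Nat.add 0 (Nat.mul (c3 3 0) U3)) (Nat.mul (c3 2 0) U2)) (Nat.mul (c3 1 0) U1)) (Nat.mul (c3 0 0) U0)) (Nat.shiftLeft (Nat.add (Nat.add (Nat.add (Nat.add (Nat.add 0 (Nat.mul (c3 3 1) U3)) (Nat.mul (c3 2 1) U2)) (Nat.mul (c3 1 1) U1)) (Nat.mul (c3 0 1) U0)) (Nat.shiftLeft (Nat.add (Nat.add (Nat.add (Nat.add (Nat.add 0 (Nat.mul (c3 3 2) U3)) (Nat.mul (c3 2 2) U2)) (Nat.mul (c3 1 2) U1)) (Nat.mul (c3 0 2) U0)) (Nat.shiftLeft (Nat.add (Nat.add (Nat.add (Nat.add (Nat.add 0 (Nat.mul (c3 3 3) U3)) (Nat.mul (c3 2 3) U2)) (Nat.mul (c3 1 3) U1)) (Nat.mul (c3 0 3) U0)) (Nat.shiftLeft 0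 sh3)) sh3)) sh3)) sh3)) (Nat.add (Nat.add (Nat.add (Nat.add (Nat.add (Nat.add (Nat.add (Nat.add (Nat.add 0 (Nat.mul 25070169600 (E 10 1 2))) (Nat.mul 679795200 (E 8 1 0))) (Nat.mul 52956288000 (E 7 1 1))) (Nat.mul 56938291200 (E 6 1 2))) (Nat.mul 3419539200 (E 6 0 1))) (Nat.mul 82515283200 (E 5 0 2))) (Nat.mul 44568921600 (E 4 1 0))) (Nat.mul 39550291200 (E 4 0 1))) (Nat.mul 39793420800 (E 3 0 0))) (Nat.add (Nat.add (Nat.add (Nat.add (Nat.add (Nat.add (Nat.add (Nat.add (Nat.add (Nat.add 0 (Nat.mul 55210982400 (E 8 1 2))) (Nat.mul 31800384000 (E 7 1 1))) (Nat.mul 31031078400 (E 7 0 2))) (Nat.mul 35397734400 (E 6 1 0))) (Nat.mul 7786195200 (E 6 0 1))) (Nat.mul 28473984000 (E 5 1 1))) (Nat.mul 8856691200 (E 5 0 0))) (Nat.mul 67822272000 (E 3 0 2))) (Nat.mul 77133772800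 (E 2 0 1))) (Nat.mul 52917580800 (E 1 0 0))) (Nat.add (Nat.add (Nat.add (Nat.add (Nat.add (Nat.add 0 (Nat.mul 20650291200 (E 6 1 2))) (Nat.mul 13184640000 (E 5 0 2))) (Nat.mul 31067366400 (E 4 1 0))) (Nat.mul 9467539200 (E 4 0 1))) (Nat.mul 33224083200 (E 3 0 2))) (Nat.mul 35438860800 (E 3 0 0))) (Nat.add (Nat.add 0 (Nat.mul 18549216000 (E 2 0 1))) (Nat.mul 39056774400 (E 1 0 0)))) ((fun U0 U1 U2 : ℕ => Nat.add (Nat.add (Nat.add (Nat.add 0 (Nat.mul (c3 2 0) U2)) (Nat.mul (c3 1 0) U1)) (Nat.mul (c3 0 0) U0)) (Nat.shiftLeft (Nat.add (Nat.add (Nat.add (Nat.add 0 (Nat.mul (c3 2 1) U2)) (Nat.mul (c3 1 1) U1)) (Nat.mul (c3 0 1) U0)) (Nat.shiftLeft (Nat.add (Nat.add (Nat.add (Nat.add 0 (Nat.mul (c3 2 2) U2)) (Nat.mul (c3 1 2) U1)) (Nat.mul (c3 0 2) U0)) (Nat.shiftLeft (Nat.add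 (Nat.add (Nat.add (Nat.add 0 (Nat.mul (c3 2 3) U2)) (Nat.mul (c3 1 3) U1)) (Nat.mul (c3 0 3) U0)) (Nat.shiftLeft 0 sh3)) sh3)) sh3)) sh3)) (Nat.add (Nat.add (Nat.add (Nat.add (Nat.add (Nat.add (Nat.add 0 (Nat.mul 36742809600 (E 8 1 2))) (Nat.mul 185649408000 (E 7 1 1))) (Nat.mul 19939046400 (E 6 1 2))) (Nat.mul 699148800 (E 6 0 1))) (Nat.mul 120149568000 (E 5 0 2))) (Nat.mul 47641305600 (E 5 0 0))) (Nat.mul 165149107200 (E 4 1 0))) (Nat.add (Nat.add 0 (Nat.mul 185765529600 (E 2 0 1))) (Nat.mul 109166400000 (E 1 0 0))) (Nat.add (Nat.add (Nat.add 0 (Nat.mul 7569676800 (E 3 0 2))) (Nat.mul 8534937600 (E 2 0 1))) (Nat.mul 13905561600 (E 1 0 0)))) ((fun U0 U1 : ℕ => Nat.add (Nat.add (Nat.add 0 (Nat.mul (c3 1 0) U1)) (Nat.mul (c3 0 0) U0)) (Nat.shiftLeft (Nat.add (Nat.add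 (Nat.add 0 (Nat.mul (c3 1 1) U1)) (Nat.mul (c3 0 1) U0)) (Nat.shiftLeft (Nat.add (Nat.add (Nat.add 0 (Nat.mul (c3 1 2) U1)) (Nat.mul (c3 0 2) U0)) (Nat.shiftLeft (Nat.add (Nat.add (Nat.add 0 (Nat.mul (c3 1 3) U1)) (Nat.mul (c3 0 3) U0)) (Nat.shiftLeft 0 sh3)) sh3)) sh3)) sh3)) (Nat.add (Nat.add (Nat.add 0 (Nat.mul 15976396800 (E 4 0 1))) (Nat.mul 364433126400 (E 3 0 2))) (Nat.mul 108796262400 (E 3 0 0))) (Nat.add (Nat.add 0 (Nat.mul 141479654400 (E 2 0 1))) (Nat.mul 185789721600 (E 1 0 0)))) ((fun U0 : ℕ => Nat.add (Nat.add 0 (Nat.mul (c3 0 0) U0)) (Nat.shiftLeft (Nat.add (Nat.add 0 (Nat.mul (c3 0 1) U0)) (Nat.shiftLeft (Nat.add (Nat.add 0 (Nat.mul (c3 0 2) U0)) (Nat.shiftLeft (Nat.add (Nat.add 0 (Nat.mul (c3 0 3) U0)) (Nat.shiftLeft 0 sh3)) sh3)) sh3)) sh3)) (Nat.add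 (Nat.add 0 (Nat.mul 371521382400 (E 2 0 1))) (Nat.mul 238029926400 (E 1 0 0))))
theorem L2_n_eq (E : ℕ → ℕ → ℕ → ℕ) (c3 : ℕ → ℕ → ℕ) (sh3 : ℕ) (c4 : ℕ → ℕ → ℕ) (sh4 : ℕ) :
    zN1 false E c3 sh3 4 c4 sh4 4 mm.L2 = L2_n E c3 sh3 c4 sh4 := rfl
def Lw_p (E : ℕ → ℕ → ℕ → ℕ) (c3 : ℕ → ℕ → ℕ) (sh3 : ℕ) (c4 : ℕ → ℕ → ℕ) (sh4 : ℕ) : ℕ :=
  (fun V0 V1 V2 V3 : ℕ => Nat.add (Nat.add (Nat.add (Nat.add (Nat.add 0 (Nat.mul (c4 3 0) V3)) (Nat.mul (c4 2 0) V2)) (Nat.mul (c4 1 0) V1)) (Nat.mul (c4 0 0) V0)) (Nat.shiftLeft (Nat.add (Nat.add (Nat.add (Nat.add (Nat.add 0 (Nat.mul (c4 3 1) V3)) (Nat.mul (c4 2 1) V2)) (Nat.mul (c4 1 1) V1)) (Nat.mul (c4 0 1) V0)) (Nat.shiftLeft (Nat.add (Nat.add (Nat.add (Nat.add (Nat.add 0 (Nat.mul (c4 3 2) V3)) (Nat.mul (c4 2 2) V2)) (Nat.mul (c4 1 2) V1))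 (Nat.mul (c4 0 2) V0)) (Nat.shiftLeft (Nat.add (Nat.add (Nat.add (Nat.add (Nat.add 0 (Nat.mul (c4 3 3) V3)) (Nat.mul (c4 2 3) V2)) (Nat.mul (c4 1 3) V1)) (Nat.mul (c4 0 3) V0)) (Nat.shiftLeft 0 sh4)) sh4)) sh4)) sh4)) ((fun U0 U1 U2 U3 : ℕ => Nat.add (Nat.add (Nat.add (Nat.add (Nat.add 0 (Nat.mul (c3 3 0) U3)) (Nat.mul (c3 2 0) U2)) (Nat.mul (c3 1 0) U1)) (Nat.mul (c3 0 0) U0)) (Nat.shiftLeft (Nat.add (Nat.add (Nat.add (Nat.add (Nat.add 0 (Nat.mul (c3 3 1) U3)) (Nat.mul (c3 2 1) U2)) (Nat.mul (c3 1 1) U1)) (Nat.mul (c3 0 1) U0)) (Nat.shiftLeft (Nat.add (Nat.add (Nat.add (Nat.add (Nat.add 0 (Nat.mul (c3 3 2) U3)) (Nat.mul (c3 2 2) U2)) (Nat.mul (c3 1 2) U1)) (Nat.mul (c3 0 2) U0)) (Nat.shiftLeft (Nat.add (Nat.add (Nat.add (Nat.add (Nat.add 0 (Nat.mul (c3 3 3) U3)) (Nat.mul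 (c3 2 3) U2)) (Nat.mul (c3 1 3) U1)) (Nat.mul (c3 0 3) U0)) (Nat.shiftLeft 0 sh3)) sh3)) sh3)) sh3)) (Nat.add (Nat.add (Nat.add (Nat.add (Nat.add (Nat.add (Nat.add (Nat.add (Nat.add 0 (Nat.mul 6516115200 (E 6 2 0))) (Nat.mul 6295564800 (E 6 1 1))) (Nat.mul 5926233600 (E 5 2 1))) (Nat.mul 3982003200 (E 5 1 0))) (Nat.mul 24704064000 (E 5 0 1))) (Nat.mul 1715212800 (E 2 1 1))) (Nat.mul 4353350400 (E 2 0 0))) (Nat.mul 6889478400 (E 1 1 0))) (Nat.mul 333849600 (E 1 0 1))) (Nat.add (Nat.add (Nat.add (Nat.add (Nat.add (Nat.add 0 (Nat.mul 5060966400 (E 5 2 1))) (Nat.mul 9339724800 (E 4 1 1))) (Nat.mul 8791776000 (E 4 0 0))) (Nat.mul 2961907200 (E 3 1 0))) (Nat.mul 11499264000 (E 1 0 1))) (Nat.mul 4965004800 (E 0 0 0))) (Nat.add (Nat.add (Nat.add 0 (Nat.mul 19985011200 (E 3 0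 1))) (Nat.mul 1543449600 (E 2 1 1))) (Nat.mul 1012838400 (E 1 1 0))) (Nat.add 0 (Nat.mul 4864608000 (E 0 0 0)))) ((fun U0 U1 : ℕ => Nat.add (Nat.add (Nat.add 0 (Nat.mul (c3 1 0) U1)) (Nat.mul (c3 0 0) U0)) (Nat.shiftLeft (Nat.add (Nat.add (Nat.add 0 (Nat.mul (c3 1 1) U1)) (Nat.mul (c3 0 1) U0)) (Nat.shiftLeft (Nat.add (Nat.add (Nat.add 0 (Nat.mul (c3 1 2) U1)) (Nat.mul (c3 0 2) U0)) (Nat.shiftLeft (Nat.add (Nat.add (Nat.add 0 (Nat.mul (c3 1 3) U1)) (Nat.mul (c3 0 3) U0)) (Nat.shiftLeft 0 sh3)) sh3)) sh3)) sh3)) (Nat.add (Nat.add (Nat.add (Nat.add (Nat.add (Nat.add 0 (Nat.mul 6215731200 (E 5 2 1))) (Nat.mul 16615065600 (E 3 1 0))) (Nat.mul 18202060800 (E 3 0 1))) (Nat.mul 24188774400 (E 2 1 1))) (Nat.mul 81852825600 (E 2 0 0))) (Nat.mul 23392051200 (E 1 1 0))) (Nat.add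 (Nat.add (Nat.add 0 (Nat.mul 24498432000 (E 3 0 1))) (Nat.mul 75785472000 (E 1 0 1))) (Nat.mul 17250508800 (E 0 0 0)))) ((fun U0 U1 : ℕ => Nat.add (Nat.add (Nat.add 0 (Nat.mul (c3 1 0) U1)) (Nat.mul (c3 0 0) U0)) (Nat.shiftLeft (Nat.add (Nat.add (Nat.add 0 (Nat.mul (c3 1 1) U1)) (Nat.mul (c3 0 1) U0)) (Nat.shiftLeft (Nat.add (Nat.add (Nat.add 0 (Nat.mul (c3 1 2) U1)) (Nat.mul (c3 0 2) U0)) (Nat.shiftLeft (Nat.add (Nat.add (Nat.add 0 (Nat.mul (c3 1 3) U1)) (Nat.mul (c3 0 3) U0)) (Nat.shiftLeft 0 sh3)) sh3)) sh3)) sh3)) (Nat.add (Nat.add 0 (Nat.mul 123856588800 (E 3 0 1))) (Nat.mul 43252070400 (E 2 1 1))) (Nat.add (Nat.add 0 (Nat.mul 780595200 (E 1 0 1))) (Nat.mul 10726732800 (E 0 0 0)))) (Nat.add 0 (Nat.shiftLeft (Nat.add 0 (Nat.shiftLeft (Nat.add 0 (Nat.shiftLeft (Nat.add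 0 (Nat.shiftLeft 0 sh3)) sh3)) sh3)) sh3))
theorem Lw_p_eq (E : ℕ → ℕ → ℕ → ℕ) (c3 : ℕ → ℕ → ℕ) (sh3 : ℕ) (c4 : ℕ → ℕ → ℕ) (sh4 : ℕ) :
    zN1 true E c3 sh3 4 c4 sh4 4 mm.Lw = Lw_p E c3 sh3 c4 sh4 := rfl
def Lw_n (E : ℕ → ℕ → ℕ → ℕ) (c3 : ℕ → ℕ → ℕ) (sh3 : ℕ) (c4 : ℕ → ℕ → ℕ) (sh4 : ℕ) : ℕ :=
  (fun V0 V1 V2 V3 : ℕ => Nat.add (Nat.add (Nat.add (Nat.add (Nat.add 0 (Nat.mul (c4 3 0) V3)) (Nat.mul (c4 2 0) V2)) (Nat.mul (c4 1 0) V1)) (Nat.mul (c4 0 0) V0)) (Nat.shiftLeft (Nat.add (Nat.add (Nat.add (Nat.add (Nat.add 0 (Nat.mul (c4 3 1) V3)) (Nat.mul (c4 2 1) V2)) (Nat.mul (c4 1 1) V1)) (Nat.mul (c4 0 1) V0)) (Nat.shiftLeft (Nat.add (Nat.add (Nat.add (Nat.add (Nat.add 0 (Nat.mul (c4 3 2) V3)) (Nat.mul (c4 2 2) V2)) (Nat.mul (c4 1 2) V1)) (Nat.mul (c4 0 2) V0)) (Nat.shiftLeft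 (Nat.add (Nat.add (Nat.add (Nat.add (Nat.add 0 (Nat.mul (c4 3 3) V3)) (Nat.mul (c4 2 3) V2)) (Nat.mul (c4 1 3) V1)) (Nat.mul (c4 0 3) V0)) (Nat.shiftLeft 0 sh4)) sh4)) sh4)) sh4)) ((fun U0 U1 U2 : ℕ => Nat.add (Nat.add (Nat.add (Nat.add 0 (Nat.mul (c3 2 0) U2)) (Nat.mul (c3 1 0) U1)) (Nat.mul (c3 0 0) U0)) (Nat.shiftLeft (Nat.add (Nat.add (Nat.add (Nat.add 0 (Nat.mul (c3 2 1) U2)) (Nat.mul (c3 1 1) U1)) (Nat.mul (c3 0 1) U0)) (Nat.shiftLeft (Nat.add (Nat.add (Nat.add (Nat.add 0 (Nat.mul (c3 2 2) U2)) (Nat.mul (c3 1 2) U1)) (Nat.mul (c3 0 2) U0)) (Nat.shiftLeft (Nat.add (Nat.add (Nat.add (Nat.add 0 (Nat.mul (c3 2 3) U2)) (Nat.mul (c3 1 3) U1)) (Nat.mul (c3 0 3) U0)) (Nat.shiftLeft 0 sh3)) sh3)) sh3)) sh3)) (Nat.add (Nat.add (Nat.add (Nat.add (Nat.add (Nat.add (Nat.add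 0 (Nat.mul 9875980800 (E 7 2 1))) (Nat.mul 6627801600 (E 4 2 0))) (Nat.mul 16010265600 (E 4 1 1))) (Nat.mul 7238246400 (E 4 0 0))) (Nat.mul 12886675200 (E 3 1 0))) (Nat.mul 23106585600 (E 3 0 1))) (Nat.mul 30643200 (E 0 0 0))) (Nat.add (Nat.add (Nat.add (Nat.add (Nat.add (Nat.add 0 (Nat.mul 24150067200 (E 5 0 1))) (Nat.mul 1553932800 (E 4 2 0))) (Nat.mul 912844800 (E 3 0 1))) (Nat.mul 1422489600 (E 2 1 1))) (Nat.mul 4550515200 (E 2 0 0))) (Nat.mul 6047193600 (E 1 1 0))) (Nat.add (Nat.add (Nat.add 0 (Nat.mul 3062304000 (E 2 0 0))) (Nat.mul 5752857600 (E 1 0 1))) (Nat.mul 9473184000 (E 0 0 0)))) ((fun U0 U1 U2 : ℕ => Nat.add (Nat.add (Nat.add (Nat.add 0 (Nat.mul (c3 2 0) U2)) (Nat.mul (c3 1 0) U1)) (Nat.mul (c3 0 0) U0)) (Nat.shiftLeft (Nat.add (Nat.add (Nat.add (Nat.add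 0 (Nat.mul (c3 2 1) U2)) (Nat.mul (c3 1 1) U1)) (Nat.mul (c3 0 1) U0)) (Nat.shiftLeft (Nat.add (Nat.add (Nat.add (Nat.add 0 (Nat.mul (c3 2 2) U2)) (Nat.mul (c3 1 2) U1)) (Nat.mul (c3 0 2) U0)) (Nat.shiftLeft (Nat.add (Nat.add (Nat.add (Nat.add 0 (Nat.mul (c3 2 3) U2)) (Nat.mul (c3 1 3) U1)) (Nat.mul (c3 0 3) U0)) (Nat.shiftLeft 0 sh3)) sh3)) sh3)) sh3)) (Nat.add (Nat.add (Nat.add (Nat.add (Nat.add (Nat.add 0 (Nat.mul 35167104000 (E 5 0 1))) (Nat.mul 7622092800 (E 4 2 0))) (Nat.mul 11847628800 (E 4 1 1))) (Nat.mul 10028390400 (E 4 0 0))) (Nat.mul 19860019200 (E 1 0 1))) (Nat.mul 13289472000 (E 0 0 0))) (Nat.add (Nat.add (Nat.add 0 (Nat.mul 8102707200 (E 2 1 1))) (Nat.mul 61928294400 (E 2 0 0))) (Nat.mul 21626035200 (E 1 1 0))) (Nat.add (Nat.add 0 (Nat.mul 58375296000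 (E 1 0 1))) (Nat.mul 195148800 (E 0 0 0)))) ((fun U0 : ℕ => Nat.add (Nat.add 0 (Nat.mul (c3 0 0) U0)) (Nat.shiftLeft (Nat.add (Nat.add 0 (Nat.mul (c3 0 1) U0)) (Nat.shiftLeft (Nat.add (Nat.add 0 (Nat.mul (c3 0 2) U0)) (Nat.shiftLeft (Nat.add (Nat.add 0 (Nat.mul (c3 0 3) U0)) (Nat.shiftLeft 0 sh3)) sh3)) sh3)) sh3)) (Nat.add (Nat.add (Nat.add (Nat.add 0 (Nat.mul 185789721600 (E 2 0 0))) (Nat.mul 105298099200 (E 1 1 0))) (Nat.mul 34501017600 (E 1 0 1))) (Nat.mul 4838400 (E 0 0 0)))) ((fun U0 : ℕ => Nat.add (Nat.add 0 (Nat.mul (c3 0 0) U0)) (Nat.shiftLeft (Nat.add (Nat.add 0 (Nat.mul (c3 0 1) U0)) (Nat.shiftLeft (Nat.add (Nat.add 0 (Nat.mul (c3 0 2) U0)) (Nat.shiftLeft (Nat.add (Nat.add 0 (Nat.mul (c3 0 3) U0)) (Nat.shiftLeft 0 sh3)) sh3)) sh3)) sh3)) (Nat.add 0 (Nat.mul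 14302310400 (E 1 0 1))))
theorem Lw_n_eq (E : ℕ → ℕ → ℕ → ℕ) (c3 : ℕ → ℕ → ℕ) (sh3 : ℕ) (c4 : ℕ → ℕ → ℕ) (sh4 : ℕ) :
    zN1 false E c3 sh3 4 c4 sh4 4 mm.Lw = Lw_n E c3 sh3 c4 sh4 := rfl
def A11_p (E : ℕ → ℕ → ℕ → ℕ) (c3 : ℕ → ℕ → ℕ) (sh3 : ℕ) (c4 : ℕ → ℕ → ℕ) (sh4 : ℕ) : ℕ :=
  (fun V0 V1 V2 V3 : ℕ => Nat.add (Nat.add (Nat.add (Nat.add (Nat.add 0 (Nat.mul (c4 3 0) V3)) (Nat.mul (c4 2 0) V2)) (Nat.mul (c4 1 0) V1)) (Nat.mul (c4 0 0) V0)) (Nat.shiftLeft (Nat.add (Nat.add (Nat.add (Nat.add (Nat.add 0 (Nat.mul (c4 3 1) V3)) (Nat.mul (c4 2 1) V2)) (Nat.mul (c4 1 1) V1)) (Nat.mul (c4 0 1) V0)) (Nat.shiftLeft (Nat.add (Nat.add (Nat.add (Nat.add (Nat.add 0 (Nat.mul (c4 3 2) V3)) (Nat.mul (c4 2 2) V2)) (Nat.mul (c4 1 2) V1)) (Nat.mul (c4 0 2) V0)) (Nat.shiftLeft (Nat.add (Nat.add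 (Nat.add (Nat.add (Nat.add 0 (Nat.mul (c4 3 3) V3)) (Nat.mul (c4 2 3) V2)) (Nat.mul (c4 1 3) V1)) (Nat.mul (c4 0 3) V0)) (Nat.shiftLeft 0 sh4)) sh4)) sh4)) sh4)) ((fun U0 U1 U2 U3 : ℕ => Nat.add (Nat.add (Nat.add (Nat.add (Nat.add 0 (Nat.mul (c3 3 0) U3)) (Nat.mul (c3 2 0) U2)) (Nat.mul (c3 1 0) U1)) (Nat.mul (c3 0 0) U0)) (Nat.shiftLeft (Nat.add (Nat.add (Nat.add (Nat.add (Nat.add 0 (Nat.mul (c3 3 1) U3)) (Nat.mul (c3 2 1) U2)) (Nat.mul (c3 1 1) U1)) (Nat.mul (c3 0 1) U0)) (Nat.shiftLeft (Nat.add (Nat.add (Nat.add (Nat.add (Nat.add 0 (Nat.mul (c3 3 2) U3)) (Nat.mul (c3 2 2) U2)) (Nat.mul (c3 1 2) U1)) (Nat.mul (c3 0 2) U0)) (Nat.shiftLeft (Nat.add (Nat.add (Nat.add (Nat.add (Nat.add 0 (Nat.mul (c3 3 3) U3)) (Nat.mul (c3 2 3) U2)) (Nat.mul (c3 1 3) U1)) (Nat.mul (c3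 0 3) U0)) (Nat.shiftLeft 0 sh3)) sh3)) sh3)) sh3)) (Nat.add (Nat.add (Nat.add (Nat.add 0 (Nat.mul 78449414400 (E 10 2 0))) (Nat.mul 15182899200 (E 9 1 0))) (Nat.mul 22561459200 (E 5 1 0))) (Nat.mul 30183148800 (E 4 0 0))) (Nat.add (Nat.add (Nat.add (Nat.add 0 (Nat.mul 25105248000 (E 8 2 0))) (Nat.mul 86737190400 (E 7 1 0))) (Nat.mul 36235584000 (E 6 0 0))) (Nat.mul 25082265600 (E 2 0 0))) (Nat.add (Nat.add (Nat.add 0 (Nat.mul 9192556800 (E 8 2 0))) (Nat.mul 46513958400 (E 5 1 0))) (Nat.mul 32566867200 (E 4 0 0))) (Nat.add 0 (Nat.mul 5577062400 (E 2 0 0)))) ((fun U0 U1 U2 : ℕ => Nat.add (Nat.add (Nat.add (Nat.add 0 (Nat.mul (c3 2 0) U2)) (Nat.mul (c3 1 0) U1)) (Nat.mul (c3 0 0) U0)) (Nat.shiftLeft (Nat.add (Nat.add (Nat.add (Nat.add 0 (Nat.mul (c3 2 1) U2)) (Nat.mul (c3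 1 1) U1)) (Nat.mul (c3 0 1) U0)) (Nat.shiftLeft (Nat.add (Nat.add (Nat.add (Nat.add 0 (Nat.mul (c3 2 2) U2)) (Nat.mul (c3 1 2) U1)) (Nat.mul (c3 0 2) U0)) (Nat.shiftLeft (Nat.add (Nat.add (Nat.add (Nat.add 0 (Nat.mul (c3 2 3) U2)) (Nat.mul (c3 1 3) U1)) (Nat.mul (c3 0 3) U0)) (Nat.shiftLeft 0 sh3)) sh3)) sh3)) sh3)) (Nat.add (Nat.add (Nat.add (Nat.add 0 (Nat.mul 78267571200 (E 8 2 0))) (Nat.mul 24498432000 (E 7 1 0))) (Nat.mul 81098841600 (E 5 1 0))) (Nat.mul 63950745600 (E 4 0 0))) (Nat.add (Nat.add (Nat.add (Nat.add 0 (Nat.mul 31033497600 (E 8 2 0))) (Nat.mul 37763712000 (E 7 1 0))) (Nat.mul 2464358400 (E 6 0 0))) (Nat.mul 34194585600 (E 4 0 0))) (Nat.add (Nat.add 0 (Nat.mul 31031078400 (E 5 1 0))) (Nat.mul 48361420800 (E 2 0 0)))) ((fun U0 U1 U2 : ℕ => Nat.add (Nat.add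 (Nat.add (Nat.add 0 (Nat.mul (c3 2 0) U2)) (Nat.mul (c3 1 0) U1)) (Nat.mul (c3 0 0) U0)) (Nat.shiftLeft (Nat.add (Nat.add (Nat.add (Nat.add 0 (Nat.mul (c3 2 1) U2)) (Nat.mul (c3 1 1) U1)) (Nat.mul (c3 0 1) U0)) (Nat.shiftLeft (Nat.add (Nat.add (Nat.add (Nat.add 0 (Nat.mul (c3 2 2) U2)) (Nat.mul (c3 1 2) U1)) (Nat.mul (c3 0 2) U0)) (Nat.shiftLeft (Nat.add (Nat.add (Nat.add (Nat.add 0 (Nat.mul (c3 2 3) U2)) (Nat.mul (c3 1 3) U1)) (Nat.mul (c3 0 3) U0)) (Nat.shiftLeft 0 sh3)) sh3)) sh3)) sh3)) (Nat.add (Nat.add (Nat.add 0 (Nat.mul 105323904000 (E 8 2 0))) (Nat.mul 31423795200 (E 7 1 0))) (Nat.mul 65326464000 (E 4 0 0))) (Nat.add (Nat.add 0 (Nat.mul 53544960000 (E 5 1 0))) (Nat.mul 25295155200 (E 2 0 0))) (Nat.add 0 (Nat.mul 15419980800 (E 2 0 0)))) ((fun U0 : ℕ => Nat.add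 (Nat.add 0 (Nat.mul (c3 0 0) U0)) (Nat.shiftLeft (Nat.add (Nat.add 0 (Nat.mul (c3 0 1) U0)) (Nat.shiftLeft (Nat.add (Nat.add 0 (Nat.mul (c3 0 2) U0)) (Nat.shiftLeft (Nat.add (Nat.add 0 (Nat.mul (c3 0 3) U0)) (Nat.shiftLeft 0 sh3)) sh3)) sh3)) sh3)) (Nat.add (Nat.add 0 (Nat.mul 26507980800 (E 5 1 0))) (Nat.mul 247726080000 (E 2 0 0))))
theorem A11_p_eq (E : ℕ → ℕ → ℕ → ℕ) (c3 : ℕ → ℕ → ℕ) (sh3 : ℕ) (c4 : ℕ → ℕ → ℕ) (sh4 : ℕ) :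
    zN1 true E c3 sh3 4 c4 sh4 4 mm.A11 = A11_p E c3 sh3 c4 sh4 := rfl
def A11_n (E : ℕ → ℕ → ℕ → ℕ) (c3 : ℕ → ℕ → ℕ) (sh3 : ℕ) (c4 : ℕ → ℕ → ℕ) (sh4 : ℕ) : ℕ :=
  (fun V0 V1 V2 V3 : ℕ => Nat.add (Nat.add (Nat.add (Nat.add (Nat.add 0 (Nat.mul (c4 3 0) V3)) (Nat.mul (c4 2 0) V2)) (Nat.mul (c4 1 0) V1)) (Nat.mul (c4 0 0) V0)) (Nat.shiftLeft (Nat.add (Nat.add (Nat.add (Nat.add (Nat.add 0 (Nat.mul (c4 3 1) V3)) (Nat.mul (c4 2 1) V2)) (Nat.mul (c4 1 1) V1)) (Nat.mul (c4 0 1) V0)) (Nat.shiftLeft (Nat.add (Nat.add (Nat.add (Nat.add (Nat.add 0 (Nat.mul (c4 3 2) V3)) (Nat.mul (c4 2 2) V2)) (Nat.mul (c4 1 2) V1)) (Nat.mul (c4 0 2) V0)) (Nat.shiftLeft (Nat.add (Nat.add (Nat.add (Nat.add (Nat.add 0 (Nat.mul (c4 3 3) V3)) (Nat.mul (c4 2 3) V2)) (Nat.mul (c4 1 3) V1)) (Nat.mul (c4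 0 3) V0)) (Nat.shiftLeft 0 sh4)) sh4)) sh4)) sh4)) ((fun U0 U1 U2 U3 : ℕ => Nat.add (Nat.add (Nat.add (Nat.add (Nat.add 0 (Nat.mul (c3 3 0) U3)) (Nat.mul (c3 2 0) U2)) (Nat.mul (c3 1 0) U1)) (Nat.mul (c3 0 0) U0)) (Nat.shiftLeft (Nat.add (Nat.add (Nat.add (Nat.add (Nat.add 0 (Nat.mul (c3 3 1) U3)) (Nat.mul (c3 2 1) U2)) (Nat.mul (c3 1 1) U1)) (Nat.mul (c3 0 1) U0)) (Nat.shiftLeft (Nat.add (Nat.add (Nat.add (Nat.add (Nat.add 0 (Nat.mul (c3 3 2) U3)) (Nat.mul (c3 2 2) U2)) (Nat.mul (c3 1 2) U1)) (Nat.mul (c3 0 2) U0)) (Nat.shiftLeft (Nat.add (Nat.add (Nat.add (Nat.add (Nat.add 0 (Nat.mul (c3 3 3) U3)) (Nat.mul (c3 2 3) U2)) (Nat.mul (c3 1 3) U1)) (Nat.mul (c3 0 3) U0)) (Nat.shiftLeft 0 sh3)) sh3)) sh3)) sh3)) (Nat.add (Nat.add (Nat.add (Nat.add (Nat.add 0 (Nat.mul 13886611200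 (E 12 2 0))) (Nat.mul 62745177600 (E 8 2 0))) (Nat.mul 36399283200 (E 7 1 0))) (Nat.mul 17502912000 (E 6 0 0))) (Nat.mul 14462380800 (E 2 0 0))) (Nat.add (Nat.add (Nat.add (Nat.add 0 (Nat.mul 39321676800 (E 10 2 0))) (Nat.mul 25443532800 (E 9 1 0))) (Nat.mul 79452172800 (E 5 1 0))) (Nat.mul 59160729600 (E 4 0 0))) (Nat.add (Nat.add (Nat.add 0 (Nat.mul 21368793600 (E 7 1 0))) (Nat.mul 18166176000 (E 6 0 0))) (Nat.mul 17040038400 (E 2 0 0))) (Nat.add (Nat.add 0 (Nat.mul 11771827200 (E 5 1 0))) (Nat.mul 4360608000 (E 4 0 0)))) ((fun U0 U1 U2 : ℕ => Nat.add (Nat.add (Nat.add (Nat.add 0 (Nat.mul (c3 2 0) U2)) (Nat.mul (c3 1 0) U1)) (Nat.mul (c3 0 0) U0)) (Nat.shiftLeft (Nat.add (Nat.add (Nat.add (Nat.add 0 (Nat.mul (c3 2 1) U2)) (Nat.mul (c3 1 1) U1)) (Nat.mul (c3 0 1) U0))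 (Nat.shiftLeft (Nat.add (Nat.add (Nat.add (Nat.add 0 (Nat.mul (c3 2 2) U2)) (Nat.mul (c3 1 2) U1)) (Nat.mul (c3 0 2) U0)) (Nat.shiftLeft (Nat.add (Nat.add (Nat.add (Nat.add 0 (Nat.mul (c3 2 3) U2)) (Nat.mul (c3 1 3) U1)) (Nat.mul (c3 0 3) U0)) (Nat.shiftLeft 0 sh3)) sh3)) sh3)) sh3)) (Nat.add (Nat.add (Nat.add (Nat.add 0 (Nat.mul 103567564800 (E 10 2 0))) (Nat.mul 63447552000 (E 9 1 0))) (Nat.mul 32159232000 (E 6 0 0))) (Nat.mul 31791513600 (E 2 0 0))) (Nat.add (Nat.add 0 (Nat.mul 98604172800 (E 5 1 0))) (Nat.mul 36658944000 (E 2 0 0))) (Nat.add 0 (Nat.mul 48361420800 (E 4 0 0)))) ((fun U0 U1 : ℕ => Nat.add (Nat.add (Nat.add 0 (Nat.mul (c3 1 0) U1)) (Nat.mul (c3 0 0) U0)) (Nat.shiftLeft (Nat.add (Nat.add (Nat.add 0 (Nat.mul (c3 1 1) U1)) (Nat.mul (c3 0 1) U0)) (Nat.shiftLeft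 (Nat.add (Nat.add (Nat.add 0 (Nat.mul (c3 1 2) U1)) (Nat.mul (c3 0 2) U0)) (Nat.shiftLeft (Nat.add (Nat.add (Nat.add 0 (Nat.mul (c3 1 3) U1)) (Nat.mul (c3 0 3) U0)) (Nat.shiftLeft 0 sh3)) sh3)) sh3)) sh3)) (Nat.add (Nat.add (Nat.add 0 (Nat.mul 1698278400 (E 6 0 0))) (Nat.mul 91777996800 (E 5 1 0))) (Nat.mul 41713459200 (E 2 0 0))) (Nat.add 0 (Nat.mul 60509030400 (E 4 0 0)))) ((fun U1 : ℕ => Nat.add (Nat.add 0 (Nat.mul (c3 1 0) U1)) (Nat.shiftLeft (Nat.add (Nat.add 0 (Nat.mul (c3 1 1) U1)) (Nat.shiftLeft (Nat.add (Nat.add 0 (Nat.mul (c3 1 2) U1)) (Nat.shiftLeft (Nat.add (Nat.add 0 (Nat.mul (c3 1 3) U1)) (Nat.shiftLeft 0 sh3)) sh3)) sh3)) sh3)) (Nat.add 0 (Nat.mul 168292454400 (E 2 0 0))))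
theorem A11_n_eq (E : ℕ → ℕ → ℕ → ℕ) (c3 : ℕ → ℕ → ℕ) (sh3 : ℕ) (c4 : ℕ → ℕ → ℕ) (sh4 : ℕ) :
    zN1 false E c3 sh3 4 c4 sh4 4 mm.A11 = A11_n E c3 sh3 c4 sh4 := rfl
def A12_p (E : ℕ → ℕ → ℕ → ℕ) (c3 : ℕ → ℕ → ℕ) (sh3 : ℕ) (c4 : ℕ → ℕ → ℕ) (sh4 : ℕ) : ℕ :=
  (fun V0 V1 V2 V3 : ℕ => Nat.add (Nat.add (Nat.add (Nat.add (Nat.add 0 (Nat.mul (c4 3 0) V3)) (Nat.mul (c4 2 0) V2)) (Nat.mul (c4 1 0) V1)) (Nat.mul (c4 0 0) V0)) (Nat.shiftLeft (Nat.add (Nat.add (Nat.add (Nat.add (Nat.add 0 (Nat.mul (c4 3 1) V3)) (Nat.mul (c4 2 1) V2)) (Nat.mul (c4 1 1) V1)) (Nat.mul (c4 0 1) V0)) (Nat.shiftLeft (Nat.add (Nat.add (Nat.add (Nat.add (Nat.add 0 (Nat.mul (c4 3 2) V3)) (Nat.mul (c4 2 2) V2)) (Nat.mul (c4 1 2) V1)) (Nat.mul (c4 0 2) V0)) (Nat.shiftLeft (Nat.add (Nat.add (Nat.add (Nat.add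 (Nat.add 0 (Nat.mul (c4 3 3) V3)) (Nat.mul (c4 2 3) V2)) (Nat.mul (c4 1 3) V1)) (Nat.mul (c4 0 3) V0)) (Nat.shiftLeft 0 sh4)) sh4)) sh4)) sh4)) ((fun U0 U1 U2 : ℕ => Nat.add (Nat.add (Nat.add (Nat.add 0 (Nat.mul (c3 2 0) U2)) (Nat.mul (c3 1 0) U1)) (Nat.mul (c3 0 0) U0)) (Nat.shiftLeft (Nat.add (Nat.add (Nat.add (Nat.add 0 (Nat.mul (c3 2 1) U2)) (Nat.mul (c3 1 1) U1)) (Nat.mul (c3 0 1) U0)) (Nat.shiftLeft (Nat.add (Nat.add (Nat.add (Nat.add 0 (Nat.mul (c3 2 2) U2)) (Nat.mul (c3 1 2) U1)) (Nat.mul (c3 0 2) U0)) (Nat.shiftLeft (Nat.add (Nat.add (Nat.add (Nat.add 0 (Nat.mul (c3 2 3) U2)) (Nat.mul (c3 1 3) U1)) (Nat.mul (c3 0 3) U0)) (Nat.shiftLeft 0 sh3)) sh3)) sh3)) sh3)) (Nat.add (Nat.add (Nat.add 0 (Nat.mul 48933158400 (E 8 1 0))) (Nat.mul 5693587200 (E 7 0 0))) (Nat.mul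 9719136000 (E 3 0 0))) (Nat.add (Nat.add 0 (Nat.mul 14028940800 (E 6 1 0))) (Nat.mul 37007712000 (E 5 0 0))) (Nat.add (Nat.add 0 (Nat.mul 7879334400 (E 6 1 0))) (Nat.mul 29543270400 (E 3 0 0)))) ((fun U0 U1 U2 : ℕ => Nat.add (Nat.add (Nat.add (Nat.add 0 (Nat.mul (c3 2 0) U2)) (Nat.mul (c3 1 0) U1)) (Nat.mul (c3 0 0) U0)) (Nat.shiftLeft (Nat.add (Nat.add (Nat.add (Nat.add 0 (Nat.mul (c3 2 1) U2)) (Nat.mul (c3 1 1) U1)) (Nat.mul (c3 0 1) U0)) (Nat.shiftLeft (Nat.add (Nat.add (Nat.add (Nat.add 0 (Nat.mul (c3 2 2) U2)) (Nat.mul (c3 1 2) U1)) (Nat.mul (c3 0 2) U0)) (Nat.shiftLeft (Nat.add (Nat.add (Nat.add (Nat.add 0 (Nat.mul (c3 2 3) U2)) (Nat.mul (c3 1 3) U1)) (Nat.mul (c3 0 3) U0)) (Nat.shiftLeft 0 sh3)) sh3)) sh3)) sh3)) (Nat.add (Nat.add 0 (Nat.mul 52375680000 (E 6 1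 0))) (Nat.mul 76395916800 (E 3 0 0))) (Nat.add (Nat.add 0 (Nat.mul 31033497600 (E 6 1 0))) (Nat.mul 22658227200 (E 5 0 0))) (Nat.add 0 (Nat.mul 31031078400 (E 3 0 0)))) ((fun U0 U1 : ℕ => Nat.add (Nat.add (Nat.add 0 (Nat.mul (c3 1 0) U1)) (Nat.mul (c3 0 0) U0)) (Nat.shiftLeft (Nat.add (Nat.add (Nat.add 0 (Nat.mul (c3 1 1) U1)) (Nat.mul (c3 0 1) U0)) (Nat.shiftLeft (Nat.add (Nat.add (Nat.add 0 (Nat.mul (c3 1 2) U1)) (Nat.mul (c3 0 2) U0)) (Nat.shiftLeft (Nat.add (Nat.add (Nat.add 0 (Nat.mul (c3 1 3) U1)) (Nat.mul (c3 0 3) U0)) (Nat.shiftLeft 0 sh3)) sh3)) sh3)) sh3)) (Nat.add (Nat.add 0 (Nat.mul 126388684800 (E 6 1 0))) (Nat.mul 23567846400 (E 5 0 0))) (Nat.add 0 (Nat.mul 80317440000 (E 3 0 0)))) ((fun U0 : ℕ => Nat.add (Nat.add 0 (Nat.mul (c3 0 0) U0)) (Nat.shiftLeft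 (Nat.add (Nat.add 0 (Nat.mul (c3 0 1) U0)) (Nat.shiftLeft (Nat.add (Nat.add 0 (Nat.mul (c3 0 2) U0)) (Nat.shiftLeft (Nat.add (Nat.add 0 (Nat.mul (c3 0 3) U0)) (Nat.shiftLeft 0 sh3)) sh3)) sh3)) sh3)) (Nat.add 0 (Nat.mul 79523942400 (E 3 0 0))))
theorem A12_p_eq (E : ℕ → ℕ → ℕ → ℕ) (c3 : ℕ → ℕ → ℕ) (sh3 : ℕ) (c4 : ℕ → ℕ → ℕ) (sh4 : ℕ) :
    zN1 true E c3 sh3 4 c4 sh4 4 mm.A12 = A12_p E c3 sh3 c4 sh4 := rfl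
def A12_n (E : ℕ → ℕ → ℕ → ℕ) (c3 : ℕ → ℕ → ℕ) (sh3 : ℕ) (c4 : ℕ → ℕ → ℕ) (sh4 : ℕ) : ℕ :=
  (fun V0 V1 V2 V3 : ℕ => Nat.add (Nat.add (Nat.add (Nat.add (Nat.add 0 (Nat.mul (c4 3 0) V3)) (Nat.mul (c4 2 0) V2)) (Nat.mul (c4 1 0) V1)) (Nat.mul (c4 0 0) V0)) (Nat.shiftLeft (Nat.add (Nat.add (Nat.add (Nat.add (Nat.add 0 (Nat.mul (c4 3 1) V3)) (Nat.mul (c4 2 1) V2)) (Nat.mul (c4 1 1) V1)) (Nat.mul (c4 0 1) V0)) (Nat.shiftLeft (Nat.add (Nat.add (Nat.add (Nat.add (Nat.add 0 (Nat.mul (c4 3 2) V3)) (Nat.mul (c4 2 2) V2)) (Nat.mul (c4 1 2) V1)) (Nat.mul (c4 0 2) V0)) (Nat.shiftLeft (Nat.add (Nat.add (Nat.add (Nat.add (Nat.add 0 (Nat.mul (c4 3 3) V3)) (Nat.mul (c4 2 3) V2)) (Nat.mul (c4 1 3) V1)) (Nat.mul (c4 0 3) V0)) (Nat.shiftLeft 0 sh4)) sh4)) sh4)) sh4)) ((fun U0 U1 U2 U3 :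 ℕ => Nat.add (Nat.add (Nat.add (Nat.add (Nat.add 0 (Nat.mul (c3 3 0) U3)) (Nat.mul (c3 2 0) U2)) (Nat.mul (c3 1 0) U1)) (Nat.mul (c3 0 0) U0)) (Nat.shiftLeft (Nat.add (Nat.add (Nat.add (Nat.add (Nat.add 0 (Nat.mul (c3 3 1) U3)) (Nat.mul (c3 2 1) U2)) (Nat.mul (c3 1 1) U1)) (Nat.mul (c3 0 1) U0)) (Nat.shiftLeft (Nat.add (Nat.add (Nat.add (Nat.add (Nat.add 0 (Nat.mul (c3 3 2) U3)) (Nat.mul (c3 2 2) U2)) (Nat.mul (c3 1 2) U1)) (Nat.mul (c3 0 2) U0)) (Nat.shiftLeft (Nat.add (Nat.add (Nat.add (Nat.add (Nat.add 0 (Nat.mul (c3 3 3) U3)) (Nat.mul (c3 2 3) U2)) (Nat.mul (c3 1 3) U1)) (Nat.mul (c3 0 3) U0)) (Nat.shiftLeft 0 sh3)) sh3)) sh3)) sh3)) (Nat.add (Nat.add (Nat.add 0 (Nat.mul 7574515200 (E 10 1 0))) (Nat.mul 39800678400 (E 6 1 0))) (Nat.mul 14403916800 (E 5 0 0))) (Nat.add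 (Nat.add (Nat.add 0 (Nat.mul 26214451200 (E 8 1 0))) (Nat.mul 9541324800 (E 7 0 0))) (Nat.mul 41085273600 (E 3 0 0))) (Nat.add 0 (Nat.mul 10684396800 (E 5 0 0))) (Nat.add 0 (Nat.mul 8828870400 (E 3 0 0)))) ((fun U0 U1 : ℕ => Nat.add (Nat.add (Nat.add 0 (Nat.mul (c3 1 0) U1)) (Nat.mul (c3 0 0) U0)) (Nat.shiftLeft (Nat.add (Nat.add (Nat.add 0 (Nat.mul (c3 1 1) U1)) (Nat.mul (c3 0 1) U0)) (Nat.shiftLeft (Nat.add (Nat.add (Nat.add 0 (Nat.mul (c3 1 2) U1)) (Nat.mul (c3 0 2) U0)) (Nat.shiftLeft (Nat.add (Nat.add (Nat.add 0 (Nat.mul (c3 1 3) U1)) (Nat.mul (c3 0 3) U0)) (Nat.shiftLeft 0 sh3)) sh3)) sh3)) sh3)) (Nat.add (Nat.add (Nat.add 0 (Nat.mul 77675673600 (E 8 1 0))) (Nat.mul 27191808000 (E 7 0 0))) (Nat.mul 7054387200 (E 5 0 0))) (Nat.add 0 (Nat.mul 83498688000 (E 3 0 0))))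 ((fun U0 : ℕ => Nat.add (Nat.add 0 (Nat.mul (c3 0 0) U0)) (Nat.shiftLeft (Nat.add (Nat.add 0 (Nat.mul (c3 0 1) U0)) (Nat.shiftLeft (Nat.add (Nat.add 0 (Nat.mul (c3 0 2) U0)) (Nat.shiftLeft (Nat.add (Nat.add 0 (Nat.mul (c3 0 3) U0)) (Nat.shiftLeft 0 sh3)) sh3)) sh3)) sh3)) (Nat.add 0 (Nat.mul 114099148800 (E 3 0 0)))) (Nat.add 0 (Nat.shiftLeft (Nat.add 0 (Nat.shiftLeft (Nat.add 0 (Nat.shiftLeft (Nat.add 0 (Nat.shiftLeft 0 sh3)) sh3)) sh3)) sh3))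
theorem A12_n_eq (E : ℕ → ℕ → ℕ → ℕ) (c3 : ℕ → ℕ → ℕ) (sh3 : ℕ) (c4 : ℕ → ℕ → ℕ) (sh4 : ℕ) :
    zN1 false E c3 sh3 4 c4 sh4 4 mm.A12 = A12_n E c3 sh3 c4 sh4 := rfl
def W1_p (E : ℕ → ℕ → ℕ → ℕ) (c3 : ℕ → ℕ → ℕ) (sh3 : ℕ) (c4 : ℕ → ℕ → ℕ) (sh4 : ℕ) : ℕ :=
  (fun V0 V1 V2 V3 : ℕ => Nat.add (Nat.add (Nat.add (Nat.add (Nat.add 0 (Nat.mul (c4 3 0) V3)) (Nat.mul (c4 2 0) V2)) (Nat.mul (c4 1 0) V1)) (Nat.mul (c4 0 0) V0)) (Nat.shiftLeft (Nat.add (Nat.add (Nat.add (Nat.add (Nat.add 0 (Nat.mul (c4 3 1) V3)) (Nat.mul (c4 2 1) V2)) (Nat.mul (c4 1 1) V1)) (Nat.mul (c4 0 1) V0)) (Nat.shiftLeft (Nat.add (Nat.add (Nat.add (Nat.add (Nat.add 0 (Nat.mul (c4 3 2) V3)) (Nat.mul (c4 2 2) V2)) (Nat.mul (c4 1 2) V1)) (Nat.mul (c4 0 2) V0)) (Nat.shiftLeft (Nat.add (Nat.add (Nat.add (Nat.add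 (Nat.add 0 (Nat.mul (c4 3 3) V3)) (Nat.mul (c4 2 3) V2)) (Nat.mul (c4 1 3) V1)) (Nat.mul (c4 0 3) V0)) (Nat.shiftLeft 0 sh4)) sh4)) sh4)) sh4)) ((fun U0 U1 U2 U3 : ℕ => Nat.add (Nat.add (Nat.add (Nat.add (Nat.add 0 (Nat.mul (c3 3 0) U3)) (Nat.mul (c3 2 0) U2)) (Nat.mul (c3 1 0) U1)) (Nat.mul (c3 0 0) U0)) (Nat.shiftLeft (Nat.add (Nat.add (Nat.add (Nat.add (Nat.add 0 (Nat.mul (c3 3 1) U3)) (Nat.mul (c3 2 1) U2)) (Nat.mul (c3 1 1) U1)) (Nat.mul (c3 0 1) U0)) (Nat.shiftLeft (Nat.add (Nat.add (Nat.add (Nat.add (Nat.add 0 (Nat.mul (c3 3 2) U3)) (Nat.mul (c3 2 2) U2)) (Nat.mul (c3 1 2) U1)) (Nat.mul (c3 0 2) U0)) (Nat.shiftLeft (Nat.add (Nat.add (Nat.add (Nat.add (Nat.add 0 (Nat.mul (c3 3 3) U3)) (Nat.mul (c3 2 3) U2)) (Nat.mul (c3 1 3) U1)) (Nat.mul (c3 0 3) U0)) (Nat.shiftLeft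 0 sh3)) sh3)) sh3)) sh3)) (Nat.add (Nat.add (Nat.add (Nat.add (Nat.add 0 (Nat.mul 21518784000 (E 10 2 0))) (Nat.mul 1852704000 (E 8 2 0))) (Nat.mul 13033036800 (E 5 1 0))) (Nat.mul 64400313600 (E 4 0 0))) (Nat.mul 7019712000 (E 0 0 0))) (Nat.add (Nat.add (Nat.add (Nat.add (Nat.add 0 (Nat.mul 18886694400 (E 7 1 0))) (Nat.mul 24691564800 (E 6 2 0))) (Nat.mul 61760160000 (E 6 0 0))) (Nat.mul 17725478400 (E 3 1 0))) (Nat.mul 46380096000 (E 2 0 0))) (Nat.add (Nat.add (Nat.add (Nat.add 0 (Nat.mul 6326208000 (E 6 2 0))) (Nat.mul 9339724800 (E 5 1 0))) (Nat.mul 35540467200 (E 4 0 0))) (Nat.mul 3787660800 (E 2 0 0))) (Nat.add (Nat.add (Nat.add 0 (Nat.mul 9992505600 (E 4 0 0))) (Nat.mul 514483200 (E 3 1 0))) (Nat.mul 1917619200 (E 0 0 0)))) ((fun U0 U1 U2 U3 : ℕ => Nat.add (Nat.add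 (Nat.add (Nat.add (Nat.add 0 (Nat.mul (c3 3 0) U3)) (Nat.mul (c3 2 0) U2)) (Nat.mul (c3 1 0) U1)) (Nat.mul (c3 0 0) U0)) (Nat.shiftLeft (Nat.add (Nat.add (Nat.add (Nat.add (Nat.add 0 (Nat.mul (c3 3 1) U3)) (Nat.mul (c3 2 1) U2)) (Nat.mul (c3 1 1) U1)) (Nat.mul (c3 0 1) U0)) (Nat.shiftLeft (Nat.add (Nat.add (Nat.add (Nat.add (Nat.add 0 (Nat.mul (c3 3 2) U3)) (Nat.mul (c3 2 2) U2)) (Nat.mul (c3 1 2) U1)) (Nat.mul (c3 0 2) U0)) (Nat.shiftLeft (Nat.add (Nat.add (Nat.add (Nat.add (Nat.add 0 (Nat.mul (c3 3 3) U3)) (Nat.mul (c3 2 3) U2)) (Nat.mul (c3 1 3) U1)) (Nat.mul (c3 0 3) U0)) (Nat.shiftLeft 0 sh3)) sh3)) sh3)) sh3)) (Nat.add (Nat.add (Nat.add (Nat.add 0 (Nat.mul 79086873600 (E 6 2 0))) (Nat.mul 57905971200 (E 6 0 0))) (Nat.mul 109176076800 (E 5 1 0))) (Nat.mul 34826803200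 (E 2 0 0))) (Nat.add (Nat.add (Nat.add (Nat.add 0 (Nat.mul 12431462400 (E 6 2 0))) (Nat.mul 123703372800 (E 4 0 0))) (Nat.mul 23942016000 (E 3 1 0))) (Nat.mul 19860019200 (E 0 0 0))) (Nat.add 0 (Nat.mul 12249216000 (E 4 0 0))) (Nat.add 0 (Nat.mul 19458432000 (E 0 0 0)))) ((fun U0 U1 : ℕ => Nat.add (Nat.add (Nat.add 0 (Nat.mul (c3 1 0) U1)) (Nat.mul (c3 0 0) U0)) (Nat.shiftLeft (Nat.add (Nat.add (Nat.add 0 (Nat.mul (c3 1 1) U1)) (Nat.mul (c3 0 1) U0)) (Nat.shiftLeft (Nat.add (Nat.add (Nat.add 0 (Nat.mul (c3 1 2) U1)) (Nat.mul (c3 0 2) U0)) (Nat.shiftLeft (Nat.add (Nat.add (Nat.add 0 (Nat.mul (c3 1 3) U1)) (Nat.mul (c3 0 3) U0)) (Nat.shiftLeft 0 sh3)) sh3)) sh3)) sh3)) (Nat.add (Nat.add (Nat.add (Nat.add 0 (Nat.mul 22866278400 (E 6 2 0))) (Nat.mul 30085171200 (E 6 0 0)))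 (Nat.mul 33230131200 (E 3 1 0))) (Nat.mul 314121830400 (E 2 0 0))) (Nat.add (Nat.add 0 (Nat.mul 61928294400 (E 4 0 0))) (Nat.mul 34501017600 (E 0 0 0)))) ((fun U1 : ℕ => Nat.add (Nat.add 0 (Nat.mul (c3 1 0) U1)) (Nat.shiftLeft (Nat.add (Nat.add 0 (Nat.mul (c3 1 1) U1)) (Nat.shiftLeft (Nat.add (Nat.add 0 (Nat.mul (c3 1 2) U1)) (Nat.shiftLeft (Nat.add (Nat.add 0 (Nat.mul (c3 1 3) U1)) (Nat.shiftLeft 0 sh3)) sh3)) sh3)) sh3)) (Nat.add (Nat.add 0 (Nat.mul 14302310400 (E 2 0 0))) (Nat.mul 14302310400 (E 0 0 0))))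
theorem W1_p_eq (E : ℕ → ℕ → ℕ → ℕ) (c3 : ℕ → ℕ → ℕ) (sh3 : ℕ) (c4 : ℕ → ℕ → ℕ) (sh4 : ℕ) :
    zN1 true E c3 sh3 4 c4 sh4 4 mm.W1 = W1_p E c3 sh3 c4 sh4 := rfl
def W1_n (E : ℕ → ℕ → ℕ → ℕ) (c3 : ℕ → ℕ → ℕ) (sh3 : ℕ) (c4 : ℕ → ℕ → ℕ) (sh4 : ℕ) : ℕ :=
  (fun V0 V1 V2 V3 : ℕ => Nat.add (Nat.add (Nat.add (Nat.add (Nat.add 0 (Nat.mul (c4 3 0) V3)) (Nat.mul (c4 2 0) V2)) (Nat.mul (c4 1 0) V1)) (Nat.mul (c4 0 0) V0)) (Nat.shiftLeft (Nat.add (Nat.add (Nat.add (Nat.add (Nat.add 0 (Nat.mul (c4 3 1) V3)) (Nat.mul (c4 2 1) V2)) (Nat.mul (c4 1 1) V1)) (Nat.mul (c4 0 1) V0)) (Nat.shiftLeft (Nat.add (Nat.add (Nat.add (Nat.add (Nat.add 0 (Nat.mul (c4 3 2) V3)) (Nat.mul (c4 2 2) V2)) (Nat.mul (c4 1 2) V1)) (Nat.mul (c4 0 2) V0)) (Nat.shiftLeft (Nat.add (Nat.add (Nat.add (Nat.add (Nat.add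 0 (Nat.mul (c4 3 3) V3)) (Nat.mul (c4 2 3) V2)) (Nat.mul (c4 1 3) V1)) (Nat.mul (c4 0 3) V0)) (Nat.shiftLeft 0 sh4)) sh4)) sh4)) sh4)) ((fun U0 U1 U2 U3 : ℕ => Nat.add (Nat.add (Nat.add (Nat.add (Nat.add 0 (Nat.mul (c3 3 0) U3)) (Nat.mul (c3 2 0) U2)) (Nat.mul (c3 1 0) U1)) (Nat.mul (c3 0 0) U0)) (Nat.shiftLeft (Nat.add (Nat.add (Nat.add (Nat.add (Nat.add 0 (Nat.mul (c3 3 1) U3)) (Nat.mul (c3 2 1) U2)) (Nat.mul (c3 1 1) U1)) (Nat.mul (c3 0 1) U0)) (Nat.shiftLeft (Nat.add (Nat.add (Nat.add (Nat.add (Nat.add 0 (Nat.mul (c3 3 2) U3)) (Nat.mul (c3 2 2) U2)) (Nat.mul (c3 1 2) U1)) (Nat.mul (c3 0 2) U0)) (Nat.shiftLeft (Nat.add (Nat.add (Nat.add (Nat.add (Nat.add 0 (Nat.mul (c3 3 3) U3)) (Nat.mul (c3 2 3) U2)) (Nat.mul (c3 1 3) U1)) (Nat.mul (c3 0 3) U0)) (Nat.shiftLeft 0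 sh3)) sh3)) sh3)) sh3)) (Nat.add (Nat.add (Nat.add (Nat.add (Nat.add 0 (Nat.mul 5486745600 (E 7 1 0))) (Nat.mul 17853696000 (E 6 2 0))) (Nat.mul 33132960000 (E 6 0 0))) (Nat.mul 6359270400 (E 3 1 0))) (Nat.mul 36364204800 (E 2 0 0))) (Nat.add (Nat.add (Nat.add (Nat.add 0 (Nat.mul 34565932800 (E 8 2 0))) (Nat.mul 44611660800 (E 5 1 0))) (Nat.mul 108772070400 (E 4 0 0))) (Nat.mul 333849600 (E 0 0 0))) (Nat.add (Nat.add (Nat.add 0 (Nat.mul 30187584000 (E 6 0 0))) (Nat.mul 5381107200 (E 3 1 0))) (Nat.mul 5749632000 (E 0 0 0))) (Nat.add 0 (Nat.mul 14282150400 (E 2 0 0)))) ((fun U0 U1 U2 : ℕ => Nat.add (Nat.add (Nat.add (Nat.add 0 (Nat.mul (c3 2 0) U2)) (Nat.mul (c3 1 0) U1)) (Nat.mul (c3 0 0) U0)) (Nat.shiftLeft (Nat.add (Nat.add (Nat.add (Nat.add 0 (Nat.mul (c3 2 1) U2))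 (Nat.mul (c3 1 1) U1)) (Nat.mul (c3 0 1) U0)) (Nat.shiftLeft (Nat.add (Nat.add (Nat.add (Nat.add 0 (Nat.mul (c3 2 2) U2)) (Nat.mul (c3 1 2) U1)) (Nat.mul (c3 0 2) U0)) (Nat.shiftLeft (Nat.add (Nat.add (Nat.add (Nat.add 0 (Nat.mul (c3 2 3) U2)) (Nat.mul (c3 1 3) U1)) (Nat.mul (c3 0 3) U0)) (Nat.shiftLeft 0 sh3)) sh3)) sh3)) sh3)) (Nat.add (Nat.add (Nat.add (Nat.add (Nat.add 0 (Nat.mul 78193382400 (E 8 2 0))) (Nat.mul 39820032000 (E 7 1 0))) (Nat.mul 104272358400 (E 4 0 0))) (Nat.mul 65325657600 (E 3 1 0))) (Nat.mul 122572800 (E 0 0 0))) (Nat.add (Nat.add (Nat.add 0 (Nat.mul 70334208000 (E 6 0 0))) (Nat.mul 17771443200 (E 5 1 0))) (Nat.mul 36404121600 (E 2 0 0))) (Nat.add (Nat.add (Nat.add 0 (Nat.mul 2025676800 (E 3 1 0))) (Nat.mul 24498432000 (E 2 0 0))) (Nat.mul 37892736000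 (E 0 0 0)))) ((fun U0 U1 U2 : ℕ => Nat.add (Nat.add (Nat.add (Nat.add 0 (Nat.mul (c3 2 0) U2)) (Nat.mul (c3 1 0) U1)) (Nat.mul (c3 0 0) U0)) (Nat.shiftLeft (Nat.add (Nat.add (Nat.add (Nat.add 0 (Nat.mul (c3 2 1) U2)) (Nat.mul (c3 1 1) U1)) (Nat.mul (c3 0 1) U0)) (Nat.shiftLeft (Nat.add (Nat.add (Nat.add (Nat.add 0 (Nat.mul (c3 2 2) U2)) (Nat.mul (c3 1 2) U1)) (Nat.mul (c3 0 2) U0)) (Nat.shiftLeft (Nat.add (Nat.add (Nat.add (Nat.add 0 (Nat.mul (c3 2 3) U2)) (Nat.mul (c3 1 3) U1)) (Nat.mul (c3 0 3) U0)) (Nat.shiftLeft 0 sh3)) sh3)) sh3)) sh3)) (Nat.add (Nat.add (Nat.add 0 (Nat.mul 33230131200 (E 5 1 0))) (Nat.mul 142023168000 (E 4 0 0))) (Nat.mul 26578944000 (E 0 0 0))) (Nat.add 0 (Nat.mul 230462668800 (E 2 0 0))) (Nat.add (Nat.add 0 (Nat.mul 195148800 (E 2 0 0))) (Nat.mul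 390297600 (E 0 0 0)))) ((fun U0 : ℕ => Nat.add (Nat.add 0 (Nat.mul (c3 0 0) U0)) (Nat.shiftLeft (Nat.add (Nat.add 0 (Nat.mul (c3 0 1) U0)) (Nat.shiftLeft (Nat.add (Nat.add 0 (Nat.mul (c3 0 2) U0)) (Nat.shiftLeft (Nat.add (Nat.add 0 (Nat.mul (c3 0 3) U0)) (Nat.shiftLeft 0 sh3)) sh3)) sh3)) sh3)) (Nat.add (Nat.add (Nat.add 0 (Nat.mul 70198732800 (E 3 1 0))) (Nat.mul 495445708800 (E 2 0 0))) (Nat.mul 6451200 (E 0 0 0))))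
theorem W1_n_eq (E : ℕ → ℕ → ℕ → ℕ) (c3 : ℕ → ℕ → ℕ) (sh3 : ℕ) (c4 : ℕ → ℕ → ℕ) (sh4 : ℕ) :
    zN1 false E c3 sh3 4 c4 sh4 4 mm.W1 = W1_n E c3 sh3 c4 sh4 := rfl
def W2_p (E : ℕ → ℕ → ℕ → ℕ) (c3 : ℕ → ℕ → ℕ) (sh3 : ℕ) (c4 : ℕ → ℕ → ℕ) (sh4 : ℕ) : ℕ :=
  (fun V0 V1 V2 V3 : ℕ => Nat.add (Nat.add (Nat.add (Nat.add (Nat.add 0 (Nat.mul (c4 3 0) V3)) (Nat.mul (c4 2 0) V2)) (Nat.mul (c4 1 0) V1)) (Nat.mul (c4 0 0) V0)) (Nat.shiftLeft (Nat.add (Nat.add (Nat.add (Nat.add (Nat.add 0 (Nat.mul (c4 3 1) V3)) (Nat.mul (c4 2 1) V2)) (Nat.mul (c4 1 1) V1)) (Nat.mul (c4 0 1) V0)) (Nat.shiftLeft (Nat.add (Nat.add (Nat.add (Nat.add (Nat.add 0 (Nat.mul (c4 3 2) V3)) (Nat.mul (c4 2 2) V2)) (Nat.mul (c4 1 2) V1)) (Nat.mul (c4 0 2) V0)) (Nat.shiftLeft (Nat.add (Nat.add (Nat.add (Nat.add (Nat.add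 0 (Nat.mul (c4 3 3) V3)) (Nat.mul (c4 2 3) V2)) (Nat.mul (c4 1 3) V1)) (Nat.mul (c4 0 3) V0)) (Nat.shiftLeft 0 sh4)) sh4)) sh4)) sh4)) ((fun U0 U1 U2 U3 : ℕ => Nat.add (Nat.add (Nat.add (Nat.add (Nat.add 0 (Nat.mul (c3 3 0) U3)) (Nat.mul (c3 2 0) U2)) (Nat.mul (c3 1 0) U1)) (Nat.mul (c3 0 0) U0)) (Nat.shiftLeft (Nat.add (Nat.add (Nat.add (Nat.add (Nat.add 0 (Nat.mul (c3 3 1) U3)) (Nat.mul (c3 2 1) U2)) (Nat.mul (c3 1 1) U1)) (Nat.mul (c3 0 1) U0)) (Nat.shiftLeft (Nat.add (Nat.add (Nat.add (Nat.add (Nat.add 0 (Nat.mul (c3 3 2) U3)) (Nat.mul (c3 2 2) U2)) (Nat.mul (c3 1 2) U1)) (Nat.mul (c3 0 2) U0)) (Nat.shiftLeft (Nat.add (Nat.add (Nat.add (Nat.add (Nat.add 0 (Nat.mul (c3 3 3) U3)) (Nat.mul (c3 2 3) U2)) (Nat.mul (c3 1 3) U1)) (Nat.mul (c3 0 3) U0)) (Nat.shiftLeft 0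 sh3)) sh3)) sh3)) sh3)) (Nat.add (Nat.add (Nat.add 0 (Nat.mul 14345856000 (E 8 1 0))) (Nat.mul 9785664000 (E 6 1 0))) (Nat.mul 7031404800 (E 3 0 0))) (Nat.add (Nat.add (Nat.add 0 (Nat.mul 9443347200 (E 5 0 0))) (Nat.mul 17778700800 (E 4 1 0))) (Nat.mul 2572819200 (E 1 0 0))) (Nat.add (Nat.add 0 (Nat.mul 7591449600 (E 4 1 0))) (Nat.mul 7004793600 (E 3 0 0))) (Nat.add 0 (Nat.mul 771724800 (E 1 0 0)))) ((fun U0 U1 : ℕ => Nat.add (Nat.add (Nat.add 0 (Nat.mul (c3 1 0) U1)) (Nat.mul (c3 0 0) U0)) (Nat.shiftLeft (Nat.add (Nat.add (Nat.add 0 (Nat.mul (c3 1 1) U1)) (Nat.mul (c3 0 1) U0)) (Nat.shiftLeft (Nat.add (Nat.add (Nat.add 0 (Nat.mul (c3 1 2) U1)) (Nat.mul (c3 0 2) U0)) (Nat.shiftLeft (Nat.add (Nat.add (Nat.add 0 (Nat.mul (c3 1 3) U1)) (Nat.mul (c3 0 3) U0)) (Nat.shiftLeft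 0 sh3)) sh3)) sh3)) sh3)) (Nat.add (Nat.add 0 (Nat.mul 79533619200 (E 4 1 0))) (Nat.mul 77320051200 (E 3 0 0))) (Nat.add (Nat.add 0 (Nat.mul 18647193600 (E 4 1 0))) (Nat.mul 36283161600 (E 1 0 0)))) ((fun U0 U1 : ℕ => Nat.add (Nat.add (Nat.add 0 (Nat.mul (c3 1 0) U1)) (Nat.mul (c3 0 0) U0)) (Nat.shiftLeft (Nat.add (Nat.add (Nat.add 0 (Nat.mul (c3 1 1) U1)) (Nat.mul (c3 0 1) U0)) (Nat.shiftLeft (Nat.add (Nat.add (Nat.add 0 (Nat.mul (c3 1 2) U1)) (Nat.mul (c3 0 2) U0)) (Nat.shiftLeft (Nat.add (Nat.add (Nat.add 0 (Nat.mul (c3 1 3) U1)) (Nat.mul (c3 0 3) U0)) (Nat.shiftLeft 0 sh3)) sh3)) sh3)) sh3)) (Nat.add 0 (Nat.mul 45732556800 (E 4 1 0))) (Nat.add 0 (Nat.mul 64878105600 (E 1 0 0)))) ((fun U0 : ℕ => Nat.add (Nat.add 0 (Nat.mul (c3 0 0) U0)) (Nat.shiftLeft (Nat.add (Nat.add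 0 (Nat.mul (c3 0 1) U0)) (Nat.shiftLeft (Nat.add (Nat.add 0 (Nat.mul (c3 0 2) U0)) (Nat.shiftLeft (Nat.add (Nat.add 0 (Nat.mul (c3 0 3) U0)) (Nat.shiftLeft 0 sh3)) sh3)) sh3)) sh3)) (Nat.add 0 (Nat.mul 210596198400 (E 1 0 0))))
theorem W2_p_eq (E : ℕ → ℕ → ℕ → ℕ) (c3 : ℕ → ℕ → ℕ) (sh3 : ℕ) (c4 : ℕ → ℕ → ℕ) (sh4 : ℕ) :
    zN1 true E c3 sh3 4 c4 sh4 4 mm.W2 = W2_p E c3 sh3 c4 sh4 := rfl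
def W2_n (E : ℕ → ℕ → ℕ → ℕ) (c3 : ℕ → ℕ → ℕ) (sh3 : ℕ) (c4 : ℕ → ℕ → ℕ) (sh4 : ℕ) : ℕ :=
  (fun V0 V1 V2 V3 : ℕ => Nat.add (Nat.add (Nat.add (Nat.add (Nat.add 0 (Nat.mul (c4 3 0) V3)) (Nat.mul (c4 2 0) V2)) (Nat.mul (c4 1 0) V1)) (Nat.mul (c4 0 0) V0)) (Nat.shiftLeft (Nat.add (Nat.add (Nat.add (Nat.add (Nat.add 0 (Nat.mul (c4 3 1) V3)) (Nat.mul (c4 2 1) V2)) (Nat.mul (c4 1 1) V1)) (Nat.mul (c4 0 1) V0)) (Nat.shiftLeft (Nat.add (Nat.add (Nat.add (Nat.add (Nat.add 0 (Nat.mul (c4 3 2) V3)) (Nat.mul (c4 2 2) V2)) (Nat.mul (c4 1 2) V1)) (Nat.mul (c4 0 2) V0)) (Nat.shiftLeft (Nat.add (Nat.add (Nat.add (Nat.add (Nat.add 0 (Nat.mul (c4 3 3) V3)) (Nat.mul (c4 2 3) V2)) (Nat.mul (c4 1 3) V1)) (Nat.mul (c4 0 3) V0)) (Nat.shiftLeft 0 sh4)) sh4)) sh4)) sh4)) ((fun U0 U1 U2 : ℕ =>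 Nat.add (Nat.add (Nat.add (Nat.add 0 (Nat.mul (c3 2 0) U2)) (Nat.mul (c3 1 0) U1)) (Nat.mul (c3 0 0) U0)) (Nat.shiftLeft (Nat.add (Nat.add (Nat.add (Nat.add 0 (Nat.mul (c3 2 1) U2)) (Nat.mul (c3 1 1) U1)) (Nat.mul (c3 0 1) U0)) (Nat.shiftLeft (Nat.add (Nat.add (Nat.add (Nat.add 0 (Nat.mul (c3 2 2) U2)) (Nat.mul (c3 1 2) U1)) (Nat.mul (c3 0 2) U0)) (Nat.shiftLeft (Nat.add (Nat.add (Nat.add (Nat.add 0 (Nat.mul (c3 2 3) U2)) (Nat.mul (c3 1 3) U1)) (Nat.mul (c3 0 3) U0)) (Nat.shiftLeft 0 sh3)) sh3)) sh3)) sh3)) (Nat.add (Nat.add (Nat.add 0 (Nat.mul 2743372800 (E 5 0 0))) (Nat.mul 17510169600 (E 4 1 0))) (Nat.mul 2507500800 (E 1 0 0))) (Nat.add (Nat.add 0 (Nat.mul 29627942400 (E 6 1 0))) (Nat.mul 24015398400 (E 3 0 0))) (Nat.add 0 (Nat.mul 1066867200 (E 1 0 0)))) ((fun U0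 U1 U2 : ℕ => Nat.add (Nat.add (Nat.add (Nat.add 0 (Nat.mul (c3 2 0) U2)) (Nat.mul (c3 1 0) U1)) (Nat.mul (c3 0 0) U0)) (Nat.shiftLeft (Nat.add (Nat.add (Nat.add (Nat.add 0 (Nat.mul (c3 2 1) U2)) (Nat.mul (c3 1 1) U1)) (Nat.mul (c3 0 1) U0)) (Nat.shiftLeft (Nat.add (Nat.add (Nat.add (Nat.add 0 (Nat.mul (c3 2 2) U2)) (Nat.mul (c3 1 2) U1)) (Nat.mul (c3 0 2) U0)) (Nat.shiftLeft (Nat.add (Nat.add (Nat.add (Nat.add 0 (Nat.mul (c3 2 3) U2)) (Nat.mul (c3 1 3) U1)) (Nat.mul (c3 0 3) U0)) (Nat.shiftLeft 0 sh3)) sh3)) sh3)) sh3)) (Nat.add (Nat.add (Nat.add 0 (Nat.mul 78193382400 (E 6 1 0))) (Nat.mul 23892019200 (E 5 0 0))) (Nat.mul 41336870400 (E 1 0 0))) (Nat.add 0 (Nat.mul 17771443200 (E 3 0 0))) (Nat.add 0 (Nat.mul 6077030400 (E 1 0 0)))) ((fun U0 : ℕ => Nat.add (Nat.add 0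 (Nat.mul (c3 0 0) U0)) (Nat.shiftLeft (Nat.add (Nat.add 0 (Nat.mul (c3 0 1) U0)) (Nat.shiftLeft (Nat.add (Nat.add 0 (Nat.mul (c3 0 2) U0)) (Nat.shiftLeft (Nat.add (Nat.add 0 (Nat.mul (c3 0 3) U0)) (Nat.shiftLeft 0 sh3)) sh3)) sh3)) sh3)) (Nat.add (Nat.add 0 (Nat.mul 49845196800 (E 3 0 0))) (Nat.mul 70176153600 (E 1 0 0)))) (Nat.add 0 (Nat.shiftLeft (Nat.add 0 (Nat.shiftLeft (Nat.add 0 (Nat.shiftLeft (Nat.add 0 (Nat.shiftLeft 0 sh3)) sh3)) sh3)) sh3))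
theorem W2_n_eq (E : ℕ → ℕ → ℕ → ℕ) (c3 : ℕ → ℕ → ℕ) (sh3 : ℕ) (c4 : ℕ → ℕ → ℕ) (sh4 : ℕ) :
    zN1 false E c3 sh3 4 c4 sh4 4 mm.W2 = W2_n E c3 sh3 c4 sh4 := rfl
def psi_p (E : ℕ → ℕ → ℕ → ℕ) (c3 : ℕ → ℕ → ℕ) (sh3 : ℕ) (c4 : ℕ → ℕ → ℕ) (sh4 : ℕ) : ℕ :=
  (fun V0 V1 V2 V3 : ℕ => Nat.add (Nat.add (Nat.add (Nat.add (Nat.add 0 (Nat.mul (c4 3 0) V3)) (Nat.mul (c4 2 0) V2)) (Nat.mul (c4 1 0) V1)) (Nat.mul (c4 0 0) V0)) (Nat.shiftLeft (Nat.add (Nat.add (Nat.add (Nat.add (Nat.add 0 (Nat.mul (c4 3 1) V3)) (Nat.mul (c4 2 1) V2)) (Nat.mul (c4 1 1) V1)) (Nat.mul (c4 0 1) V0)) (Nat.shiftLeft (Nat.add (Nat.add (Nat.add (Nat.add (Nat.add 0 (Nat.mul (c4 3 2) V3)) (Nat.mul (c4 2 2) V2)) (Nat.mul (c4 1 2) V1)) (Nat.mul (c4 0 2) V0)) (Nat.shiftLeft (Nat.add (Nat.add (Nat.add (Nat.add (Nat.add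 0 (Nat.mul (c4 3 3) V3)) (Nat.mul (c4 2 3) V2)) (Nat.mul (c4 1 3) V1)) (Nat.mul (c4 0 3) V0)) (Nat.shiftLeft 0 sh4)) sh4)) sh4)) sh4)) ((fun U0 U1 U2 U3 : ℕ => Nat.add (Nat.add (Nat.add (Nat.add (Nat.add 0 (Nat.mul (c3 3 0) U3)) (Nat.mul (c3 2 0) U2)) (Nat.mul (c3 1 0) U1)) (Nat.mul (c3 0 0) U0)) (Nat.shiftLeft (Nat.add (Nat.add (Nat.add (Nat.add (Nat.add 0 (Nat.mul (c3 3 1) U3)) (Nat.mul (c3 2 1) U2)) (Nat.mul (c3 1 1) U1)) (Nat.mul (c3 0 1) U0)) (Nat.shiftLeft (Nat.add (Nat.add (Nat.add (Nat.add (Nat.add 0 (Nat.mul (c3 3 2) U3)) (Nat.mul (c3 2 2) U2)) (Nat.mul (c3 1 2) U1)) (Nat.mul (c3 0 2) U0)) (Nat.shiftLeft (Nat.add (Nat.add (Nat.add (Nat.add (Nat.add 0 (Nat.mul (c3 3 3) U3)) (Nat.mul (c3 2 3) U2)) (Nat.mul (c3 1 3) U1)) (Nat.mul (c3 0 3) U0)) (Nat.shiftLeft 0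 sh3)) sh3)) sh3)) sh3)) (Nat.add (Nat.add (Nat.add (Nat.add (Nat.add 0 (Nat.mul 914457600 (E 5 1 0))) (Nat.mul 2918361600 (E 4 2 0))) (Nat.mul 6626592000 (E 4 0 0))) (Nat.mul 835833600 (E 1 1 0))) (Nat.mul 3509856000 (E 0 0 0))) (Nat.add (Nat.add (Nat.add 0 (Nat.mul 4937990400 (E 6 2 0))) (Nat.mul 8005132800 (E 3 1 0))) (Nat.mul 11553292800 (E 2 0 0))) (Nat.add (Nat.add (Nat.add 0 (Nat.mul 6037516800 (E 4 0 0))) (Nat.mul 228211200 (E 2 0 0))) (Nat.mul 355622400 (E 1 1 0))) (Nat.add 0 (Nat.mul 958809600 (E 0 0 0)))) ((fun U0 U1 U2 U3 : ℕ => Nat.add (Nat.add (Nat.add (Nat.add (Nat.add 0 (Nat.mul (c3 3 0) U3)) (Nat.mul (c3 2 0) U2)) (Nat.mul (c3 1 0) U1)) (Nat.mul (c3 0 0) U0)) (Nat.shiftLeft (Nat.add (Nat.add (Nat.add (Nat.add (Nat.add 0 (Nat.mul (c3 3 1) U3)) (Nat.mul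 (c3 2 1) U2)) (Nat.mul (c3 1 1) U1)) (Nat.mul (c3 0 1) U0)) (Nat.shiftLeft (Nat.add (Nat.add (Nat.add (Nat.add (Nat.add 0 (Nat.mul (c3 3 2) U3)) (Nat.mul (c3 2 2) U2)) (Nat.mul (c3 1 2) U1)) (Nat.mul (c3 0 2) U0)) (Nat.shiftLeft (Nat.add (Nat.add (Nat.add (Nat.add (Nat.add 0 (Nat.mul (c3 3 3) U3)) (Nat.mul (c3 2 3) U2)) (Nat.mul (c3 1 3) U1)) (Nat.mul (c3 0 3) U0)) (Nat.shiftLeft 0 sh3)) sh3)) sh3)) sh3)) (Nat.add (Nat.add (Nat.add (Nat.add 0 (Nat.mul 13032230400 (E 6 2 0))) (Nat.mul 7964006400 (E 5 1 0))) (Nat.mul 8706700800 (E 2 0 0))) (Nat.mul 13778956800 (E 1 1 0))) (Nat.add (Nat.add (Nat.add 0 (Nat.mul 17583552000 (E 4 0 0))) (Nat.mul 5923814400 (E 3 1 0))) (Nat.mul 9930009600 (E 0 0 0))) (Nat.add 0 (Nat.mul 2025676800 (E 1 1 0))) (Nat.add 0 (Nat.mul 9729216000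 (E 0 0 0)))) ((fun U0 U1 : ℕ => Nat.add (Nat.add (Nat.add 0 (Nat.mul (c3 1 0) U1)) (Nat.mul (c3 0 0) U0)) (Nat.shiftLeft (Nat.add (Nat.add (Nat.add 0 (Nat.mul (c3 1 1) U1)) (Nat.mul (c3 0 1) U0)) (Nat.shiftLeft (Nat.add (Nat.add (Nat.add 0 (Nat.mul (c3 1 2) U1)) (Nat.mul (c3 0 2) U0)) (Nat.shiftLeft (Nat.add (Nat.add (Nat.add 0 (Nat.mul (c3 1 3) U1)) (Nat.mul (c3 0 3) U0)) (Nat.shiftLeft 0 sh3)) sh3)) sh3)) sh3)) (Nat.add (Nat.add (Nat.add 0 (Nat.mul 16615065600 (E 3 1 0))) (Nat.mul 81852825600 (E 2 0 0))) (Nat.mul 23392051200 (E 1 1 0))) (Nat.add 0 (Nat.mul 17250508800 (E 0 0 0)))) ((fun U1 : ℕ => Nat.add (Nat.add 0 (Nat.mul (c3 1 0) U1)) (Nat.shiftLeft (Nat.add (Nat.add 0 (Nat.mul (c3 1 1) U1)) (Nat.shiftLeft (Nat.add (Nat.add 0 (Nat.mul (c3 1 2) U1)) (Nat.shiftLeft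 (Nat.add (Nat.add 0 (Nat.mul (c3 1 3) U1)) (Nat.shiftLeft 0 sh3)) sh3)) sh3)) sh3)) (Nat.add 0 (Nat.mul 7151155200 (E 0 0 0))))
theorem psi_p_eq (E : ℕ → ℕ → ℕ → ℕ) (c3 : ℕ → ℕ → ℕ) (sh3 : ℕ) (c4 : ℕ → ℕ → ℕ) (sh4 : ℕ) :
    zN1 true E c3 sh3 4 c4 sh4 4 mm.psi = psi_p E c3 sh3 c4 sh4 := rfl
def psi_n (E : ℕ → ℕ → ℕ → ℕ) (c3 : ℕ → ℕ → ℕ) (sh3 : ℕ) (c4 : ℕ → ℕ → ℕ) (sh4 : ℕ) : ℕ :=
  (fun V0 V1 V2 V3 : ℕ => Nat.add (Nat.add (Nat.add (Nat.add (Nat.add 0 (Nat.mul (c4 3 0) V3)) (Nat.mul (c4 2 0) V2)) (Nat.mul (c4 1 0) V1)) (Nat.mul (c4 0 0) V0)) (Nat.shiftLeft (Nat.add (Nat.add (Nat.add (Nat.add (Nat.add 0 (Nat.mul (c4 3 1) V3)) (Nat.mul (c4 2 1) V2)) (Nat.mul (c4 1 1) V1)) (Nat.mul (c4 0 1) V0)) (Nat.shiftLeft (Nat.add (Nat.add (Nat.add (Nat.add (Nat.add 0 (Nat.mul (c4 3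 2) V3)) (Nat.mul (c4 2 2) V2)) (Nat.mul (c4 1 2) V1)) (Nat.mul (c4 0 2) V0)) (Nat.shiftLeft (Nat.add (Nat.add (Nat.add (Nat.add (Nat.add 0 (Nat.mul (c4 3 3) V3)) (Nat.mul (c4 2 3) V2)) (Nat.mul (c4 1 3) V1)) (Nat.mul (c4 0 3) V0)) (Nat.shiftLeft 0 sh4)) sh4)) sh4)) sh4)) ((fun U0 U1 U2 U3 : ℕ => Nat.add (Nat.add (Nat.add (Nat.add (Nat.add 0 (Nat.mul (c3 3 0) U3)) (Nat.mul (c3 2 0) U2)) (Nat.mul (c3 1 0) U1)) (Nat.mul (c3 0 0) U0)) (Nat.shiftLeft (Nat.add (Nat.add (Nat.add (Nat.add (Nat.add 0 (Nat.mul (c3 3 1) U3)) (Nat.mul (c3 2 1) U2)) (Nat.mul (c3 1 1) U1)) (Nat.mul (c3 0 1) U0)) (Nat.shiftLeft (Nat.add (Nat.add (Nat.add (Nat.add (Nat.add 0 (Nat.mul (c3 3 2) U3)) (Nat.mul (c3 2 2) U2)) (Nat.mul (c3 1 2) U1)) (Nat.mul (c3 0 2) U0)) (Nat.shiftLeft (Nat.add (Nat.add (Nat.add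 (Nat.add (Nat.add 0 (Nat.mul (c3 3 3) U3)) (Nat.mul (c3 2 3) U2)) (Nat.mul (c3 1 3) U1)) (Nat.mul (c3 0 3) U0)) (Nat.shiftLeft 0 sh3)) sh3)) sh3)) sh3)) (Nat.add (Nat.add (Nat.add (Nat.add 0 (Nat.mul 2390976000 (E 8 2 0))) (Nat.mul 1630944000 (E 6 2 0))) (Nat.mul 2343801600 (E 3 1 0))) (Nat.mul 8213587200 (E 2 0 0))) (Nat.add (Nat.add (Nat.add (Nat.add (Nat.add 0 (Nat.mul 3147782400 (E 5 1 0))) (Nat.mul 2963116800 (E 4 2 0))) (Nat.mul 12352032000 (E 4 0 0))) (Nat.mul 857606400 (E 1 1 0))) (Nat.mul 166924800 (E 0 0 0))) (Nat.add (Nat.add (Nat.add 0 (Nat.mul 1265241600 (E 4 2 0))) (Nat.mul 2334931200 (E 3 1 0))) (Nat.mul 2874816000 (E 0 0 0))) (Nat.add (Nat.add 0 (Nat.mul 3330835200 (E 2 0 0))) (Nat.mul 257241600 (E 1 1 0)))) ((fun U0 U1 U2 : ℕ => Nat.add (Nat.add (Nat.add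 (Nat.add 0 (Nat.mul (c3 2 0) U2)) (Nat.mul (c3 1 0) U1)) (Nat.mul (c3 0 0) U0)) (Nat.shiftLeft (Nat.add (Nat.add (Nat.add (Nat.add 0 (Nat.mul (c3 2 1) U2)) (Nat.mul (c3 1 1) U1)) (Nat.mul (c3 0 1) U0)) (Nat.shiftLeft (Nat.add (Nat.add (Nat.add (Nat.add 0 (Nat.mul (c3 2 2) U2)) (Nat.mul (c3 1 2) U1)) (Nat.mul (c3 0 2) U0)) (Nat.shiftLeft (Nat.add (Nat.add (Nat.add (Nat.add 0 (Nat.mul (c3 2 3) U2)) (Nat.mul (c3 1 3) U1)) (Nat.mul (c3 0 3) U0)) (Nat.shiftLeft 0 sh3)) sh3)) sh3)) sh3)) (Nat.add (Nat.add (Nat.add (Nat.add 0 (Nat.mul 13255603200 (E 4 2 0))) (Nat.mul 14476492800 (E 4 0 0))) (Nat.mul 25773350400 (E 3 1 0))) (Nat.mul 61286400 (E 0 0 0))) (Nat.add (Nat.add (Nat.add 0 (Nat.mul 3107865600 (E 4 2 0))) (Nat.mul 9101030400 (E 2 0 0))) (Nat.mul 12094387200 (E 1 1 0)))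 (Nat.add (Nat.add 0 (Nat.mul 6124608000 (E 2 0 0))) (Nat.mul 18946368000 (E 0 0 0)))) ((fun U0 U1 U2 : ℕ => Nat.add (Nat.add (Nat.add (Nat.add 0 (Nat.mul (c3 2 0) U2)) (Nat.mul (c3 1 0) U1)) (Nat.mul (c3 0 0) U0)) (Nat.shiftLeft (Nat.add (Nat.add (Nat.add (Nat.add 0 (Nat.mul (c3 2 1) U2)) (Nat.mul (c3 1 1) U1)) (Nat.mul (c3 0 1) U0)) (Nat.shiftLeft (Nat.add (Nat.add (Nat.add (Nat.add 0 (Nat.mul (c3 2 2) U2)) (Nat.mul (c3 1 2) U1)) (Nat.mul (c3 0 2) U0)) (Nat.shiftLeft (Nat.add (Nat.add (Nat.add (Nat.add 0 (Nat.mul (c3 2 3) U2)) (Nat.mul (c3 1 3) U1)) (Nat.mul (c3 0 3) U0)) (Nat.shiftLeft 0 sh3)) sh3)) sh3)) sh3)) (Nat.add (Nat.add (Nat.add 0 (Nat.mul 7622092800 (E 4 2 0))) (Nat.mul 10028390400 (E 4 0 0))) (Nat.mul 13289472000 (E 0 0 0))) (Nat.add (Nat.add 0 (Nat.mul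 61928294400 (E 2 0 0))) (Nat.mul 21626035200 (E 1 1 0))) (Nat.add 0 (Nat.mul 195148800 (E 0 0 0)))) ((fun U0 : ℕ => Nat.add (Nat.add 0 (Nat.mul (c3 0 0) U0)) (Nat.shiftLeft (Nat.add (Nat.add 0 (Nat.mul (c3 0 1) U0)) (Nat.shiftLeft (Nat.add (Nat.add 0 (Nat.mul (c3 0 2) U0)) (Nat.shiftLeft (Nat.add (Nat.add 0 (Nat.mul (c3 0 3) U0)) (Nat.shiftLeft 0 sh3)) sh3)) sh3)) sh3)) (Nat.add (Nat.add (Nat.add 0 (Nat.mul 123859814400 (E 2 0 0))) (Nat.mul 70198732800 (E 1 1 0))) (Nat.mul 3225600 (E 0 0 0))))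
theorem psi_n_eq (E : ℕ → ℕ → ℕ → ℕ) (c3 : ℕ → ℕ → ℕ) (sh3 : ℕ) (c4 : ℕ → ℕ → ℕ) (sh4 : ℕ) :
    zN1 false E c3 sh3 4 c4 sh4 4 mm.psi = psi_n E c3 sh3 c4 sh4 := rfl
def g_p (E : ℕ → ℕ → ℕ → ℕ) (c3 : ℕ → ℕ → ℕ) (sh3 : ℕ) (c4 : ℕ → ℕ → ℕ) (sh4 : ℕ) : ℕ :=
  (fun V0 V1 V2 V3 : ℕ => Nat.add (Nat.add (Nat.add (Nat.add (Nat.add 0 (Nat.mul (c4 3 0) V3)) (Nat.mul (c4 2 0) V2)) (Nat.mul (c4 1 0) V1)) (Nat.mul (c4 0 0) V0)) (Nat.shiftLeft (Nat.add (Nat.add (Nat.add (Nat.add (Nat.add 0 (Nat.mul (c4 3 1) V3)) (Nat.mul (c4 2 1) V2)) (Nat.mul (c4 1 1) V1)) (Nat.mul (c4 0 1) V0)) (Nat.shiftLeft (Nat.add (Nat.add (Nat.add (Nat.add (Nat.add 0 (Nat.mul (c4 3 2) V3)) (Nat.mul (c4 2 2) V2)) (Nat.mul (c4 1 2) V1)) (Nat.mul (c4 0 2) V0)) (Nat.shiftLeft (Nat.add (Nat.add (Nat.add (Nat.add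 (Nat.add 0 (Nat.mul (c4 3 3) V3)) (Nat.mul (c4 2 3) V2)) (Nat.mul (c4 1 3) V1)) (Nat.mul (c4 0 3) V0)) (Nat.shiftLeft 0 sh4)) sh4)) sh4)) sh4)) ((fun U0 U1 U2 U3 : ℕ => Nat.add (Nat.add (Nat.add (Nat.add (Nat.add 0 (Nat.mul (c3 3 0) U3)) (Nat.mul (c3 2 0) U2)) (Nat.mul (c3 1 0) U1)) (Nat.mul (c3 0 0) U0)) (Nat.shiftLeft (Nat.add (Nat.add (Nat.add (Nat.add (Nat.add 0 (Nat.mul (c3 3 1) U3)) (Nat.mul (c3 2 1) U2)) (Nat.mul (c3 1 1) U1)) (Nat.mul (c3 0 1) U0)) (Nat.shiftLeft (Nat.add (Nat.add (Nat.add (Nat.add (Nat.add 0 (Nat.mul (c3 3 2) U3)) (Nat.mul (c3 2 2) U2)) (Nat.mul (c3 1 2) U1)) (Nat.mul (c3 0 2) U0)) (Nat.shiftLeft (Nat.add (Nat.add (Nat.add (Nat.add (Nat.add 0 (Nat.mul (c3 3 3) U3)) (Nat.mul (c3 2 3) U2)) (Nat.mul (c3 1 3) U1)) (Nat.mul (c3 0 3) U0)) (Nat.shiftLeft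 0 sh3)) sh3)) sh3)) sh3)) (Nat.add (Nat.add (Nat.add (Nat.add (Nat.add 0 (Nat.mul 1262419200 (E 10 2 0))) (Nat.mul 6633446400 (E 6 2 0))) (Nat.mul 4801305600 (E 5 1 0))) (Nat.mul 3500582400 (E 4 0 0))) (Nat.mul 3675168000 (E 0 0 0))) (Nat.add (Nat.add (Nat.add (Nat.add 0 (Nat.mul 4369075200 (E 8 2 0))) (Nat.mul 3180441600 (E 7 1 0))) (Nat.mul 13695091200 (E 3 1 0))) (Nat.mul 10057420800 (E 2 0 0))) (Nat.add (Nat.add (Nat.add 0 (Nat.mul 3561465600 (E 5 1 0))) (Nat.mul 3633235200 (E 4 0 0))) (Nat.mul 5017420800 (E 0 0 0))) (Nat.add (Nat.add 0 (Nat.mul 2942956800 (E 3 1 0))) (Nat.mul 1453536000 (E 2 0 0)))) ((fun U0 U1 U2 : ℕ => Nat.add (Nat.add (Nat.add (Nat.add 0 (Nat.mul (c3 2 0) U2)) (Nat.mul (c3 1 0) U1)) (Nat.mul (c3 0 0) U0)) (Nat.shiftLeft (Nat.add (Nat.add (Nat.add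 (Nat.add 0 (Nat.mul (c3 2 1) U2)) (Nat.mul (c3 1 1) U1)) (Nat.mul (c3 0 1) U0)) (Nat.shiftLeft (Nat.add (Nat.add (Nat.add (Nat.add 0 (Nat.mul (c3 2 2) U2)) (Nat.mul (c3 1 2) U1)) (Nat.mul (c3 0 2) U0)) (Nat.shiftLeft (Nat.add (Nat.add (Nat.add (Nat.add 0 (Nat.mul (c3 2 3) U2)) (Nat.mul (c3 1 3) U1)) (Nat.mul (c3 0 3) U0)) (Nat.shiftLeft 0 sh3)) sh3)) sh3)) sh3)) (Nat.add (Nat.add (Nat.add (Nat.add (Nat.add 0 (Nat.mul 12945945600 (E 8 2 0))) (Nat.mul 9063936000 (E 7 1 0))) (Nat.mul 2351462400 (E 5 1 0))) (Nat.mul 8039808000 (E 4 0 0))) (Nat.mul 7810790400 (E 0 0 0))) (Nat.add (Nat.add 0 (Nat.mul 27832896000 (E 3 1 0))) (Nat.mul 11911334400 (E 0 0 0))) (Nat.add 0 (Nat.mul 24180710400 (E 2 0 0)))) ((fun U0 U1 U2 : ℕ => Nat.add (Nat.add (Nat.add (Nat.add 0 (Nat.mul (c3 2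 0) U2)) (Nat.mul (c3 1 0) U1)) (Nat.mul (c3 0 0) U0)) (Nat.shiftLeft (Nat.add (Nat.add (Nat.add (Nat.add 0 (Nat.mul (c3 2 1) U2)) (Nat.mul (c3 1 1) U1)) (Nat.mul (c3 0 1) U0)) (Nat.shiftLeft (Nat.add (Nat.add (Nat.add (Nat.add 0 (Nat.mul (c3 2 2) U2)) (Nat.mul (c3 1 2) U1)) (Nat.mul (c3 0 2) U0)) (Nat.shiftLeft (Nat.add (Nat.add (Nat.add (Nat.add 0 (Nat.mul (c3 2 3) U2)) (Nat.mul (c3 1 3) U1)) (Nat.mul (c3 0 3) U0)) (Nat.shiftLeft 0 sh3)) sh3)) sh3)) sh3)) (Nat.add (Nat.add (Nat.add 0 (Nat.mul 566092800 (E 4 0 0))) (Nat.mul 38033049600 (E 3 1 0))) (Nat.mul 84410726400 (E 0 0 0))) (Nat.add 0 (Nat.mul 60509030400 (E 2 0 0))) (Nat.add 0 (Nat.mul 15419980800 (E 0 0 0)))) ((fun U0 : ℕ => Nat.add (Nat.add 0 (Nat.mul (c3 0 0) U0)) (Nat.shiftLeft (Nat.add (Nat.add 0 (Nat.mul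 (c3 0 1) U0)) (Nat.shiftLeft (Nat.add (Nat.add 0 (Nat.mul (c3 0 2) U0)) (Nat.shiftLeft (Nat.add (Nat.add 0 (Nat.mul (c3 0 3) U0)) (Nat.shiftLeft 0 sh3)) sh3)) sh3)) sh3)) (Nat.add 0 (Nat.mul 125911296000 (E 0 0 0))))
theorem g_p_eq (E : ℕ → ℕ → ℕ → ℕ) (c3 : ℕ → ℕ → ℕ) (sh3 : ℕ) (c4 : ℕ → ℕ → ℕ) (sh4 : ℕ) :
    zN1 true E c3 sh3 4 c4 sh4 4 mm.g = g_p E c3 sh3 c4 sh4 := rfl
def g_n (E : ℕ → ℕ → ℕ → ℕ) (c3 : ℕ → ℕ → ℕ) (sh3 : ℕ) (c4 : ℕ → ℕ → ℕ) (sh4 : ℕ) : ℕ :=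
  (fun V0 V1 V2 V3 : ℕ => Nat.add (Nat.add (Nat.add (Nat.add (Nat.add 0 (Nat.mul (c4 3 0) V3)) (Nat.mul (c4 2 0) V2)) (Nat.mul (c4 1 0) V1)) (Nat.mul (c4 0 0) V0)) (Nat.shiftLeft (Nat.add (Nat.add (Nat.add (Nat.add (Nat.add 0 (Nat.mul (c4 3 1) V3)) (Nat.mul (c4 2 1) V2)) (Nat.mul (c4 1 1) V1)) (Nat.mul (c4 0 1) V0)) (Nat.shiftLeft (Nat.add (Nat.add (Nat.add (Nat.add (Nat.add 0 (Nat.mul (c4 3 2) V3)) (Nat.mul (c4 2 2) V2)) (Nat.mul (c4 1 2) V1)) (Nat.mul (c4 0 2) V0)) (Nat.shiftLeft (Nat.add (Nat.add (Nat.add (Nat.add (Nat.add 0 (Nat.mul (c4 3 3) V3)) (Nat.mul (c4 2 3) V2)) (Nat.mul (c4 1 3) V1)) (Nat.mul (c4 0 3) V0)) (Nat.shiftLeft 0 sh4)) sh4)) sh4)) sh4)) ((fun U0 U1 U2 U3 : ℕ => Nat.add (Nat.add (Nat.add (Nat.add (Nat.add 0 (Nat.mul (c3 3 0) U3)) (Nat.mul (c3 2 0)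 U2)) (Nat.mul (c3 1 0) U1)) (Nat.mul (c3 0 0) U0)) (Nat.shiftLeft (Nat.add (Nat.add (Nat.add (Nat.add (Nat.add 0 (Nat.mul (c3 3 1) U3)) (Nat.mul (c3 2 1) U2)) (Nat.mul (c3 1 1) U1)) (Nat.mul (c3 0 1) U0)) (Nat.shiftLeft (Nat.add (Nat.add (Nat.add (Nat.add (Nat.add 0 (Nat.mul (c3 3 2) U3)) (Nat.mul (c3 2 2) U2)) (Nat.mul (c3 1 2) U1)) (Nat.mul (c3 0 2) U0)) (Nat.shiftLeft (Nat.add (Nat.add (Nat.add (Nat.add (Nat.add 0 (Nat.mul (c3 3 3) U3)) (Nat.mul (c3 2 3) U2)) (Nat.mul (c3 1 3) U1)) (Nat.mul (c3 0 3) U0)) (Nat.shiftLeft 0 sh3)) sh3)) sh3)) sh3)) (Nat.add (Nat.add (Nat.add (Nat.add 0 (Nat.mul 8155526400 (E 8 2 0))) (Nat.mul 1897862400 (E 7 1 0))) (Nat.mul 3239712000 (E 3 1 0))) (Nat.mul 5393606400 (E 2 0 0))) (Nat.add (Nat.add (Nat.add (Nat.add 0 (Nat.mul 2338156800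 (E 6 2 0))) (Nat.mul 12335904000 (E 5 1 0))) (Nat.mul 7247116800 (E 4 0 0))) (Nat.mul 4967424000 (E 0 0 0))) (Nat.add (Nat.add (Nat.add 0 (Nat.mul 1313222400 (E 6 2 0))) (Nat.mul 9847756800 (E 3 1 0))) (Nat.mul 6011308800 (E 2 0 0))) (Nat.add 0 (Nat.mul 2669990400 (E 0 0 0)))) ((fun U0 U1 U2 U3 : ℕ => Nat.add (Nat.add (Nat.add (Nat.add (Nat.add 0 (Nat.mul (c3 3 0) U3)) (Nat.mul (c3 2 0) U2)) (Nat.mul (c3 1 0) U1)) (Nat.mul (c3 0 0) U0)) (Nat.shiftLeft (Nat.add (Nat.add (Nat.add (Nat.add (Nat.add 0 (Nat.mul (c3 3 1) U3)) (Nat.mul (c3 2 1) U2)) (Nat.mul (c3 1 1) U1)) (Nat.mul (c3 0 1) U0)) (Nat.shiftLeft (Nat.add (Nat.add (Nat.add (Nat.add (Nat.add 0 (Nat.mul (c3 3 2) U3)) (Nat.mul (c3 2 2) U2)) (Nat.mul (c3 1 2) U1)) (Nat.mul (c3 0 2) U0)) (Nat.shiftLeft (Nat.add (Nat.add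 (Nat.add (Nat.add (Nat.add 0 (Nat.mul (c3 3 3) U3)) (Nat.mul (c3 2 3) U2)) (Nat.mul (c3 1 3) U1)) (Nat.mul (c3 0 3) U0)) (Nat.shiftLeft 0 sh3)) sh3)) sh3)) sh3)) (Nat.add (Nat.add (Nat.add 0 (Nat.mul 8729280000 (E 6 2 0))) (Nat.mul 25465305600 (E 3 1 0))) (Nat.mul 15895756800 (E 2 0 0))) (Nat.add (Nat.add (Nat.add (Nat.add 0 (Nat.mul 5172249600 (E 6 2 0))) (Nat.mul 7552742400 (E 5 1 0))) (Nat.mul 616089600 (E 4 0 0))) (Nat.mul 18329472000 (E 2 0 0))) (Nat.add (Nat.add 0 (Nat.mul 10343692800 (E 3 1 0))) (Nat.mul 8326886400 (E 0 0 0))) (Nat.add 0 (Nat.mul 9969523200 (E 0 0 0)))) ((fun U0 U1 : ℕ => Nat.add (Nat.add (Nat.add 0 (Nat.mul (c3 1 0) U1)) (Nat.mul (c3 0 0) U0)) (Nat.shiftLeft (Nat.add (Nat.add (Nat.add 0 (Nat.mul (c3 1 1) U1)) (Nat.mul (c3 0 1) U0)) (Nat.shiftLeft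 (Nat.add (Nat.add (Nat.add 0 (Nat.mul (c3 1 2) U1)) (Nat.mul (c3 0 2) U0)) (Nat.shiftLeft (Nat.add (Nat.add (Nat.add 0 (Nat.mul (c3 1 3) U1)) (Nat.mul (c3 0 3) U0)) (Nat.shiftLeft 0 sh3)) sh3)) sh3)) sh3)) (Nat.add (Nat.add (Nat.add 0 (Nat.mul 21064780800 (E 6 2 0))) (Nat.mul 7855948800 (E 5 1 0))) (Nat.mul 63062092800 (E 2 0 0))) (Nat.add (Nat.add 0 (Nat.mul 26772480000 (E 3 1 0))) (Nat.mul 95722905600 (E 0 0 0)))) ((fun U0 U1 : ℕ => Nat.add (Nat.add (Nat.add 0 (Nat.mul (c3 1 0) U1)) (Nat.mul (c3 0 0) U0)) (Nat.shiftLeft (Nat.add (Nat.add (Nat.add 0 (Nat.mul (c3 1 1) U1)) (Nat.mul (c3 0 1) U0)) (Nat.shiftLeft (Nat.add (Nat.add (Nat.add 0 (Nat.mul (c3 1 2) U1)) (Nat.mul (c3 0 2) U0)) (Nat.shiftLeft (Nat.add (Nat.add (Nat.add 0 (Nat.mul (c3 1 3) U1)) (Nat.mul (c3 0 3)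 U0)) (Nat.shiftLeft 0 sh3)) sh3)) sh3)) sh3)) (Nat.add (Nat.add 0 (Nat.mul 26507980800 (E 3 1 0))) (Nat.mul 2048256000 (E 2 0 0))) (Nat.add 0 (Nat.mul 84146227200 (E 0 0 0))))
theorem g_n_eq (E : ℕ → ℕ → ℕ → ℕ) (c3 : ℕ → ℕ → ℕ) (sh3 : ℕ) (c4 : ℕ → ℕ → ℕ) (sh4 : ℕ) :
    zN1 false E c3 sh3 4 c4 sh4 4 mm.g = g_n E c3 sh3 c4 sh4 := rfl
def K11_p (E : ℕ → ℕ → ℕ → ℕ) (c3 : ℕ → ℕ → ℕ) (sh3 : ℕ) (c4 : ℕ → ℕ → ℕ) (sh4 : ℕ) : ℕ :=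
  (fun V0 V1 V2 V3 : ℕ => Nat.add (Nat.add (Nat.add (Nat.add (Nat.add 0 (Nat.mul (c4 3 0) V3)) (Nat.mul (c4 2 0) V2)) (Nat.mul (c4 1 0) V1)) (Nat.mul (c4 0 0) V0)) (Nat.shiftLeft (Nat.add (Nat.add (Nat.add (Nat.add (Nat.add 0 (Nat.mul (c4 3 1) V3)) (Nat.mul (c4 2 1) V2)) (Nat.mul (c4 1 1) V1)) (Nat.mul (c4 0 1) V0)) (Nat.shiftLeft (Nat.add (Nat.add (Nat.add (Nat.add (Nat.add 0 (Nat.mul (c4 3 2) V3)) (Nat.mul (c4 2 2) V2)) (Nat.mul (c4 1 2) V1)) (Nat.mul (c4 0 2) V0)) (Nat.shiftLeft (Nat.add (Nat.add (Nat.add (Nat.add (Nat.add 0 (Nat.mul (c4 3 3) V3)) (Nat.mul (c4 2 3) V2)) (Nat.mul (c4 1 3) V1)) (Nat.mul (c4 0 3) V0)) (Nat.shiftLeft 0 sh4)) sh4)) sh4)) sh4)) ((fun U0 U1 U2 U3 : ℕ => Nat.add (Nat.add (Nat.add (Nat.add (Nat.add 0 (Nat.mul (c3 3 0) U3)) (Nat.mul (c3 2 0)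 U2)) (Nat.mul (c3 1 0) U1)) (Nat.mul (c3 0 0) U0)) (Nat.shiftLeft (Nat.add (Nat.add (Nat.add (Nat.add (Nat.add 0 (Nat.mul (c3 3 1) U3)) (Nat.mul (c3 2 1) U2)) (Nat.mul (c3 1 1) U1)) (Nat.mul (c3 0 1) U0)) (Nat.shiftLeft (Nat.add (Nat.add (Nat.add (Nat.add (Nat.add 0 (Nat.mul (c3 3 2) U3)) (Nat.mul (c3 2 2) U2)) (Nat.mul (c3 1 2) U1)) (Nat.mul (c3 0 2) U0)) (Nat.shiftLeft (Nat.add (Nat.add (Nat.add (Nat.add (Nat.add 0 (Nat.mul (c3 3 3) U3)) (Nat.mul (c3 2 3) U2)) (Nat.mul (c3 1 3) U1)) (Nat.mul (c3 0 3) U0)) (Nat.shiftLeft 0 sh3)) sh3)) sh3)) sh3)) (Nat.add (Nat.add (Nat.add (Nat.add (Nat.add (Nat.add (Nat.add (Nat.add (Nat.add (Nat.add 0 (Nat.mul 601152000 (E 10 2 2))) (Nat.mul 420806400 (E 10 2 0))) (Nat.mul 3158784000 (E 6 2 2))) (Nat.mul 2211148800 (E 6 2 0))) (Nat.mul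 2286336000 (E 5 1 2))) (Nat.mul 1600435200 (E 5 1 0))) (Nat.mul 1666944000 (E 4 0 2))) (Nat.mul 1166860800 (E 4 0 0))) (Nat.mul 1750080000 (E 0 0 2))) (Nat.mul 1225056000 (E 0 0 0))) (Nat.add (Nat.add (Nat.add (Nat.add (Nat.add (Nat.add (Nat.add (Nat.add 0 (Nat.mul 2080512000 (E 8 2 2))) (Nat.mul 1456358400 (E 8 2 0))) (Nat.mul 1514496000 (E 7 1 2))) (Nat.mul 1060147200 (E 7 1 0))) (Nat.mul 6521472000 (E 3 1 2))) (Nat.mul 4565030400 (E 3 1 0))) (Nat.mul 4789248000 (E 2 0 2))) (Nat.mul 3352473600 (E 2 0 0))) (Nat.add (Nat.add (Nat.add (Nat.add (Nat.add (Nat.add 0 (Nat.mul 1695936000 (E 5 1 2))) (Nat.mul 1187155200 (E 5 1 0))) (Nat.mul 1730112000 (E 4 0 2))) (Nat.mul 1211078400 (E 4 0 0))) (Nat.mul 2389248000 (E 0 0 2))) (Nat.mul 1672473600 (E 0 0 0))) (Nat.add (Nat.add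 (Nat.add (Nat.add 0 (Nat.mul 1401408000 (E 3 1 2))) (Nat.mul 980985600 (E 3 1 0))) (Nat.mul 692160000 (E 2 0 2))) (Nat.mul 484512000 (E 2 0 0)))) ((fun U0 U1 U2 : ℕ => Nat.add (Nat.add (Nat.add (Nat.add 0 (Nat.mul (c3 2 0) U2)) (Nat.mul (c3 1 0) U1)) (Nat.mul (c3 0 0) U0)) (Nat.shiftLeft (Nat.add (Nat.add (Nat.add (Nat.add 0 (Nat.mul (c3 2 1) U2)) (Nat.mul (c3 1 1) U1)) (Nat.mul (c3 0 1) U0)) (Nat.shiftLeft (Nat.add (Nat.add (Nat.add (Nat.add 0 (Nat.mul (c3 2 2) U2)) (Nat.mul (c3 1 2) U1)) (Nat.mul (c3 0 2) U0)) (Nat.shiftLeft (Nat.add (Nat.add (Nat.add (Nat.add 0 (Nat.mul (c3 2 3) U2)) (Nat.mul (c3 1 3) U1)) (Nat.mul (c3 0 3) U0)) (Nat.shiftLeft 0 sh3)) sh3)) sh3)) sh3)) (Nat.add (Nat.add (Nat.add (Nat.add (Nat.add (Nat.add (Nat.add (Nat.add (Nat.add (Nat.add 0 (Nat.mul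 6164736000 (E 8 2 2))) (Nat.mul 4315315200 (E 8 2 0))) (Nat.mul 4316160000 (E 7 1 2))) (Nat.mul 3021312000 (E 7 1 0))) (Nat.mul 1119744000 (E 5 1 2))) (Nat.mul 783820800 (E 5 1 0))) (Nat.mul 3828480000 (E 4 0 2))) (Nat.mul 2679936000 (E 4 0 0))) (Nat.mul 3719424000 (E 0 0 2))) (Nat.mul 2603596800 (E 0 0 0))) (Nat.add (Nat.add (Nat.add (Nat.add 0 (Nat.mul 13253760000 (E 3 1 2))) (Nat.mul 9277632000 (E 3 1 0))) (Nat.mul 5672064000 (E 0 0 2))) (Nat.mul 3970444800 (E 0 0 0))) (Nat.add (Nat.add 0 (Nat.mul 11514624000 (E 2 0 2))) (Nat.mul 8060236800 (E 2 0 0)))) ((fun U0 U1 U2 : ℕ => Nat.add (Nat.add (Nat.add (Nat.add 0 (Nat.mul (c3 2 0) U2)) (Nat.mul (c3 1 0) U1)) (Nat.mul (c3 0 0) U0)) (Nat.shiftLeft (Nat.add (Nat.add (Nat.add (Nat.add 0 (Nat.mul (c3 2 1) U2)) (Nat.mul (c3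 1 1) U1)) (Nat.mul (c3 0 1) U0)) (Nat.shiftLeft (Nat.add (Nat.add (Nat.add (Nat.add 0 (Nat.mul (c3 2 2) U2)) (Nat.mul (c3 1 2) U1)) (Nat.mul (c3 0 2) U0)) (Nat.shiftLeft (Nat.add (Nat.add (Nat.add (Nat.add 0 (Nat.mul (c3 2 3) U2)) (Nat.mul (c3 1 3) U1)) (Nat.mul (c3 0 3) U0)) (Nat.shiftLeft 0 sh3)) sh3)) sh3)) sh3)) (Nat.add (Nat.add (Nat.add (Nat.add (Nat.add (Nat.add 0 (Nat.mul 269568000 (E 4 0 2))) (Nat.mul 188697600 (E 4 0 0))) (Nat.mul 18110976000 (E 3 1 2))) (Nat.mul 12677683200 (E 3 1 0))) (Nat.mul 40195584000 (E 0 0 2))) (Nat.mul 28136908800 (E 0 0 0))) (Nat.add (Nat.add 0 (Nat.mul 28813824000 (E 2 0 2))) (Nat.mul 20169676800 (E 2 0 0))) (Nat.add (Nat.add 0 (Nat.mul 7342848000 (E 0 0 2))) (Nat.mul 5139993600 (E 0 0 0)))) ((fun U0 : ℕ => Nat.add (Nat.add 0 (Nat.mul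 (c3 0 0) U0)) (Nat.shiftLeft (Nat.add (Nat.add 0 (Nat.mul (c3 0 1) U0)) (Nat.shiftLeft (Nat.add (Nat.add 0 (Nat.mul (c3 0 2) U0)) (Nat.shiftLeft (Nat.add (Nat.add 0 (Nat.mul (c3 0 3) U0)) (Nat.shiftLeft 0 sh3)) sh3)) sh3)) sh3)) (Nat.add (Nat.add 0 (Nat.mul 59957760000 (E 0 0 2))) (Nat.mul 41970432000 (E 0 0 0))))
theorem K11_p_eq (E : ℕ → ℕ → ℕ → ℕ) (c3 : ℕ → ℕ → ℕ) (sh3 : ℕ) (c4 : ℕ → ℕ → ℕ) (sh4 : ℕ) :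
    zN1 true E c3 sh3 4 c4 sh4 4 mm.k11 = K11_p E c3 sh3 c4 sh4 := rfl
def K11_n (E : ℕ → ℕ → ℕ → ℕ) (c3 : ℕ → ℕ → ℕ) (sh3 : ℕ) (c4 : ℕ → ℕ → ℕ) (sh4 : ℕ) : ℕ :=
  (fun V0 V1 V2 V3 : ℕ => Nat.add (Nat.add (Nat.add (Nat.add (Nat.add 0 (Nat.mul (c4 3 0) V3)) (Nat.mul (c4 2 0) V2)) (Nat.mul (c4 1 0) V1)) (Nat.mul (c4 0 0) V0)) (Nat.shiftLeft (Nat.add (Nat.add (Nat.add (Nat.add (Nat.add 0 (Nat.mul (c4 3 1) V3)) (Nat.mul (c4 2 1) V2)) (Nat.mul (c4 1 1) V1)) (Nat.mul (c4 0 1) V0)) (Nat.shiftLeft (Nat.add (Nat.add (Nat.add (Nat.add (Nat.add 0 (Nat.mul (c4 3 2) V3)) (Nat.mul (c4 2 2) V2)) (Nat.mul (c4 1 2) V1)) (Nat.mul (c4 0 2) V0)) (Nat.shiftLeft (Nat.add (Nat.add (Nat.add (Nat.add (Nat.add 0 (Nat.mul (c4 3 3) V3)) (Nat.mul (c4 2 3) V2)) (Nat.mul (c4 1 3) V1)) (Nat.mul (c4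 0 3) V0)) (Nat.shiftLeft 0 sh4)) sh4)) sh4)) sh4)) ((fun U0 U1 U2 U3 : ℕ => Nat.add (Nat.add (Nat.add (Nat.add (Nat.add 0 (Nat.mul (c3 3 0) U3)) (Nat.mul (c3 2 0) U2)) (Nat.mul (c3 1 0) U1)) (Nat.mul (c3 0 0) U0)) (Nat.shiftLeft (Nat.add (Nat.add (Nat.add (Nat.add (Nat.add 0 (Nat.mul (c3 3 1) U3)) (Nat.mul (c3 2 1) U2)) (Nat.mul (c3 1 1) U1)) (Nat.mul (c3 0 1) U0)) (Nat.shiftLeft (Nat.add (Nat.add (Nat.add (Nat.add (Nat.add 0 (Nat.mul (c3 3 2) U3)) (Nat.mul (c3 2 2) U2)) (Nat.mul (c3 1 2) U1)) (Nat.mul (c3 0 2) U0)) (Nat.shiftLeft (Nat.add (Nat.add (Nat.add (Nat.add (Nat.add 0 (Nat.mul (c3 3 3) U3)) (Nat.mul (c3 2 3) U2)) (Nat.mul (c3 1 3) U1)) (Nat.mul (c3 0 3) U0)) (Nat.shiftLeft 0 sh3)) sh3)) sh3)) sh3)) (Nat.add (Nat.add (Nat.add (Nat.add (Nat.add (Nat.add (Nat.add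 (Nat.add 0 (Nat.mul 3883584000 (E 8 2 2))) (Nat.mul 2718508800 (E 8 2 0))) (Nat.mul 903744000 (E 7 1 2))) (Nat.mul 632620800 (E 7 1 0))) (Nat.mul 1542720000 (E 3 1 2))) (Nat.mul 1079904000 (E 3 1 0))) (Nat.mul 2568384000 (E 2 0 2))) (Nat.mul 1797868800 (E 2 0 0))) (Nat.add (Nat.add (Nat.add (Nat.add (Nat.add (Nat.add (Nat.add (Nat.add 0 (Nat.mul 1113408000 (E 6 2 2))) (Nat.mul 779385600 (E 6 2 0))) (Nat.mul 5874240000 (E 5 1 2))) (Nat.mul 4111968000 (E 5 1 0))) (Nat.mul 3451008000 (E 4 0 2))) (Nat.mul 2415705600 (E 4 0 0))) (Nat.mul 2365440000 (E 0 0 2))) (Nat.mul 1655808000 (E 0 0 0))) (Nat.add (Nat.add (Nat.add (Nat.add (Nat.add (Nat.add 0 (Nat.mul 625344000 (E 6 2 2))) (Nat.mul 437740800 (E 6 2 0))) (Nat.mul 4689408000 (E 3 1 2))) (Nat.mul 3282585600 (E 3 1 0))) (Nat.mul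 2862528000 (E 2 0 2))) (Nat.mul 2003769600 (E 2 0 0))) (Nat.add (Nat.add 0 (Nat.mul 1271424000 (E 0 0 2))) (Nat.mul 889996800 (E 0 0 0)))) ((fun U0 U1 U2 U3 : ℕ => Nat.add (Nat.add (Nat.add (Nat.add (Nat.add 0 (Nat.mul (c3 3 0) U3)) (Nat.mul (c3 2 0) U2)) (Nat.mul (c3 1 0) U1)) (Nat.mul (c3 0 0) U0)) (Nat.shiftLeft (Nat.add (Nat.add (Nat.add (Nat.add (Nat.add 0 (Nat.mul (c3 3 1) U3)) (Nat.mul (c3 2 1) U2)) (Nat.mul (c3 1 1) U1)) (Nat.mul (c3 0 1) U0)) (Nat.shiftLeft (Nat.add (Nat.add (Nat.add (Nat.add (Nat.add 0 (Nat.mul (c3 3 2) U3)) (Nat.mul (c3 2 2) U2)) (Nat.mul (c3 1 2) U1)) (Nat.mul (c3 0 2) U0)) (Nat.shiftLeft (Nat.add (Nat.add (Nat.add (Nat.add (Nat.add 0 (Nat.mul (c3 3 3) U3)) (Nat.mul (c3 2 3) U2)) (Nat.mul (c3 1 3) U1)) (Nat.mul (c3 0 3) U0)) (Nat.shiftLeft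 0 sh3)) sh3)) sh3)) sh3)) (Nat.add (Nat.add (Nat.add (Nat.add (Nat.add (Nat.add 0 (Nat.mul 4156800000 (E 6 2 2))) (Nat.mul 2909760000 (E 6 2 0))) (Nat.mul 12126336000 (E 3 1 2))) (Nat.mul 8488435200 (E 3 1 0))) (Nat.mul 7569408000 (E 2 0 2))) (Nat.mul 5298585600 (E 2 0 0))) (Nat.add (Nat.add (Nat.add (Nat.add (Nat.add (Nat.add (Nat.add (Nat.add 0 (Nat.mul 2462976000 (E 6 2 2))) (Nat.mul 1724083200 (E 6 2 0))) (Nat.mul 3596544000 (E 5 1 2))) (Nat.mul 2517580800 (E 5 1 0))) (Nat.mul 293376000 (E 4 0 2))) (Nat.mul 205363200 (E 4 0 0))) (Nat.mul 8728320000 (E 2 0 2))) (Nat.mul 6109824000 (E 2 0 0))) (Nat.add (Nat.add (Nat.add (Nat.add 0 (Nat.mul 4925568000 (E 3 1 2))) (Nat.mul 3447897600 (E 3 1 0))) (Nat.mul 3965184000 (E 0 0 2))) (Nat.mul 2775628800 (E 0 0 0))) (Nat.add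 (Nat.add 0 (Nat.mul 4747392000 (E 0 0 2))) (Nat.mul 3323174400 (E 0 0 0)))) ((fun U0 U1 : ℕ => Nat.add (Nat.add (Nat.add 0 (Nat.mul (c3 1 0) U1)) (Nat.mul (c3 0 0) U0)) (Nat.shiftLeft (Nat.add (Nat.add (Nat.add 0 (Nat.mul (c3 1 1) U1)) (Nat.mul (c3 0 1) U0)) (Nat.shiftLeft (Nat.add (Nat.add (Nat.add 0 (Nat.mul (c3 1 2) U1)) (Nat.mul (c3 0 2) U0)) (Nat.shiftLeft (Nat.add (Nat.add (Nat.add 0 (Nat.mul (c3 1 3) U1)) (Nat.mul (c3 0 3) U0)) (Nat.shiftLeft 0 sh3)) sh3)) sh3)) sh3)) (Nat.add (Nat.add (Nat.add (Nat.add (Nat.add (Nat.add 0 (Nat.mul 10030848000 (E 6 2 2))) (Nat.mul 7021593600 (E 6 2 0))) (Nat.mul 3740928000 (E 5 1 2))) (Nat.mul 2618649600 (E 5 1 0))) (Nat.mul 30029568000 (E 2 0 2))) (Nat.mul 21020697600 (E 2 0 0))) (Nat.add (Nat.add (Nat.add (Nat.add 0 (Nat.mul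 12748800000 (E 3 1 2))) (Nat.mul 8924160000 (E 3 1 0))) (Nat.mul 45582336000 (E 0 0 2))) (Nat.mul 31907635200 (E 0 0 0)))) ((fun U0 U1 : ℕ => Nat.add (Nat.add (Nat.add 0 (Nat.mul (c3 1 0) U1)) (Nat.mul (c3 0 0) U0)) (Nat.shiftLeft (Nat.add (Nat.add (Nat.add 0 (Nat.mul (c3 1 1) U1)) (Nat.mul (c3 0 1) U0)) (Nat.shiftLeft (Nat.add (Nat.add (Nat.add 0 (Nat.mul (c3 1 2) U1)) (Nat.mul (c3 0 2) U0)) (Nat.shiftLeft (Nat.add (Nat.add (Nat.add 0 (Nat.mul (c3 1 3) U1)) (Nat.mul (c3 0 3) U0)) (Nat.shiftLeft 0 sh3)) sh3)) sh3)) sh3)) (Nat.add (Nat.add (Nat.add (Nat.add 0 (Nat.mul 12622848000 (E 3 1 2))) (Nat.mul 8835993600 (E 3 1 0))) (Nat.mul 975360000 (E 2 0 2))) (Nat.mul 682752000 (E 2 0 0))) (Nat.add (Nat.add 0 (Nat.mul 40069632000 (E 0 0 2))) (Nat.mul 28048742400 (E 0 0 0))))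
theorem K11_n_eq (E : ℕ → ℕ → ℕ → ℕ) (c3 : ℕ → ℕ → ℕ) (sh3 : ℕ) (c4 : ℕ → ℕ → ℕ) (sh4 : ℕ) :
    zN1 false E c3 sh3 4 c4 sh4 4 mm.k11 = K11_n E c3 sh3 c4 sh4 := rfl
def K12_p (E : ℕ → ℕ → ℕ → ℕ) (c3 : ℕ → ℕ → ℕ) (sh3 : ℕ) (c4 : ℕ → ℕ → ℕ) (sh4 : ℕ) : ℕ :=
  (fun V0 V1 V2 V3 : ℕ => Nat.add (Nat.add (Nat.add (Nat.add (Nat.add 0 (Nat.mul (c4 3 0) V3)) (Nat.mul (c4 2 0) V2)) (Nat.mul (c4 1 0) V1)) (Nat.mul (c4 0 0) V0)) (Nat.shiftLeft (Nat.add (Nat.add (Nat.add (Nat.add (Nat.add 0 (Nat.mul (c4 3 1) V3)) (Nat.mul (c4 2 1) V2)) (Nat.mul (c4 1 1) V1)) (Nat.mul (c4 0 1) V0)) (Nat.shiftLeft (Nat.add (Nat.add (Nat.add (Nat.add (Nat.add 0 (Nat.mul (c4 3 2) V3)) (Nat.mul (c4 2 2) V2)) (Nat.mul (c4 1 2) V1)) (Nat.mul (c4 0 2) V0)) (Nat.shiftLeft (Nat.add (Nat.add (Nat.add (Nat.add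 (Nat.add 0 (Nat.mul (c4 3 3) V3)) (Nat.mul (c4 2 3) V2)) (Nat.mul (c4 1 3) V1)) (Nat.mul (c4 0 3) V0)) (Nat.shiftLeft 0 sh4)) sh4)) sh4)) sh4)) ((fun U0 U1 U2 U3 : ℕ => Nat.add (Nat.add (Nat.add (Nat.add (Nat.add 0 (Nat.mul (c3 3 0) U3)) (Nat.mul (c3 2 0) U2)) (Nat.mul (c3 1 0) U1)) (Nat.mul (c3 0 0) U0)) (Nat.shiftLeft (Nat.add (Nat.add (Nat.add (Nat.add (Nat.add 0 (Nat.mul (c3 3 1) U3)) (Nat.mul (c3 2 1) U2)) (Nat.mul (c3 1 1) U1)) (Nat.mul (c3 0 1) U0)) (Nat.shiftLeft (Nat.add (Nat.add (Nat.add (Nat.add (Nat.add 0 (Nat.mul (c3 3 2) U3)) (Nat.mul (c3 2 2) U2)) (Nat.mul (c3 1 2) U1)) (Nat.mul (c3 0 2) U0)) (Nat.shiftLeft (Nat.add (Nat.add (Nat.add (Nat.add (Nat.add 0 (Nat.mul (c3 3 3) U3)) (Nat.mul (c3 2 3) U2)) (Nat.mul (c3 1 3) U1)) (Nat.mul (c3 0 3) U0)) (Nat.shiftLeft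 0 sh3)) sh3)) sh3)) sh3)) (Nat.add (Nat.add (Nat.add (Nat.add (Nat.add (Nat.add (Nat.add (Nat.add (Nat.add (Nat.add (Nat.add (Nat.add (Nat.add 0 (Nat.mul 120230400 (E 10 2 1))) (Nat.mul 2718508800 (E 8 3 0))) (Nat.mul 3883584000 (E 8 2 3))) (Nat.mul 632620800 (E 7 2 0))) (Nat.mul 903744000 (E 7 1 3))) (Nat.mul 631756800 (E 6 2 1))) (Nat.mul 457267200 (E 5 1 1))) (Nat.mul 333388800 (E 4 0 1))) (Nat.mul 1079904000 (E 3 2 0))) (Nat.mul 1542720000 (E 3 1 3))) (Nat.mul 1797868800 (E 2 1 0))) (Nat.mul 2568384000 (E 2 0 3))) (Nat.mul 350016000 (E 0 0 1))) (Nat.add (Nat.add (Nat.add (Nat.add (Nat.add (Nat.add (Nat.add (Nat.add (Nat.add (Nat.add (Nat.add (Nat.add 0 (Nat.mul 416102400 (E 8 2 1))) (Nat.mul 302899200 (E 7 1 1))) (Nat.mul 779385600 (E 6 3 0))) (Nat.mul 1113408000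 (E 6 2 3))) (Nat.mul 4111968000 (E 5 2 0))) (Nat.mul 5874240000 (E 5 1 3))) (Nat.mul 2415705600 (E 4 1 0))) (Nat.mul 3451008000 (E 4 0 3))) (Nat.mul 1304294400 (E 3 1 1))) (Nat.mul 957849600 (E 2 0 1))) (Nat.mul 1655808000 (E 0 1 0))) (Nat.mul 2365440000 (E 0 0 3))) (Nat.add (Nat.add (Nat.add (Nat.add (Nat.add (Nat.add (Nat.add (Nat.add (Nat.add 0 (Nat.mul 437740800 (E 6 3 0))) (Nat.mul 625344000 (E 6 2 3))) (Nat.mul 339187200 (E 5 1 1))) (Nat.mul 346022400 (E 4 0 1))) (Nat.mul 3282585600 (E 3 2 0))) (Nat.mul 4689408000 (E 3 1 3))) (Nat.mul 2003769600 (E 2 1 0))) (Nat.mul 2862528000 (E 2 0 3))) (Nat.mul 477849600 (E 0 0 1))) (Nat.add (Nat.add (Nat.add (Nat.add 0 (Nat.mul 280281600 (E 3 1 1))) (Nat.mul 138432000 (E 2 0 1))) (Nat.mul 889996800 (E 0 1 0))) (Nat.mul 1271424000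 (E 0 0 3)))) ((fun U0 U1 U2 U3 : ℕ => Nat.add (Nat.add (Nat.add (Nat.add (Nat.add 0 (Nat.mul (c3 3 0) U3)) (Nat.mul (c3 2 0) U2)) (Nat.mul (c3 1 0) U1)) (Nat.mul (c3 0 0) U0)) (Nat.shiftLeft (Nat.add (Nat.add (Nat.add (Nat.add (Nat.add 0 (Nat.mul (c3 3 1) U3)) (Nat.mul (c3 2 1) U2)) (Nat.mul (c3 1 1) U1)) (Nat.mul (c3 0 1) U0)) (Nat.shiftLeft (Nat.add (Nat.add (Nat.add (Nat.add (Nat.add 0 (Nat.mul (c3 3 2) U3)) (Nat.mul (c3 2 2) U2)) (Nat.mul (c3 1 2) U1)) (Nat.mul (c3 0 2) U0)) (Nat.shiftLeft (Nat.add (Nat.add (Nat.add (Nat.add (Nat.add 0 (Nat.mul (c3 3 3) U3)) (Nat.mul (c3 2 3) U2)) (Nat.mul (c3 1 3) U1)) (Nat.mul (c3 0 3) U0)) (Nat.shiftLeft 0 sh3)) sh3)) sh3)) sh3)) (Nat.add (Nat.add (Nat.add (Nat.add (Nat.add (Nat.add (Nat.add (Nat.add (Nat.add (Nat.add (Nat.add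 0 (Nat.mul 1232947200 (E 8 2 1))) (Nat.mul 863232000 (E 7 1 1))) (Nat.mul 2909760000 (E 6 3 0))) (Nat.mul 4156800000 (E 6 2 3))) (Nat.mul 223948800 (E 5 1 1))) (Nat.mul 765696000 (E 4 0 1))) (Nat.mul 8488435200 (E 3 2 0))) (Nat.mul 12126336000 (E 3 1 3))) (Nat.mul 5298585600 (E 2 1 0))) (Nat.mul 7569408000 (E 2 0 3))) (Nat.mul 743884800 (E 0 0 1))) (Nat.add (Nat.add (Nat.add (Nat.add (Nat.add (Nat.add (Nat.add (Nat.add (Nat.add (Nat.add 0 (Nat.mul 1724083200 (E 6 3 0))) (Nat.mul 2462976000 (E 6 2 3))) (Nat.mul 2517580800 (E 5 2 0))) (Nat.mul 3596544000 (E 5 1 3))) (Nat.mul 205363200 (E 4 1 0))) (Nat.mul 293376000 (E 4 0 3))) (Nat.mul 2650752000 (E 3 1 1))) (Nat.mul 6109824000 (E 2 1 0))) (Nat.mul 8728320000 (E 2 0 3))) (Nat.mul 1134412800 (E 0 0 1))) (Nat.add (Nat.add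 (Nat.add (Nat.add (Nat.add 0 (Nat.mul 3447897600 (E 3 2 0))) (Nat.mul 4925568000 (E 3 1 3))) (Nat.mul 2302924800 (E 2 0 1))) (Nat.mul 2775628800 (E 0 1 0))) (Nat.mul 3965184000 (E 0 0 3))) (Nat.add (Nat.add 0 (Nat.mul 3323174400 (E 0 1 0))) (Nat.mul 4747392000 (E 0 0 3)))) ((fun U0 U1 U2 : ℕ => Nat.add (Nat.add (Nat.add (Nat.add 0 (Nat.mul (c3 2 0) U2)) (Nat.mul (c3 1 0) U1)) (Nat.mul (c3 0 0) U0)) (Nat.shiftLeft (Nat.add (Nat.add (Nat.add (Nat.add 0 (Nat.mul (c3 2 1) U2)) (Nat.mul (c3 1 1) U1)) (Nat.mul (c3 0 1) U0)) (Nat.shiftLeft (Nat.add (Nat.add (Nat.add (Nat.add 0 (Nat.mul (c3 2 2) U2)) (Nat.mul (c3 1 2) U1)) (Nat.mul (c3 0 2) U0)) (Nat.shiftLeft (Nat.add (Nat.add (Nat.add (Nat.add 0 (Nat.mul (c3 2 3) U2)) (Nat.mul (c3 1 3) U1)) (Nat.mul (c3 0 3) U0)) (Nat.shiftLeft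 0 sh3)) sh3)) sh3)) sh3)) (Nat.add (Nat.add (Nat.add (Nat.add (Nat.add (Nat.add (Nat.add (Nat.add (Nat.add 0 (Nat.mul 7021593600 (E 6 3 0))) (Nat.mul 10030848000 (E 6 2 3))) (Nat.mul 2618649600 (E 5 2 0))) (Nat.mul 3740928000 (E 5 1 3))) (Nat.mul 53913600 (E 4 0 1))) (Nat.mul 3622195200 (E 3 1 1))) (Nat.mul 21020697600 (E 2 1 0))) (Nat.mul 30029568000 (E 2 0 3))) (Nat.mul 8039116800 (E 0 0 1))) (Nat.add (Nat.add (Nat.add (Nat.add (Nat.add 0 (Nat.mul 8924160000 (E 3 2 0))) (Nat.mul 12748800000 (E 3 1 3))) (Nat.mul 5762764800 (E 2 0 1))) (Nat.mul 31907635200 (E 0 1 0))) (Nat.mul 45582336000 (E 0 0 3))) (Nat.add 0 (Nat.mul 1468569600 (E 0 0 1)))) ((fun U0 U1 : ℕ => Nat.add (Nat.add (Nat.add 0 (Nat.mul (c3 1 0) U1)) (Nat.mul (c3 0 0) U0)) (Nat.shiftLeft (Nat.add (Nat.add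 (Nat.add 0 (Nat.mul (c3 1 1) U1)) (Nat.mul (c3 0 1) U0)) (Nat.shiftLeft (Nat.add (Nat.add (Nat.add 0 (Nat.mul (c3 1 2) U1)) (Nat.mul (c3 0 2) U0)) (Nat.shiftLeft (Nat.add (Nat.add (Nat.add 0 (Nat.mul (c3 1 3) U1)) (Nat.mul (c3 0 3) U0)) (Nat.shiftLeft 0 sh3)) sh3)) sh3)) sh3)) (Nat.add (Nat.add (Nat.add (Nat.add (Nat.add 0 (Nat.mul 8835993600 (E 3 2 0))) (Nat.mul 12622848000 (E 3 1 3))) (Nat.mul 682752000 (E 2 1 0))) (Nat.mul 975360000 (E 2 0 3))) (Nat.mul 11991552000 (E 0 0 1))) (Nat.add (Nat.add 0 (Nat.mul 28048742400 (E 0 1 0))) (Nat.mul 40069632000 (E 0 0 3))))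
theorem K12_p_eq (E : ℕ → ℕ → ℕ → ℕ) (c3 : ℕ → ℕ → ℕ) (sh3 : ℕ) (c4 : ℕ → ℕ → ℕ) (sh4 : ℕ) :
    zN1 true E c3 sh3 4 c4 sh4 4 mm.k12 = K12_p E c3 sh3 c4 sh4 := rfl
def K12_n (E : ℕ → ℕ → ℕ → ℕ) (c3 : ℕ → ℕ → ℕ) (sh3 : ℕ) (c4 : ℕ → ℕ → ℕ) (sh4 : ℕ) : ℕ :=
  (fun V0 V1 V2 V3 : ℕ => Nat.add (Nat.add (Nat.add (Nat.add (Nat.add 0 (Nat.mul (c4 3 0) V3)) (Nat.mul (c4 2 0) V2)) (Nat.mul (c4 1 0) V1)) (Nat.mul (c4 0 0) V0)) (Nat.shiftLeft (Nat.add (Nat.add (Nat.add (Nat.add (Nat.add 0 (Nat.mul (c4 3 1) V3)) (Nat.mul (c4 2 1) V2)) (Nat.mul (c4 1 1) V1)) (Nat.mul (c4 0 1) V0)) (Nat.shiftLeft (Nat.add (Nat.add (Nat.add (Nat.add (Nat.add 0 (Nat.mul (c4 3 2) V3)) (Nat.mul (c4 2 2) V2)) (Nat.mul (c4 1 2) V1)) (Nat.mul (c4 0 2) V0)) (Nat.shiftLeft (Nat.add (Nat.add (Nat.add (Nat.add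 (Nat.add 0 (Nat.mul (c4 3 3) V3)) (Nat.mul (c4 2 3) V2)) (Nat.mul (c4 1 3) V1)) (Nat.mul (c4 0 3) V0)) (Nat.shiftLeft 0 sh4)) sh4)) sh4)) sh4)) ((fun U0 U1 U2 U3 : ℕ => Nat.add (Nat.add (Nat.add (Nat.add (Nat.add 0 (Nat.mul (c3 3 0) U3)) (Nat.mul (c3 2 0) U2)) (Nat.mul (c3 1 0) U1)) (Nat.mul (c3 0 0) U0)) (Nat.shiftLeft (Nat.add (Nat.add (Nat.add (Nat.add (Nat.add 0 (Nat.mul (c3 3 1) U3)) (Nat.mul (c3 2 1) U2)) (Nat.mul (c3 1 1) U1)) (Nat.mul (c3 0 1) U0)) (Nat.shiftLeft (Nat.add (Nat.add (Nat.add (Nat.add (Nat.add 0 (Nat.mul (c3 3 2) U3)) (Nat.mul (c3 2 2) U2)) (Nat.mul (c3 1 2) U1)) (Nat.mul (c3 0 2) U0)) (Nat.shiftLeft (Nat.add (Nat.add (Nat.add (Nat.add (Nat.add 0 (Nat.mul (c3 3 3) U3)) (Nat.mul (c3 2 3) U2)) (Nat.mul (c3 1 3) U1)) (Nat.mul (c3 0 3) U0)) (Nat.shiftLeft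 0 sh3)) sh3)) sh3)) sh3)) (Nat.add (Nat.add (Nat.add (Nat.add (Nat.add (Nat.add (Nat.add (Nat.add (Nat.add (Nat.add (Nat.add (Nat.add (Nat.add (Nat.add 0 (Nat.mul 420806400 (E 10 3 0))) (Nat.mul 601152000 (E 10 2 3))) (Nat.mul 776716800 (E 8 2 1))) (Nat.mul 180748800 (E 7 1 1))) (Nat.mul 2211148800 (E 6 3 0))) (Nat.mul 3158784000 (E 6 2 3))) (Nat.mul 1600435200 (E 5 2 0))) (Nat.mul 2286336000 (E 5 1 3))) (Nat.mul 1166860800 (E 4 1 0))) (Nat.mul 1666944000 (E 4 0 3))) (Nat.mul 308544000 (E 3 1 1))) (Nat.mul 513676800 (E 2 0 1))) (Nat.mul 1225056000 (E 0 1 0))) (Nat.mul 1750080000 (E 0 0 3))) (Nat.add (Nat.add (Nat.add (Nat.add (Nat.add (Nat.add (Nat.add (Nat.add (Nat.add (Nat.add (Nat.add (Nat.add 0 (Nat.mul 1456358400 (E 8 3 0))) (Nat.mul 2080512000 (E 8 2 3))) (Nat.mul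 1060147200 (E 7 2 0))) (Nat.mul 1514496000 (E 7 1 3))) (Nat.mul 222681600 (E 6 2 1))) (Nat.mul 1174848000 (E 5 1 1))) (Nat.mul 690201600 (E 4 0 1))) (Nat.mul 4565030400 (E 3 2 0))) (Nat.mul 6521472000 (E 3 1 3))) (Nat.mul 3352473600 (E 2 1 0))) (Nat.mul 4789248000 (E 2 0 3))) (Nat.mul 473088000 (E 0 0 1))) (Nat.add (Nat.add (Nat.add (Nat.add (Nat.add (Nat.add (Nat.add (Nat.add (Nat.add 0 (Nat.mul 125068800 (E 6 2 1))) (Nat.mul 1187155200 (E 5 2 0))) (Nat.mul 1695936000 (E 5 1 3))) (Nat.mul 1211078400 (E 4 1 0))) (Nat.mul 1730112000 (E 4 0 3))) (Nat.mul 937881600 (E 3 1 1))) (Nat.mul 572505600 (E 2 0 1))) (Nat.mul 1672473600 (E 0 1 0))) (Nat.mul 2389248000 (E 0 0 3))) (Nat.add (Nat.add (Nat.add (Nat.add (Nat.add 0 (Nat.mul 980985600 (E 3 2 0))) (Nat.mul 1401408000 (E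 3 1 3))) (Nat.mul 484512000 (E 2 1 0))) (Nat.mul 692160000 (E 2 0 3))) (Nat.mul 254284800 (E 0 0 1)))) ((fun U0 U1 U2 U3 : ℕ => Nat.add (Nat.add (Nat.add (Nat.add (Nat.add 0 (Nat.mul (c3 3 0) U3)) (Nat.mul (c3 2 0) U2)) (Nat.mul (c3 1 0) U1)) (Nat.mul (c3 0 0) U0)) (Nat.shiftLeft (Nat.add (Nat.add (Nat.add (Nat.add (Nat.add 0 (Nat.mul (c3 3 1) U3)) (Nat.mul (c3 2 1) U2)) (Nat.mul (c3 1 1) U1)) (Nat.mul (c3 0 1) U0)) (Nat.shiftLeft (Nat.add (Nat.add (Nat.add (Nat.add (Nat.add 0 (Nat.mul (c3 3 2) U3)) (Nat.mul (c3 2 2) U2)) (Nat.mul (c3 1 2) U1)) (Nat.mul (c3 0 2) U0)) (Nat.shiftLeft (Nat.add (Nat.add (Nat.add (Nat.add (Nat.add 0 (Nat.mul (c3 3 3) U3)) (Nat.mul (c3 2 3) U2)) (Nat.mul (c3 1 3) U1)) (Nat.mul (c3 0 3) U0)) (Nat.shiftLeft 0 sh3)) sh3)) sh3)) sh3)) (Nat.add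 (Nat.add (Nat.add (Nat.add (Nat.add (Nat.add (Nat.add (Nat.add (Nat.add (Nat.add (Nat.add (Nat.add (Nat.add 0 (Nat.mul 4315315200 (E 8 3 0))) (Nat.mul 6164736000 (E 8 2 3))) (Nat.mul 3021312000 (E 7 2 0))) (Nat.mul 4316160000 (E 7 1 3))) (Nat.mul 831360000 (E 6 2 1))) (Nat.mul 783820800 (E 5 2 0))) (Nat.mul 1119744000 (E 5 1 3))) (Nat.mul 2679936000 (E 4 1 0))) (Nat.mul 3828480000 (E 4 0 3))) (Nat.mul 2425267200 (E 3 1 1))) (Nat.mul 1513881600 (E 2 0 1))) (Nat.mul 2603596800 (E 0 1 0))) (Nat.mul 3719424000 (E 0 0 3))) (Nat.add (Nat.add (Nat.add (Nat.add (Nat.add (Nat.add (Nat.add (Nat.add 0 (Nat.mul 492595200 (E 6 2 1))) (Nat.mul 719308800 (E 5 1 1))) (Nat.mul 58675200 (E 4 0 1))) (Nat.mul 9277632000 (E 3 2 0))) (Nat.mul 13253760000 (E 3 1 3))) (Nat.mul 1745664000 (E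 2 0 1))) (Nat.mul 3970444800 (E 0 1 0))) (Nat.mul 5672064000 (E 0 0 3))) (Nat.add (Nat.add (Nat.add (Nat.add 0 (Nat.mul 985113600 (E 3 1 1))) (Nat.mul 8060236800 (E 2 1 0))) (Nat.mul 11514624000 (E 2 0 3))) (Nat.mul 793036800 (E 0 0 1))) (Nat.add 0 (Nat.mul 949478400 (E 0 0 1)))) ((fun U0 U1 U2 : ℕ => Nat.add (Nat.add (Nat.add (Nat.add 0 (Nat.mul (c3 2 0) U2)) (Nat.mul (c3 1 0) U1)) (Nat.mul (c3 0 0) U0)) (Nat.shiftLeft (Nat.add (Nat.add (Nat.add (Nat.add 0 (Nat.mul (c3 2 1) U2)) (Nat.mul (c3 1 1) U1)) (Nat.mul (c3 0 1) U0)) (Nat.shiftLeft (Nat.add (Nat.add (Nat.add (Nat.add 0 (Nat.mul (c3 2 2) U2)) (Nat.mul (c3 1 2) U1)) (Nat.mul (c3 0 2) U0)) (Nat.shiftLeft (Nat.add (Nat.add (Nat.add (Nat.add 0 (Nat.mul (c3 2 3) U2)) (Nat.mul (c3 1 3) U1)) (Nat.mul (c3 0 3) U0)) (Nat.shiftLeft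 0 sh3)) sh3)) sh3)) sh3)) (Nat.add (Nat.add (Nat.add (Nat.add (Nat.add (Nat.add (Nat.add (Nat.add (Nat.add 0 (Nat.mul 2006169600 (E 6 2 1))) (Nat.mul 748185600 (E 5 1 1))) (Nat.mul 188697600 (E 4 1 0))) (Nat.mul 269568000 (E 4 0 3))) (Nat.mul 12677683200 (E 3 2 0))) (Nat.mul 18110976000 (E 3 1 3))) (Nat.mul 6005913600 (E 2 0 1))) (Nat.mul 28136908800 (E 0 1 0))) (Nat.mul 40195584000 (E 0 0 3))) (Nat.add (Nat.add (Nat.add (Nat.add 0 (Nat.mul 2549760000 (E 3 1 1))) (Nat.mul 20169676800 (E 2 1 0))) (Nat.mul 28813824000 (E 2 0 3))) (Nat.mul 9116467200 (E 0 0 1))) (Nat.add (Nat.add 0 (Nat.mul 5139993600 (E 0 1 0))) (Nat.mul 7342848000 (E 0 0 3)))) ((fun U0 U1 : ℕ => Nat.add (Nat.add (Nat.add 0 (Nat.mul (c3 1 0) U1)) (Nat.mul (c3 0 0) U0)) (Nat.shiftLeft (Nat.add (Nat.add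 (Nat.add 0 (Nat.mul (c3 1 1) U1)) (Nat.mul (c3 0 1) U0)) (Nat.shiftLeft (Nat.add (Nat.add (Nat.add 0 (Nat.mul (c3 1 2) U1)) (Nat.mul (c3 0 2) U0)) (Nat.shiftLeft (Nat.add (Nat.add (Nat.add 0 (Nat.mul (c3 1 3) U1)) (Nat.mul (c3 0 3) U0)) (Nat.shiftLeft 0 sh3)) sh3)) sh3)) sh3)) (Nat.add (Nat.add (Nat.add (Nat.add 0 (Nat.mul 2524569600 (E 3 1 1))) (Nat.mul 195072000 (E 2 0 1))) (Nat.mul 41970432000 (E 0 1 0))) (Nat.mul 59957760000 (E 0 0 3))) (Nat.add 0 (Nat.mul 8013926400 (E 0 0 1))))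
theorem K12_n_eq (E : ℕ → ℕ → ℕ → ℕ) (c3 : ℕ → ℕ → ℕ) (sh3 : ℕ) (c4 : ℕ → ℕ → ℕ) (sh4 : ℕ) :
    zN1 false E c3 sh3 4 c4 sh4 4 mm.k12 = K12_n E c3 sh3 c4 sh4 := rfl
def K22_p (E : ℕ → ℕ → ℕ → ℕ) (c3 : ℕ → ℕ → ℕ) (sh3 : ℕ) (c4 : ℕ → ℕ → ℕ) (sh4 : ℕ) : ℕ :=
  (fun V0 V1 V2 V3 : ℕ => Nat.add (Nat.add (Nat.add (Nat.add (Nat.add 0 (Nat.mul (c4 3 0) V3)) (Nat.mul (c4 2 0) V2)) (Nat.mul (c4 1 0) V1)) (Nat.mul (c4 0 0) V0)) (Nat.shiftLeft (Nat.add (Nat.add (Nat.add (Nat.add (Nat.add 0 (Nat.mul (c4 3 1) V3)) (Nat.mul (c4 2 1) V2)) (Nat.mul (c4 1 1) V1)) (Nat.mul (c4 0 1) V0)) (Nat.shiftLeft (Nat.add (Nat.add (Nat.add (Nat.add (Nat.add 0 (Nat.mul (c4 3 2) V3)) (Nat.mul (c4 2 2) V2)) (Nat.mul (c4 1 2) V1)) (Nat.mul (c4 0 2) V0)) (Nat.shiftLeft (Nat.add (Nat.add (Nat.add (Nat.add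 (Nat.add 0 (Nat.mul (c4 3 3) V3)) (Nat.mul (c4 2 3) V2)) (Nat.mul (c4 1 3) V1)) (Nat.mul (c4 0 3) V0)) (Nat.shiftLeft 0 sh4)) sh4)) sh4)) sh4)) ((fun U0 U1 U2 U3 : ℕ => Nat.add (Nat.add (Nat.add (Nat.add (Nat.add 0 (Nat.mul (c3 3 0) U3)) (Nat.mul (c3 2 0) U2)) (Nat.mul (c3 1 0) U1)) (Nat.mul (c3 0 0) U0)) (Nat.shiftLeft (Nat.add (Nat.add (Nat.add (Nat.add (Nat.add 0 (Nat.mul (c3 3 1) U3)) (Nat.mul (c3 2 1) U2)) (Nat.mul (c3 1 1) U1)) (Nat.mul (c3 0 1) U0)) (Nat.shiftLeft (Nat.add (Nat.add (Nat.add (Nat.add (Nat.add 0 (Nat.mul (c3 3 2) U3)) (Nat.mul (c3 2 2) U2)) (Nat.mul (c3 1 2) U1)) (Nat.mul (c3 0 2) U0)) (Nat.shiftLeft (Nat.add (Nat.add (Nat.add (Nat.add (Nat.add 0 (Nat.mul (c3 3 3) U3)) (Nat.mul (c3 2 3) U2)) (Nat.mul (c3 1 3) U1)) (Nat.mul (c3 0 3) U0)) (Nat.shiftLeft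 0 sh3)) sh3)) sh3)) sh3)) (Nat.add (Nat.add (Nat.add (Nat.add (Nat.add (Nat.add (Nat.add (Nat.add (Nat.add (Nat.add (Nat.add (Nat.add (Nat.add (Nat.add (Nat.add (Nat.add (Nat.add (Nat.add 0 (Nat.mul 2003840000 (E 10 2 4))) (Nat.mul 185355200 (E 10 2 0))) (Nat.mul 2718508800 (E 8 3 1))) (Nat.mul 6537366400 (E 8 2 2))) (Nat.mul 632620800 (E 7 2 1))) (Nat.mul 1521302400 (E 7 1 2))) (Nat.mul 10529280000 (E 6 2 4))) (Nat.mul 973958400 (E 6 2 0))) (Nat.mul 7621120000 (E 5 1 4))) (Nat.mul 704953600 (E 5 1 0))) (Nat.mul 5556480000 (E 4 0 4))) (Nat.mul 513974400 (E 4 0 0))) (Nat.mul 1079904000 (E 3 2 1))) (Nat.mul 2596912000 (E 3 1 2))) (Nat.mul 1797868800 (E 2 1 1))) (Nat.mul 4323446400 (E 2 0 2))) (Nat.mul 5833600000 (E 0 0 4))) (Nat.mul 539608000 (E 0 0 0))) (Nat.add (Nat.add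 (Nat.add (Nat.add (Nat.add (Nat.add (Nat.add (Nat.add (Nat.add (Nat.add (Nat.add (Nat.add (Nat.add (Nat.add (Nat.add (Nat.add 0 (Nat.mul 6935040000 (E 8 2 4))) (Nat.mul 641491200 (E 8 2 0))) (Nat.mul 5048320000 (E 7 1 4))) (Nat.mul 466969600 (E 7 1 0))) (Nat.mul 779385600 (E 6 3 1))) (Nat.mul 1874236800 (E 6 2 2))) (Nat.mul 4111968000 (E 5 2 1))) (Nat.mul 9888304000 (E 5 1 2))) (Nat.mul 2415705600 (E 4 1 1))) (Nat.mul 5809196800 (E 4 0 2))) (Nat.mul 21738240000 (E 3 1 4))) (Nat.mul 2010787200 (E 3 1 0))) (Nat.mul 15964160000 (E 2 0 4))) (Nat.mul 1476684800 (E 2 0 0))) (Nat.mul 1655808000 (E 0 1 1))) (Nat.mul 3981824000 (E 0 0 2))) (Nat.add (Nat.add (Nat.add (Nat.add (Nat.add (Nat.add (Nat.add (Nat.add (Nat.add (Nat.add (Nat.add (Nat.add 0 (Nat.mul 437740800 (E 6 3 1)))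 (Nat.mul 1052662400 (E 6 2 2))) (Nat.mul 5653120000 (E 5 1 4))) (Nat.mul 522913600 (E 5 1 0))) (Nat.mul 5767040000 (E 4 0 4))) (Nat.mul 533451200 (E 4 0 0))) (Nat.mul 3282585600 (E 3 2 1))) (Nat.mul 7893836800 (E 3 1 2))) (Nat.mul 2003769600 (E 2 1 1))) (Nat.mul 4818588800 (E 2 0 2))) (Nat.mul 7964160000 (E 0 0 4))) (Nat.mul 736684800 (E 0 0 0))) (Nat.add (Nat.add (Nat.add (Nat.add (Nat.add (Nat.add 0 (Nat.mul 4671360000 (E 3 1 4))) (Nat.mul 432100800 (E 3 1 0))) (Nat.mul 2307200000 (E 2 0 4))) (Nat.mul 213416000 (E 2 0 0))) (Nat.mul 889996800 (E 0 1 1))) (Nat.mul 2140230400 (E 0 0 2)))) ((fun U0 U1 U2 U3 : ℕ => Nat.add (Nat.add (Nat.add (Nat.add (Nat.add 0 (Nat.mul (c3 3 0) U3)) (Nat.mul (c3 2 0) U2)) (Nat.mul (c3 1 0) U1)) (Nat.mul (c3 0 0) U0)) (Nat.shiftLeft (Nat.add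 (Nat.add (Nat.add (Nat.add (Nat.add 0 (Nat.mul (c3 3 1) U3)) (Nat.mul (c3 2 1) U2)) (Nat.mul (c3 1 1) U1)) (Nat.mul (c3 0 1) U0)) (Nat.shiftLeft (Nat.add (Nat.add (Nat.add (Nat.add (Nat.add 0 (Nat.mul (c3 3 2) U3)) (Nat.mul (c3 2 2) U2)) (Nat.mul (c3 1 2) U1)) (Nat.mul (c3 0 2) U0)) (Nat.shiftLeft (Nat.add (Nat.add (Nat.add (Nat.add (Nat.add 0 (Nat.mul (c3 3 3) U3)) (Nat.mul (c3 2 3) U2)) (Nat.mul (c3 1 3) U1)) (Nat.mul (c3 0 3) U0)) (Nat.shiftLeft 0 sh3)) sh3)) sh3)) sh3)) (Nat.add (Nat.add (Nat.add (Nat.add (Nat.add (Nat.add (Nat.add (Nat.add (Nat.add (Nat.add (Nat.add (Nat.add (Nat.add (Nat.add (Nat.add (Nat.add 0 (Nat.mul 20549120000 (E 8 2 4))) (Nat.mul 1900793600 (E 8 2 0))) (Nat.mul 14387200000 (E 7 1 4))) (Nat.mul 1330816000 (E 7 1 0))) (Nat.mul 2909760000 (E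 6 3 1))) (Nat.mul 6997280000 (E 6 2 2))) (Nat.mul 3732480000 (E 5 1 4))) (Nat.mul 345254400 (E 5 1 0))) (Nat.mul 12761600000 (E 4 0 4))) (Nat.mul 1180448000 (E 4 0 0))) (Nat.mul 8488435200 (E 3 2 1))) (Nat.mul 20412665600 (E 3 1 2))) (Nat.mul 5298585600 (E 2 1 1))) (Nat.mul 12741836800 (E 2 0 2))) (Nat.mul 12398080000 (E 0 0 4))) (Nat.mul 1146822400 (E 0 0 0))) (Nat.add (Nat.add (Nat.add (Nat.add (Nat.add (Nat.add (Nat.add (Nat.add (Nat.add (Nat.add (Nat.add (Nat.add 0 (Nat.mul 1724083200 (E 6 3 1))) (Nat.mul 4146009600 (E 6 2 2))) (Nat.mul 2517580800 (E 5 2 1))) (Nat.mul 6054182400 (E 5 1 2))) (Nat.mul 205363200 (E 4 1 1))) (Nat.mul 493849600 (E 4 0 2))) (Nat.mul 44179200000 (E 3 1 4))) (Nat.mul 4086576000 (E 3 1 0))) (Nat.mul 6109824000 (E 2 1 1))) (Nat.mul 14692672000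 (E 2 0 2))) (Nat.mul 18906880000 (E 0 0 4))) (Nat.mul 1748886400 (E 0 0 0))) (Nat.add (Nat.add (Nat.add (Nat.add (Nat.add (Nat.add 0 (Nat.mul 3447897600 (E 3 2 1))) (Nat.mul 8291372800 (E 3 1 2))) (Nat.mul 38382080000 (E 2 0 4))) (Nat.mul 3550342400 (E 2 0 0))) (Nat.mul 2775628800 (E 0 1 1))) (Nat.mul 6674726400 (E 0 0 2))) (Nat.add (Nat.add 0 (Nat.mul 3323174400 (E 0 1 1))) (Nat.mul 7991443200 (E 0 0 2)))) ((fun U0 U1 U2 : ℕ => Nat.add (Nat.add (Nat.add (Nat.add 0 (Nat.mul (c3 2 0) U2)) (Nat.mul (c3 1 0) U1)) (Nat.mul (c3 0 0) U0)) (Nat.shiftLeft (Nat.add (Nat.add (Nat.add (Nat.add 0 (Nat.mul (c3 2 1) U2)) (Nat.mul (c3 1 1) U1)) (Nat.mul (c3 0 1) U0)) (Nat.shiftLeft (Nat.add (Nat.add (Nat.add (Nat.add 0 (Nat.mul (c3 2 2) U2)) (Nat.mul (c3 1 2) U1)) (Nat.mul (c3 0 2)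 U0)) (Nat.shiftLeft (Nat.add (Nat.add (Nat.add (Nat.add 0 (Nat.mul (c3 2 3) U2)) (Nat.mul (c3 1 3) U1)) (Nat.mul (c3 0 3) U0)) (Nat.shiftLeft 0 sh3)) sh3)) sh3)) sh3)) (Nat.add (Nat.add (Nat.add (Nat.add (Nat.add (Nat.add (Nat.add (Nat.add (Nat.add (Nat.add (Nat.add (Nat.add 0 (Nat.mul 7021593600 (E 6 3 1))) (Nat.mul 16885260800 (E 6 2 2))) (Nat.mul 2618649600 (E 5 2 1))) (Nat.mul 6297228800 (E 5 1 2))) (Nat.mul 898560000 (E 4 0 4))) (Nat.mul 83116800 (E 4 0 0))) (Nat.mul 60369920000 (E 3 1 4))) (Nat.mul 5584217600 (E 3 1 0))) (Nat.mul 21020697600 (E 2 1 1))) (Nat.mul 50549772800 (E 2 0 2))) (Nat.mul 133985280000 (E 0 0 4))) (Nat.mul 12393638400 (E 0 0 0))) (Nat.add (Nat.add (Nat.add (Nat.add (Nat.add (Nat.add 0 (Nat.mul 8924160000 (E 3 2 1))) (Nat.mul 21460480000 (E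 3 1 2))) (Nat.mul 96046080000 (E 2 0 4))) (Nat.mul 8884262400 (E 2 0 0))) (Nat.mul 31907635200 (E 0 1 1))) (Nat.mul 76730265600 (E 0 0 2))) (Nat.add (Nat.add 0 (Nat.mul 24476160000 (E 0 0 4))) (Nat.mul 2264044800 (E 0 0 0)))) ((fun U0 U1 : ℕ => Nat.add (Nat.add (Nat.add 0 (Nat.mul (c3 1 0) U1)) (Nat.mul (c3 0 0) U0)) (Nat.shiftLeft (Nat.add (Nat.add (Nat.add 0 (Nat.mul (c3 1 1) U1)) (Nat.mul (c3 0 1) U0)) (Nat.shiftLeft (Nat.add (Nat.add (Nat.add 0 (Nat.mul (c3 1 2) U1)) (Nat.mul (c3 0 2) U0)) (Nat.shiftLeft (Nat.add (Nat.add (Nat.add 0 (Nat.mul (c3 1 3) U1)) (Nat.mul (c3 0 3) U0)) (Nat.shiftLeft 0 sh3)) sh3)) sh3)) sh3)) (Nat.add (Nat.add (Nat.add (Nat.add (Nat.add (Nat.add 0 (Nat.mul 8835993600 (E 3 2 1))) (Nat.mul 21248460800 (E 3 1 2))) (Nat.mul 682752000 (E 2 1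 1))) (Nat.mul 1641856000 (E 2 0 2))) (Nat.mul 199859200000 (E 0 0 4))) (Nat.mul 18486976000 (E 0 0 0))) (Nat.add (Nat.add 0 (Nat.mul 28048742400 (E 0 1 1))) (Nat.mul 67450547200 (E 0 0 2))))
theorem K22_p_eq (E : ℕ → ℕ → ℕ → ℕ) (c3 : ℕ → ℕ → ℕ) (sh3 : ℕ) (c4 : ℕ → ℕ → ℕ) (sh4 : ℕ) :
    zN1 true E c3 sh3 4 c4 sh4 4 mm.k22 = K22_p E c3 sh3 c4 sh4 := rfl
def K22_n (E : ℕ → ℕ → ℕ → ℕ) (c3 : ℕ → ℕ → ℕ) (sh3 : ℕ) (c4 : ℕ → ℕ → ℕ) (sh4 : ℕ) : ℕ :=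
  (fun V0 V1 V2 V3 : ℕ => Nat.add (Nat.add (Nat.add (Nat.add (Nat.add 0 (Nat.mul (c4 3 0) V3)) (Nat.mul (c4 2 0) V2)) (Nat.mul (c4 1 0) V1)) (Nat.mul (c4 0 0) V0)) (Nat.shiftLeft (Nat.add (Nat.add (Nat.add (Nat.add (Nat.add 0 (Nat.mul (c4 3 1) V3)) (Nat.mul (c4 2 1) V2)) (Nat.mul (c4 1 1) V1)) (Nat.mul (c4 0 1) V0)) (Nat.shiftLeft (Nat.add (Nat.add (Nat.add (Nat.add (Nat.add 0 (Nat.mul (c4 3 2) V3)) (Nat.mul (c4 2 2) V2)) (Nat.mul (c4 1 2) V1)) (Nat.mul (c4 0 2) V0)) (Nat.shiftLeft (Nat.add (Nat.add (Nat.add (Nat.add (Nat.add 0 (Nat.mul (c4 3 3) V3)) (Nat.mul (c4 2 3) V2)) (Nat.mul (c4 1 3) V1)) (Nat.mul (c4 0 3) V0)) (Nat.shiftLeft 0 sh4)) sh4)) sh4)) sh4)) ((fun U0 U1 U2 U3 : ℕ => Nat.add (Nat.add (Nat.add (Nat.add (Nat.add 0 (Nat.mul (c3 3 0) U3)) (Nat.mul (c3 2 0)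 U2)) (Nat.mul (c3 1 0) U1)) (Nat.mul (c3 0 0) U0)) (Nat.shiftLeft (Nat.add (Nat.add (Nat.add (Nat.add (Nat.add 0 (Nat.mul (c3 3 1) U3)) (Nat.mul (c3 2 1) U2)) (Nat.mul (c3 1 1) U1)) (Nat.mul (c3 0 1) U0)) (Nat.shiftLeft (Nat.add (Nat.add (Nat.add (Nat.add (Nat.add 0 (Nat.mul (c3 3 2) U3)) (Nat.mul (c3 2 2) U2)) (Nat.mul (c3 1 2) U1)) (Nat.mul (c3 0 2) U0)) (Nat.shiftLeft (Nat.add (Nat.add (Nat.add (Nat.add (Nat.add 0 (Nat.mul (c3 3 3) U3)) (Nat.mul (c3 2 3) U2)) (Nat.mul (c3 1 3) U1)) (Nat.mul (c3 0 3) U0)) (Nat.shiftLeft 0 sh3)) sh3)) sh3)) sh3)) (Nat.add (Nat.add (Nat.add (Nat.add (Nat.add (Nat.add (Nat.add (Nat.add (Nat.add (Nat.add (Nat.add (Nat.add (Nat.add (Nat.add (Nat.add (Nat.add (Nat.add (Nat.add 0 (Nat.mul 420806400 (E 10 3 1))) (Nat.mul 1011939200 (E 10 2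 2))) (Nat.mul 12945280000 (E 8 2 4))) (Nat.mul 1197438400 (E 8 2 0))) (Nat.mul 3012480000 (E 7 1 4))) (Nat.mul 278654400 (E 7 1 0))) (Nat.mul 2211148800 (E 6 3 1))) (Nat.mul 5317286400 (E 6 2 2))) (Nat.mul 1600435200 (E 5 2 1))) (Nat.mul 3848665600 (E 5 1 2))) (Nat.mul 1166860800 (E 4 1 1))) (Nat.mul 2806022400 (E 4 0 2))) (Nat.mul 5142400000 (E 3 1 4))) (Nat.mul 475672000 (E 3 1 0))) (Nat.mul 8561280000 (E 2 0 4))) (Nat.mul 791918400 (E 2 0 0))) (Nat.mul 1225056000 (E 0 1 1))) (Nat.mul 2945968000 (E 0 0 2))) (Nat.add (Nat.add (Nat.add (Nat.add (Nat.add (Nat.add (Nat.add (Nat.add (Nat.add (Nat.add (Nat.add (Nat.add (Nat.add (Nat.add (Nat.add (Nat.add 0 (Nat.mul 1456358400 (E 8 3 1))) (Nat.mul 3502195200 (E 8 2 2))) (Nat.mul 1060147200 (E 7 2 1))) (Nat.mul 2549401600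 (E 7 1 2))) (Nat.mul 3711360000 (E 6 2 4))) (Nat.mul 343300800 (E 6 2 0))) (Nat.mul 19580800000 (E 5 1 4))) (Nat.mul 1811224000 (E 5 1 0))) (Nat.mul 11503360000 (E 4 0 4))) (Nat.mul 1064060800 (E 4 0 0))) (Nat.mul 4565030400 (E 3 2 1))) (Nat.mul 10977811200 (E 3 1 2))) (Nat.mul 3352473600 (E 2 1 1))) (Nat.mul 8061900800 (E 2 0 2))) (Nat.mul 7884800000 (E 0 0 4))) (Nat.mul 729344000 (E 0 0 0))) (Nat.add (Nat.add (Nat.add (Nat.add (Nat.add (Nat.add (Nat.add (Nat.add (Nat.add (Nat.add (Nat.add (Nat.add 0 (Nat.mul 2084480000 (E 6 2 4))) (Nat.mul 192814400 (E 6 2 0))) (Nat.mul 1187155200 (E 5 2 1))) (Nat.mul 2854825600 (E 5 1 2))) (Nat.mul 1211078400 (E 4 1 1))) (Nat.mul 2912355200 (E 4 0 2))) (Nat.mul 15631360000 (E 3 1 4))) (Nat.mul 1445900800 (E 3 1 0))) (Nat.mul 9541760000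 (E 2 0 4))) (Nat.mul 882612800 (E 2 0 0))) (Nat.mul 1672473600 (E 0 1 1))) (Nat.mul 4021900800 (E 0 0 2))) (Nat.add (Nat.add (Nat.add (Nat.add (Nat.add (Nat.add 0 (Nat.mul 980985600 (E 3 2 1))) (Nat.mul 2359036800 (E 3 1 2))) (Nat.mul 484512000 (E 2 1 1))) (Nat.mul 1165136000 (E 2 0 2))) (Nat.mul 4238080000 (E 0 0 4))) (Nat.mul 392022400 (E 0 0 0)))) ((fun U0 U1 U2 U3 : ℕ => Nat.add (Nat.add (Nat.add (Nat.add (Nat.add 0 (Nat.mul (c3 3 0) U3)) (Nat.mul (c3 2 0) U2)) (Nat.mul (c3 1 0) U1)) (Nat.mul (c3 0 0) U0)) (Nat.shiftLeft (Nat.add (Nat.add (Nat.add (Nat.add (Nat.add 0 (Nat.mul (c3 3 1) U3)) (Nat.mul (c3 2 1) U2)) (Nat.mul (c3 1 1) U1)) (Nat.mul (c3 0 1) U0)) (Nat.shiftLeft (Nat.add (Nat.add (Nat.add (Nat.add (Nat.add 0 (Nat.mul (c3 3 2) U3)) (Nat.mul (c3 2 2) U2))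 (Nat.mul (c3 1 2) U1)) (Nat.mul (c3 0 2) U0)) (Nat.shiftLeft (Nat.add (Nat.add (Nat.add (Nat.add (Nat.add 0 (Nat.mul (c3 3 3) U3)) (Nat.mul (c3 2 3) U2)) (Nat.mul (c3 1 3) U1)) (Nat.mul (c3 0 3) U0)) (Nat.shiftLeft 0 sh3)) sh3)) sh3)) sh3)) (Nat.add (Nat.add (Nat.add (Nat.add (Nat.add (Nat.add (Nat.add (Nat.add (Nat.add (Nat.add (Nat.add (Nat.add (Nat.add (Nat.add (Nat.add (Nat.add 0 (Nat.mul 4315315200 (E 8 3 1))) (Nat.mul 10377305600 (E 8 2 2))) (Nat.mul 3021312000 (E 7 2 1))) (Nat.mul 7265536000 (E 7 1 2))) (Nat.mul 13856000000 (E 6 2 4))) (Nat.mul 1281680000 (E 6 2 0))) (Nat.mul 783820800 (E 5 2 1))) (Nat.mul 1884902400 (E 5 1 2))) (Nat.mul 2679936000 (E 4 1 1))) (Nat.mul 6444608000 (E 4 0 2))) (Nat.mul 40421120000 (E 3 1 4))) (Nat.mul 3738953600 (E 3 1 0))) (Nat.mul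 25231360000 (E 2 0 4))) (Nat.mul 2333900800 (E 2 0 0))) (Nat.mul 2603596800 (E 0 1 1))) (Nat.mul 6261030400 (E 0 0 2))) (Nat.add (Nat.add (Nat.add (Nat.add (Nat.add (Nat.add (Nat.add (Nat.add (Nat.add (Nat.add (Nat.add (Nat.add 0 (Nat.mul 8209920000 (E 6 2 4))) (Nat.mul 759417600 (E 6 2 0))) (Nat.mul 11988480000 (E 5 1 4))) (Nat.mul 1108934400 (E 5 1 0))) (Nat.mul 977920000 (E 4 0 4))) (Nat.mul 90457600 (E 4 0 0))) (Nat.mul 9277632000 (E 3 2 1))) (Nat.mul 22310496000 (E 3 1 2))) (Nat.mul 29094400000 (E 2 0 4))) (Nat.mul 2691232000 (E 2 0 0))) (Nat.mul 3970444800 (E 0 1 1))) (Nat.mul 9547974400 (E 0 0 2))) (Nat.add (Nat.add (Nat.add (Nat.add (Nat.add (Nat.add 0 (Nat.mul 16418560000 (E 3 1 4))) (Nat.mul 1518716800 (E 3 1 0))) (Nat.mul 8060236800 (E 2 1 1))) (Nat.mul 19382950400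 (E 2 0 2))) (Nat.mul 13217280000 (E 0 0 4))) (Nat.mul 1222598400 (E 0 0 0))) (Nat.add (Nat.add 0 (Nat.mul 15824640000 (E 0 0 4))) (Nat.mul 1463779200 (E 0 0 0)))) ((fun U0 U1 U2 : ℕ => Nat.add (Nat.add (Nat.add (Nat.add 0 (Nat.mul (c3 2 0) U2)) (Nat.mul (c3 1 0) U1)) (Nat.mul (c3 0 0) U0)) (Nat.shiftLeft (Nat.add (Nat.add (Nat.add (Nat.add 0 (Nat.mul (c3 2 1) U2)) (Nat.mul (c3 1 1) U1)) (Nat.mul (c3 0 1) U0)) (Nat.shiftLeft (Nat.add (Nat.add (Nat.add (Nat.add 0 (Nat.mul (c3 2 2) U2)) (Nat.mul (c3 1 2) U1)) (Nat.mul (c3 0 2) U0)) (Nat.shiftLeft (Nat.add (Nat.add (Nat.add (Nat.add 0 (Nat.mul (c3 2 3) U2)) (Nat.mul (c3 1 3) U1)) (Nat.mul (c3 0 3) U0)) (Nat.shiftLeft 0 sh3)) sh3)) sh3)) sh3)) (Nat.add (Nat.add (Nat.add (Nat.add (Nat.add (Nat.add (Nat.add (Nat.add (Nat.add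 (Nat.add (Nat.add (Nat.add 0 (Nat.mul 33436160000 (E 6 2 4))) (Nat.mul 3092844800 (E 6 2 0))) (Nat.mul 12469760000 (E 5 1 4))) (Nat.mul 1153452800 (E 5 1 0))) (Nat.mul 188697600 (E 4 1 1))) (Nat.mul 453772800 (E 4 0 2))) (Nat.mul 12677683200 (E 3 2 1))) (Nat.mul 30486809600 (E 3 1 2))) (Nat.mul 100098560000 (E 2 0 4))) (Nat.mul 9259116800 (E 2 0 0))) (Nat.mul 28136908800 (E 0 1 1))) (Nat.mul 67662566400 (E 0 0 2))) (Nat.add (Nat.add (Nat.add (Nat.add (Nat.add (Nat.add 0 (Nat.mul 42496000000 (E 3 1 4))) (Nat.mul 3930880000 (E 3 1 0))) (Nat.mul 20169676800 (E 2 1 1))) (Nat.mul 48503270400 (E 2 0 2))) (Nat.mul 151941120000 (E 0 0 4))) (Nat.mul 14054553600 (E 0 0 0))) (Nat.add (Nat.add 0 (Nat.mul 5139993600 (E 0 1 1))) (Nat.mul 12360460800 (E 0 0 2)))) ((fun U0 U1 : ℕ =>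 Nat.add (Nat.add (Nat.add 0 (Nat.mul (c3 1 0) U1)) (Nat.mul (c3 0 0) U0)) (Nat.shiftLeft (Nat.add (Nat.add (Nat.add 0 (Nat.mul (c3 1 1) U1)) (Nat.mul (c3 0 1) U0)) (Nat.shiftLeft (Nat.add (Nat.add (Nat.add 0 (Nat.mul (c3 1 2) U1)) (Nat.mul (c3 0 2) U0)) (Nat.shiftLeft (Nat.add (Nat.add (Nat.add 0 (Nat.mul (c3 1 3) U1)) (Nat.mul (c3 0 3) U0)) (Nat.shiftLeft 0 sh3)) sh3)) sh3)) sh3)) (Nat.add (Nat.add (Nat.add (Nat.add (Nat.add (Nat.add 0 (Nat.mul 42076160000 (E 3 1 4))) (Nat.mul 3892044800 (E 3 1 0))) (Nat.mul 3251200000 (E 2 0 4))) (Nat.mul 300736000 (E 2 0 0))) (Nat.mul 41970432000 (E 0 1 1))) (Nat.mul 100928896000 (E 0 0 2))) (Nat.add (Nat.add 0 (Nat.mul 133565440000 (E 0 0 4))) (Nat.mul 12354803200 (E 0 0 0))))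
theorem K22_n_eq (E : ℕ → ℕ → ℕ → ℕ) (c3 : ℕ → ℕ → ℕ) (sh3 : ℕ) (c4 : ℕ → ℕ → ℕ) (sh4 : ℕ) :
    zN1 false E c3 sh3 4 c4 sh4 4 mm.k22 = K22_n E c3 sh3 c4 sh4 := rfl
def Ck_p (E : ℕ → ℕ → ℕ → ℕ) (c3 : ℕ → ℕ → ℕ) (sh3 : ℕ) (c4 : ℕ → ℕ → ℕ) (sh4 : ℕ) : ℕ :=
  (fun V0 V1 V2 V3 : ℕ => Nat.add (Nat.add (Nat.add (Nat.add (Nat.add 0 (Nat.mul (c4 3 0) V3)) (Nat.mul (c4 2 0) V2)) (Nat.mul (c4 1 0) V1)) (Nat.mul (c4 0 0) V0)) (Nat.shiftLeft (Nat.add (Nat.add (Nat.add (Nat.add (Nat.add 0 (Nat.mul (c4 3 1) V3)) (Nat.mul (c4 2 1) V2)) (Nat.mul (c4 1 1) V1)) (Nat.mul (c4 0 1) V0)) (Nat.shiftLeft (Nat.add (Nat.add (Nat.add (Nat.add (Nat.add 0 (Nat.mul (c4 3 2) V3)) (Nat.mul (c4 2 2) V2)) (Nat.mul (c4 1 2) V1)) (Nat.mul (c4 0 2) V0)) (Nat.shiftLeft (Nat.add (Nat.add (Nat.add (Nat.add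 (Nat.add 0 (Nat.mul (c4 3 3) V3)) (Nat.mul (c4 2 3) V2)) (Nat.mul (c4 1 3) V1)) (Nat.mul (c4 0 3) V0)) (Nat.shiftLeft (Nat.add (Nat.add (Nat.add (Nat.add (Nat.add 0 (Nat.mul (c4 3 4) V3)) (Nat.mul (c4 2 4) V2)) (Nat.mul (c4 1 4) V1)) (Nat.mul (c4 0 4) V0)) (Nat.shiftLeft (Nat.add (Nat.add (Nat.add (Nat.add (Nat.add 0 (Nat.mul (c4 3 5) V3)) (Nat.mul (c4 2 5) V2)) (Nat.mul (c4 1 5) V1)) (Nat.mul (c4 0 5) V0)) (Nat.shiftLeft 0 sh4)) sh4)) sh4)) sh4)) sh4)) sh4)) ((fun U0 U1 U2 U3 : ℕ => Nat.add (Nat.add (Nat.add (Nat.add (Nat.add 0 (Nat.mul (c3 3 0) U3)) (Nat.mul (c3 2 0) U2)) (Nat.mul (c3 1 0) U1)) (Nat.mul (c3 0 0) U0)) (Nat.shiftLeft (Nat.add (Nat.add (Nat.add (Nat.add (Nat.add 0 (Nat.mul (c3 3 1) U3)) (Nat.mul (c3 2 1) U2)) (Nat.mul (c3 1 1) U1)) (Nat.mul (c3 0 1) U0))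 (Nat.shiftLeft (Nat.add (Nat.add (Nat.add (Nat.add (Nat.add 0 (Nat.mul (c3 3 2) U3)) (Nat.mul (c3 2 2) U2)) (Nat.mul (c3 1 2) U1)) (Nat.mul (c3 0 2) U0)) (Nat.shiftLeft (Nat.add (Nat.add (Nat.add (Nat.add (Nat.add 0 (Nat.mul (c3 3 3) U3)) (Nat.mul (c3 2 3) U2)) (Nat.mul (c3 1 3) U1)) (Nat.mul (c3 0 3) U0)) (Nat.shiftLeft (Nat.add (Nat.add (Nat.add (Nat.add (Nat.add 0 (Nat.mul (c3 3 4) U3)) (Nat.mul (c3 2 4) U2)) (Nat.mul (c3 1 4) U1)) (Nat.mul (c3 0 4) U0)) (Nat.shiftLeft (Nat.add (Nat.add (Nat.add (Nat.add (Nat.add 0 (Nat.mul (c3 3 5) U3)) (Nat.mul (c3 2 5) U2)) (Nat.mul (c3 1 5) U1)) (Nat.mul (c3 0 5) U0)) (Nat.shiftLeft 0 sh3)) sh3)) sh3)) sh3)) sh3)) sh3)) (Nat.add (Nat.add (Nat.add (Nat.add (Nat.add (Nat.add (Nat.add (Nat.add (Nat.add (Nat.add (Nat.add (Nat.add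 (Nat.add (Nat.add (Nat.add 0 (Nat.mul 23151744000 (E 7 2 3))) (Nat.mul 3671539200 (E 7 2 1))) (Nat.mul 72339724800 (E 6 1 3))) (Nat.mul 11106547200 (E 5 2 1))) (Nat.mul 61372281600 (E 5 1 2))) (Nat.mul 7940217600 (E 5 1 0))) (Nat.mul 27669196800 (E 5 0 3))) (Nat.mul 13762425600 (E 4 2 0))) (Nat.mul 29106604800 (E 4 1 1))) (Nat.mul 22696934400 (E 4 0 2))) (Nat.mul 10591257600 (E 4 0 0))) (Nat.mul 27669196800 (E 1 0 3))) (Nat.mul 19574553600 (E 1 0 1))) (Nat.mul 55487174400 (E 0 0 2))) (Nat.mul 32480179200 (E 0 0 0))) (Nat.add (Nat.add (Nat.add (Nat.add (Nat.add (Nat.add (Nat.add (Nat.add (Nat.add 0 (Nat.mul 30228710400 (E 6 2 2))) (Nat.mul 14261990400 (E 5 0 1))) (Nat.mul 59778028800 (E 3 1 2))) (Nat.mul 54622310400 (E 3 0 3))) (Nat.mul 48888403200 (E 3 0 1))) (Nat.mul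 140144256000 (E 2 1 1))) (Nat.mul 87581491200 (E 2 0 2))) (Nat.mul 43352870400 (E 2 0 0))) (Nat.mul 18194400000 (E 1 1 0))) (Nat.add (Nat.add (Nat.add (Nat.add (Nat.add 0 (Nat.mul 56969740800 (E 4 1 3))) (Nat.mul 2317593600 (E 1 1 0))) (Nat.mul 30462566400 (E 1 0 3))) (Nat.mul 40737715200 (E 1 0 1))) (Nat.mul 45350323200 (E 0 0 2))) (Nat.add 0 (Nat.mul 5142816000 (E 0 0 0)))) ((fun U0 U1 U2 : ℕ => Nat.add (Nat.add (Nat.add (Nat.add 0 (Nat.mul (c3 2 0) U2)) (Nat.mul (c3 1 0) U1)) (Nat.mul (c3 0 0) U0)) (Nat.shiftLeft (Nat.add (Nat.add (Nat.add (Nat.add 0 (Nat.mul (c3 2 1) U2)) (Nat.mul (c3 1 1) U1)) (Nat.mul (c3 0 1) U0)) (Nat.shiftLeft (Nat.add (Nat.add (Nat.add (Nat.add 0 (Nat.mul (c3 2 2) U2)) (Nat.mul (c3 1 2) U1)) (Nat.mul (c3 0 2) U0)) (Nat.shiftLeft (Nat.add (Nat.add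 (Nat.add (Nat.add 0 (Nat.mul (c3 2 3) U2)) (Nat.mul (c3 1 3) U1)) (Nat.mul (c3 0 3) U0)) (Nat.shiftLeft (Nat.add (Nat.add (Nat.add (Nat.add 0 (Nat.mul (c3 2 4) U2)) (Nat.mul (c3 1 4) U1)) (Nat.mul (c3 0 4) U0)) (Nat.shiftLeft (Nat.add (Nat.add (Nat.add (Nat.add 0 (Nat.mul (c3 2 5) U2)) (Nat.mul (c3 1 5) U1)) (Nat.mul (c3 0 5) U0)) (Nat.shiftLeft 0 sh3)) sh3)) sh3)) sh3)) sh3)) sh3)) (Nat.add (Nat.add (Nat.add (Nat.add (Nat.add (Nat.add (Nat.add (Nat.add (Nat.add (Nat.add (Nat.add (Nat.add (Nat.add 0 (Nat.mul 27804672000 (E 7 2 3))) (Nat.mul 4481971200 (E 6 2 2))) (Nat.mul 2825625600 (E 6 1 3))) (Nat.mul 61931520000 (E 6 0 2))) (Nat.mul 37094400 (E 5 1 2))) (Nat.mul 25304832000 (E 5 0 3))) (Nat.mul 16613452800 (E 5 0 1))) (Nat.mul 59101056000 (E 4 1 3))) (Nat.mul 16171545600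 (E 4 1 1))) (Nat.mul 36265420800 (E 3 1 0))) (Nat.mul 51675724800 (E 1 0 3))) (Nat.mul 61931520000 (E 0 0 2))) (Nat.mul 62991129600 (E 0 0 0))) (Nat.add (Nat.add (Nat.add (Nat.add (Nat.add (Nat.add 0 (Nat.mul 76149964800 (E 3 0 1))) (Nat.mul 28619136000 (E 2 1 1))) (Nat.mul 259402752000 (E 2 0 2))) (Nat.mul 61931520000 (E 2 0 0))) (Nat.mul 61929907200 (E 1 1 0))) (Nat.mul 149932339200 (E 1 0 3))) (Nat.add (Nat.add (Nat.add (Nat.add 0 (Nat.mul 83336601600 (E 2 0 2))) (Nat.mul 50851584000 (E 1 0 3))) (Nat.mul 23924275200 (E 0 0 2))) (Nat.mul 61931520000 (E 0 0 0)))) ((fun U0 U1 : ℕ => Nat.add (Nat.add (Nat.add 0 (Nat.mul (c3 1 0) U1)) (Nat.mul (c3 0 0) U0)) (Nat.shiftLeft (Nat.add (Nat.add (Nat.add 0 (Nat.mul (c3 1 1) U1)) (Nat.mul (c3 0 1) U0)) (Nat.shiftLeft (Nat.add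 (Nat.add (Nat.add 0 (Nat.mul (c3 1 2) U1)) (Nat.mul (c3 0 2) U0)) (Nat.shiftLeft (Nat.add (Nat.add (Nat.add 0 (Nat.mul (c3 1 3) U1)) (Nat.mul (c3 0 3) U0)) (Nat.shiftLeft (Nat.add (Nat.add (Nat.add 0 (Nat.mul (c3 1 4) U1)) (Nat.mul (c3 0 4) U0)) (Nat.shiftLeft (Nat.add (Nat.add (Nat.add 0 (Nat.mul (c3 1 5) U1)) (Nat.mul (c3 0 5) U0)) (Nat.shiftLeft 0 sh3)) sh3)) sh3)) sh3)) sh3)) sh3)) (Nat.add (Nat.add (Nat.add (Nat.add (Nat.add (Nat.add (Nat.add (Nat.add (Nat.add 0 (Nat.mul 123859814400 (E 4 1 3))) (Nat.mul 61900876800 (E 2 1 1))) (Nat.mul 61921843200 (E 2 0 2))) (Nat.mul 180452966400 (E 2 0 0))) (Nat.mul 119014963200 (E 1 1 0))) (Nat.mul 247709952000 (E 1 0 3))) (Nat.mul 103048243200 (E 1 0 1))) (Nat.mul 371584281600 (E 0 0 2))) (Nat.mul 5336755200 (E 0 0 0))) (Nat.add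 0 (Nat.mul 121637376000 (E 0 0 2)))) ((fun U0 : ℕ => Nat.add (Nat.add 0 (Nat.mul (c3 0 0) U0)) (Nat.shiftLeft (Nat.add (Nat.add 0 (Nat.mul (c3 0 1) U0)) (Nat.shiftLeft (Nat.add (Nat.add 0 (Nat.mul (c3 0 2) U0)) (Nat.shiftLeft (Nat.add (Nat.add 0 (Nat.mul (c3 0 3) U0)) (Nat.shiftLeft (Nat.add (Nat.add 0 (Nat.mul (c3 0 4) U0)) (Nat.shiftLeft (Nat.add (Nat.add 0 (Nat.mul (c3 0 5) U0)) (Nat.shiftLeft 0 sh3)) sh3)) sh3)) sh3)) sh3)) sh3)) (Nat.add (Nat.add 0 (Nat.mul 148648550400 (E 2 0 2))) (Nat.mul 56486707200 (E 1 0 1))))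
theorem Ck_p_eq (E : ℕ → ℕ → ℕ → ℕ) (c3 : ℕ → ℕ → ℕ) (sh3 : ℕ) (c4 : ℕ → ℕ → ℕ) (sh4 : ℕ) :
    zN1 true E c3 sh3 6 c4 sh4 6 mm.Ck = Ck_p E c3 sh3 c4 sh4 := rfl
def Ck_n (E : ℕ → ℕ → ℕ → ℕ) (c3 : ℕ → ℕ → ℕ) (sh3 : ℕ) (c4 : ℕ → ℕ → ℕ) (sh4 : ℕ) : ℕ :=
  (fun V0 V1 V2 V3 : ℕ => Nat.add (Nat.add (Nat.add (Nat.add (Nat.add 0 (Nat.mul (c4 3 0) V3)) (Nat.mul (c4 2 0) V2)) (Nat.mul (c4 1 0) V1)) (Nat.mul (c4 0 0) V0)) (Nat.shiftLeft (Nat.add (Nat.add (Nat.add (Nat.add (Nat.add 0 (Nat.mul (c4 3 1) V3)) (Nat.mul (c4 2 1) V2)) (Nat.mul (c4 1 1) V1)) (Nat.mul (c4 0 1) V0)) (Nat.shiftLeft (Nat.add (Nat.add (Nat.add (Nat.add (Nat.add 0 (Nat.mul (c4 3 2) V3)) (Nat.mul (c4 2 2) V2)) (Nat.mul (c4 1 2) V1)) (Nat.mul (c4 0 2) V0)) (Nat.shiftLeft (Nat.add (Nat.add (Nat.add (Nat.add (Nat.add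 0 (Nat.mul (c4 3 3) V3)) (Nat.mul (c4 2 3) V2)) (Nat.mul (c4 1 3) V1)) (Nat.mul (c4 0 3) V0)) (Nat.shiftLeft (Nat.add (Nat.add (Nat.add (Nat.add (Nat.add 0 (Nat.mul (c4 3 4) V3)) (Nat.mul (c4 2 4) V2)) (Nat.mul (c4 1 4) V1)) (Nat.mul (c4 0 4) V0)) (Nat.shiftLeft (Nat.add (Nat.add (Nat.add (Nat.add (Nat.add 0 (Nat.mul (c4 3 5) V3)) (Nat.mul (c4 2 5) V2)) (Nat.mul (c4 1 5) V1)) (Nat.mul (c4 0 5) V0)) (Nat.shiftLeft 0 sh4)) sh4)) sh4)) sh4)) sh4)) sh4)) ((fun U0 U1 U2 U3 : ℕ => Nat.add (Nat.add (Nat.add (Nat.add (Nat.add 0 (Nat.mul (c3 3 0) U3)) (Nat.mul (c3 2 0) U2)) (Nat.mul (c3 1 0) U1)) (Nat.mul (c3 0 0) U0)) (Nat.shiftLeft (Nat.add (Nat.add (Nat.add (Nat.add (Nat.add 0 (Nat.mul (c3 3 1) U3)) (Nat.mul (c3 2 1) U2)) (Nat.mul (c3 1 1) U1)) (Nat.mul (c3 0 1) U0)) (Nat.shiftLeft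 (Nat.add (Nat.add (Nat.add (Nat.add (Nat.add 0 (Nat.mul (c3 3 2) U3)) (Nat.mul (c3 2 2) U2)) (Nat.mul (c3 1 2) U1)) (Nat.mul (c3 0 2) U0)) (Nat.shiftLeft (Nat.add (Nat.add (Nat.add (Nat.add (Nat.add 0 (Nat.mul (c3 3 3) U3)) (Nat.mul (c3 2 3) U2)) (Nat.mul (c3 1 3) U1)) (Nat.mul (c3 0 3) U0)) (Nat.shiftLeft (Nat.add (Nat.add (Nat.add (Nat.add (Nat.add 0 (Nat.mul (c3 3 4) U3)) (Nat.mul (c3 2 4) U2)) (Nat.mul (c3 1 4) U1)) (Nat.mul (c3 0 4) U0)) (Nat.shiftLeft (Nat.add (Nat.add (Nat.add (Nat.add (Nat.add 0 (Nat.mul (c3 3 5) U3)) (Nat.mul (c3 2 5) U2)) (Nat.mul (c3 1 5) U1)) (Nat.mul (c3 0 5) U0)) (Nat.shiftLeft 0 sh3)) sh3)) sh3)) sh3)) sh3)) sh3)) (Nat.add (Nat.add (Nat.add (Nat.add (Nat.add (Nat.add (Nat.add (Nat.add (Nat.add (Nat.add (Nat.add (Nat.add (Nat.add (Nat.add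 (Nat.add (Nat.add (Nat.add 0 (Nat.mul 18403660800 (E 9 2 3))) (Nat.mul 7538227200 (E 8 2 2))) (Nat.mul 20687385600 (E 8 1 3))) (Nat.mul 7464441600 (E 7 1 2))) (Nat.mul 7829740800 (E 6 2 2))) (Nat.mul 2384524800 (E 6 2 0))) (Nat.mul 5787936000 (E 6 1 1))) (Nat.mul 3570336000 (E 5 0 1))) (Nat.mul 45214848000 (E 4 1 3))) (Nat.mul 62739936000 (E 3 1 2))) (Nat.mul 397958400 (E 3 1 0))) (Nat.mul 24373440000 (E 3 0 3))) (Nat.mul 15787296000 (E 3 0 1))) (Nat.mul 35588044800 (E 2 1 1))) (Nat.mul 71768390400 (E 2 0 2))) (Nat.mul 36664185600 (E 2 0 0))) (Nat.mul 21708691200 (E 1 1 0))) (Nat.add (Nat.add (Nat.add (Nat.add (Nat.add (Nat.add (Nat.add (Nat.add (Nat.add (Nat.add (Nat.add (Nat.add (Nat.add (Nat.add (Nat.add 0 (Nat.mul 13766860800 (E 7 2 3))) (Nat.mul 17579520000 (E 6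 1 3))) (Nat.mul 22130438400 (E 5 2 1))) (Nat.mul 13329792000 (E 5 1 2))) (Nat.mul 27249868800 (E 5 0 3))) (Nat.mul 6699168000 (E 4 2 0))) (Nat.mul 44298777600 (E 4 1 3))) (Nat.mul 62734291200 (E 4 1 1))) (Nat.mul 48246105600 (E 4 0 2))) (Nat.mul 13934995200 (E 4 0 0))) (Nat.mul 2711520000 (E 3 1 0))) (Nat.mul 81107712000 (E 1 0 3))) (Nat.mul 62320608000 (E 1 0 1))) (Nat.mul 83706336000 (E 0 0 2))) (Nat.mul 30818592000 (E 0 0 0))) (Nat.add (Nat.add (Nat.add (Nat.add (Nat.add (Nat.add (Nat.add 0 (Nat.mul 35836819200 (E 3 1 2))) (Nat.mul 5435942400 (E 3 0 3))) (Nat.mul 42261408000 (E 3 0 1))) (Nat.mul 76691059200 (E 2 1 1))) (Nat.mul 94752000 (E 2 0 2))) (Nat.mul 1777305600 (E 2 0 0))) (Nat.mul 6223795200 (E 0 0 0))) (Nat.add (Nat.add 0 (Nat.mul 6944716800 (E 1 0 1))) (Nat.mul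 4237632000 (E 0 0 2)))) ((fun U0 U1 U2 : ℕ => Nat.add (Nat.add (Nat.add (Nat.add 0 (Nat.mul (c3 2 0) U2)) (Nat.mul (c3 1 0) U1)) (Nat.mul (c3 0 0) U0)) (Nat.shiftLeft (Nat.add (Nat.add (Nat.add (Nat.add 0 (Nat.mul (c3 2 1) U2)) (Nat.mul (c3 1 1) U1)) (Nat.mul (c3 0 1) U0)) (Nat.shiftLeft (Nat.add (Nat.add (Nat.add (Nat.add 0 (Nat.mul (c3 2 2) U2)) (Nat.mul (c3 1 2) U1)) (Nat.mul (c3 0 2) U0)) (Nat.shiftLeft (Nat.add (Nat.add (Nat.add (Nat.add 0 (Nat.mul (c3 2 3) U2)) (Nat.mul (c3 1 3) U1)) (Nat.mul (c3 0 3) U0)) (Nat.shiftLeft (Nat.add (Nat.add (Nat.add (Nat.add 0 (Nat.mul (c3 2 4) U2)) (Nat.mul (c3 1 4) U1)) (Nat.mul (c3 0 4) U0)) (Nat.shiftLeft (Nat.add (Nat.add (Nat.add (Nat.add 0 (Nat.mul (c3 2 5) U2)) (Nat.mul (c3 1 5) U1)) (Nat.mul (c3 0 5) U0)) (Nat.shiftLeft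 0 sh3)) sh3)) sh3)) sh3)) sh3)) sh3)) (Nat.add (Nat.add (Nat.add (Nat.add (Nat.add (Nat.add (Nat.add (Nat.add (Nat.add (Nat.add (Nat.add (Nat.add 0 (Nat.mul 7788211200 (E 5 2 1))) (Nat.mul 32239872000 (E 4 2 0))) (Nat.mul 123861427200 (E 4 0 2))) (Nat.mul 25174195200 (E 4 0 0))) (Nat.mul 2365977600 (E 3 1 2))) (Nat.mul 92148940800 (E 3 0 3))) (Nat.mul 33228518400 (E 3 0 1))) (Nat.mul 136373529600 (E 2 1 1))) (Nat.mul 105856128000 (E 2 0 2))) (Nat.mul 11581516800 (E 2 0 0))) (Nat.mul 55885132800 (E 1 1 0))) (Nat.mul 32646297600 (E 1 0 1))) (Nat.add (Nat.add (Nat.add (Nat.add (Nat.add (Nat.add (Nat.add 0 (Nat.mul 10092902400 (E 4 1 3))) (Nat.mul 73617868800 (E 4 0 2))) (Nat.mul 73309824000 (E 3 1 2))) (Nat.mul 123859814400 (E 3 0 3))) (Nat.mul 74067840000 (E 1 0 1))) (Nat.mul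 123854976000 (E 0 0 2))) (Nat.mul 123858201600 (E 0 0 0))) (Nat.add 0 (Nat.mul 56986675200 (E 1 0 1)))) ((fun U0 U1 : ℕ => Nat.add (Nat.add (Nat.add 0 (Nat.mul (c3 1 0) U1)) (Nat.mul (c3 0 0) U0)) (Nat.shiftLeft (Nat.add (Nat.add (Nat.add 0 (Nat.mul (c3 1 1) U1)) (Nat.mul (c3 0 1) U0)) (Nat.shiftLeft (Nat.add (Nat.add (Nat.add 0 (Nat.mul (c3 1 2) U1)) (Nat.mul (c3 0 2) U0)) (Nat.shiftLeft (Nat.add (Nat.add (Nat.add 0 (Nat.mul (c3 1 3) U1)) (Nat.mul (c3 0 3) U0)) (Nat.shiftLeft (Nat.add (Nat.add (Nat.add 0 (Nat.mul (c3 1 4) U1)) (Nat.mul (c3 0 4) U0)) (Nat.shiftLeft (Nat.add (Nat.add (Nat.add 0 (Nat.mul (c3 1 5) U1)) (Nat.mul (c3 0 5) U0)) (Nat.shiftLeft 0 sh3)) sh3)) sh3)) sh3)) sh3)) sh3)) (Nat.add (Nat.add (Nat.add (Nat.add 0 (Nat.mul 123863040000 (E 4 0 2))) (Nat.mul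 150106521600 (E 3 1 2))) (Nat.mul 123850137600 (E 3 0 3))) (Nat.mul 100832256000 (E 3 0 1))) (Nat.add (Nat.add (Nat.add (Nat.add 0 (Nat.mul 18908467200 (E 2 0 2))) (Nat.mul 95697100800 (E 1 0 3))) (Nat.mul 359212492800 (E 1 0 1))) (Nat.mul 42365030400 (E 0 0 0)))) ((fun U0 : ℕ => Nat.add (Nat.add 0 (Nat.mul (c3 0 0) U0)) (Nat.shiftLeft (Nat.add (Nat.add 0 (Nat.mul (c3 0 1) U0)) (Nat.shiftLeft (Nat.add (Nat.add 0 (Nat.mul (c3 0 2) U0)) (Nat.shiftLeft (Nat.add (Nat.add 0 (Nat.mul (c3 0 3) U0)) (Nat.shiftLeft (Nat.add (Nat.add 0 (Nat.mul (c3 0 4) U0)) (Nat.shiftLeft (Nat.add (Nat.add 0 (Nat.mul (c3 0 5) U0)) (Nat.shiftLeft 0 sh3)) sh3)) sh3)) sh3)) sh3)) sh3)) (Nat.add 0 (Nat.mul 162183168000 (E 1 0 3))))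
theorem Ck_n_eq (E : ℕ → ℕ → ℕ → ℕ) (c3 : ℕ → ℕ → ℕ) (sh3 : ℕ) (c4 : ℕ → ℕ → ℕ) (sh4 : ℕ) :
    zN1 false E c3 sh3 6 c4 sh4 6 mm.Ck = Ck_n E c3 sh3 c4 sh4 := rfl
def C0_p (E : ℕ → ℕ → ℕ → ℕ) (c3 : ℕ → ℕ → ℕ) (sh3 : ℕ) (c4 : ℕ → ℕ → ℕ) (sh4 : ℕ) : ℕ :=
  (fun V0 V1 V2 V3 V4 : ℕ => Nat.add (Nat.add (Nat.add (Nat.add (Nat.add (Nat.add 0 (Nat.mul (c4 4 0) V4)) (Nat.mul (c4 3 0) V3)) (Nat.mul (c4 2 0) V2)) (Nat.mul (c4 1 0) V1)) (Nat.mul (c4 0 0) V0)) (Nat.shiftLeft (Nat.add (Nat.add (Nat.add (Nat.add (Nat.add (Nat.add 0 (Nat.mul (c4 4 1) V4)) (Nat.mul (c4 3 1) V3)) (Nat.mul (c4 2 1) V2)) (Nat.mul (c4 1 1) V1)) (Nat.mul (c4 0 1) V0)) (Nat.shiftLeft (Nat.add (Nat.add (Nat.add (Nat.add (Nat.add (Nat.add 0 (Nat.mul (c4 4 2) V4)) (Nat.mul (c4 3 2) V3)) (Nat.mul (c4 2 2) V2))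 (Nat.mul (c4 1 2) V1)) (Nat.mul (c4 0 2) V0)) (Nat.shiftLeft (Nat.add (Nat.add (Nat.add (Nat.add (Nat.add (Nat.add 0 (Nat.mul (c4 4 3) V4)) (Nat.mul (c4 3 3) V3)) (Nat.mul (c4 2 3) V2)) (Nat.mul (c4 1 3) V1)) (Nat.mul (c4 0 3) V0)) (Nat.shiftLeft (Nat.add (Nat.add (Nat.add (Nat.add (Nat.add (Nat.add 0 (Nat.mul (c4 4 4) V4)) (Nat.mul (c4 3 4) V3)) (Nat.mul (c4 2 4) V2)) (Nat.mul (c4 1 4) V1)) (Nat.mul (c4 0 4) V0)) (Nat.shiftLeft (Nat.add (Nat.add (Nat.add (Nat.add (Nat.add (Nat.add 0 (Nat.mul (c4 4 5) V4)) (Nat.mul (c4 3 5) V3)) (Nat.mul (c4 2 5) V2)) (Nat.mul (c4 1 5) V1)) (Nat.mul (c4 0 5) V0)) (Nat.shiftLeft (Nat.add (Nat.add (Nat.add (Nat.add (Nat.add (Nat.add 0 (Nat.mul (c4 4 6) V4)) (Nat.mul (c4 3 6) V3)) (Nat.mul (c4 2 6) V2)) (Nat.mul (c4 1 6) V1)) (Nat.mul (c4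 0 6) V0)) (Nat.shiftLeft (Nat.add (Nat.add (Nat.add (Nat.add (Nat.add (Nat.add 0 (Nat.mul (c4 4 7) V4)) (Nat.mul (c4 3 7) V3)) (Nat.mul (c4 2 7) V2)) (Nat.mul (c4 1 7) V1)) (Nat.mul (c4 0 7) V0)) (Nat.shiftLeft 0 sh4)) sh4)) sh4)) sh4)) sh4)) sh4)) sh4)) sh4)) ((fun U0 U1 U2 U3 : ℕ => Nat.add (Nat.add (Nat.add (Nat.add (Nat.add 0 (Nat.mul (c3 3 0) U3)) (Nat.mul (c3 2 0) U2)) (Nat.mul (c3 1 0) U1)) (Nat.mul (c3 0 0) U0)) (Nat.shiftLeft (Nat.add (Nat.add (Nat.add (Nat.add (Nat.add 0 (Nat.mul (c3 3 1) U3)) (Nat.mul (c3 2 1) U2)) (Nat.mul (c3 1 1) U1)) (Nat.mul (c3 0 1) U0)) (Nat.shiftLeft (Nat.add (Nat.add (Nat.add (Nat.add (Nat.add 0 (Nat.mul (c3 3 2) U3)) (Nat.mul (c3 2 2) U2)) (Nat.mul (c3 1 2) U1)) (Nat.mul (c3 0 2) U0)) (Nat.shiftLeft (Nat.add (Nat.add (Nat.add (Nat.add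 (Nat.add 0 (Nat.mul (c3 3 3) U3)) (Nat.mul (c3 2 3) U2)) (Nat.mul (c3 1 3) U1)) (Nat.mul (c3 0 3) U0)) (Nat.shiftLeft (Nat.add (Nat.add (Nat.add (Nat.add (Nat.add 0 (Nat.mul (c3 3 4) U3)) (Nat.mul (c3 2 4) U2)) (Nat.mul (c3 1 4) U1)) (Nat.mul (c3 0 4) U0)) (Nat.shiftLeft (Nat.add (Nat.add (Nat.add (Nat.add (Nat.add 0 (Nat.mul (c3 3 5) U3)) (Nat.mul (c3 2 5) U2)) (Nat.mul (c3 1 5) U1)) (Nat.mul (c3 0 5) U0)) (Nat.shiftLeft (Nat.add (Nat.add (Nat.add (Nat.add (Nat.add 0 (Nat.mul (c3 3 6) U3)) (Nat.mul (c3 2 6) U2)) (Nat.mul (c3 1 6) U1)) (Nat.mul (c3 0 6) U0)) (Nat.shiftLeft 0 sh3)) sh3)) sh3)) sh3)) sh3)) sh3)) sh3)) (Nat.add (Nat.add (Nat.add (Nat.add (Nat.add (Nat.add (Nat.add (Nat.add (Nat.add (Nat.add 0 (Nat.mul 44312768640 (E 10 2 0))) (Nat.mul 14660352000 (E 9 3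 0))) (Nat.mul 9489312000 (E 9 1 0))) (Nat.mul 27446158656 (E 6 2 0))) (Nat.mul 9069721920 (E 6 0 0))) (Nat.mul 7000435008 (E 5 1 0))) (Nat.mul 7550573184 (E 4 2 0))) (Nat.mul 10375085952 (E 3 1 0))) (Nat.mul 1053464832 (E 2 0 0))) (Nat.mul 256011840 (E 0 0 0))) (Nat.add (Nat.add (Nat.add (Nat.add (Nat.add (Nat.add 0 (Nat.mul 37693744704 (E 8 2 0))) (Nat.mul 11575872000 (E 7 3 0))) (Nat.mul 62363722176 (E 7 1 0))) (Nat.mul 12944691648 (E 4 0 0))) (Nat.mul 15466074624 (E 2 0 0))) (Nat.mul 17273600064 (E 1 1 0))) (Nat.add (Nat.add (Nat.add (Nat.add (Nat.add 0 (Nat.mul 6566112000 (E 8 2 0))) (Nat.mul 6044266368 (E 6 0 0))) (Nat.mul 47714724288 (E 5 1 0))) (Nat.mul 14447430144 (E 4 0 0))) (Nat.mul 18918264960 (E 0 0 0))) (Nat.add (Nat.add (Nat.add (Nat.add 0 (Nat.mul 9494956800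 (E 4 2 0))) (Nat.mul 6594182784 (E 3 1 0))) (Nat.mul 35222902848 (E 2 0 0))) (Nat.mul 6108633216 (E 1 1 0)))) ((fun U0 U1 U2 U3 : ℕ => Nat.add (Nat.add (Nat.add (Nat.add (Nat.add 0 (Nat.mul (c3 3 0) U3)) (Nat.mul (c3 2 0) U2)) (Nat.mul (c3 1 0) U1)) (Nat.mul (c3 0 0) U0)) (Nat.shiftLeft (Nat.add (Nat.add (Nat.add (Nat.add (Nat.add 0 (Nat.mul (c3 3 1) U3)) (Nat.mul (c3 2 1) U2)) (Nat.mul (c3 1 1) U1)) (Nat.mul (c3 0 1) U0)) (Nat.shiftLeft (Nat.add (Nat.add (Nat.add (Nat.add (Nat.add 0 (Nat.mul (c3 3 2) U3)) (Nat.mul (c3 2 2) U2)) (Nat.mul (c3 1 2) U1)) (Nat.mul (c3 0 2) U0)) (Nat.shiftLeft (Nat.add (Nat.add (Nat.add (Nat.add (Nat.add 0 (Nat.mul (c3 3 3) U3)) (Nat.mul (c3 2 3) U2)) (Nat.mul (c3 1 3) U1)) (Nat.mul (c3 0 3) U0)) (Nat.shiftLeft (Nat.add (Nat.add (Nat.add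 (Nat.add (Nat.add 0 (Nat.mul (c3 3 4) U3)) (Nat.mul (c3 2 4) U2)) (Nat.mul (c3 1 4) U1)) (Nat.mul (c3 0 4) U0)) (Nat.shiftLeft (Nat.add (Nat.add (Nat.add (Nat.add (Nat.add 0 (Nat.mul (c3 3 5) U3)) (Nat.mul (c3 2 5) U2)) (Nat.mul (c3 1 5) U1)) (Nat.mul (c3 0 5) U0)) (Nat.shiftLeft (Nat.add (Nat.add (Nat.add (Nat.add (Nat.add 0 (Nat.mul (c3 3 6) U3)) (Nat.mul (c3 2 6) U2)) (Nat.mul (c3 1 6) U1)) (Nat.mul (c3 0 6) U0)) (Nat.shiftLeft 0 sh3)) sh3)) sh3)) sh3)) sh3)) sh3)) sh3)) (Nat.add (Nat.add (Nat.add (Nat.add (Nat.add (Nat.add (Nat.add 0 (Nat.mul 8356723200 (E 12 2 0))) (Nat.mul 113944811904 (E 8 2 0))) (Nat.mul 85053233664 (E 7 1 0))) (Nat.mul 92711509632 (E 5 1 0))) (Nat.mul 1508274432 (E 4 2 0))) (Nat.mul 235515159936 (E 4 0 0))) (Nat.mul 97008113664 (E 0 0 0))) (Nat.add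 (Nat.add (Nat.add (Nat.add (Nat.add (Nat.add (Nat.add (Nat.add 0 (Nat.mul 18403660800 (E 10 2 0))) (Nat.mul 20687385600 (E 9 1 0))) (Nat.mul 43302067200 (E 8 2 0))) (Nat.mul 13902336000 (E 7 3 0))) (Nat.mul 129061134720 (E 6 0 0))) (Nat.mul 154667149056 (E 4 2 0))) (Nat.mul 303965673984 (E 3 1 0))) (Nat.mul 38218521600 (E 2 0 0))) (Nat.add (Nat.add (Nat.add (Nat.add (Nat.add (Nat.add 0 (Nat.mul 6883430400 (E 8 2 0))) (Nat.mul 8789760000 (E 7 1 0))) (Nat.mul 44895513600 (E 6 2 0))) (Nat.mul 183207628800 (E 5 1 0))) (Nat.mul 340297574400 (E 2 0 0))) (Nat.mul 302318456832 (E 1 1 0))) (Nat.add (Nat.add (Nat.add 0 (Nat.mul 87584716800 (E 4 0 0))) (Nat.mul 149179161600 (E 3 1 0))) (Nat.mul 30329792640 (E 0 0 0)))) ((fun U0 U1 U2 U3 : ℕ => Nat.add (Nat.add (Nat.add (Nat.add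 (Nat.add 0 (Nat.mul (c3 3 0) U3)) (Nat.mul (c3 2 0) U2)) (Nat.mul (c3 1 0) U1)) (Nat.mul (c3 0 0) U0)) (Nat.shiftLeft (Nat.add (Nat.add (Nat.add (Nat.add (Nat.add 0 (Nat.mul (c3 3 1) U3)) (Nat.mul (c3 2 1) U2)) (Nat.mul (c3 1 1) U1)) (Nat.mul (c3 0 1) U0)) (Nat.shiftLeft (Nat.add (Nat.add (Nat.add (Nat.add (Nat.add 0 (Nat.mul (c3 3 2) U3)) (Nat.mul (c3 2 2) U2)) (Nat.mul (c3 1 2) U1)) (Nat.mul (c3 0 2) U0)) (Nat.shiftLeft (Nat.add (Nat.add (Nat.add (Nat.add (Nat.add 0 (Nat.mul (c3 3 3) U3)) (Nat.mul (c3 2 3) U2)) (Nat.mul (c3 1 3) U1)) (Nat.mul (c3 0 3) U0)) (Nat.shiftLeft (Nat.add (Nat.add (Nat.add (Nat.add (Nat.add 0 (Nat.mul (c3 3 4) U3)) (Nat.mul (c3 2 4) U2)) (Nat.mul (c3 1 4) U1)) (Nat.mul (c3 0 4) U0)) (Nat.shiftLeft (Nat.add (Nat.add (Nat.add (Nat.add (Nat.add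 0 (Nat.mul (c3 3 5) U3)) (Nat.mul (c3 2 5) U2)) (Nat.mul (c3 1 5) U1)) (Nat.mul (c3 0 5) U0)) (Nat.shiftLeft (Nat.add (Nat.add (Nat.add (Nat.add (Nat.add 0 (Nat.mul (c3 3 6) U3)) (Nat.mul (c3 2 6) U2)) (Nat.mul (c3 1 6) U1)) (Nat.mul (c3 0 6) U0)) (Nat.shiftLeft 0 sh3)) sh3)) sh3)) sh3)) sh3)) sh3)) sh3)) (Nat.add (Nat.add (Nat.add (Nat.add (Nat.add (Nat.add (Nat.add (Nat.add (Nat.add 0 (Nat.mul 12247603200 (E 10 2 0))) (Nat.mul 52032153600 (E 8 2 0))) (Nat.mul 1193472000 (E 7 3 0))) (Nat.mul 287278387200 (E 7 1 0))) (Nat.mul 276881859072 (E 6 2 0))) (Nat.mul 269838890496 (E 6 0 0))) (Nat.mul 85786477056 (E 3 1 0))) (Nat.mul 739193140224 (E 2 0 0))) (Nat.mul 278440178688 (E 1 1 0))) (Nat.add (Nat.add (Nat.add (Nat.add (Nat.add 0 (Nat.mul 23356569600 (E 5 1 0))) (Nat.mul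 195913267200 (E 4 2 0))) (Nat.mul 650401952256 (E 4 0 0))) (Nat.mul 147551701248 (E 3 1 0))) (Nat.mul 120258496512 (E 0 0 0))) (Nat.add (Nat.add (Nat.add (Nat.add 0 (Nat.mul 5046451200 (E 5 1 0))) (Nat.mul 26383795200 (E 4 0 0))) (Nat.mul 41305420800 (E 3 1 0))) (Nat.mul 277324524288 (E 0 0 0))) (Nat.add 0 (Nat.mul 85905792000 (E 2 0 0)))) ((fun U0 U1 U2 : ℕ => Nat.add (Nat.add (Nat.add (Nat.add 0 (Nat.mul (c3 2 0) U2)) (Nat.mul (c3 1 0) U1)) (Nat.mul (c3 0 0) U0)) (Nat.shiftLeft (Nat.add (Nat.add (Nat.add (Nat.add 0 (Nat.mul (c3 2 1) U2)) (Nat.mul (c3 1 1) U1)) (Nat.mul (c3 0 1) U0)) (Nat.shiftLeft (Nat.add (Nat.add (Nat.add (Nat.add 0 (Nat.mul (c3 2 2) U2)) (Nat.mul (c3 1 2) U1)) (Nat.mul (c3 0 2) U0)) (Nat.shiftLeft (Nat.add (Nat.add (Nat.add (Nat.add 0 (Nat.mul (c3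 2 3) U2)) (Nat.mul (c3 1 3) U1)) (Nat.mul (c3 0 3) U0)) (Nat.shiftLeft (Nat.add (Nat.add (Nat.add (Nat.add 0 (Nat.mul (c3 2 4) U2)) (Nat.mul (c3 1 4) U1)) (Nat.mul (c3 0 4) U0)) (Nat.shiftLeft (Nat.add (Nat.add (Nat.add (Nat.add 0 (Nat.mul (c3 2 5) U2)) (Nat.mul (c3 1 5) U1)) (Nat.mul (c3 0 5) U0)) (Nat.shiftLeft (Nat.add (Nat.add (Nat.add (Nat.add 0 (Nat.mul (c3 2 6) U2)) (Nat.mul (c3 1 6) U1)) (Nat.mul (c3 0 6) U0)) (Nat.shiftLeft 0 sh3)) sh3)) sh3)) sh3)) sh3)) sh3)) sh3)) (Nat.add (Nat.add (Nat.add (Nat.add 0 (Nat.mul 861935155200 (E 5 1 0))) (Nat.mul 359589888000 (E 4 2 0))) (Nat.mul 1194491225088 (E 2 0 0))) (Nat.mul 592625392128 (E 1 1 0))) (Nat.add (Nat.add (Nat.add 0 (Nat.mul 743165337600 (E 4 0 0))) (Nat.mul 743158886400 (E 3 1 0))) (Nat.mul 1036884699648 (E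 0 0 0))) (Nat.add 0 (Nat.mul 667163750400 (E 2 0 0)))) ((fun U0 U1 : ℕ => Nat.add (Nat.add (Nat.add 0 (Nat.mul (c3 1 0) U1)) (Nat.mul (c3 0 0) U0)) (Nat.shiftLeft (Nat.add (Nat.add (Nat.add 0 (Nat.mul (c3 1 1) U1)) (Nat.mul (c3 0 1) U0)) (Nat.shiftLeft (Nat.add (Nat.add (Nat.add 0 (Nat.mul (c3 1 2) U1)) (Nat.mul (c3 0 2) U0)) (Nat.shiftLeft (Nat.add (Nat.add (Nat.add 0 (Nat.mul (c3 1 3) U1)) (Nat.mul (c3 0 3) U0)) (Nat.shiftLeft (Nat.add (Nat.add (Nat.add 0 (Nat.mul (c3 1 4) U1)) (Nat.mul (c3 0 4) U0)) (Nat.shiftLeft (Nat.add (Nat.add (Nat.add 0 (Nat.mul (c3 1 5) U1)) (Nat.mul (c3 0 5) U0)) (Nat.shiftLeft (Nat.add (Nat.add (Nat.add 0 (Nat.mul (c3 1 6) U1)) (Nat.mul (c3 0 6) U0)) (Nat.shiftLeft 0 sh3)) sh3)) sh3)) sh3)) sh3)) sh3)) sh3)) (Nat.add (Nat.add 0 (Nat.mul 955293696000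 (E 4 0 0))) (Nat.mul 867815424000 (E 3 1 0))) (Nat.add 0 (Nat.mul 120250368000 (E 0 0 0))))
theorem C0_p_eq (E : ℕ → ℕ → ℕ → ℕ) (c3 : ℕ → ℕ → ℕ) (sh3 : ℕ) (c4 : ℕ → ℕ → ℕ) (sh4 : ℕ) :
    zN1 true E c3 sh3 7 c4 sh4 8 mm.C0 = C0_p E c3 sh3 c4 sh4 := rfl
def C0_n (E : ℕ → ℕ → ℕ → ℕ) (c3 : ℕ → ℕ → ℕ) (sh3 : ℕ) (c4 : ℕ → ℕ → ℕ) (sh4 : ℕ) : ℕ :=
  (fun V0 V1 V2 V3 V4 : ℕ => Nat.add (Nat.add (Nat.add (Nat.add (Nat.add (Nat.add 0 (Nat.mul (c4 4 0) V4)) (Nat.mul (c4 3 0) V3)) (Nat.mul (c4 2 0) V2)) (Nat.mul (c4 1 0) V1)) (Nat.mul (c4 0 0) V0)) (Nat.shiftLeft (Nat.add (Nat.add (Nat.add (Nat.add (Nat.add (Nat.add 0 (Nat.mul (c4 4 1) V4)) (Nat.mul (c4 3 1) V3)) (Nat.mul (c4 2 1) V2)) (Nat.mul (c4 1 1) V1)) (Nat.mul (c4 0 1) V0)) (Nat.shiftLeft (Nat.add (Nat.add (Nat.add (Nat.add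 (Nat.add (Nat.add 0 (Nat.mul (c4 4 2) V4)) (Nat.mul (c4 3 2) V3)) (Nat.mul (c4 2 2) V2)) (Nat.mul (c4 1 2) V1)) (Nat.mul (c4 0 2) V0)) (Nat.shiftLeft (Nat.add (Nat.add (Nat.add (Nat.add (Nat.add (Nat.add 0 (Nat.mul (c4 4 3) V4)) (Nat.mul (c4 3 3) V3)) (Nat.mul (c4 2 3) V2)) (Nat.mul (c4 1 3) V1)) (Nat.mul (c4 0 3) V0)) (Nat.shiftLeft (Nat.add (Nat.add (Nat.add (Nat.add (Nat.add (Nat.add 0 (Nat.mul (c4 4 4) V4)) (Nat.mul (c4 3 4) V3)) (Nat.mul (c4 2 4) V2)) (Nat.mul (c4 1 4) V1)) (Nat.mul (c4 0 4) V0)) (Nat.shiftLeft (Nat.add (Nat.add (Nat.add (Nat.add (Nat.add (Nat.add 0 (Nat.mul (c4 4 5) V4)) (Nat.mul (c4 3 5) V3)) (Nat.mul (c4 2 5) V2)) (Nat.mul (c4 1 5) V1)) (Nat.mul (c4 0 5) V0)) (Nat.shiftLeft (Nat.add (Nat.add (Nat.add (Nat.add (Nat.add (Nat.add 0 (Nat.mul (c4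 4 6) V4)) (Nat.mul (c4 3 6) V3)) (Nat.mul (c4 2 6) V2)) (Nat.mul (c4 1 6) V1)) (Nat.mul (c4 0 6) V0)) (Nat.shiftLeft (Nat.add (Nat.add (Nat.add (Nat.add (Nat.add (Nat.add 0 (Nat.mul (c4 4 7) V4)) (Nat.mul (c4 3 7) V3)) (Nat.mul (c4 2 7) V2)) (Nat.mul (c4 1 7) V1)) (Nat.mul (c4 0 7) V0)) (Nat.shiftLeft 0 sh4)) sh4)) sh4)) sh4)) sh4)) sh4)) sh4)) sh4)) ((fun U0 U1 U2 U3 : ℕ => Nat.add (Nat.add (Nat.add (Nat.add (Nat.add 0 (Nat.mul (c3 3 0) U3)) (Nat.mul (c3 2 0) U2)) (Nat.mul (c3 1 0) U1)) (Nat.mul (c3 0 0) U0)) (Nat.shiftLeft (Nat.add (Nat.add (Nat.add (Nat.add (Nat.add 0 (Nat.mul (c3 3 1) U3)) (Nat.mul (c3 2 1) U2)) (Nat.mul (c3 1 1) U1)) (Nat.mul (c3 0 1) U0)) (Nat.shiftLeft (Nat.add (Nat.add (Nat.add (Nat.add (Nat.add 0 (Nat.mul (c3 3 2) U3)) (Nat.mul (c3 2 2) U2))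 (Nat.mul (c3 1 2) U1)) (Nat.mul (c3 0 2) U0)) (Nat.shiftLeft (Nat.add (Nat.add (Nat.add (Nat.add (Nat.add 0 (Nat.mul (c3 3 3) U3)) (Nat.mul (c3 2 3) U2)) (Nat.mul (c3 1 3) U1)) (Nat.mul (c3 0 3) U0)) (Nat.shiftLeft (Nat.add (Nat.add (Nat.add (Nat.add (Nat.add 0 (Nat.mul (c3 3 4) U3)) (Nat.mul (c3 2 4) U2)) (Nat.mul (c3 1 4) U1)) (Nat.mul (c3 0 4) U0)) (Nat.shiftLeft (Nat.add (Nat.add (Nat.add (Nat.add (Nat.add 0 (Nat.mul (c3 3 5) U3)) (Nat.mul (c3 2 5) U2)) (Nat.mul (c3 1 5) U1)) (Nat.mul (c3 0 5) U0)) (Nat.shiftLeft (Nat.add (Nat.add (Nat.add (Nat.add (Nat.add 0 (Nat.mul (c3 3 6) U3)) (Nat.mul (c3 2 6) U2)) (Nat.mul (c3 1 6) U1)) (Nat.mul (c3 0 6) U0)) (Nat.shiftLeft 0 sh3)) sh3)) sh3)) sh3)) sh3)) sh3)) sh3)) (Nat.add (Nat.add (Nat.add (Nat.add (Nat.add (Nat.add (Nat.add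 0 (Nat.mul 6312096000 (E 12 2 0))) (Nat.mul 4178361600 (E 11 3 0))) (Nat.mul 70626185280 (E 8 2 0))) (Nat.mul 9489715200 (E 7 3 0))) (Nat.mul 30968711424 (E 7 1 0))) (Nat.mul 6990302592 (E 4 0 0))) (Nat.mul 2253779136 (E 1 1 0))) (Nat.add (Nat.add (Nat.add (Nat.add (Nat.add (Nat.add (Nat.add (Nat.add (Nat.add 0 (Nat.mul 21845376000 (E 10 2 0))) (Nat.mul 9201830400 (E 9 3 0))) (Nat.mul 15902208000 (E 9 1 0))) (Nat.mul 11950025472 (E 6 2 0))) (Nat.mul 13296064320 (E 6 0 0))) (Nat.mul 50923510848 (E 5 1 0))) (Nat.mul 10725325632 (E 4 2 0))) (Nat.mul 4962105792 (E 3 1 0))) (Nat.mul 13108781952 (E 0 0 0))) (Nat.add (Nat.add (Nat.add (Nat.add (Nat.add (Nat.add (Nat.add 0 (Nat.mul 3441715200 (E 7 3 0))) (Nat.mul 17807328000 (E 7 1 0))) (Nat.mul 6739641216 (E 6 2 0))) (Nat.mul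 6001075584 (E 4 2 0))) (Nat.mul 6155763264 (E 3 1 0))) (Nat.mul 51450723072 (E 2 0 0))) (Nat.mul 21702973824 (E 1 1 0))) (Nat.add (Nat.add (Nat.add 0 (Nat.mul 14714784000 (E 5 1 0))) (Nat.mul 20624329152 (E 4 0 0))) (Nat.mul 6512800896 (E 0 0 0)))) ((fun U0 U1 U2 U3 : ℕ => Nat.add (Nat.add (Nat.add (Nat.add (Nat.add 0 (Nat.mul (c3 3 0) U3)) (Nat.mul (c3 2 0) U2)) (Nat.mul (c3 1 0) U1)) (Nat.mul (c3 0 0) U0)) (Nat.shiftLeft (Nat.add (Nat.add (Nat.add (Nat.add (Nat.add 0 (Nat.mul (c3 3 1) U3)) (Nat.mul (c3 2 1) U2)) (Nat.mul (c3 1 1) U1)) (Nat.mul (c3 0 1) U0)) (Nat.shiftLeft (Nat.add (Nat.add (Nat.add (Nat.add (Nat.add 0 (Nat.mul (c3 3 2) U3)) (Nat.mul (c3 2 2) U2)) (Nat.mul (c3 1 2) U1)) (Nat.mul (c3 0 2) U0)) (Nat.shiftLeft (Nat.add (Nat.add (Nat.add (Nat.add (Nat.add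 0 (Nat.mul (c3 3 3) U3)) (Nat.mul (c3 2 3) U2)) (Nat.mul (c3 1 3) U1)) (Nat.mul (c3 0 3) U0)) (Nat.shiftLeft (Nat.add (Nat.add (Nat.add (Nat.add (Nat.add 0 (Nat.mul (c3 3 4) U3)) (Nat.mul (c3 2 4) U2)) (Nat.mul (c3 1 4) U1)) (Nat.mul (c3 0 4) U0)) (Nat.shiftLeft (Nat.add (Nat.add (Nat.add (Nat.add (Nat.add 0 (Nat.mul (c3 3 5) U3)) (Nat.mul (c3 2 5) U2)) (Nat.mul (c3 1 5) U1)) (Nat.mul (c3 0 5) U0)) (Nat.shiftLeft (Nat.add (Nat.add (Nat.add (Nat.add (Nat.add 0 (Nat.mul (c3 3 6) U3)) (Nat.mul (c3 2 6) U2)) (Nat.mul (c3 1 6) U1)) (Nat.mul (c3 0 6) U0)) (Nat.shiftLeft 0 sh3)) sh3)) sh3)) sh3)) sh3)) sh3)) sh3)) (Nat.add (Nat.add (Nat.add (Nat.add (Nat.add (Nat.add (Nat.add (Nat.add (Nat.add 0 (Nat.mul 101274163200 (E 10 2 0))) (Nat.mul 6123801600 (E 9 3 0))) (Nat.mul 63513676800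 (E 9 1 0))) (Nat.mul 3323174400 (E 7 3 0))) (Nat.mul 43496401536 (E 6 2 0))) (Nat.mul 78911497728 (E 6 0 0))) (Nat.mul 13212476928 (E 3 1 0))) (Nat.mul 271891251072 (E 2 0 0))) (Nat.mul 78123927168 (E 1 1 0))) (Nat.add (Nat.add (Nat.add (Nat.add (Nat.add (Nat.add 0 (Nat.mul 25741094400 (E 7 1 0))) (Nat.mul 182571814656 (E 6 2 0))) (Nat.mul 235397465856 (E 5 1 0))) (Nat.mul 177836932224 (E 4 0 0))) (Nat.mul 102055580928 (E 1 1 0))) (Nat.mul 11404221696 (E 0 0 0))) (Nat.add (Nat.add (Nat.add (Nat.add (Nat.add 0 (Nat.mul 60737241600 (E 6 0 0))) (Nat.mul 54302169600 (E 4 2 0))) (Nat.mul 136542026880 (E 4 0 0))) (Nat.mul 490642693632 (E 3 1 0))) (Nat.mul 112053352320 (E 0 0 0))) (Nat.add (Nat.add (Nat.add 0 (Nat.mul 18989913600 (E 5 1 0))) (Nat.mul 104025075840 (E 2 0 0)))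 (Nat.mul 121713984000 (E 1 1 0)))) ((fun U0 U1 U2 U3 : ℕ => Nat.add (Nat.add (Nat.add (Nat.add (Nat.add 0 (Nat.mul (c3 3 0) U3)) (Nat.mul (c3 2 0) U2)) (Nat.mul (c3 1 0) U1)) (Nat.mul (c3 0 0) U0)) (Nat.shiftLeft (Nat.add (Nat.add (Nat.add (Nat.add (Nat.add 0 (Nat.mul (c3 3 1) U3)) (Nat.mul (c3 2 1) U2)) (Nat.mul (c3 1 1) U1)) (Nat.mul (c3 0 1) U0)) (Nat.shiftLeft (Nat.add (Nat.add (Nat.add (Nat.add (Nat.add 0 (Nat.mul (c3 3 2) U3)) (Nat.mul (c3 2 2) U2)) (Nat.mul (c3 1 2) U1)) (Nat.mul (c3 0 2) U0)) (Nat.shiftLeft (Nat.add (Nat.add (Nat.add (Nat.add (Nat.add 0 (Nat.mul (c3 3 3) U3)) (Nat.mul (c3 2 3) U2)) (Nat.mul (c3 1 3) U1)) (Nat.mul (c3 0 3) U0)) (Nat.shiftLeft (Nat.add (Nat.add (Nat.add (Nat.add (Nat.add 0 (Nat.mul (c3 3 4) U3)) (Nat.mul (c3 2 4) U2)) (Nat.mul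 (c3 1 4) U1)) (Nat.mul (c3 0 4) U0)) (Nat.shiftLeft (Nat.add (Nat.add (Nat.add (Nat.add (Nat.add 0 (Nat.mul (c3 3 5) U3)) (Nat.mul (c3 2 5) U2)) (Nat.mul (c3 1 5) U1)) (Nat.mul (c3 0 5) U0)) (Nat.shiftLeft (Nat.add (Nat.add (Nat.add (Nat.add (Nat.add 0 (Nat.mul (c3 3 6) U3)) (Nat.mul (c3 2 6) U2)) (Nat.mul (c3 1 6) U1)) (Nat.mul (c3 0 6) U0)) (Nat.shiftLeft 0 sh3)) sh3)) sh3)) sh3)) sh3)) sh3)) sh3)) (Nat.add (Nat.add (Nat.add (Nat.add (Nat.add 0 (Nat.mul 9094579200 (E 9 1 0))) (Nat.mul 522208479744 (E 5 1 0))) (Nat.mul 366161628672 (E 4 2 0))) (Nat.mul 646431690240 (E 4 0 0))) (Nat.mul 307736110080 (E 0 0 0))) (Nat.add (Nat.add (Nat.add (Nat.add (Nat.add (Nat.add 0 (Nat.mul 27804672000 (E 8 2 0))) (Nat.mul 2825625600 (E 7 1 0))) (Nat.mul 106178688000 (E 6 2 0))) (Nat.mul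 304004736000 (E 6 0 0))) (Nat.mul 404729031168 (E 2 0 0))) (Nat.mul 153312622848 (E 1 1 0))) (Nat.add (Nat.add 0 (Nat.mul 308435436288 (E 2 0 0))) (Nat.mul 70276147200 (E 1 1 0))) (Nat.add 0 (Nat.mul 85905792000 (E 0 0 0)))) ((fun U0 U1 U2 : ℕ => Nat.add (Nat.add (Nat.add (Nat.add 0 (Nat.mul (c3 2 0) U2)) (Nat.mul (c3 1 0) U1)) (Nat.mul (c3 0 0) U0)) (Nat.shiftLeft (Nat.add (Nat.add (Nat.add (Nat.add 0 (Nat.mul (c3 2 1) U2)) (Nat.mul (c3 1 1) U1)) (Nat.mul (c3 0 1) U0)) (Nat.shiftLeft (Nat.add (Nat.add (Nat.add (Nat.add 0 (Nat.mul (c3 2 2) U2)) (Nat.mul (c3 1 2) U1)) (Nat.mul (c3 0 2) U0)) (Nat.shiftLeft (Nat.add (Nat.add (Nat.add (Nat.add 0 (Nat.mul (c3 2 3) U2)) (Nat.mul (c3 1 3) U1)) (Nat.mul (c3 0 3) U0)) (Nat.shiftLeft (Nat.add (Nat.add (Nat.add (Nat.add 0 (Nat.mul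 (c3 2 4) U2)) (Nat.mul (c3 1 4) U1)) (Nat.mul (c3 0 4) U0)) (Nat.shiftLeft (Nat.add (Nat.add (Nat.add (Nat.add 0 (Nat.mul (c3 2 5) U2)) (Nat.mul (c3 1 5) U1)) (Nat.mul (c3 0 5) U0)) (Nat.shiftLeft (Nat.add (Nat.add (Nat.add (Nat.add 0 (Nat.mul (c3 2 6) U2)) (Nat.mul (c3 1 6) U1)) (Nat.mul (c3 0 6) U0)) (Nat.shiftLeft 0 sh3)) sh3)) sh3)) sh3)) sh3)) sh3)) sh3)) (Nat.add (Nat.add (Nat.add (Nat.add (Nat.add (Nat.add (Nat.add 0 (Nat.mul 2386944000 (E 8 2 0))) (Nat.mul 123785625600 (E 7 1 0))) (Nat.mul 320011776000 (E 6 2 0))) (Nat.mul 127878912000 (E 6 0 0))) (Nat.mul 861315807744 (E 4 0 0))) (Nat.mul 1578475196928 (E 3 1 0))) (Nat.mul 124204921344 (E 0 0 0))) (Nat.add (Nat.add (Nat.add 0 (Nat.mul 123859814400 (E 5 1 0))) (Nat.mul 1705725762048 (E 2 0 0))) (Nat.mul 700390656000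 (E 1 1 0))) (Nat.add 0 (Nat.mul 667163750400 (E 0 0 0)))) ((fun U0 U1 : ℕ => Nat.add (Nat.add (Nat.add 0 (Nat.mul (c3 1 0) U1)) (Nat.mul (c3 0 0) U0)) (Nat.shiftLeft (Nat.add (Nat.add (Nat.add 0 (Nat.mul (c3 1 1) U1)) (Nat.mul (c3 0 1) U0)) (Nat.shiftLeft (Nat.add (Nat.add (Nat.add 0 (Nat.mul (c3 1 2) U1)) (Nat.mul (c3 0 2) U0)) (Nat.shiftLeft (Nat.add (Nat.add (Nat.add 0 (Nat.mul (c3 1 3) U1)) (Nat.mul (c3 0 3) U0)) (Nat.shiftLeft (Nat.add (Nat.add (Nat.add 0 (Nat.mul (c3 1 4) U1)) (Nat.mul (c3 0 4) U0)) (Nat.shiftLeft (Nat.add (Nat.add (Nat.add 0 (Nat.mul (c3 1 5) U1)) (Nat.mul (c3 0 5) U0)) (Nat.shiftLeft (Nat.add (Nat.add (Nat.add 0 (Nat.mul (c3 1 6) U1)) (Nat.mul (c3 0 6) U0)) (Nat.shiftLeft 0 sh3)) sh3)) sh3)) sh3)) sh3)) sh3)) sh3)) (Nat.add (Nat.add (Nat.add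 (Nat.add 0 (Nat.mul 74382336000 (E 5 1 0))) (Nat.mul 424269619200 (E 2 0 0))) (Nat.mul 793433088000 (E 1 1 0))) (Nat.mul 531024076800 (E 0 0 0))) (Nat.add 0 (Nat.mul 120250368000 (E 2 0 0))))
theorem C0_n_eq (E : ℕ → ℕ → ℕ → ℕ) (c3 : ℕ → ℕ → ℕ) (sh3 : ℕ) (c4 : ℕ → ℕ → ℕ) (sh4 : ℕ) :
    zN1 false E c3 sh3 7 c4 sh4 8 mm.C0 = C0_n E c3 sh3 c4 sh4 := rfl
def G1_p (E : ℕ → ℕ → ℕ → ℕ) (c3 : ℕ → ℕ → ℕ) (sh3 : ℕ) (c4 : ℕ → ℕ → ℕ) (sh4 : ℕ) : ℕ :=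
  (fun V0 V2 : ℕ => Nat.add (Nat.add (Nat.add 0 (Nat.mul (c4 2 0) V2)) (Nat.mul (c4 0 0) V0)) (Nat.shiftLeft (Nat.add (Nat.add (Nat.add 0 (Nat.mul (c4 2 1) V2)) (Nat.mul (c4 0 1) V0)) (Nat.shiftLeft (Nat.add (Nat.add (Nat.add 0 (Nat.mul (c4 2 2) V2)) (Nat.mul (c4 0 2) V0)) (Nat.shiftLeft (Nat.add (Nat.add (Nat.add 0 (Nat.mul (c4 2 3) V2)) (Nat.mul (c4 0 3) V0)) (Nat.shiftLeft (Nat.add (Nat.add (Nat.add 0 (Nat.mul (c4 2 4) V2)) (Nat.mul (c4 0 4) V0)) (Nat.shiftLeft (Nat.add (Nat.add (Nat.add 0 (Nat.mul (c4 2 5) V2)) (Nat.mul (c4 0 5) V0)) (Nat.shiftLeft (Nat.add (Nat.add (Nat.add 0 (Nat.mul (c4 2 6) V2)) (Nat.mul (c4 0 6) V0)) (Nat.shiftLeft (Nat.add (Nat.add (Nat.add 0 (Nat.mul (c4 2 7) V2)) (Nat.mul (c4 0 7) V0)) (Nat.shiftLeft 0 sh4)) sh4)) sh4)) sh4)) sh4)) sh4))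 sh4)) sh4)) ((fun U1 : ℕ => Nat.add (Nat.add 0 (Nat.mul (c3 1 0) U1)) (Nat.shiftLeft (Nat.add (Nat.add 0 (Nat.mul (c3 1 1) U1)) (Nat.shiftLeft (Nat.add (Nat.add 0 (Nat.mul (c3 1 2) U1)) (Nat.shiftLeft (Nat.add (Nat.add 0 (Nat.mul (c3 1 3) U1)) (Nat.shiftLeft (Nat.add (Nat.add 0 (Nat.mul (c3 1 4) U1)) (Nat.shiftLeft (Nat.add (Nat.add 0 (Nat.mul (c3 1 5) U1)) (Nat.shiftLeft (Nat.add (Nat.add 0 (Nat.mul (c3 1 6) U1)) (Nat.shiftLeft 0 sh3)) sh3)) sh3)) sh3)) sh3)) sh3)) sh3)) (Nat.add 0 (Nat.mul 1 (E 0 0 0)))) ((fun U0 : ℕ => Nat.add (Nat.add 0 (Nat.mul (c3 0 0) U0)) (Nat.shiftLeft (Nat.add (Nat.add 0 (Nat.mul (c3 0 1) U0)) (Nat.shiftLeft (Nat.add (Nat.add 0 (Nat.mul (c3 0 2) U0)) (Nat.shiftLeft (Nat.add (Nat.add 0 (Nat.mul (c3 0 3) U0)) (Nat.shiftLeft (Nat.add (Nat.add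 0 (Nat.mul (c3 0 4) U0)) (Nat.shiftLeft (Nat.add (Nat.add 0 (Nat.mul (c3 0 5) U0)) (Nat.shiftLeft (Nat.add (Nat.add 0 (Nat.mul (c3 0 6) U0)) (Nat.shiftLeft 0 sh3)) sh3)) sh3)) sh3)) sh3)) sh3)) sh3)) (Nat.add 0 (Nat.mul 4 (E 2 0 0))))
theorem G1_p_eq (E : ℕ → ℕ → ℕ → ℕ) (c3 : ℕ → ℕ → ℕ) (sh3 : ℕ) (c4 : ℕ → ℕ → ℕ) (sh4 : ℕ) :
    zN1 true E c3 sh3 7 c4 sh4 8 mm.G1 = G1_p E c3 sh3 c4 sh4 := rfl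
def G1_n (E : ℕ → ℕ → ℕ → ℕ) (c3 : ℕ → ℕ → ℕ) (sh3 : ℕ) (c4 : ℕ → ℕ → ℕ) (sh4 : ℕ) : ℕ :=
  (fun V0 V2 : ℕ => Nat.add (Nat.add (Nat.add 0 (Nat.mul (c4 2 0) V2)) (Nat.mul (c4 0 0) V0)) (Nat.shiftLeft (Nat.add (Nat.add (Nat.add 0 (Nat.mul (c4 2 1) V2)) (Nat.mul (c4 0 1) V0)) (Nat.shiftLeft (Nat.add (Nat.add (Nat.add 0 (Nat.mul (c4 2 2) V2)) (Nat.mul (c4 0 2) V0)) (Nat.shiftLeft (Nat.add (Nat.add (Nat.add 0 (Nat.mul (c4 2 3) V2)) (Nat.mul (c4 0 3) V0)) (Nat.shiftLeft (Nat.add (Nat.add (Nat.add 0 (Nat.mul (c4 2 4) V2)) (Nat.mul (c4 0 4) V0)) (Nat.shiftLeft (Nat.add (Nat.add (Nat.add 0 (Nat.mul (c4 2 5) V2)) (Nat.mul (c4 0 5) V0)) (Nat.shiftLeft (Nat.add (Nat.add (Nat.add 0 (Nat.mul (c4 2 6) V2)) (Nat.mul (c4 0 6) V0)) (Nat.shiftLeft (Nat.add (Nat.add (Nat.add 0 (Nat.mul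 (c4 2 7) V2)) (Nat.mul (c4 0 7) V0)) (Nat.shiftLeft 0 sh4)) sh4)) sh4)) sh4)) sh4)) sh4)) sh4)) sh4)) (Nat.add 0 (Nat.shiftLeft (Nat.add 0 (Nat.shiftLeft (Nat.add 0 (Nat.shiftLeft (Nat.add 0 (Nat.shiftLeft (Nat.add 0 (Nat.shiftLeft (Nat.add 0 (Nat.shiftLeft (Nat.add 0 (Nat.shiftLeft 0 sh3)) sh3)) sh3)) sh3)) sh3)) sh3)) sh3)) ((fun U0 : ℕ => Nat.add (Nat.add 0 (Nat.mul (c3 0 0) U0)) (Nat.shiftLeft (Nat.add (Nat.add 0 (Nat.mul (c3 0 1) U0)) (Nat.shiftLeft (Nat.add (Nat.add 0 (Nat.mul (c3 0 2) U0)) (Nat.shiftLeft (Nat.add (Nat.add 0 (Nat.mul (c3 0 3) U0)) (Nat.shiftLeft (Nat.add (Nat.add 0 (Nat.mul (c3 0 4) U0)) (Nat.shiftLeft (Nat.add (Nat.add 0 (Nat.mul (c3 0 5) U0)) (Nat.shiftLeft (Nat.add (Nat.add 0 (Nat.mul (c3 0 6) U0)) (Nat.shiftLeft 0 sh3)) sh3)) sh3)) sh3)) sh3))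 sh3)) sh3)) (Nat.add 0 (Nat.mul 4 (E 0 0 0))))
theorem G1_n_eq (E : ℕ → ℕ → ℕ → ℕ) (c3 : ℕ → ℕ → ℕ) (sh3 : ℕ) (c4 : ℕ → ℕ → ℕ) (sh4 : ℕ) :
    zN1 false E c3 sh3 7 c4 sh4 8 mm.G1 = G1_n E c3 sh3 c4 sh4 := rfl
def G2_p (E : ℕ → ℕ → ℕ → ℕ) (c3 : ℕ → ℕ → ℕ) (sh3 : ℕ) (c4 : ℕ → ℕ → ℕ) (sh4 : ℕ) : ℕ :=
  (fun V0 V2 : ℕ => Nat.add (Nat.add (Nat.add 0 (Nat.mul (c4 2 0) V2)) (Nat.mul (c4 0 0) V0)) (Nat.shiftLeft (Nat.add (Nat.add (Nat.add 0 (Nat.mul (c4 2 1) V2)) (Nat.mul (c4 0 1) V0)) (Nat.shiftLeft (Nat.add (Nat.add (Nat.add 0 (Nat.mul (c4 2 2) V2)) (Nat.mul (c4 0 2) V0)) (Nat.shiftLeft (Nat.add (Nat.add (Nat.add 0 (Nat.mul (c4 2 3) V2)) (Nat.mul (c4 0 3) V0)) (Nat.shiftLeft (Nat.add (Nat.add (Nat.add 0 (Nat.mul (c4 2 4) V2)) (Nat.mul (c4 0 4) V0)) (Nat.shiftLeft (Nat.add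 (Nat.add (Nat.add 0 (Nat.mul (c4 2 5) V2)) (Nat.mul (c4 0 5) V0)) (Nat.shiftLeft (Nat.add (Nat.add (Nat.add 0 (Nat.mul (c4 2 6) V2)) (Nat.mul (c4 0 6) V0)) (Nat.shiftLeft (Nat.add (Nat.add (Nat.add 0 (Nat.mul (c4 2 7) V2)) (Nat.mul (c4 0 7) V0)) (Nat.shiftLeft 0 sh4)) sh4)) sh4)) sh4)) sh4)) sh4)) sh4)) sh4)) ((fun U0 : ℕ => Nat.add (Nat.add 0 (Nat.mul (c3 0 0) U0)) (Nat.shiftLeft (Nat.add (Nat.add 0 (Nat.mul (c3 0 1) U0)) (Nat.shiftLeft (Nat.add (Nat.add 0 (Nat.mul (c3 0 2) U0)) (Nat.shiftLeft (Nat.add (Nat.add 0 (Nat.mul (c3 0 3) U0)) (Nat.shiftLeft (Nat.add (Nat.add 0 (Nat.mul (c3 0 4) U0)) (Nat.shiftLeft (Nat.add (Nat.add 0 (Nat.mul (c3 0 5) U0)) (Nat.shiftLeft (Nat.add (Nat.add 0 (Nat.mul (c3 0 6) U0)) (Nat.shiftLeft 0 sh3)) sh3)) sh3)) sh3)) sh3)) sh3)) sh3)) (Nat.add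 0 (Nat.mul 5 (E 0 0 0)))) (Nat.add 0 (Nat.shiftLeft (Nat.add 0 (Nat.shiftLeft (Nat.add 0 (Nat.shiftLeft (Nat.add 0 (Nat.shiftLeft (Nat.add 0 (Nat.shiftLeft (Nat.add 0 (Nat.shiftLeft (Nat.add 0 (Nat.shiftLeft 0 sh3)) sh3)) sh3)) sh3)) sh3)) sh3)) sh3))
theorem G2_p_eq (E : ℕ → ℕ → ℕ → ℕ) (c3 : ℕ → ℕ → ℕ) (sh3 : ℕ) (c4 : ℕ → ℕ → ℕ) (sh4 : ℕ) :
    zN1 true E c3 sh3 7 c4 sh4 8 mm.G2 = G2_p E c3 sh3 c4 sh4 := rfl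
def G2_n (E : ℕ → ℕ → ℕ → ℕ) (c3 : ℕ → ℕ → ℕ) (sh3 : ℕ) (c4 : ℕ → ℕ → ℕ) (sh4 : ℕ) : ℕ :=
  (fun V0 V2 : ℕ => Nat.add (Nat.add (Nat.add 0 (Nat.mul (c4 2 0) V2)) (Nat.mul (c4 0 0) V0)) (Nat.shiftLeft (Nat.add (Nat.add (Nat.add 0 (Nat.mul (c4 2 1) V2)) (Nat.mul (c4 0 1) V0)) (Nat.shiftLeft (Nat.add (Nat.add (Nat.add 0 (Nat.mul (c4 2 2) V2)) (Nat.mul (c4 0 2) V0)) (Nat.shiftLeft (Nat.add (Nat.add (Nat.add 0 (Nat.mul (c4 2 3) V2)) (Nat.mul (c4 0 3) V0)) (Nat.shiftLeft (Nat.add (Nat.add (Nat.add 0 (Nat.mul (c4 2 4) V2)) (Nat.mul (c4 0 4) V0)) (Nat.shiftLeft (Nat.add (Nat.add (Nat.add 0 (Nat.mul (c4 2 5) V2)) (Nat.mul (c4 0 5) V0)) (Nat.shiftLeft (Nat.add (Nat.add (Nat.add 0 (Nat.mul (c4 2 6) V2)) (Nat.mul (c4 0 6) V0)) (Nat.shiftLeft (Nat.add (Nat.add (Nat.add 0 (Nat.mul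 (c4 2 7) V2)) (Nat.mul (c4 0 7) V0)) (Nat.shiftLeft 0 sh4)) sh4)) sh4)) sh4)) sh4)) sh4)) sh4)) sh4)) ((fun U2 : ℕ => Nat.add (Nat.add 0 (Nat.mul (c3 2 0) U2)) (Nat.shiftLeft (Nat.add (Nat.add 0 (Nat.mul (c3 2 1) U2)) (Nat.shiftLeft (Nat.add (Nat.add 0 (Nat.mul (c3 2 2) U2)) (Nat.shiftLeft (Nat.add (Nat.add 0 (Nat.mul (c3 2 3) U2)) (Nat.shiftLeft (Nat.add (Nat.add 0 (Nat.mul (c3 2 4) U2)) (Nat.shiftLeft (Nat.add (Nat.add 0 (Nat.mul (c3 2 5) U2)) (Nat.shiftLeft (Nat.add (Nat.add 0 (Nat.mul (c3 2 6) U2)) (Nat.shiftLeft 0 sh3)) sh3)) sh3)) sh3)) sh3)) sh3)) sh3)) (Nat.add 0 (Nat.mul 5 (E 0 0 0)))) ((fun U0 : ℕ => Nat.add (Nat.add 0 (Nat.mul (c3 0 0) U0)) (Nat.shiftLeft (Nat.add (Nat.add 0 (Nat.mul (c3 0 1) U0)) (Nat.shiftLeft (Nat.add (Nat.add 0 (Nat.mul (c3 0 2) U0)) (Nat.shiftLeft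 (Nat.add (Nat.add 0 (Nat.mul (c3 0 3) U0)) (Nat.shiftLeft (Nat.add (Nat.add 0 (Nat.mul (c3 0 4) U0)) (Nat.shiftLeft (Nat.add (Nat.add 0 (Nat.mul (c3 0 5) U0)) (Nat.shiftLeft (Nat.add (Nat.add 0 (Nat.mul (c3 0 6) U0)) (Nat.shiftLeft 0 sh3)) sh3)) sh3)) sh3)) sh3)) sh3)) sh3)) (Nat.add 0 (Nat.mul 56 (E 2 0 0))))
theorem G2_n_eq (E : ℕ → ℕ → ℕ → ℕ) (c3 : ℕ → ℕ → ℕ) (sh3 : ℕ) (c4 : ℕ → ℕ → ℕ) (sh4 : ℕ) :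
    zN1 false E c3 sh3 7 c4 sh4 8 mm.G2 = G2_n E c3 sh3 c4 sh4 := rfl
def G3_p (E : ℕ → ℕ → ℕ → ℕ) (c3 : ℕ → ℕ → ℕ) (sh3 : ℕ) (c4 : ℕ → ℕ → ℕ) (sh4 : ℕ) : ℕ :=
  (fun V0 : ℕ => Nat.add (Nat.add 0 (Nat.mul (c4 0 0) V0)) (Nat.shiftLeft (Nat.add (Nat.add 0 (Nat.mul (c4 0 1) V0)) (Nat.shiftLeft (Nat.add (Nat.add 0 (Nat.mul (c4 0 2) V0)) (Nat.shiftLeft (Nat.add (Nat.add 0 (Nat.mul (c4 0 3) V0)) (Nat.shiftLeft (Nat.add (Nat.add 0 (Nat.mul (c4 0 4) V0)) (Nat.shiftLeft (Nat.add (Nat.add 0 (Nat.mul (c4 0 5) V0)) (Nat.shiftLeft (Nat.add (Nat.add 0 (Nat.mul (c4 0 6) V0)) (Nat.shiftLeft (Nat.add (Nat.add 0 (Nat.mul (c4 0 7) V0)) (Nat.shiftLeft 0 sh4)) sh4)) sh4)) sh4)) sh4)) sh4)) sh4)) sh4)) ((fun U0 : ℕ => Nat.add (Nat.add 0 (Nat.mul (c3 0 0) U0)) (Nat.shiftLeft (Nat.add (Nat.add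 0 (Nat.mul (c3 0 1) U0)) (Nat.shiftLeft (Nat.add (Nat.add 0 (Nat.mul (c3 0 2) U0)) (Nat.shiftLeft (Nat.add (Nat.add 0 (Nat.mul (c3 0 3) U0)) (Nat.shiftLeft (Nat.add (Nat.add 0 (Nat.mul (c3 0 4) U0)) (Nat.shiftLeft (Nat.add (Nat.add 0 (Nat.mul (c3 0 5) U0)) (Nat.shiftLeft (Nat.add (Nat.add 0 (Nat.mul (c3 0 6) U0)) (Nat.shiftLeft 0 sh3)) sh3)) sh3)) sh3)) sh3)) sh3)) sh3)) (Nat.add (Nat.add (Nat.add 0 (Nat.mul 720 (E 0 1 3))) (Nat.mul 840 (E 0 0 4))) (Nat.mul 64 (E 0 0 0))))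
theorem G3_p_eq (E : ℕ → ℕ → ℕ → ℕ) (c3 : ℕ → ℕ → ℕ) (sh3 : ℕ) (c4 : ℕ → ℕ → ℕ) (sh4 : ℕ) :
    zN1 true E c3 sh3 7 c4 sh4 8 mm.G3 = G3_p E c3 sh3 c4 sh4 := rfl
def G3_n (E : ℕ → ℕ → ℕ → ℕ) (c3 : ℕ → ℕ → ℕ) (sh3 : ℕ) (c4 : ℕ → ℕ → ℕ) (sh4 : ℕ) : ℕ :=
  (fun V0 : ℕ => Nat.add (Nat.add 0 (Nat.mul (c4 0 0) V0)) (Nat.shiftLeft (Nat.add (Nat.add 0 (Nat.mul (c4 0 1) V0)) (Nat.shiftLeft (Nat.add (Nat.add 0 (Nat.mul (c4 0 2) V0)) (Nat.shiftLeft (Nat.add (Nat.add 0 (Nat.mul (c4 0 3) V0)) (Nat.shiftLeft (Nat.add (Nat.add 0 (Nat.mul (c4 0 4) V0)) (Nat.shiftLeft (Nat.add (Nat.add 0 (Nat.mul (c4 0 5) V0)) (Nat.shiftLeft (Nat.add (Nat.add 0 (Nat.mul (c4 0 6) V0)) (Nat.shiftLeft (Nat.add (Nat.add 0 (Nat.mul (c4 0 7) V0)) (Nat.shiftLeft 0 sh4)) sh4)) sh4)) sh4)) sh4)) sh4)) sh4)) sh4))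 ((fun U0 : ℕ => Nat.add (Nat.add 0 (Nat.mul (c3 0 0) U0)) (Nat.shiftLeft (Nat.add (Nat.add 0 (Nat.mul (c3 0 1) U0)) (Nat.shiftLeft (Nat.add (Nat.add 0 (Nat.mul (c3 0 2) U0)) (Nat.shiftLeft (Nat.add (Nat.add 0 (Nat.mul (c3 0 3) U0)) (Nat.shiftLeft (Nat.add (Nat.add 0 (Nat.mul (c3 0 4) U0)) (Nat.shiftLeft (Nat.add (Nat.add 0 (Nat.mul (c3 0 5) U0)) (Nat.shiftLeft (Nat.add (Nat.add 0 (Nat.mul (c3 0 6) U0)) (Nat.shiftLeft 0 sh3)) sh3)) sh3)) sh3)) sh3)) sh3)) sh3)) (Nat.add (Nat.add (Nat.add (Nat.add 0 (Nat.mul 192 (E 0 2 0))) (Nat.mul 288 (E 0 1 1))) (Nat.mul 800 (E 0 0 6))) (Nat.mul 348 (E 0 0 2))))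
theorem G3_n_eq (E : ℕ → ℕ → ℕ → ℕ) (c3 : ℕ → ℕ → ℕ) (sh3 : ℕ) (c4 : ℕ → ℕ → ℕ) (sh4 : ℕ) :
    zN1 false E c3 sh3 7 c4 sh4 8 mm.G3 = G3_n E c3 sh3 c4 sh4 := rfl
def G4_p (E : ℕ → ℕ → ℕ → ℕ) (c3 : ℕ → ℕ → ℕ) (sh3 : ℕ) (c4 : ℕ → ℕ → ℕ) (sh4 : ℕ) : ℕ :=
  (fun V0 : ℕ => Nat.add (Nat.add 0 (Nat.mul (c4 0 0) V0)) (Nat.shiftLeft (Nat.add (Nat.add 0 (Nat.mul (c4 0 1) V0)) (Nat.shiftLeft (Nat.add (Nat.add 0 (Nat.mul (c4 0 2) V0)) (Nat.shiftLeft (Nat.add (Nat.add 0 (Nat.mul (c4 0 3) V0)) (Nat.shiftLeft (Nat.add (Nat.add 0 (Nat.mul (c4 0 4) V0)) (Nat.shiftLeft (Nat.add (Nat.add 0 (Nat.mul (c4 0 5) V0)) (Nat.shiftLeft (Nat.add (Nat.add 0 (Nat.mul (c4 0 6) V0)) (Nat.shiftLeft (Nat.add (Nat.add 0 (Nat.mul (c4 0 7) V0)) (Nat.shiftLeft 0 sh4)) sh4)) sh4)) sh4)) sh4)) sh4)) sh4)) sh4))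 ((fun U0 : ℕ => Nat.add (Nat.add 0 (Nat.mul (c3 0 0) U0)) (Nat.shiftLeft (Nat.add (Nat.add 0 (Nat.mul (c3 0 1) U0)) (Nat.shiftLeft (Nat.add (Nat.add 0 (Nat.mul (c3 0 2) U0)) (Nat.shiftLeft (Nat.add (Nat.add 0 (Nat.mul (c3 0 3) U0)) (Nat.shiftLeft (Nat.add (Nat.add 0 (Nat.mul (c3 0 4) U0)) (Nat.shiftLeft (Nat.add (Nat.add 0 (Nat.mul (c3 0 5) U0)) (Nat.shiftLeft (Nat.add (Nat.add 0 (Nat.mul (c3 0 6) U0)) (Nat.shiftLeft 0 sh3)) sh3)) sh3)) sh3)) sh3)) sh3)) sh3)) (Nat.add 0 (Nat.mul 4 (E 0 0 0))))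
theorem G4_p_eq (E : ℕ → ℕ → ℕ → ℕ) (c3 : ℕ → ℕ → ℕ) (sh3 : ℕ) (c4 : ℕ → ℕ → ℕ) (sh4 : ℕ) :
    zN1 true E c3 sh3 7 c4 sh4 8 mm.G4 = G4_p E c3 sh3 c4 sh4 := rfl
def G4_n (E : ℕ → ℕ → ℕ → ℕ) (c3 : ℕ → ℕ → ℕ) (sh3 : ℕ) (c4 : ℕ → ℕ → ℕ) (sh4 : ℕ) : ℕ :=
  (fun V0 : ℕ => Nat.add (Nat.add 0 (Nat.mul (c4 0 0) V0)) (Nat.shiftLeft (Nat.add (Nat.add 0 (Nat.mul (c4 0 1) V0)) (Nat.shiftLeft (Nat.add (Nat.add 0 (Nat.mul (c4 0 2) V0)) (Nat.shiftLeft (Nat.add (Nat.add 0 (Nat.mul (c4 0 3) V0)) (Nat.shiftLeft (Nat.add (Nat.add 0 (Nat.mul (c4 0 4) V0)) (Nat.shiftLeft (Nat.add (Nat.add 0 (Nat.mul (c4 0 5) V0)) (Nat.shiftLeft (Nat.add (Nat.add 0 (Nat.mul (c4 0 6) V0)) (Nat.shiftLeft (Nat.add (Nat.add 0 (Nat.mul (c4 0 7) V0)) (Nat.shiftLeft 0 sh4)) sh4)) sh4)) sh4)) sh4)) sh4)) sh4)) sh4))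 ((fun U0 : ℕ => Nat.add (Nat.add 0 (Nat.mul (c3 0 0) U0)) (Nat.shiftLeft (Nat.add (Nat.add 0 (Nat.mul (c3 0 1) U0)) (Nat.shiftLeft (Nat.add (Nat.add 0 (Nat.mul (c3 0 2) U0)) (Nat.shiftLeft (Nat.add (Nat.add 0 (Nat.mul (c3 0 3) U0)) (Nat.shiftLeft (Nat.add (Nat.add 0 (Nat.mul (c3 0 4) U0)) (Nat.shiftLeft (Nat.add (Nat.add 0 (Nat.mul (c3 0 5) U0)) (Nat.shiftLeft (Nat.add (Nat.add 0 (Nat.mul (c3 0 6) U0)) (Nat.shiftLeft 0 sh3)) sh3)) sh3)) sh3)) sh3)) sh3)) sh3)) (Nat.add 0 (Nat.mul 5 (E 0 0 2))))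
theorem G4_n_eq (E : ℕ → ℕ → ℕ → ℕ) (c3 : ℕ → ℕ → ℕ) (sh3 : ℕ) (c4 : ℕ → ℕ → ℕ) (sh4 : ℕ) :
    zN1 false E c3 sh3 7 c4 sh4 8 mm.G4 = G4_n E c3 sh3 c4 sh4 := rfl
def F1_p (E : ℕ → ℕ → ℕ → ℕ) (c3 : ℕ → ℕ → ℕ) (sh3 : ℕ) (c4 : ℕ → ℕ → ℕ) (sh4 : ℕ) : ℕ :=
  (fun V0 V2 : ℕ => Nat.add (Nat.add (Nat.add 0 (Nat.mul (c4 2 0) V2)) (Nat.mul (c4 0 0) V0)) (Nat.shiftLeft (Nat.add (Nat.add (Nat.add 0 (Nat.mul (c4 2 1) V2)) (Nat.mul (c4 0 1) V0)) (Nat.shiftLeft (Nat.add (Nat.add (Nat.add 0 (Nat.mul (c4 2 2) V2)) (Nat.mul (c4 0 2) V0)) (Nat.shiftLeft (Nat.add (Nat.add (Nat.add 0 (Nat.mul (c4 2 3) V2)) (Nat.mul (c4 0 3) V0)) (Nat.shiftLeft (Nat.add (Nat.add (Nat.add 0 (Nat.mul (c4 2 4) V2)) (Nat.mul (c4 0 4) V0)) (Nat.shiftLeft 0 sh4)) sh4)) sh4)) sh4)) sh4)) ((fun U1 : ℕ => Nat.add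 (Nat.add 0 (Nat.mul (c3 1 0) U1)) (Nat.shiftLeft (Nat.add (Nat.add 0 (Nat.mul (c3 1 1) U1)) (Nat.shiftLeft (Nat.add (Nat.add 0 (Nat.mul (c3 1 2) U1)) (Nat.shiftLeft (Nat.add (Nat.add 0 (Nat.mul (c3 1 3) U1)) (Nat.shiftLeft (Nat.add (Nat.add 0 (Nat.mul (c3 1 4) U1)) (Nat.shiftLeft 0 sh3)) sh3)) sh3)) sh3)) sh3)) (Nat.add 0 (Nat.mul 1 (E 0 0 0)))) ((fun U0 : ℕ => Nat.add (Nat.add 0 (Nat.mul (c3 0 0) U0)) (Nat.shiftLeft (Nat.add (Nat.add 0 (Nat.mul (c3 0 1) U0)) (Nat.shiftLeft (Nat.add (Nat.add 0 (Nat.mul (c3 0 2) U0)) (Nat.shiftLeft (Nat.add (Nat.add 0 (Nat.mul (c3 0 3) U0)) (Nat.shiftLeft (Nat.add (Nat.add 0 (Nat.mul (c3 0 4) U0)) (Nat.shiftLeft 0 sh3)) sh3)) sh3)) sh3)) sh3)) (Nat.add 0 (Nat.mul 4 (E 2 0 0))))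
theorem F1_p_eq (E : ℕ → ℕ → ℕ → ℕ) (c3 : ℕ → ℕ → ℕ) (sh3 : ℕ) (c4 : ℕ → ℕ → ℕ) (sh4 : ℕ) :
    zN1 true E c3 sh3 5 c4 sh4 5 mm.G1 = F1_p E c3 sh3 c4 sh4 := rfl
def F1_n (E : ℕ → ℕ → ℕ → ℕ) (c3 : ℕ → ℕ → ℕ) (sh3 : ℕ) (c4 : ℕ → ℕ → ℕ) (sh4 : ℕ) : ℕ :=
  (fun V0 V2 : ℕ => Nat.add (Nat.add (Nat.add 0 (Nat.mul (c4 2 0) V2)) (Nat.mul (c4 0 0) V0)) (Nat.shiftLeft (Nat.add (Nat.add (Nat.add 0 (Nat.mul (c4 2 1) V2)) (Nat.mul (c4 0 1) V0)) (Nat.shiftLeft (Nat.add (Nat.add (Nat.add 0 (Nat.mul (c4 2 2) V2)) (Nat.mul (c4 0 2) V0)) (Nat.shiftLeft (Nat.add (Nat.add (Nat.add 0 (Nat.mul (c4 2 3) V2)) (Nat.mul (c4 0 3) V0)) (Nat.shiftLeft (Nat.add (Nat.add (Nat.add 0 (Nat.mul (c4 2 4) V2)) (Nat.mul (c4 0 4) V0)) (Nat.shiftLeft 0 sh4)) sh4)) sh4)) sh4)) sh4)) (Nat.add 0 (Nat.shiftLeft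 (Nat.add 0 (Nat.shiftLeft (Nat.add 0 (Nat.shiftLeft (Nat.add 0 (Nat.shiftLeft (Nat.add 0 (Nat.shiftLeft 0 sh3)) sh3)) sh3)) sh3)) sh3)) ((fun U0 : ℕ => Nat.add (Nat.add 0 (Nat.mul (c3 0 0) U0)) (Nat.shiftLeft (Nat.add (Nat.add 0 (Nat.mul (c3 0 1) U0)) (Nat.shiftLeft (Nat.add (Nat.add 0 (Nat.mul (c3 0 2) U0)) (Nat.shiftLeft (Nat.add (Nat.add 0 (Nat.mul (c3 0 3) U0)) (Nat.shiftLeft (Nat.add (Nat.add 0 (Nat.mul (c3 0 4) U0)) (Nat.shiftLeft 0 sh3)) sh3)) sh3)) sh3)) sh3)) (Nat.add 0 (Nat.mul 4 (E 0 0 0))))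
theorem F1_n_eq (E : ℕ → ℕ → ℕ → ℕ) (c3 : ℕ → ℕ → ℕ) (sh3 : ℕ) (c4 : ℕ → ℕ → ℕ) (sh4 : ℕ) :
    zN1 false E c3 sh3 5 c4 sh4 5 mm.G1 = F1_n E c3 sh3 c4 sh4 := rfl
def F2_p (E : ℕ → ℕ → ℕ → ℕ) (c3 : ℕ → ℕ → ℕ) (sh3 : ℕ) (c4 : ℕ → ℕ → ℕ) (sh4 : ℕ) : ℕ :=
  (fun V0 V2 : ℕ => Nat.add (Nat.add (Nat.add 0 (Nat.mul (c4 2 0) V2)) (Nat.mul (c4 0 0) V0)) (Nat.shiftLeft (Nat.add (Nat.add (Nat.add 0 (Nat.mul (c4 2 1) V2)) (Nat.mul (c4 0 1) V0)) (Nat.shiftLeft (Nat.add (Nat.add (Nat.add 0 (Nat.mul (c4 2 2) V2)) (Nat.mul (c4 0 2) V0)) (Nat.shiftLeft (Nat.add (Nat.add (Nat.add 0 (Nat.mul (c4 2 3) V2)) (Nat.mul (c4 0 3) V0)) (Nat.shiftLeft (Nat.add (Nat.add (Nat.add 0 (Nat.mul (c4 2 4) V2)) (Nat.mul (c4 0 4) V0)) (Nat.shiftLeft 0 sh4)) sh4)) sh4)) sh4)) sh4)) ((fun U0 : ℕ => Nat.add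 (Nat.add 0 (Nat.mul (c3 0 0) U0)) (Nat.shiftLeft (Nat.add (Nat.add 0 (Nat.mul (c3 0 1) U0)) (Nat.shiftLeft (Nat.add (Nat.add 0 (Nat.mul (c3 0 2) U0)) (Nat.shiftLeft (Nat.add (Nat.add 0 (Nat.mul (c3 0 3) U0)) (Nat.shiftLeft (Nat.add (Nat.add 0 (Nat.mul (c3 0 4) U0)) (Nat.shiftLeft 0 sh3)) sh3)) sh3)) sh3)) sh3)) (Nat.add 0 (Nat.mul 5 (E 0 0 0)))) (Nat.add 0 (Nat.shiftLeft (Nat.add 0 (Nat.shiftLeft (Nat.add 0 (Nat.shiftLeft (Nat.add 0 (Nat.shiftLeft (Nat.add 0 (Nat.shiftLeft 0 sh3)) sh3)) sh3)) sh3)) sh3))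
theorem F2_p_eq (E : ℕ → ℕ → ℕ → ℕ) (c3 : ℕ → ℕ → ℕ) (sh3 : ℕ) (c4 : ℕ → ℕ → ℕ) (sh4 : ℕ) :
    zN1 true E c3 sh3 5 c4 sh4 5 mm.G2 = F2_p E c3 sh3 c4 sh4 := rfl
def F2_n (E : ℕ → ℕ → ℕ → ℕ) (c3 : ℕ → ℕ → ℕ) (sh3 : ℕ) (c4 : ℕ → ℕ → ℕ) (sh4 : ℕ) : ℕ :=
  (fun V0 V2 : ℕ => Nat.add (Nat.add (Nat.add 0 (Nat.mul (c4 2 0) V2)) (Nat.mul (c4 0 0) V0)) (Nat.shiftLeft (Nat.add (Nat.add (Nat.add 0 (Nat.mul (c4 2 1) V2)) (Nat.mul (c4 0 1) V0)) (Nat.shiftLeft (Nat.add (Nat.add (Nat.add 0 (Nat.mul (c4 2 2) V2)) (Nat.mul (c4 0 2) V0)) (Nat.shiftLeft (Nat.add (Nat.add (Nat.add 0 (Nat.mul (c4 2 3) V2)) (Nat.mul (c4 0 3) V0)) (Nat.shiftLeft (Nat.add (Nat.add (Nat.add 0 (Nat.mul (c4 2 4) V2)) (Nat.mul (c4 0 4) V0)) (Nat.shiftLeft 0 sh4)) sh4)) sh4)) sh4)) sh4)) ((fun U2 : ℕ => Nat.add (Nat.add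 0 (Nat.mul (c3 2 0) U2)) (Nat.shiftLeft (Nat.add (Nat.add 0 (Nat.mul (c3 2 1) U2)) (Nat.shiftLeft (Nat.add (Nat.add 0 (Nat.mul (c3 2 2) U2)) (Nat.shiftLeft (Nat.add (Nat.add 0 (Nat.mul (c3 2 3) U2)) (Nat.shiftLeft (Nat.add (Nat.add 0 (Nat.mul (c3 2 4) U2)) (Nat.shiftLeft 0 sh3)) sh3)) sh3)) sh3)) sh3)) (Nat.add 0 (Nat.mul 5 (E 0 0 0)))) ((fun U0 : ℕ => Nat.add (Nat.add 0 (Nat.mul (c3 0 0) U0)) (Nat.shiftLeft (Nat.add (Nat.add 0 (Nat.mul (c3 0 1) U0)) (Nat.shiftLeft (Nat.add (Nat.add 0 (Nat.mul (c3 0 2) U0)) (Nat.shiftLeft (Nat.add (Nat.add 0 (Nat.mul (c3 0 3) U0)) (Nat.shiftLeft (Nat.add (Nat.add 0 (Nat.mul (c3 0 4) U0)) (Nat.shiftLeft 0 sh3)) sh3)) sh3)) sh3)) sh3)) (Nat.add 0 (Nat.mul 56 (E 2 0 0))))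
theorem F2_n_eq (E : ℕ → ℕ → ℕ → ℕ) (c3 : ℕ → ℕ → ℕ) (sh3 : ℕ) (c4 : ℕ → ℕ → ℕ) (sh4 : ℕ) :
    zN1 false E c3 sh3 5 c4 sh4 5 mm.G2 = F2_n E c3 sh3 c4 sh4 := rfl
def F3_p (E : ℕ → ℕ → ℕ → ℕ) (c3 : ℕ → ℕ → ℕ) (sh3 : ℕ) (c4 : ℕ → ℕ → ℕ) (sh4 : ℕ) : ℕ :=
  (fun V0 : ℕ => Nat.add (Nat.add 0 (Nat.mul (c4 0 0) V0)) (Nat.shiftLeft (Nat.add (Nat.add 0 (Nat.mul (c4 0 1) V0)) (Nat.shiftLeft (Nat.add (Nat.add 0 (Nat.mul (c4 0 2) V0)) (Nat.shiftLeft (Nat.add (Nat.add 0 (Nat.mul (c4 0 3) V0)) (Nat.shiftLeft (Nat.add (Nat.add 0 (Nat.mul (c4 0 4) V0)) (Nat.shiftLeft 0 sh4)) sh4)) sh4)) sh4)) sh4)) ((fun U0 : ℕ => Nat.add (Nat.add 0 (Nat.mul (c3 0 0) U0)) (Nat.shiftLeft (Nat.add (Nat.add 0 (Nat.mul (c3 0 1) U0)) (Nat.shiftLeft (Nat.add (Nat.add 0 (Nat.mul (c3 0 2) U0)) (Nat.shiftLeft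 (Nat.add (Nat.add 0 (Nat.mul (c3 0 3) U0)) (Nat.shiftLeft (Nat.add (Nat.add 0 (Nat.mul (c3 0 4) U0)) (Nat.shiftLeft 0 sh3)) sh3)) sh3)) sh3)) sh3)) (Nat.add (Nat.add (Nat.add 0 (Nat.mul 720 (E 0 1 3))) (Nat.mul 840 (E 0 0 4))) (Nat.mul 64 (E 0 0 0))))
theorem F3_p_eq (E : ℕ → ℕ → ℕ → ℕ) (c3 : ℕ → ℕ → ℕ) (sh3 : ℕ) (c4 : ℕ → ℕ → ℕ) (sh4 : ℕ) :
    zN1 true E c3 sh3 5 c4 sh4 5 mm.G3 = F3_p E c3 sh3 c4 sh4 := rfl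
def F3_n (E : ℕ → ℕ → ℕ → ℕ) (c3 : ℕ → ℕ → ℕ) (sh3 : ℕ) (c4 : ℕ → ℕ → ℕ) (sh4 : ℕ) : ℕ :=
  (fun V0 : ℕ => Nat.add (Nat.add 0 (Nat.mul (c4 0 0) V0)) (Nat.shiftLeft (Nat.add (Nat.add 0 (Nat.mul (c4 0 1) V0)) (Nat.shiftLeft (Nat.add (Nat.add 0 (Nat.mul (c4 0 2) V0)) (Nat.shiftLeft (Nat.add (Nat.add 0 (Nat.mul (c4 0 3) V0)) (Nat.shiftLeft (Nat.add (Nat.add 0 (Nat.mul (c4 0 4) V0)) (Nat.shiftLeft 0 sh4)) sh4)) sh4)) sh4)) sh4)) ((fun U0 : ℕ => Nat.add (Nat.add 0 (Nat.mul (c3 0 0) U0)) (Nat.shiftLeft (Nat.add (Nat.add 0 (Nat.mul (c3 0 1) U0)) (Nat.shiftLeft (Nat.add (Nat.add 0 (Nat.mul (c3 0 2) U0)) (Nat.shiftLeft (Nat.add (Nat.add 0 (Nat.mul (c3 0 3) U0)) (Nat.shiftLeft (Nat.add (Nat.add 0 (Nat.mul (c3 0 4) U0)) (Nat.shiftLeft 0 sh3)) sh3)) sh3)) sh3)) sh3)) (Nat.add (Nat.add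 (Nat.add (Nat.add 0 (Nat.mul 192 (E 0 2 0))) (Nat.mul 288 (E 0 1 1))) (Nat.mul 800 (E 0 0 6))) (Nat.mul 348 (E 0 0 2))))
theorem F3_n_eq (E : ℕ → ℕ → ℕ → ℕ) (c3 : ℕ → ℕ → ℕ) (sh3 : ℕ) (c4 : ℕ → ℕ → ℕ) (sh4 : ℕ) :
    zN1 false E c3 sh3 5 c4 sh4 5 mm.G3 = F3_n E c3 sh3 c4 sh4 := rfl
def F4_p (E : ℕ → ℕ → ℕ → ℕ) (c3 : ℕ → ℕ → ℕ) (sh3 : ℕ) (c4 : ℕ → ℕ → ℕ) (sh4 : ℕ) : ℕ :=
  (fun V0 : ℕ => Nat.add (Nat.add 0 (Nat.mul (c4 0 0) V0)) (Nat.shiftLeft (Nat.add (Nat.add 0 (Nat.mul (c4 0 1) V0)) (Nat.shiftLeft (Nat.add (Nat.add 0 (Nat.mul (c4 0 2) V0)) (Nat.shiftLeft (Nat.add (Nat.add 0 (Nat.mul (c4 0 3) V0)) (Nat.shiftLeft (Nat.add (Nat.add 0 (Nat.mul (c4 0 4) V0)) (Nat.shiftLeft 0 sh4)) sh4)) sh4)) sh4)) sh4)) ((fun U0 : ℕ => Nat.add (Nat.add 0 (Nat.mul (c3 0 0) U0)) (Nat.shiftLeft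 (Nat.add (Nat.add 0 (Nat.mul (c3 0 1) U0)) (Nat.shiftLeft (Nat.add (Nat.add 0 (Nat.mul (c3 0 2) U0)) (Nat.shiftLeft (Nat.add (Nat.add 0 (Nat.mul (c3 0 3) U0)) (Nat.shiftLeft (Nat.add (Nat.add 0 (Nat.mul (c3 0 4) U0)) (Nat.shiftLeft 0 sh3)) sh3)) sh3)) sh3)) sh3)) (Nat.add 0 (Nat.mul 4 (E 0 0 0))))
theorem F4_p_eq (E : ℕ → ℕ → ℕ → ℕ) (c3 : ℕ → ℕ → ℕ) (sh3 : ℕ) (c4 : ℕ → ℕ → ℕ) (sh4 : ℕ) :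
    zN1 true E c3 sh3 5 c4 sh4 5 mm.G4 = F4_p E c3 sh3 c4 sh4 := rfl
def F4_n (E : ℕ → ℕ → ℕ → ℕ) (c3 : ℕ → ℕ → ℕ) (sh3 : ℕ) (c4 : ℕ → ℕ → ℕ) (sh4 : ℕ) : ℕ :=
  (fun V0 : ℕ => Nat.add (Nat.add 0 (Nat.mul (c4 0 0) V0)) (Nat.shiftLeft (Nat.add (Nat.add 0 (Nat.mul (c4 0 1) V0)) (Nat.shiftLeft (Nat.add (Nat.add 0 (Nat.mul (c4 0 2) V0)) (Nat.shiftLeft (Nat.add (Nat.add 0 (Nat.mul (c4 0 3) V0)) (Nat.shiftLeft (Nat.add (Nat.add 0 (Nat.mul (c4 0 4) V0)) (Nat.shiftLeft 0 sh4)) sh4)) sh4)) sh4)) sh4)) ((fun U0 : ℕ => Nat.add (Nat.add 0 (Nat.mul (c3 0 0) U0)) (Nat.shiftLeft (Nat.add (Nat.add 0 (Nat.mul (c3 0 1) U0)) (Nat.shiftLeft (Nat.add (Nat.add 0 (Nat.mul (c3 0 2) U0)) (Nat.shiftLeft (Nat.add (Nat.add 0 (Nat.mul (c3 0 3) U0)) (Nat.shiftLeft (Nat.add (Nat.add 0 (Nat.mul (c3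 0 4) U0)) (Nat.shiftLeft 0 sh3)) sh3)) sh3)) sh3)) sh3)) (Nat.add 0 (Nat.mul 5 (E 0 0 2))))
theorem F4_n_eq (E : ℕ → ℕ → ℕ → ℕ) (c3 : ℕ → ℕ → ℕ) (sh3 : ℕ) (c4 : ℕ → ℕ → ℕ) (sh4 : ℕ) :
    zN1 false E c3 sh3 5 c4 sh4 5 mm.G4 = F4_n E c3 sh3 c4 sh4 := rfl

/-- packed base -/
def bz (b : Bx) (w : ℕ) : BaseA (ℕ × ℕ) where
  L1 := (L1_p (ea b w) (t3a b) (Nat.mul w 714) (t4a b) (Nat.mul w 4998), L1_n (ea b w) (t3a b) (Nat.mul w 714) (t4a b) (Nat.mul w 4998))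
  L2 := (L2_p (ea b w) (t3a b) (Nat.mul w 714) (t4a b) (Nat.mul w 4998), L2_n (ea b w) (t3a b) (Nat.mul w 714) (t4a b) (Nat.mul w 4998))
  Lw := (Lw_p (ea b w) (t3a b) (Nat.mul w 714) (t4a b) (Nat.mul w 4998), Lw_n (ea b w) (t3a b) (Nat.mul w 714) (t4a b) (Nat.mul w 4998))
  A11 := (A11_p (ea b w) (t3a b) (Nat.mul w 714) (t4a b) (Nat.mul w 4998), A11_n (ea b w) (t3a b) (Nat.mul w 714) (t4a b) (Nat.mul w 4998))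
  A12 := (A12_p (ea b w) (t3a b) (Nat.mul w 714) (t4a b) (Nat.mul w 4998), A12_n (ea b w) (t3a b) (Nat.mul w 714) (t4a b) (Nat.mul w 4998))
  W1 := (W1_p (ea b w) (t3a b) (Nat.mul w 714) (t4a b) (Nat.mul w 4998), W1_n (ea b w) (t3a b) (Nat.mul w 714) (t4a b) (Nat.mul w 4998))
  W2 := (W2_p (ea b w) (t3a b) (Nat.mul w 714) (t4a b) (Nat.mul w 4998), W2_n (ea b w) (t3a b) (Nat.mul w 714) (t4a b) (Nat.mul w 4998))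
  psi := (psi_p (ea b w) (t3a b) (Nat.mul w 714) (t4a b) (Nat.mul w 4998), psi_n (ea b w) (t3a b) (Nat.mul w 714) (t4a b) (Nat.mul w 4998))
  g := (g_p (ea b w) (t3a b) (Nat.mul w 714) (t4a b) (Nat.mul w 4998), g_n (ea b w) (t3a b) (Nat.mul w 714) (t4a b) (Nat.mul w 4998))
  K11 := (K11_p (ea b w) (t3a b) (Nat.mul w 714) (t4a b) (Nat.mul w 4998), K11_n (ea b w) (t3a b) (Nat.mul w 714) (t4a b) (Nat.mul w 4998))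
  K12 := (K12_p (ea b w) (t3a b) (Nat.mul w 714) (t4a b) (Nat.mul w 4998), K12_n (ea b w) (t3a b) (Nat.mul w 714) (t4a b) (Nat.mul w 4998))
  K22 := (K22_p (ea b w) (t3a b) (Nat.mul w 714) (t4a b) (Nat.mul w 4998), K22_n (ea b w) (t3a b) (Nat.mul w 714) (t4a b) (Nat.mul w 4998))
  Ck := (Ck_p (ek b w) (t3k b) (Nat.mul w 714) (t4k b) (Nat.mul w 4998), Ck_n (ek b w) (t3k b) (Nat.mul w 714) (t4k b) (Nat.mul w 4998))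
  C0 := (C0_p (ec b w) (t3c b) (Nat.mul w 714) (t4c b) (Nat.mul w 4998), C0_n (ec b w) (t3c b) (Nat.mul w 714) (t4c b) (Nat.mul w 4998))
  G1 := (G1_p (eg1 b w) (t3g1 b) (Nat.mul w 714) (t4g1 b) (Nat.mul w 4998), G1_n (eg1 b w) (t3g1 b) (Nat.mul w 714) (t4g1 b) (Nat.mul w 4998))
  G2 := (G2_p (eg2 b w) (t3g2 b) (Nat.mul w 714) (t4g2 b) (Nat.mul w 4998), G2_n (eg2 b w) (t3g2 b) (Nat.mul w 714) (t4g2 b) (Nat.mul w 4998))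
  G3 := (G3_p (eg3 b w) (t3g3 b) (Nat.mul w 714) (t4g3 b) (Nat.mul w 4998), G3_n (eg3 b w) (t3g3 b) (Nat.mul w 714) (t4g3 b) (Nat.mul w 4998))
  G4 := (G4_p (eg4 b w) (t3g4 b) (Nat.mul w 714) (t4g4 b) (Nat.mul w 4998), G4_n (eg4 b w) (t3g4 b) (Nat.mul w 714) (t4g4 b) (Nat.mul w 4998))
  F1 := (F1_p (ef1 b w) (t3f1 b) (Nat.mul w 714) (t4f1 b) (Nat.mul w 4998), F1_n (ef1 b w) (t3f1 b) (Nat.mul w 714) (t4f1 b) (Nat.mul w 4998))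
  F2 := (F2_p (ef2 b w) (t3f2 b) (Nat.mul w 714) (t4f2 b) (Nat.mul w 4998), F2_n (ef2 b w) (t3f2 b) (Nat.mul w 714) (t4f2 b) (Nat.mul w 4998))
  F3 := (F3_p (ef3 b w) (t3f3 b) (Nat.mul w 714) (t4f3 b) (Nat.mul w 4998), F3_n (ef3 b w) (t3f3 b) (Nat.mul w 714) (t4f3 b) (Nat.mul w 4998))
  F4 := (F4_p (ef4 b w) (t3f4 b) (Nat.mul w 714) (t4f4 b) (Nat.mul w 4998), F4_n (ef4 b w) (t3f4 b) (Nat.mul w 714) (t4f4 b) (Nat.mul w 4998))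

theorem bz_eq (b : Bx) (w : ℕ) : bz b w = ds_mm.bS b w := by
  unfold bz
  rw [← L1_p_eq,
    ← L1_n_eq,
    ← L2_p_eq,
    ← L2_n_eq,
    ← Lw_p_eq,
    ← Lw_n_eq,
    ← A11_p_eq,
    ← A11_n_eq,
    ← A12_p_eq,
    ← A12_n_eq,
    ← W1_p_eq,
    ← W1_n_eq,
    ← W2_p_eq,
    ← W2_n_eq,
    ← psi_p_eq,
    ← psi_n_eq,
    ← g_p_eq,
    ← g_n_eq,
    ← K11_p_eq,
    ← K11_n_eq,
    ← K12_p_eq,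
    ← K12_n_eq,
    ← K22_p_eq,
    ← K22_n_eq,
    ← Ck_p_eq,
    ← Ck_n_eq,
    ← C0_p_eq,
    ← C0_n_eq,
    ← G1_p_eq,
    ← G1_n_eq,
    ← G2_p_eq,
    ← G2_n_eq,
    ← G3_p_eq,
    ← G3_n_eq,
    ← G4_p_eq,
    ← G4_n_eq,
    ← F1_p_eq,
    ← F1_n_eq,
    ← F2_p_eq,
    ← F2_n_eq,
    ← F3_p_eq,
    ← F3_n_eq,
    ← F4_p_eq,
    ← F4_n_eq]
  rfl

end Crest.Agent.R097.T5.Ymm
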