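import Mathlib

/-!
# Row 97: elimination of the third derivatives (one direction `k`)
-/

set_option autoImplicit false
open Finset

namespace Crest.Agent.R097.TEl

variable {n : ℕ}

/-- the block form of direction `k`: `t_k² + 3 ∑_{i≠k} t_i²` -/
noncomputable def G3 (k : Fin n) (t : Fin n → ℝ) : ℝ := 3 * ∑ i, t i ^ 2 - 2 * t k ^ 2

/-- power sums -/
noncomputable def ps (l : Fin n → ℝ) (j : ℕ) : ℝ := ∑ i, l i ^ j

/-- entries of the Gram matrix, `x = λ_k`, `a = P₂`, `c = P₃`, `p4 = P₄` -/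
noncomputable def K11 (n : ℕ) (x a : ℝ) : ℝ := (a + 2 * n * x ^ 2 / (n + 2)) / 3
noncomputable def K12 (n : ℕ) (x a c : ℝ) : ℝ := (c - 2 * a * x / (n + 2) + 2 * n * x ^ 3 / (n + 2)) / 3
noncomputable def K22 (n : ℕ) (x a p4 : ℝ) : ℝ :=
  (p4 - 2 * x ^ 2 * a + n * x ^ 4 - (a - n * x ^ 2) ^ 2 / (n + 2)) / 3

/-- completion of the square -/
theorem G3_ge (k : Fin n) (t v : Fin n → ℝ) (ht : ∑ i, t i = 0) :
    2 * ∑ i, v i * t i - (∑ i, (v i - v k) ^ 2 - (∑ i, (v i - v k)) ^ 2 / (n + 2)) / 3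
      ≤ G3 k t := by
  have hn : (0:ℝ) < (n:ℝ) + 2 := by positivity
  set U : ℝ := ∑ i, (v i - v k) with hU
  set S2 : ℝ := ∑ i, (v i - v k) ^ 2 with hS2
  set V : ℝ := ∑ i, v i * t i with hV
  set T2 : ℝ := ∑ i, t i ^ 2 with hT2
  have h1 : ∑ i, (v i - v k) * t i = V := by
    have : ∑ i, (v i - v k) * t i = V - v k * ∑ i, t i := by
      rw [hV, mul_sum, ← sum_sub_distrib]
      exact sum_congr rfl fun i _ => by ring
    rw [this, ht]; ring
  -- the minimiser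
  set r : Fin n → ℝ := fun i => ((v i - v k) - U / (n + 2)) / 3 with hr
  have h2 : 0 ≤ ∑ i ∈ univ.erase k, (t i - r i) ^ 2 := sum_nonneg fun i _ => sq_nonneg _
  have h3 : ∑ i ∈ univ.erase k, (t i - r i) ^ 2 = ∑ i, (t i - r i) ^ 2 - (t k - r k) ^ 2 := by
    rw [← add_sum_erase univ (fun i => (t i - r i) ^ 2) (mem_univ k)]; ring
  have hcard : ∑ _i : Fin n, (1:ℝ) = n := by simp
  have hrk : r k = -(U / (n + 2)) / 3 := by rw [hr]; ring
  have h4 : ∑ i, (t i - r i) ^ 2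
      = T2 - (2 / 3) * V + (S2 - 2 * (U / (n + 2)) * U + n * (U / (n + 2)) ^ 2) / 9 := by
    have e : ∀ i, (t i - r i) ^ 2 = t i ^ 2 - (2 / 3) * ((v i - v k) * t i)
        + (2 / 3) * (U / (n + 2)) * t i
        + ((v i - v k) ^ 2 - 2 * (U / (n + 2)) * (v i - v k) + (U / (n + 2)) ^ 2 * 1) / 9 := by
      intro i; rw [hr]; ring
    rw [sum_congr rfl fun i _ => e i]
    rw [sum_add_distrib, sum_add_distrib, sum_sub_distrib, ← mul_sum, ← mul_sum, ← sum_div,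
      sum_add_distrib, sum_sub_distrib, ← mul_sum, ← mul_sum, h1, ht, hcard]
    ring
  have hsr : ∑ i ∈ univ.erase k, t i = - t k := by
    have := add_sum_erase univ t (mem_univ k)
    linarith
  -- expand
  have key : G3 k t - (2 * V - (S2 - U ^ 2 / (n + 2)) / 3)
      = 3 * (∑ i, (t i - r i) ^ 2 - (t k - r k) ^ 2) + (-(t k) - U / (n + 2)) ^ 2 := by
    rw [h4, hrk, G3]
    field_simp
    ring
  have h5 : 0 ≤ (-(t k) - U / (n + 2)) ^ 2 := sq_nonneg _
  rw [h3] at h2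
  linarith

/-- elimination: lower bound of the block form through `τ₁ = ∑ λᵢ tᵢ`, `τ₂ = ∑ λᵢ² tᵢ` -/
theorem G3_ge' (k : Fin n) (t l : Fin n → ℝ) (ht : ∑ i, t i = 0) (hl : ∑ i, l i = 0) (α β : ℝ) :
    2 * (α * ∑ i, l i * t i + β * ∑ i, l i ^ 2 * t i)
      - (α ^ 2 * K11 n (l k) (ps l 2) + 2 * α * β * K12 n (l k) (ps l 2) (ps l 3)
          + β ^ 2 * K22 n (l k) (ps l 2) (ps l 4)) ≤ G3 k t := by
  have hn : (0:ℝ) < (n:ℝ) + 2 := by positivity
  have h := G3_ge k t (fun i => α * l i + β * l i ^ 2) ht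
  have hcard : ∑ _i : Fin n, (1:ℝ) = n := by simp
  have e1 : ∑ i, (α * l i + β * l i ^ 2) * t i
      = α * ∑ i, l i * t i + β * ∑ i, l i ^ 2 * t i := by
    rw [mul_sum, mul_sum, ← sum_add_distrib]
    exact sum_congr rfl fun i _ => by ring
  have e2 : ∑ i, (α * l i + β * l i ^ 2 - (α * l k + β * l k ^ 2))
      = β * ps l 2 - n * (α * l k + β * l k ^ 2) := by
    have : ∀ i, (α * l i + β * l i ^ 2 - (α * l k + β * l k ^ 2))
        = α * l i + β * l i ^ 2 - (α * l k + β * l k ^ 2) * 1 := fun i => by ring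
    rw [sum_congr rfl fun i _ => this i, sum_sub_distrib, sum_add_distrib, ← mul_sum, ← mul_sum,
      ← mul_sum, hl, hcard, ps]
    ring
  have e3 : ∑ i, (α * l i + β * l i ^ 2 - (α * l k + β * l k ^ 2)) ^ 2
      = α ^ 2 * ps l 2 + 2 * α * β * ps l 3 + β ^ 2 * ps l 4
        - 2 * (α * l k + β * l k ^ 2) * (β * ps l 2) + n * (α * l k + β * l k ^ 2) ^ 2 := by
    have : ∀ i, (α * l i + β * l i ^ 2 - (α * l k + β * l k ^ 2)) ^ 2
        = α ^ 2 * l i ^ 2 + 2 * α * β * l i ^ 3 + β ^ 2 * l i ^ 4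
          - 2 * (α * l k + β * l k ^ 2) * α * l i - 2 * (α * l k + β * l k ^ 2) * β * l i ^ 2
          + (α * l k + β * l k ^ 2) ^ 2 * 1 := fun i => by ring
    rw [sum_congr rfl fun i _ => this i]
    simp only [sum_add_distrib, sum_sub_distrib, ← mul_sum]
    rw [hl, hcard]
    simp only [ps]
    ring
  simp only [e1, e2, e3] at h
  refine le_trans (le_of_eq ?_) h
  rw [K11, K12, K22]
  field_simp
  ring

end Crest.Agent.R097.TEl
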