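import Crest.Agent.R097.V4
import Crest.Agent.R097.KA4

/-!
# Row 97: scalar parts of the certificate, `n = 4`
-/

set_option autoImplicit false
set_option maxRecDepth 100000

namespace Crest.Agent.R097.V4

open CP SC KB

theorem runZ : run 4 116 10 [4, 2, 3, 3] [2048, 1184, 2048, 3740] (mkcls ⟨3, 1, 2, 2⟩ (up 0 ZA ++ dn 2 ZB) [G1 4, G2 3 1] 1 [[0, 0], [100, 0]] [])
    (.node 0 (.leaf 0) (.node 2 (.leaf 0) (.leaf 1))) (bx4 10 592 1870) = true := by decide +kernel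

theorem rung : run 4 138 10 [6, 2, 3, 3] [2048, 1184, 2048, 3740] (mkcls ⟨5, 1, 2, 2⟩ (up 0 g) [G1 4, G2 3 1] 0 [[0, 0]] [])
    (.node 0 (.leaf 0) (.node 2 (.node 3 (.leaf 0) (.leaf 0)) (.leaf 0))) (bx4 10 592 1870) = true := by decide +kernel

theorem runB : run 4 198 10 [8, 3, 7, 1] [2048, 1184, 1774, 1] (mkcls ⟨7, 2, 6, 0⟩ (bjF g p0A p0B p1 p2 [] ZA ZB) (G3 4) 0 [[0], [1], [4]] [(0, 1000000)])
    (.node 0 (.node 1 (.node 2 (.leaf 0) (.leaf 0)) (.node 2 (.leaf 0) (.node 2 (.leaf 0) (.leaf 0)))) (.node 1 (.node 2 (.node 0 (.node 1 (.leaf 0) (.leaf 0)) (.node 1 (.node 2 (.node 0 (.node 1 (.node 2 (.node 0 (.leaf 1) (.leaf 1)) (.leaf 3)) (.node 2 (.node 0 (.node 1 (.node 2 (.leaf 1) (.leaf 0)) (.node 2 (.leaf 3) (.leaf 0))) (.node 1 (.node 2 (.leaf 1) (.leaf 0)) (.node 2 (.leaf 3) (.leaf 1)))) (.leaf 3))) (.node 1 (.leaf 0) (.node 2 (.leaf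 1) (.leaf 3)))) (.leaf 3)) (.node 2 (.node 0 (.node 1 (.node 2 (.node 0 (.node 1 (.node 2 (.leaf 3) (.leaf 1)) (.leaf 1)) (.node 1 (.node 2 (.leaf 3) (.leaf 1)) (.leaf 2))) (.leaf 0)) (.node 2 (.leaf 3) (.node 2 (.node 0 (.leaf 0) (.node 1 (.leaf 1) (.leaf 1))) (.leaf 0)))) (.node 1 (.node 2 (.node 0 (.node 1 (.leaf 1) (.leaf 1)) (.leaf 1)) (.leaf 0)) (.node 2 (.leaf 3) (.node 2 (.node 0 (.node 1 (.leaf 1) (.leaf 1)) (.leaf 1)) (.leaf 0))))) (.leaf 0)))) (.leaf 0)) (.node 2 (.node 0 (.node 1 (.leaf 0) (.leaf 0)) (.node 1 (.node 2 (.node 0 (.node 1 (.node 2 (.leaf 3) (.node 2 (.leaf 1) (.leaf 1))) (.leaf 0)) (.node 1 (.node 2 (.leaf 3) (.node 2 (.leaf 2) (.node 0 (.node 1 (.leaf 1) (.leaf 1)) (.node 1 (.leaf 1) (.leaf 1))))) (.leaf 2))) (.node 2 (.node 0 (.node 1 (.leaf 0) (.leaf 0)) (.node 1 (.leaf 0) (.node 2 (.node 0 (.leaf 1) (.node 1 (.leaf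 1) (.leaf 1))) (.leaf 0)))) (.leaf 0))) (.node 2 (.leaf 3) (.node 2 (.node 0 (.leaf 0) (.node 1 (.node 2 (.leaf 3) (.node 0 (.leaf 0) (.node 1 (.leaf 1) (.leaf 1)))) (.leaf 3))) (.node 0 (.leaf 0) (.node 1 (.leaf 0) (.node 2 (.leaf 1) (.node 0 (.leaf 0) (.node 1 (.leaf 0) (.leaf 0)))))))))) (.node 2 (.node 0 (.node 1 (.leaf 0) (.node 2 (.leaf 0) (.leaf 0))) (.leaf 0)) (.leaf 0))))) (bx3 10 592 887) = true := by decide +kernel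

theorem hZB : ∀ m ∈ ZB, 1 ≤ m.j := by decide
theorem hp0B : ∀ m ∈ p0B, 1 ≤ m.j := by decide

theorem Zpos (l : Fin 4 → ℝ) (y : Fin 4 → ℝ) (h : NAdm P.A0 l y) : 0 < Pol.ev (oneSub ZA ++ ZB) y :=
  zpos_of_run runZ (by norm_num) (by norm_num) (by norm_num) (by norm_num) (by norm_num)
    (by norm_num) hZB h.tr h.sq h.cu h.z0 h.z1 h.v0 h.q0 h.q1 h.ap

theorem gnn (l : Fin 4 → ℝ) (y : Fin 4 → ℝ) (h : NAdm P.A0 l y) : 0 ≤ Pol.ev g y :=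
  gnn_of_run rung le_rfl (by norm_num) (by norm_num) (by norm_num) (by norm_num)
    (by norm_num) h.tr h.sq h.cu h.z0 h.z1 h.v0 h.q0 h.q1 h.ap

theorem BJ (l : Fin 4 → ℝ) (y : Fin 4 → ℝ) (H : NAdm P.A0 l y) (h2 : y 2 = 1) (h3 : y 3 = 0)
    (k : Fin 4) (h : ℝ) (hh : 0 ≤ h) (hk : l k = -h) :
    0 ≤ h * Pol.ev (oneSub ZA ++ ZB) y + Pol.ev (oneSub p0A ++ p0B) y - h * Pol.ev p1 y
      + h ^ 2 * Pol.ev p2 y - h ^ 3 * Pol.ev [] y - Pol.ev g y * (2 * h * (1 - y 0) + y 1) :=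
  bj_of_run runB (by norm_num) (by norm_num) (by norm_num) (by norm_num) hp0B l y H.tr H.sq H.cu
    H.z0 H.z1 h2 h3 k h hh hk

theorem ncert (hS : CQ.CoverS' P D) : NCert 4 P.A0 P.Lam D :=
  ncert_ofQ (P := P) (by unfold CQ.nOK; decide) (by decide) (by decide) (by decide) (by decide)
    Zpos gnn BJ hZB hp0B hS

/-- **the certificate from the cover of chart `S`** -/
theorem cert (hS : CQ.CoverS' P D) : Cert 4 (D.cert P.A0) P.Lam :=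
  cert_of_ncert (ncert hS) (by norm_num)

end Crest.Agent.R097.V4
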