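import Crest.Agent.R097.V5
import Crest.Agent.R097.SC5

/-!
# Row 97: scalar parts of the certificate, `n = 5`, box checks 1
-/

set_option autoImplicit false
set_option maxRecDepth 100000

namespace Crest.Agent.R097.V5

open CP SC KB

theorem runB_3 : run 4 264 10 [13, 4, 7, 1] [2048, 1374, 1832, 1] (mkcls ⟨12, 3, 6, 0⟩ (bjF g p0A p0B p1 p2 [] ZA ZB) (G3 5) 0 [[0], [12]] [(0, 1000000)])
    (.node 1 (.node 2 (.node 0 (.leaf 0) (.node 2 (.node 1 (.leaf 1) (.leaf 1)) (.leaf 2))) (.leaf 2)) (.node 2 (.node 1 (.node 0 (.leaf 0) (.node 2 (.leaf 1) (.leaf 0))) (.leaf 1)) (.leaf 2)))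
    [(896, 960), (-687, -516), (-916, -802), (0, 1)] = true := by decide +kernel

theorem runB_4 : run 4 264 10 [13, 4, 7, 1] [2048, 1374, 1832, 1] (mkcls ⟨12, 3, 6, 0⟩ (bjF g p0A p0B p1 p2 [] ZA ZB) (G3 5) 0 [[0], [12]] [(0, 1000000)])
    (.node 1 (.node 2 (.node 0 (.node 2 (.node 1 (.leaf 1) (.leaf 1)) (.leaf 2)) (.node 2 (.node 1 (.leaf 1) (.leaf 1)) (.leaf 2))) (.leaf 2)) (.node 2 (.node 1 (.node 0 (.node 2 (.leaf 1) (.leaf 0)) (.node 2 (.leaf 1) (.leaf 0))) (.node 0 (.node 2 (.leaf 2) (.leaf 0)) (.node 2 (.leaf 2) (.leaf 0)))) (.leaf 2)))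
    [(960, 1024), (-687, -516), (-916, -802), (0, 1)] = true := by decide +kernel

theorem runB_5 : run 4 264 10 [13, 4, 7, 1] [2048, 1374, 1832, 1] (mkcls ⟨12, 3, 6, 0⟩ (bjF g p0A p0B p1 p2 [] ZA ZB) (G3 5) 0 [[0], [12]] [(0, 1000000)])
    (.node 1 (.node 0 (.node 2 (.leaf 0) (.leaf 0)) (.node 2 (.leaf 0) (.leaf 0))) (.leaf 0))
    [(896, 1024), (-516, -344), (-916, -802), (0, 1)] = true := by decide +kernel

theorem runB_6 : run 4 264 10 [13, 4, 7, 1] [2048, 1374, 1832, 1] (mkcls ⟨12, 3, 6, 0⟩ (bjF g p0A p0B p1 p2 [] ZA ZB) (G3 5) 0 [[0], [12]] [(0, 1000000)])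
    (.leaf 0)
    [(896, 1024), (-687, -344), (-802, -687), (0, 1)] = true := by decide +kernel

theorem runB_7 : run 4 264 10 [13, 4, 7, 1] [2048, 1374, 1832, 1] (mkcls ⟨12, 3, 6, 0⟩ (bjF g p0A p0B p1 p2 [] ZA ZB) (G3 5) 0 [[0], [12]] [(0, 1000000)])
    (.leaf 2)
    [(768, 1024), (-687, -344), (-687, -458), (0, 1)] = true := by decide +kernel

theorem runB_8 : run 4 264 10 [13, 4, 7, 1] [2048, 1374, 1832, 1] (mkcls ⟨12, 3, 6, 0⟩ (bjF g p0A p0B p1 p2 [] ZA ZB) (G3 5) 0 [[0], [12]] [(0, 1000000)])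
    (.node 2 (.node 1 (.node 0 (.leaf 0) (.node 2 (.leaf 0) (.node 2 (.leaf 0) (.leaf 0)))) (.node 0 (.leaf 0) (.node 2 (.leaf 2) (.leaf 0)))) (.leaf 0))
    [(768, 1024), (-344, 0), (-916, -458), (0, 1)] = true := by decide +kernel

theorem runB_9 : run 4 264 10 [13, 4, 7, 1] [2048, 1374, 1832, 1] (mkcls ⟨12, 3, 6, 0⟩ (bjF g p0A p0B p1 p2 [] ZA ZB) (G3 5) 0 [[0], [12]] [(0, 1000000)])
    (.leaf 0)
    [(512, 1024), (-687, 0), (-458, 0), (0, 1)] = true := by decide +kernel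

theorem runB_10 : run 4 264 10 [13, 4, 7, 1] [2048, 1374, 1832, 1] (mkcls ⟨12, 3, 6, 0⟩ (bjF g p0A p0B p1 p2 [] ZA ZB) (G3 5) 0 [[0], [12]] [(0, 1000000)])
    (.node 1 (.node 2 (.leaf 0) (.leaf 0)) (.node 2 (.leaf 2) (.node 1 (.leaf 0) (.leaf 0))))
    [(512, 768), (0, 687), (-916, -458), (0, 1)] = true := by decide +kernel

theorem runB_11 : run 4 264 10 [13, 4, 7, 1] [2048, 1374, 1832, 1] (mkcls ⟨12, 3, 6, 0⟩ (bjF g p0A p0B p1 p2 [] ZA ZB) (G3 5) 0 [[0], [12]] [(0, 1000000)])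
    (.node 2 (.leaf 0) (.node 0 (.node 2 (.node 1 (.leaf 0) (.leaf 0)) (.leaf 0)) (.node 2 (.node 1 (.leaf 0) (.leaf 0)) (.leaf 0))))
    [(768, 1024), (0, 343), (-916, -458), (0, 1)] = true := by decide +kernel

theorem runB_12 : run 4 264 10 [13, 4, 7, 1] [2048, 1374, 1832, 1] (mkcls ⟨12, 3, 6, 0⟩ (bjF g p0A p0B p1 p2 [] ZA ZB) (G3 5) 0 [[0], [12]] [(0, 1000000)])
    (.leaf 2)
    [(768, 1024), (343, 687), (-916, -687), (0, 1)] = true := by decide +kernel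

theorem runB_13 : run 4 264 10 [13, 4, 7, 1] [2048, 1374, 1832, 1] (mkcls ⟨12, 3, 6, 0⟩ (bjF g p0A p0B p1 p2 [] ZA ZB) (G3 5) 0 [[0], [12]] [(0, 1000000)])
    (.leaf 0)
    [(768, 896), (343, 515), (-687, -458), (0, 1)] = true := by decide +kernel

theorem runB_14 : run 4 264 10 [13, 4, 7, 1] [2048, 1374, 1832, 1] (mkcls ⟨12, 3, 6, 0⟩ (bjF g p0A p0B p1 p2 [] ZA ZB) (G3 5) 0 [[0], [12]] [(0, 1000000)])
    (.node 1 (.node 0 (.leaf 0) (.node 2 (.leaf 2) (.node 1 (.node 0 (.leaf 0) (.node 2 (.leaf 2) (.node 2 (.leaf 1) (.leaf 0)))) (.leaf 2)))) (.leaf 2))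
    [(896, 1024), (343, 515), (-687, -573), (0, 1)] = true := by decide +kernel

theorem runB_15 : run 4 264 10 [13, 4, 7, 1] [2048, 1374, 1832, 1] (mkcls ⟨12, 3, 6, 0⟩ (bjF g p0A p0B p1 p2 [] ZA ZB) (G3 5) 0 [[0], [12]] [(0, 1000000)])
    (.node 2 (.node 1 (.node 0 (.leaf 0) (.node 1 (.leaf 0) (.node 0 (.leaf 0) (.node 2 (.node 1 (.leaf 0) (.node 0 (.node 2 (.leaf 2) (.leaf 0)) (.node 2 (.leaf 2) (.leaf 0)))) (.leaf 0))))) (.node 0 (.node 1 (.node 0 (.leaf 0) (.node 2 (.leaf 2) (.leaf 0))) (.leaf 1)) (.node 1 (.node 0 (.node 2 (.leaf 2) (.leaf 0)) (.node 2 (.leaf 2) (.node 2 (.node 1 (.leaf 0) (.leaf 1)) (.leaf 0)))) (.leaf 1)))) (.leaf 0))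
    [(896, 1024), (343, 515), (-573, -458), (0, 1)] = true := by decide +kernel

theorem runB_16 : run 4 264 10 [13, 4, 7, 1] [2048, 1374, 1832, 1] (mkcls ⟨12, 3, 6, 0⟩ (bjF g p0A p0B p1 p2 [] ZA ZB) (G3 5) 0 [[0], [12]] [(0, 1000000)])
    (.node 0 (.node 2 (.leaf 2) (.node 2 (.leaf 2) (.node 1 (.leaf 0) (.leaf 2)))) (.node 2 (.leaf 2) (.node 2 (.leaf 2) (.node 1 (.node 0 (.node 2 (.leaf 1) (.leaf 0)) (.node 2 (.leaf 1) (.leaf 0))) (.leaf 2)))))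
    [(768, 1024), (515, 687), (-687, -458), (0, 1)] = true := by decide +kernel

end Crest.Agent.R097.V5
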