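import Crest.Agent.R097.V5
import Crest.Agent.R097.SC5

/-!
# Row 97: scalar parts of the certificate, `n = 5`, box checks 2
-/

set_option autoImplicit false
set_option maxRecDepth 100000

namespace Crest.Agent.R097.V5

open CP SC KB

theorem runB_17 : run 4 264 10 [13, 4, 7, 1] [2048, 1374, 1832, 1] (mkcls ⟨12, 3, 6, 0⟩ (bjF g p0A p0B p1 p2 [] ZA ZB) (G3 5) 0 [[0], [12]] [(0, 1000000)])
    (.leaf 0)
    [(512, 768), (0, 343), (-458, 0), (0, 1)] = true := by decide +kernel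

theorem runB_18 : run 4 264 10 [13, 4, 7, 1] [2048, 1374, 1832, 1] (mkcls ⟨12, 3, 6, 0⟩ (bjF g p0A p0B p1 p2 [] ZA ZB) (G3 5) 0 [[0], [12]] [(0, 1000000)])
    (.node 1 (.leaf 0) (.leaf 0))
    [(512, 768), (343, 687), (-458, -229), (0, 1)] = true := by decide +kernel

theorem runB_19 : run 4 264 10 [13, 4, 7, 1] [2048, 1374, 1832, 1] (mkcls ⟨12, 3, 6, 0⟩ (bjF g p0A p0B p1 p2 [] ZA ZB) (G3 5) 0 [[0], [12]] [(0, 1000000)])
    (.leaf 0)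
    [(512, 768), (343, 515), (-229, 0), (0, 1)] = true := by decide +kernel

theorem runB_20 : run 4 264 10 [13, 4, 7, 1] [2048, 1374, 1832, 1] (mkcls ⟨12, 3, 6, 0⟩ (bjF g p0A p0B p1 p2 [] ZA ZB) (G3 5) 0 [[0], [12]] [(0, 1000000)])
    (.leaf 0)
    [(512, 640), (515, 687), (-229, 0), (0, 1)] = true := by decide +kernel

theorem runB_21 : run 4 264 10 [13, 4, 7, 1] [2048, 1374, 1832, 1] (mkcls ⟨12, 3, 6, 0⟩ (bjF g p0A p0B p1 p2 [] ZA ZB) (G3 5) 0 [[0], [12]] [(0, 1000000)])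
    (.node 1 (.leaf 0) (.node 0 (.leaf 0) (.node 2 (.leaf 0) (.node 1 (.leaf 0) (.node 0 (.node 2 (.leaf 0) (.node 2 (.leaf 0) (.node 1 (.leaf 0) (.node 0 (.leaf 0) (.node 2 (.leaf 0) (.leaf 2)))))) (.node 2 (.leaf 0) (.node 2 (.leaf 0) (.node 1 (.leaf 0) (.node 0 (.node 2 (.leaf 0) (.leaf 2)) (.node 2 (.leaf 0) (.leaf 2)))))))))))
    [(640, 768), (515, 687), (-229, -115), (0, 1)] = true := by decide +kernel

theorem runB_22 : run 4 264 10 [13, 4, 7, 1] [2048, 1374, 1832, 1] (mkcls ⟨12, 3, 6, 0⟩ (bjF g p0A p0B p1 p2 [] ZA ZB) (G3 5) 0 [[0], [12]] [(0, 1000000)])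
    (.leaf 0)
    [(640, 768), (515, 601), (-115, -58), (0, 1)] = true := by decide +kernel

theorem runB_23 : run 4 264 10 [13, 4, 7, 1] [2048, 1374, 1832, 1] (mkcls ⟨12, 3, 6, 0⟩ (bjF g p0A p0B p1 p2 [] ZA ZB) (G3 5) 0 [[0], [12]] [(0, 1000000)])
    (.node 1 (.leaf 0) (.node 0 (.leaf 0) (.node 2 (.node 1 (.leaf 0) (.leaf 2)) (.node 2 (.node 1 (.leaf 0) (.leaf 2)) (.leaf 2)))))
    [(640, 704), (601, 687), (-115, -58), (0, 1)] = true := by decide +kernel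

theorem runB_24 : run 4 264 10 [13, 4, 7, 1] [2048, 1374, 1832, 1] (mkcls ⟨12, 3, 6, 0⟩ (bjF g p0A p0B p1 p2 [] ZA ZB) (G3 5) 0 [[0], [12]] [(0, 1000000)])
    (.node 1 (.leaf 0) (.node 0 (.node 2 (.node 1 (.leaf 0) (.leaf 2)) (.node 2 (.node 1 (.leaf 0) (.leaf 2)) (.leaf 2))) (.node 2 (.node 1 (.leaf 0) (.leaf 2)) (.node 2 (.node 1 (.node 0 (.node 0 (.node 1 (.leaf 0) (.leaf 2)) (.node 1 (.leaf 0) (.leaf 2))) (.node 0 (.node 1 (.leaf 0) (.leaf 2)) (.node 1 (.leaf 0) (.leaf 2)))) (.leaf 2)) (.leaf 2)))))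
    [(704, 768), (601, 687), (-115, -58), (0, 1)] = true := by decide +kernel

theorem runB_25 : run 4 264 10 [13, 4, 7, 1] [2048, 1374, 1832, 1] (mkcls ⟨12, 3, 6, 0⟩ (bjF g p0A p0B p1 p2 [] ZA ZB) (G3 5) 0 [[0], [12]] [(0, 1000000)])
    (.node 1 (.leaf 0) (.node 0 (.node 2 (.node 1 (.leaf 0) (.leaf 2)) (.node 1 (.leaf 0) (.leaf 2))) (.node 2 (.node 1 (.leaf 0) (.leaf 2)) (.node 1 (.leaf 0) (.leaf 2)))))
    [(640, 768), (515, 687), (-58, 0), (0, 1)] = true := by decide +kernel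

theorem runB_26 : run 4 264 10 [13, 4, 7, 1] [2048, 1374, 1832, 1] (mkcls ⟨12, 3, 6, 0⟩ (bjF g p0A p0B p1 p2 [] ZA ZB) (G3 5) 0 [[0], [12]] [(0, 1000000)])
    (.leaf 0)
    [(768, 1024), (0, 343), (-458, 0), (0, 1)] = true := by decide +kernel

theorem runB_27 : run 4 264 10 [13, 4, 7, 1] [2048, 1374, 1832, 1] (mkcls ⟨12, 3, 6, 0⟩ (bjF g p0A p0B p1 p2 [] ZA ZB) (G3 5) 0 [[0], [12]] [(0, 1000000)])
    (.node 1 (.leaf 0) (.node 0 (.leaf 0) (.node 2 (.node 1 (.leaf 0) (.node 0 (.leaf 0) (.node 2 (.leaf 1) (.leaf 0)))) (.leaf 0))))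
    [(768, 1024), (343, 687), (-458, -229), (0, 1)] = true := by decide +kernel

theorem runB_28 : run 4 264 10 [13, 4, 7, 1] [2048, 1374, 1832, 1] (mkcls ⟨12, 3, 6, 0⟩ (bjF g p0A p0B p1 p2 [] ZA ZB) (G3 5) 0 [[0], [12]] [(0, 1000000)])
    (.leaf 0)
    [(768, 1024), (343, 515), (-229, 0), (0, 1)] = true := by decide +kernel

theorem runB_29 : run 4 264 10 [13, 4, 7, 1] [2048, 1374, 1832, 1] (mkcls ⟨12, 3, 6, 0⟩ (bjF g p0A p0B p1 p2 [] ZA ZB) (G3 5) 0 [[0], [12]] [(0, 1000000)])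
    (.leaf 0)
    [(768, 896), (515, 687), (-229, -115), (0, 1)] = true := by decide +kernel

theorem runB_30 : run 4 264 10 [13, 4, 7, 1] [2048, 1374, 1832, 1] (mkcls ⟨12, 3, 6, 0⟩ (bjF g p0A p0B p1 p2 [] ZA ZB) (G3 5) 0 [[0], [12]] [(0, 1000000)])
    (.node 2 (.node 1 (.leaf 0) (.node 0 (.node 1 (.leaf 0) (.node 0 (.node 2 (.node 1 (.leaf 0) (.leaf 2)) (.node 2 (.node 1 (.node 0 (.node 0 (.node 1 (.leaf 0) (.leaf 2)) (.leaf 0)) (.leaf 0)) (.leaf 2)) (.leaf 2))) (.node 2 (.leaf 0) (.node 2 (.node 1 (.leaf 0) (.leaf 2)) (.leaf 2))))) (.leaf 0))) (.node 1 (.leaf 0) (.node 0 (.node 2 (.node 1 (.leaf 0) (.leaf 2)) (.node 1 (.leaf 0) (.leaf 2))) (.node 2 (.node 1 (.leaf 0) (.leaf 2)) (.node 1 (.leaf 0) (.leaf 2))))))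
    [(768, 896), (515, 687), (-115, 0), (0, 1)] = true := by decide +kernel

theorem runB_31 : run 4 264 10 [13, 4, 7, 1] [2048, 1374, 1832, 1] (mkcls ⟨12, 3, 6, 0⟩ (bjF g p0A p0B p1 p2 [] ZA ZB) (G3 5) 0 [[0], [12]] [(0, 1000000)])
    (.leaf 0)
    [(896, 1024), (515, 687), (-229, 0), (0, 1)] = true := by decide +kernel

end Crest.Agent.R097.V5
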