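import Crest.Agent.R097.V5S0
import Crest.Agent.R097.V5S1
import Crest.Agent.R097.V5S2
import Crest.Agent.R097.SC8
import Crest.Agent.R097.KA4

/-!
# Row 97: scalar parts of the certificate, `n = 5`
-/

set_option autoImplicit false
set_option maxRecDepth 100000

namespace Crest.Agent.R097.V5

open CP SC KB

theorem runZ : run 4 203 10 [9, 3, 4, 4] [2048, 1374, 2048, 2386] (mkcls ⟨8, 2, 3, 3⟩ (up 0 ZA ++ dn 2 ZB) [G1 5, G2 1 1] 1 [[0, 0], [0, 1280], [1280, 0], [1280, 1280], [0, 5120], [5120, 0], [1280, 5120], [5120, 5120], [0, 20480], [1280, 20480], [5120, 20480]] [(0, 1000000), (1, 1000000)])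
    (.node 0 (.node 2 (.node 3 (.leaf 0) (.leaf 8)) (.node 3 (.leaf 0) (.node 1 (.node 0 (.leaf 0) (.node 3 (.leaf 2) (.node 2 (.node 1 (.node 0 (.leaf 4) (.node 3 (.node 2 (.leaf 3) (.node 1 (.node 0 (.leaf 2) (.node 2 (.leaf 6) (.leaf 5))) (.leaf 2))) (.leaf 12))) (.leaf 6)) (.node 1 (.node 0 (.leaf 6) (.leaf 5)) (.node 0 (.leaf 0) (.leaf 5)))))) (.leaf 2)))) (.node 2 (.node 3 (.leaf 0) (.node 1 (.node 0 (.node 3 (.leaf 3) (.leaf 10)) (.node 3 (.node 2 (.leaf 2) (.node 1 (.node 0 (.node 2 (.leaf 2) (.node 3 (.leaf 0) (.leaf 5))) (.node 2 (.node 3 (.leaf 2) (.leaf 11)) (.leaf 5))) (.leaf 2))) (.leaf 11))) (.node 0 (.node 3 (.leaf 1) (.leaf 9)) (.node 3 (.leaf 6) (.leaf 11))))) (.node 3 (.node 1 (.node 0 (.node 2 (.leaf 0) (.leaf 2)) (.node 2 (.node 3 (.leaf 0) (.leaf 2)) (.leaf 2))) (.node 0 (.leaf 0) (.node 2 (.leaf 0) (.leaf 2)))) (.node 1 (.node 0 (.node 3 (.node 2 (.node 1 (.node 0 (.leaf 2) (.node 2 (.node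 3 (.leaf 0) (.leaf 5)) (.node 3 (.leaf 2) (.leaf 5)))) (.leaf 2)) (.leaf 5)) (.node 2 (.node 1 (.node 0 (.node 3 (.node 2 (.node 1 (.node 0 (.node 2 (.leaf 6) (.node 3 (.leaf 2) (.leaf 5))) (.leaf 5)) (.leaf 10)) (.leaf 5)) (.leaf 5)) (.leaf 11)) (.leaf 10)) (.leaf 11))) (.node 3 (.node 2 (.node 1 (.node 0 (.node 2 (.node 3 (.leaf 2) (.leaf 11)) (.leaf 5)) (.leaf 5)) (.leaf 5)) (.leaf 11)) (.leaf 11))) (.node 0 (.node 3 (.leaf 2) (.leaf 7)) (.node 3 (.node 2 (.leaf 2) (.leaf 11)) (.leaf 11)))))))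
    (bx4 10 687 1193) = true :=
  (run_node 0 (bl := [(0, 512), (-687, 687), (0, 1024), (0, 1193)]) (br := [(512, 1024), (-687, 687), (0, 1024), (0, 1193)]) (by decide +kernel) (by decide +kernel)
    runZ_0 (run_node 2 (bl := [(512, 1024), (-687, 687), (0, 512), (0, 1193)]) (br := [(512, 1024), (-687, 687), (512, 1024), (0, 1193)]) (by decide +kernel) (by decide +kernel)
    runZ_1 (run_node 3 (bl := [(512, 1024), (-687, 687), (512, 1024), (0, 596)]) (br := [(512, 1024), (-687, 687), (512, 1024), (596, 1193)]) (by decide +kernel) (by decide +kernel)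
    runZ_2 (run_node 1 (bl := [(512, 1024), (-687, 0), (512, 1024), (596, 1193)]) (br := [(512, 1024), (0, 687), (512, 1024), (596, 1193)]) (by decide +kernel) (by decide +kernel)
    runZ_3 runZ_4))))

theorem rung : run 4 225 10 [11, 3, 4, 4] [2048, 1374, 2048, 2386] (mkcls ⟨10, 2, 3, 3⟩ (up 0 g) [G1 5, G2 1 1] 0 [[0, 0]] [])
    (.node 0 (.leaf 0) (.node 2 (.node 3 (.leaf 0) (.leaf 0)) (.node 3 (.leaf 0) (.leaf 0))))
    (bx4 10 687 1193) = true :=
  rung_0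

theorem runB : run 4 264 10 [13, 4, 7, 1] [2048, 1374, 1832, 1] (mkcls ⟨12, 3, 6, 0⟩ (bjF g p0A p0B p1 p2 [] ZA ZB) (G3 5) 0 [[0], [12]] [(0, 1000000)])
    (.node 0 (.node 1 (.node 2 (.leaf 0) (.leaf 0)) (.node 2 (.node 0 (.leaf 0) (.node 1 (.leaf 0) (.node 2 (.leaf 2) (.node 1 (.leaf 0) (.leaf 0))))) (.node 0 (.leaf 0) (.node 1 (.leaf 0) (.node 2 (.node 1 (.leaf 0) (.leaf 0)) (.leaf 0)))))) (.node 1 (.node 2 (.node 0 (.leaf 0) (.node 1 (.node 2 (.node 0 (.leaf 0) (.node 2 (.node 1 (.node 0 (.node 1 (.node 2 (.node 0 (.leaf 0) (.node 2 (.node 1 (.leaf 1) (.leaf 1)) (.leaf 2))) (.leaf 2)) (.node 2 (.node 1 (.node 0 (.leaf 0) (.node 2 (.leaf 1) (.leaf 0))) (.leaf 1)) (.leaf 2))) (.node 1 (.node 2 (.node 0 (.node 2 (.node 1 (.leaf 1) (.leaf 1)) (.leaf 2)) (.node 2 (.node 1 (.leaf 1) (.leaf 1)) (.leaf 2))) (.leaf 2)) (.node 2 (.node 1 (.node 0 (.node 2 (.leaf 1) (.leaf 0)) (.node 2 (.leaf 1) (.leaf 0))) (.node 0 (.node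 2 (.leaf 2) (.leaf 0)) (.node 2 (.leaf 2) (.leaf 0)))) (.leaf 2)))) (.node 1 (.node 0 (.node 2 (.leaf 0) (.leaf 0)) (.node 2 (.leaf 0) (.leaf 0))) (.leaf 0))) (.leaf 0))) (.leaf 2)) (.node 2 (.node 1 (.node 0 (.leaf 0) (.node 2 (.leaf 0) (.node 2 (.leaf 0) (.leaf 0)))) (.node 0 (.leaf 0) (.node 2 (.leaf 2) (.leaf 0)))) (.leaf 0)))) (.leaf 0)) (.node 2 (.node 0 (.node 1 (.node 2 (.leaf 0) (.leaf 0)) (.node 2 (.leaf 2) (.node 1 (.leaf 0) (.leaf 0)))) (.node 1 (.node 2 (.leaf 0) (.node 0 (.node 2 (.node 1 (.leaf 0) (.leaf 0)) (.leaf 0)) (.node 2 (.node 1 (.leaf 0) (.leaf 0)) (.leaf 0)))) (.node 2 (.leaf 2) (.node 1 (.node 0 (.leaf 0) (.node 2 (.node 1 (.node 0 (.leaf 0) (.node 2 (.leaf 2) (.node 1 (.node 0 (.leaf 0) (.node 2 (.leaf 2) (.node 2 (.leaf 1) (.leaf 0)))) (.leaf 2)))) (.leaf 2)) (.node 2 (.node 1 (.node 0 (.leaf 0) (.node 1 (.leaf 0) (.node 0 (.leaf 0) (.node 2 (.node 1 (.leaf 0) (.node 0 (.node 2 (.leaf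 2) (.leaf 0)) (.node 2 (.leaf 2) (.leaf 0)))) (.leaf 0))))) (.node 0 (.node 1 (.node 0 (.leaf 0) (.node 2 (.leaf 2) (.leaf 0))) (.leaf 1)) (.node 1 (.node 0 (.node 2 (.leaf 2) (.leaf 0)) (.node 2 (.leaf 2) (.node 2 (.node 1 (.leaf 0) (.leaf 1)) (.leaf 0)))) (.leaf 1)))) (.leaf 0)))) (.node 0 (.node 2 (.leaf 2) (.node 2 (.leaf 2) (.node 1 (.leaf 0) (.leaf 2)))) (.node 2 (.leaf 2) (.node 2 (.leaf 2) (.node 1 (.node 0 (.node 2 (.leaf 1) (.leaf 0)) (.node 2 (.leaf 1) (.leaf 0))) (.leaf 2))))))))) (.node 0 (.node 1 (.leaf 0) (.node 2 (.node 1 (.leaf 0) (.leaf 0)) (.node 1 (.leaf 0) (.node 0 (.leaf 0) (.node 2 (.node 1 (.leaf 0) (.node 0 (.leaf 0) (.node 2 (.leaf 0) (.node 1 (.leaf 0) (.node 0 (.node 2 (.leaf 0) (.node 2 (.leaf 0) (.node 1 (.leaf 0) (.node 0 (.leaf 0) (.node 2 (.leaf 0) (.leaf 2)))))) (.node 2 (.leaf 0) (.node 2 (.leaf 0) (.node 1 (.leaf 0) (.node 0 (.node 2 (.leaf 0) (.leaf 2)) (.node 2 (.leaf 0) (.leaf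 2))))))))))) (.node 2 (.node 1 (.leaf 0) (.node 0 (.node 1 (.leaf 0) (.node 0 (.leaf 0) (.node 2 (.node 1 (.leaf 0) (.leaf 2)) (.node 2 (.node 1 (.leaf 0) (.leaf 2)) (.leaf 2))))) (.node 1 (.leaf 0) (.node 0 (.node 2 (.node 1 (.leaf 0) (.leaf 2)) (.node 2 (.node 1 (.leaf 0) (.leaf 2)) (.leaf 2))) (.node 2 (.node 1 (.leaf 0) (.leaf 2)) (.node 2 (.node 1 (.node 0 (.node 0 (.node 1 (.leaf 0) (.leaf 2)) (.node 1 (.leaf 0) (.leaf 2))) (.node 0 (.node 1 (.leaf 0) (.leaf 2)) (.node 1 (.leaf 0) (.leaf 2)))) (.leaf 2)) (.leaf 2))))))) (.node 1 (.leaf 0) (.node 0 (.node 2 (.node 1 (.leaf 0) (.leaf 2)) (.node 1 (.leaf 0) (.leaf 2))) (.node 2 (.node 1 (.leaf 0) (.leaf 2)) (.node 1 (.leaf 0) (.leaf 2))))))))))) (.node 1 (.leaf 0) (.node 2 (.node 1 (.leaf 0) (.node 0 (.leaf 0) (.node 2 (.node 1 (.leaf 0) (.node 0 (.leaf 0) (.node 2 (.leaf 1) (.leaf 0)))) (.leaf 0)))) (.node 1 (.leaf 0) (.node 0 (.node 2 (.leaf 0) (.node 2 (.node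 1 (.leaf 0) (.node 0 (.node 1 (.leaf 0) (.node 0 (.node 2 (.node 1 (.leaf 0) (.leaf 2)) (.node 2 (.node 1 (.node 0 (.node 0 (.node 1 (.leaf 0) (.leaf 2)) (.leaf 0)) (.leaf 0)) (.leaf 2)) (.leaf 2))) (.node 2 (.leaf 0) (.node 2 (.node 1 (.leaf 0) (.leaf 2)) (.leaf 2))))) (.leaf 0))) (.node 1 (.leaf 0) (.node 0 (.node 2 (.node 1 (.leaf 0) (.leaf 2)) (.node 1 (.leaf 0) (.leaf 2))) (.node 2 (.node 1 (.leaf 0) (.leaf 2)) (.node 1 (.leaf 0) (.leaf 2))))))) (.leaf 0)))))))))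
    (bx3 10 687 916) = true :=
  (run_node 0 (bl := [(0, 512), (-687, 687), (-916, 0), (0, 1)]) (br := [(512, 1024), (-687, 687), (-916, 0), (0, 1)]) (by decide +kernel) (by decide +kernel)
    runB_0 (run_node 1 (bl := [(512, 1024), (-687, 0), (-916, 0), (0, 1)]) (br := [(512, 1024), (0, 687), (-916, 0), (0, 1)]) (by decide +kernel) (by decide +kernel)
    (run_node 2 (bl := [(512, 1024), (-687, 0), (-916, -458), (0, 1)]) (br := [(512, 1024), (-687, 0), (-458, 0), (0, 1)]) (by decide +kernel) (by decide +kernel)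
    (run_node 0 (bl := [(512, 768), (-687, 0), (-916, -458), (0, 1)]) (br := [(768, 1024), (-687, 0), (-916, -458), (0, 1)]) (by decide +kernel) (by decide +kernel)
    runB_1 (run_node 1 (bl := [(768, 1024), (-687, -344), (-916, -458), (0, 1)]) (br := [(768, 1024), (-344, 0), (-916, -458), (0, 1)]) (by decide +kernel) (by decide +kernel)
    (run_node 2 (bl := [(768, 1024), (-687, -344), (-916, -687), (0, 1)]) (br := [(768, 1024), (-687, -344), (-687, -458), (0, 1)]) (by decide +kernel) (by decide +kernel)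
    (run_node 0 (bl := [(768, 896), (-687, -344), (-916, -687), (0, 1)]) (br := [(896, 1024), (-687, -344), (-916, -687), (0, 1)]) (by decide +kernel) (by decide +kernel)
    runB_2 (run_node 2 (bl := [(896, 1024), (-687, -344), (-916, -802), (0, 1)]) (br := [(896, 1024), (-687, -344), (-802, -687), (0, 1)]) (by decide +kernel) (by decide +kernel)
    (run_node 1 (bl := [(896, 1024), (-687, -516), (-916, -802), (0, 1)]) (br := [(896, 1024), (-516, -344), (-916, -802), (0, 1)]) (by decide +kernel) (by decide +kernel)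
    (run_node 0 (bl := [(896, 960), (-687, -516), (-916, -802), (0, 1)]) (br := [(960, 1024), (-687, -516), (-916, -802), (0, 1)]) (by decide +kernel) (by decide +kernel)
    runB_3 runB_4) runB_5) runB_6)) runB_7) runB_8)) runB_9) (run_node 2 (bl := [(512, 1024), (0, 687), (-916, -458), (0, 1)]) (br := [(512, 1024), (0, 687), (-458, 0), (0, 1)]) (by decide +kernel) (by decide +kernel)
    (run_node 0 (bl := [(512, 768), (0, 687), (-916, -458), (0, 1)]) (br := [(768, 1024), (0, 687), (-916, -458), (0, 1)]) (by decide +kernel) (by decide +kernel)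
    runB_10 (run_node 1 (bl := [(768, 1024), (0, 343), (-916, -458), (0, 1)]) (br := [(768, 1024), (343, 687), (-916, -458), (0, 1)]) (by decide +kernel) (by decide +kernel)
    runB_11 (run_node 2 (bl := [(768, 1024), (343, 687), (-916, -687), (0, 1)]) (br := [(768, 1024), (343, 687), (-687, -458), (0, 1)]) (by decide +kernel) (by decide +kernel)
    runB_12 (run_node 1 (bl := [(768, 1024), (343, 515), (-687, -458), (0, 1)]) (br := [(768, 1024), (515, 687), (-687, -458), (0, 1)]) (by decide +kernel) (by decide +kernel)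
    (run_node 0 (bl := [(768, 896), (343, 515), (-687, -458), (0, 1)]) (br := [(896, 1024), (343, 515), (-687, -458), (0, 1)]) (by decide +kernel) (by decide +kernel)
    runB_13 (run_node 2 (bl := [(896, 1024), (343, 515), (-687, -573), (0, 1)]) (br := [(896, 1024), (343, 515), (-573, -458), (0, 1)]) (by decide +kernel) (by decide +kernel)
    runB_14 runB_15)) runB_16)))) (run_node 0 (bl := [(512, 768), (0, 687), (-458, 0), (0, 1)]) (br := [(768, 1024), (0, 687), (-458, 0), (0, 1)]) (by decide +kernel) (by decide +kernel)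
    (run_node 1 (bl := [(512, 768), (0, 343), (-458, 0), (0, 1)]) (br := [(512, 768), (343, 687), (-458, 0), (0, 1)]) (by decide +kernel) (by decide +kernel)
    runB_17 (run_node 2 (bl := [(512, 768), (343, 687), (-458, -229), (0, 1)]) (br := [(512, 768), (343, 687), (-229, 0), (0, 1)]) (by decide +kernel) (by decide +kernel)
    runB_18 (run_node 1 (bl := [(512, 768), (343, 515), (-229, 0), (0, 1)]) (br := [(512, 768), (515, 687), (-229, 0), (0, 1)]) (by decide +kernel) (by decide +kernel)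
    runB_19 (run_node 0 (bl := [(512, 640), (515, 687), (-229, 0), (0, 1)]) (br := [(640, 768), (515, 687), (-229, 0), (0, 1)]) (by decide +kernel) (by decide +kernel)
    runB_20 (run_node 2 (bl := [(640, 768), (515, 687), (-229, -115), (0, 1)]) (br := [(640, 768), (515, 687), (-115, 0), (0, 1)]) (by decide +kernel) (by decide +kernel)
    runB_21 (run_node 2 (bl := [(640, 768), (515, 687), (-115, -58), (0, 1)]) (br := [(640, 768), (515, 687), (-58, 0), (0, 1)]) (by decide +kernel) (by decide +kernel)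
    (run_node 1 (bl := [(640, 768), (515, 601), (-115, -58), (0, 1)]) (br := [(640, 768), (601, 687), (-115, -58), (0, 1)]) (by decide +kernel) (by decide +kernel)
    runB_22 (run_node 0 (bl := [(640, 704), (601, 687), (-115, -58), (0, 1)]) (br := [(704, 768), (601, 687), (-115, -58), (0, 1)]) (by decide +kernel) (by decide +kernel)
    runB_23 runB_24)) runB_25)))))) (run_node 1 (bl := [(768, 1024), (0, 343), (-458, 0), (0, 1)]) (br := [(768, 1024), (343, 687), (-458, 0), (0, 1)]) (by decide +kernel) (by decide +kernel)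
    runB_26 (run_node 2 (bl := [(768, 1024), (343, 687), (-458, -229), (0, 1)]) (br := [(768, 1024), (343, 687), (-229, 0), (0, 1)]) (by decide +kernel) (by decide +kernel)
    runB_27 (run_node 1 (bl := [(768, 1024), (343, 515), (-229, 0), (0, 1)]) (br := [(768, 1024), (515, 687), (-229, 0), (0, 1)]) (by decide +kernel) (by decide +kernel)
    runB_28 (run_node 0 (bl := [(768, 896), (515, 687), (-229, 0), (0, 1)]) (br := [(896, 1024), (515, 687), (-229, 0), (0, 1)]) (by decide +kernel) (by decide +kernel)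
    (run_node 2 (bl := [(768, 896), (515, 687), (-229, -115), (0, 1)]) (br := [(768, 896), (515, 687), (-115, 0), (0, 1)]) (by decide +kernel) (by decide +kernel)
    runB_29 runB_30) runB_31))))))))

theorem hZB : ∀ m ∈ ZB, 1 ≤ m.j := by decide
theorem hp0B : ∀ m ∈ p0B, 1 ≤ m.j := by decide

theorem Zpos (l : Fin 5 → ℝ) (y : Fin 4 → ℝ) (h : NAdm P.A0 l y) : 0 < Pol.ev (oneSub ZA ++ ZB) y :=
  zpos_of_run runZ (by norm_num) (by norm_num) (by norm_num) (by norm_num) (by norm_num)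
    (by norm_num) hZB h.tr h.sq h.cu h.z0 h.z1 h.v0 h.q0 h.q1 h.ap

theorem gnn (l : Fin 5 → ℝ) (y : Fin 4 → ℝ) (h : NAdm P.A0 l y) : 0 ≤ Pol.ev g y :=
  gnn_of_run rung le_rfl (by norm_num) (by norm_num) (by norm_num) (by norm_num)
    (by norm_num) h.tr h.sq h.cu h.z0 h.z1 h.v0 h.q0 h.q1 h.ap

theorem BJ (l : Fin 5 → ℝ) (y : Fin 4 → ℝ) (H : NAdm P.A0 l y) (h2 : y 2 = 1) (h3 : y 3 = 0)
    (k : Fin 5) (h : ℝ) (hh : 0 ≤ h) (hk : l k = -h) :
    0 ≤ h * Pol.ev (oneSub ZA ++ ZB) y + Pol.ev (oneSub p0A ++ p0B) y - h * Pol.ev p1 y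
      + h ^ 2 * Pol.ev p2 y - h ^ 3 * Pol.ev [] y - Pol.ev g y * (2 * h * (1 - y 0) + y 1) :=
  bj_of_run runB (by norm_num) (by norm_num) (by norm_num) (by norm_num) hp0B l y H.tr H.sq H.cu
    H.z0 H.z1 h2 h3 k h hh hk

theorem ncert (hS : CQ.CoverS' P D) : NCert 5 P.A0 P.Lam D :=
  ncert_ofQ (P := P) (by unfold CQ.nOK; decide) (by decide) (by decide) (by decide) (by decide)
    Zpos gnn BJ hZB hp0B hS

/-- **the certificate from the cover of chart `S`** -/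
theorem cert (hS : CQ.CoverS' P D) : Cert 5 (D.cert P.A0) P.Lam :=
  cert_of_ncert (ncert hS) (by norm_num)

end Crest.Agent.R097.V5
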