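import Crest.Agent.R097.V5
import Crest.Agent.R097.SC5

/-!
# Row 97: scalar parts of the certificate, `n = 5`, box checks 0
-/

set_option autoImplicit false
set_option maxRecDepth 100000

namespace Crest.Agent.R097.V5

open CP SC KB

theorem runZ_0 : run 4 203 10 [9, 3, 4, 4] [2048, 1374, 2048, 2386] (mkcls ⟨8, 2, 3, 3⟩ (up 0 ZA ++ dn 2 ZB) [G1 5, G2 1 1] 1 [[0, 0], [0, 1280], [1280, 0], [1280, 1280], [0, 5120], [5120, 0], [1280, 5120], [5120, 5120], [0, 20480], [1280, 20480], [5120, 20480]] [(0, 1000000), (1, 1000000)])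
    (.node 2 (.node 3 (.leaf 0) (.leaf 8)) (.node 3 (.leaf 0) (.node 1 (.node 0 (.leaf 0) (.node 3 (.leaf 2) (.node 2 (.node 1 (.node 0 (.leaf 4) (.node 3 (.node 2 (.leaf 3) (.node 1 (.node 0 (.leaf 2) (.node 2 (.leaf 6) (.leaf 5))) (.leaf 2))) (.leaf 12))) (.leaf 6)) (.node 1 (.node 0 (.leaf 6) (.leaf 5)) (.node 0 (.leaf 0) (.leaf 5)))))) (.leaf 2))))
    [(0, 512), (-687, 687), (0, 1024), (0, 1193)] = true := by decide +kernel

theorem runZ_1 : run 4 203 10 [9, 3, 4, 4] [2048, 1374, 2048, 2386] (mkcls ⟨8, 2, 3, 3⟩ (up 0 ZA ++ dn 2 ZB) [G1 5, G2 1 1] 1 [[0, 0], [0, 1280], [1280, 0], [1280, 1280], [0, 5120], [5120, 0], [1280, 5120], [5120, 5120], [0, 20480], [1280, 20480], [5120, 20480]] [(0, 1000000), (1, 1000000)])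
    (.node 3 (.leaf 0) (.node 1 (.node 0 (.node 3 (.leaf 3) (.leaf 10)) (.node 3 (.node 2 (.leaf 2) (.node 1 (.node 0 (.node 2 (.leaf 2) (.node 3 (.leaf 0) (.leaf 5))) (.node 2 (.node 3 (.leaf 2) (.leaf 11)) (.leaf 5))) (.leaf 2))) (.leaf 11))) (.node 0 (.node 3 (.leaf 1) (.leaf 9)) (.node 3 (.leaf 6) (.leaf 11)))))
    [(512, 1024), (-687, 687), (0, 512), (0, 1193)] = true := by decide +kernel

theorem runZ_2 : run 4 203 10 [9, 3, 4, 4] [2048, 1374, 2048, 2386] (mkcls ⟨8, 2, 3, 3⟩ (up 0 ZA ++ dn 2 ZB) [G1 5, G2 1 1] 1 [[0, 0], [0, 1280], [1280, 0], [1280, 1280], [0, 5120], [5120, 0], [1280, 5120], [5120, 5120], [0, 20480], [1280, 20480], [5120, 20480]] [(0, 1000000), (1, 1000000)])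
    (.node 1 (.node 0 (.node 2 (.leaf 0) (.leaf 2)) (.node 2 (.node 3 (.leaf 0) (.leaf 2)) (.leaf 2))) (.node 0 (.leaf 0) (.node 2 (.leaf 0) (.leaf 2))))
    [(512, 1024), (-687, 687), (512, 1024), (0, 596)] = true := by decide +kernel

theorem runZ_3 : run 4 203 10 [9, 3, 4, 4] [2048, 1374, 2048, 2386] (mkcls ⟨8, 2, 3, 3⟩ (up 0 ZA ++ dn 2 ZB) [G1 5, G2 1 1] 1 [[0, 0], [0, 1280], [1280, 0], [1280, 1280], [0, 5120], [5120, 0], [1280, 5120], [5120, 5120], [0, 20480], [1280, 20480], [5120, 20480]] [(0, 1000000), (1, 1000000)])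
    (.node 0 (.node 3 (.node 2 (.node 1 (.node 0 (.leaf 2) (.node 2 (.node 3 (.leaf 0) (.leaf 5)) (.node 3 (.leaf 2) (.leaf 5)))) (.leaf 2)) (.leaf 5)) (.node 2 (.node 1 (.node 0 (.node 3 (.node 2 (.node 1 (.node 0 (.node 2 (.leaf 6) (.node 3 (.leaf 2) (.leaf 5))) (.leaf 5)) (.leaf 10)) (.leaf 5)) (.leaf 5)) (.leaf 11)) (.leaf 10)) (.leaf 11))) (.node 3 (.node 2 (.node 1 (.node 0 (.node 2 (.node 3 (.leaf 2) (.leaf 11)) (.leaf 5)) (.leaf 5)) (.leaf 5)) (.leaf 11)) (.leaf 11)))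
    [(512, 1024), (-687, 0), (512, 1024), (596, 1193)] = true := by decide +kernel

theorem runZ_4 : run 4 203 10 [9, 3, 4, 4] [2048, 1374, 2048, 2386] (mkcls ⟨8, 2, 3, 3⟩ (up 0 ZA ++ dn 2 ZB) [G1 5, G2 1 1] 1 [[0, 0], [0, 1280], [1280, 0], [1280, 1280], [0, 5120], [5120, 0], [1280, 5120], [5120, 5120], [0, 20480], [1280, 20480], [5120, 20480]] [(0, 1000000), (1, 1000000)])
    (.node 0 (.node 3 (.leaf 2) (.leaf 7)) (.node 3 (.node 2 (.leaf 2) (.leaf 11)) (.leaf 11)))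
    [(512, 1024), (0, 687), (512, 1024), (596, 1193)] = true := by decide +kernel

theorem rung_0 : run 4 225 10 [11, 3, 4, 4] [2048, 1374, 2048, 2386] (mkcls ⟨10, 2, 3, 3⟩ (up 0 g) [G1 5, G2 1 1] 0 [[0, 0]] [])
    (.node 0 (.leaf 0) (.node 2 (.node 3 (.leaf 0) (.leaf 0)) (.node 3 (.leaf 0) (.leaf 0))))
    (bx4 10 687 1193) = true := by decide +kernel

theorem runB_0 : run 4 264 10 [13, 4, 7, 1] [2048, 1374, 1832, 1] (mkcls ⟨12, 3, 6, 0⟩ (bjF g p0A p0B p1 p2 [] ZA ZB) (G3 5) 0 [[0], [12]] [(0, 1000000)])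
    (.node 1 (.node 2 (.leaf 0) (.leaf 0)) (.node 2 (.node 0 (.leaf 0) (.node 1 (.leaf 0) (.node 2 (.leaf 2) (.node 1 (.leaf 0) (.leaf 0))))) (.node 0 (.leaf 0) (.node 1 (.leaf 0) (.node 2 (.node 1 (.leaf 0) (.leaf 0)) (.leaf 0))))))
    [(0, 512), (-687, 687), (-916, 0), (0, 1)] = true := by decide +kernel

theorem runB_1 : run 4 264 10 [13, 4, 7, 1] [2048, 1374, 1832, 1] (mkcls ⟨12, 3, 6, 0⟩ (bjF g p0A p0B p1 p2 [] ZA ZB) (G3 5) 0 [[0], [12]] [(0, 1000000)])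
    (.leaf 0)
    [(512, 768), (-687, 0), (-916, -458), (0, 1)] = true := by decide +kernel

theorem runB_2 : run 4 264 10 [13, 4, 7, 1] [2048, 1374, 1832, 1] (mkcls ⟨12, 3, 6, 0⟩ (bjF g p0A p0B p1 p2 [] ZA ZB) (G3 5) 0 [[0], [12]] [(0, 1000000)])
    (.leaf 0)
    [(768, 896), (-687, -344), (-916, -687), (0, 1)] = true := by decide +kernel

end Crest.Agent.R097.V5
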