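import Crest.Agent.R097.B1
import Crest.Agent.R097.B2

/-! W1: smoothed Weiss monotonicity formula. -/
set_option autoImplicit false
open MeasureTheory Metric Set Filter Topology
open scoped NNReal RealInnerProductSpace Gradient ContDiff Laplacian

namespace Crest.Agent.R097
variable {d : ℕ}

/-- the weight `(1 - |x|²/r²)⁺` -/
noncomputable def wk (r : ℝ) (x : E d) : ℝ := max (1 - ‖x‖ ^ 2 / r ^ 2) 0

/-- smoothed Weiss energy -/
noncomputable def Ws (u : E d → ℝ) (r : ℝ) : ℝ :=
  ((∫ x, (‖∇ u x‖ ^ 2 + pos (u x)) * wk r x ^ 2) - 4 / r ^ 2 * ∫ x, u x ^ 2 * wk r x) / r ^ d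

theorem wk_nonneg (r : ℝ) (x : E d) : 0 ≤ wk r x := le_max_right _ _

theorem wk_of_lt {r : ℝ} (hr : 0 < r) {x : E d} (hx : ‖x‖ ≤ r) : wk r x = 1 - ‖x‖ ^ 2 / r ^ 2 := by
  unfold wk
  rw [max_eq_left]
  rw [sub_nonneg, div_le_one (by positivity)]
  exact pow_le_pow_left₀ (norm_nonneg _) hx 2

theorem wk_of_ge {r : ℝ} (hr : 0 < r) {x : E d} (hx : r ≤ ‖x‖) : wk r x = 0 := by
  unfold wk
  rw [max_eq_right]
  rw [sub_nonpos, one_le_div (by positivity)]
  exact pow_le_pow_left₀ hr.le hx 2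

theorem wk_le_one (r : ℝ) (x : E d) : wk r x ≤ 1 := by
  unfold wk
  refine max_le ?_ zero_le_one
  have : 0 ≤ ‖x‖ ^ 2 / r ^ 2 := by positivity
  linarith

theorem wk_cont (r : ℝ) : Continuous (wk r : E d → ℝ) := by
  unfold wk; fun_prop

theorem wk_meas (r : ℝ) : Measurable (wk r : E d → ℝ) := (wk_cont r).measurable

theorem wk_supp {r : ℝ} (hr : 0 < r) : ∀ x : E d, x ∉ closedBall (0 : E d) r → wk r x = 0 := fun x hx => by
  apply wk_of_ge hr
  rw [mem_closedBall_zero_iff, not_le] at hx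
  exact hx.le

theorem wk_hasCompactSupport {r : ℝ} (hr : 0 < r) : HasCompactSupport (wk r : E d → ℝ) :=
  HasCompactSupport.intro (isCompact_closedBall 0 r) (wk_supp hr)

theorem wk_lip {r : ℝ} (hr : 0 < r) : LipschitzWith (2 / r).toNNReal (wk r : E d → ℝ) := by
  refine LipschitzWith.of_dist_le_mul fun x y => ?_
  rw [Real.coe_toNNReal _ (by positivity), Real.dist_eq]
  have key : ∀ x : E d, wk r x = 1 - (min ‖x‖ r) ^ 2 / r ^ 2 := by
    intro x
    rcases le_total ‖x‖ r with h | h
    · rw [wk_of_lt hr h, min_eq_left h]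
    · rw [wk_of_ge hr h, min_eq_right h, div_self (by positivity), sub_self]
  rw [key, key]
  have h1 : |min ‖x‖ r - min ‖y‖ r| ≤ dist x y := by
    refine (abs_min_sub_min_le_max _ _ _ _).trans ?_
    simp only [sub_self, abs_zero]
    refine max_le ?_ dist_nonneg
    rw [dist_eq_norm]; exact abs_norm_sub_norm_le x y
  have h2 : 0 ≤ min ‖x‖ r := le_min (norm_nonneg _) hr.le
  have h3 : 0 ≤ min ‖y‖ r := le_min (norm_nonneg _) hr.le
  have h4 : min ‖x‖ r ≤ r := min_le_right _ _
  have h5 : min ‖y‖ r ≤ r := min_le_right _ _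
  have h6 : 1 - min ‖x‖ r ^ 2 / r ^ 2 - (1 - min ‖y‖ r ^ 2 / r ^ 2) =
      -((min ‖x‖ r - min ‖y‖ r) * ((min ‖x‖ r + min ‖y‖ r) / r ^ 2)) := by ring
  rw [h6, abs_neg, abs_mul]
  have h7 : |(min ‖x‖ r + min ‖y‖ r) / r ^ 2| ≤ 2 / r := by
    rw [abs_of_nonneg (by positivity), div_le_div_iff₀ (by positivity) hr]
    nlinarith
  calc |min ‖x‖ r - min ‖y‖ r| * |(min ‖x‖ r + min ‖y‖ r) / r ^ 2| ≤ dist x y * (2 / r) := by gcongr
    _ = 2 / r * dist x y := by ring

/-- `q s = (s⁺)²` -/
theorem hasDerivAt_q (s : ℝ) : HasDerivAt (fun s : ℝ => (max s 0) ^ 2) (2 * max s 0) s := by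
  rcases lt_trichotomy s 0 with h | h | h
  · have : (fun s : ℝ => (max s 0) ^ 2) =ᶠ[𝓝 s] fun _ => 0 := by
      filter_upwards [Iio_mem_nhds h] with t ht
      rw [max_eq_right (le_of_lt ht)]; norm_num
    rw [max_eq_right h.le, mul_zero]
    exact (hasDerivAt_const s (0 : ℝ)).congr_of_eventuallyEq this
  · subst h
    rw [max_self, mul_zero, hasDerivAt_iff_isLittleO_nhds_zero]
    simp only [zero_add, max_self, smul_zero, sub_zero]
    have h1 : (fun h : ℝ => (max h 0) ^ 2 - 0 ^ 2) =O[𝓝 0] fun h => h ^ 2 := by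
      refine Asymptotics.IsBigO.of_bound 1 (Eventually.of_forall fun h => ?_)
      rw [Real.norm_eq_abs, Real.norm_eq_abs, one_mul]
      rcases le_total h 0 with h' | h'
      · rw [max_eq_right h']; simp only [ne_eq, OfNat.ofNat_ne_zero, not_false_eq_true, zero_pow, sub_self, abs_zero]; positivity
      · rw [max_eq_left h']; simp
    exact h1.trans_isLittleO (Asymptotics.isLittleO_pow_id (by norm_num))
  · have : (fun s : ℝ => (max s 0) ^ 2) =ᶠ[𝓝 s] fun s => s ^ 2 := by
      filter_upwards [Ioi_mem_nhds h] with t ht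
      rw [max_eq_left (le_of_lt ht)]
    rw [max_eq_left h.le]
    have h1 := hasDerivAt_pow 2 s
    simp only [Nat.cast_ofNat, Nat.add_one_sub_one, pow_one] at h1
    exact h1.congr_of_eventuallyEq this

theorem contDiff_q : ContDiff ℝ 1 (fun s : ℝ => (max s 0) ^ 2) := by
  rw [contDiff_one_iff_deriv]
  refine ⟨fun s => (hasDerivAt_q s).differentiableAt, ?_⟩
  have : deriv (fun s : ℝ => (max s 0) ^ 2) = fun s => 2 * max s 0 := funext fun s => (hasDerivAt_q s).deriv
  rw [this]; fun_prop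

theorem wk2_contDiff (r : ℝ) : ContDiff ℝ 1 (fun x : E d => wk r x ^ 2) := by
  unfold wk
  exact contDiff_q.comp (contDiff_const.sub ((contDiff_norm_sq ℝ).div_const _))

theorem wk2_fderiv (r : ℝ) (x v : E d) :
    fderiv ℝ (fun x : E d => wk r x ^ 2) x v = -(4 / r ^ 2) * wk r x * inner ℝ x v := by
  have h1 : HasFDerivAt (fun x : E d => 1 - ‖x‖ ^ 2 / r ^ 2)
      (-((r ^ 2)⁻¹ • ((2 : ℕ) • innerSL ℝ x))) x := by
    have := (((hasStrictFDerivAt_norm_sq x).hasFDerivAt.const_mul ((r ^ 2)⁻¹)).const_sub 1)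
    refine this.congr_of_eventuallyEq (Eventually.of_forall fun y => ?_)
    simp only [div_eq_inv_mul]
  have h2 := (hasDerivAt_q (1 - ‖x‖ ^ 2 / r ^ 2)).comp_hasFDerivAt x h1
  have h3 : fderiv ℝ (fun x : E d => wk r x ^ 2) x = _ := h2.fderiv
  rw [h3]
  simp only [two_smul, smul_neg, neg_apply, smul_apply, add_apply, innerSL_apply_apply, smul_eq_mul]
  unfold wk
  ring


/-- integrability of a locally bounded measurable function cut off to a ball -/
theorem int_cut {f : E d → ℝ} (hf : AEStronglyMeasurable f) {r C : ℝ} (h0 : ∀ x, x ∉ closedBall (0 : E d) r → f x = 0)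
    (hC : ∀ x ∈ closedBall (0 : E d) r, |f x| ≤ C) : Integrable f :=
  integrable_of_bdd (isCompact_closedBall 0 r) hf h0 hC

theorem wkx_contDiff (r : ℝ) : ContDiff ℝ 1 (fun x : E d => (wk r x ^ 2) • x) := (wk2_contDiff r).smul contDiff_id

theorem wkx_fderiv (r : ℝ) (x v : E d) : fderiv ℝ (fun x : E d => (wk r x ^ 2) • x) x v =
    (wk r x ^ 2) • v + (-(4 / r ^ 2) * wk r x * inner ℝ x v) • x := by
  have h1 : HasFDerivAt (fun x : E d => wk r x ^ 2) (fderiv ℝ (fun x : E d => wk r x ^ 2) x) x :=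
    ((wk2_contDiff r).differentiable (by norm_num) x).hasFDerivAt
  have h2 := (h1.smul (hasFDerivAt_id x)).fderiv
  have h3 : fderiv ℝ (fun x : E d => (wk r x ^ 2) • x) x = _ := h2
  rw [h3]
  simp only [add_apply, smul_apply, ContinuousLinearMap.smulRight_apply, wk2_fderiv, id_eq,
    ContinuousLinearMap.coe_id']

theorem wkx_dv (r : ℝ) (x : E d) : dv (fun x : E d => (wk r x ^ 2) • x) x =
    d * wk r x ^ 2 - 4 / r ^ 2 * (wk r x * ‖x‖ ^ 2) := by
  unfold dv
  simp_rw [wkx_fderiv, inner_bv']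
  have : ∀ i : Fin d, ((wk r x ^ 2) • bv i + (-(4 / r ^ 2) * wk r x * x i) • x) i =
      wk r x ^ 2 + (-(4 / r ^ 2) * wk r x) * (x i * x i) := by
    intro i
    simp [bv]
    ring
  simp_rw [this, Finset.sum_add_distrib, ← Finset.mul_sum]
  have hn : ‖x‖ ^ 2 = ∑ i, x i * x i := by
    rw [EuclideanSpace.norm_sq_eq]
    simp [pow_two]
  rw [hn]
  simp
  ring

theorem wkx_compact {r : ℝ} (hr : 0 < r) : HasCompactSupport (fun x : E d => (wk r x ^ 2) • x) :=
  HasCompactSupport.intro (isCompact_closedBall 0 r) fun x hx => by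
    rw [wk_supp hr x hx]; simp

/-- identity from the inner variation with `X = wk² x` -/
theorem weiss_I1 {K : ℝ≥0} {u : E d → ℝ} (hu : LM u K) {r : ℝ} (hr : 0 < r) :
    (d : ℝ) * (∫ x, (‖∇ u x‖ ^ 2 + pos (u x)) * wk r x ^ 2)
      - 4 / r ^ 2 * (∫ x, (‖∇ u x‖ ^ 2 + pos (u x)) * (wk r x * ‖x‖ ^ 2))
      - 2 * (∫ x, ‖∇ u x‖ ^ 2 * wk r x ^ 2) + 8 / r ^ 2 * (∫ x, wk r x * inner ℝ x (∇ u x) ^ 2) = 0 := by
  have h := hu.inner (wkx_contDiff r) (wkx_compact hr)
  have hg : Measurable (gE u) := gE_meas hu.lip.continuous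
  have hw : Measurable (wk r : E d → ℝ) := wk_meas r
  have hgr := measurable_grad u
  have hb : ∀ x, |gE u x| ≤ (K : ℝ) ^ 2 + 1 := fun x => gE_bound hu.lip x
  have hgb : ∀ x, ‖∇ u x‖ ≤ K := norm_grad_le hu.lip
  have hw1 : ∀ x : E d, |wk r x| ≤ 1 := fun x => by
    rw [abs_of_nonneg (wk_nonneg r x)]; exact wk_le_one r x
  have hw2 : ∀ x : E d, |wk r x ^ 2| ≤ 1 := fun x => by
    rw [abs_pow]; exact pow_le_one₀ (abs_nonneg _) (hw1 x)
  have i1 : Integrable (fun x => gE u x * wk r x ^ 2) := by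
    refine int_cut (hg.mul (hw.pow_const 2)).aestronglyMeasurable (r := r) (C := ((K : ℝ) ^ 2 + 1) * 1)
      (fun x hx => by rw [wk_supp hr x hx]; simp) (fun x _ => ?_)
    rw [abs_mul]
    exact mul_le_mul (hb x) (hw2 x) (abs_nonneg _) (by positivity)
  have i2 : Integrable (fun x => gE u x * (wk r x * ‖x‖ ^ 2)) := by
    refine int_cut (hg.mul (hw.mul (measurable_norm.pow_const 2))).aestronglyMeasurable (r := r)
      (C := ((K : ℝ) ^ 2 + 1) * (1 * r ^ 2))
      (fun x hx => by rw [wk_supp hr x hx]; simp) (fun x hx => ?_)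
    rw [mem_closedBall_zero_iff] at hx
    rw [abs_mul, abs_mul, abs_of_nonneg (by positivity : (0 : ℝ) ≤ ‖x‖ ^ 2)]
    exact mul_le_mul (hb x) (mul_le_mul (hw1 x) (pow_le_pow_left₀ (norm_nonneg _) hx 2) (by positivity) (by norm_num))
      (by positivity) (by positivity)
  have i3 : Integrable (fun x => ‖∇ u x‖ ^ 2 * wk r x ^ 2) := by
    refine int_cut ((hgr.norm.pow_const 2).mul (hw.pow_const 2)).aestronglyMeasurable (r := r)
      (C := (K : ℝ) ^ 2 * 1)
      (fun x hx => by rw [wk_supp hr x hx]; simp) (fun x hx => ?_)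
    rw [abs_mul, abs_of_nonneg (by positivity : (0 : ℝ) ≤ ‖∇ u x‖ ^ 2)]
    exact mul_le_mul (pow_le_pow_left₀ (norm_nonneg _) (hgb x) 2) (hw2 x) (abs_nonneg _) (by positivity)
  have hin : Measurable (fun x => inner ℝ x (∇ u x)) := measurable_id.inner hgr
  have i4 : Integrable (fun x => wk r x * inner ℝ x (∇ u x) ^ 2) := by
    refine int_cut (hw.mul (hin.pow_const 2)).aestronglyMeasurable (r := r)
      (C := 1 * (r * K) ^ 2)
      (fun x hx => by rw [wk_supp hr x hx]; simp) (fun x hx => ?_)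
    rw [mem_closedBall_zero_iff] at hx
    rw [abs_mul, abs_pow]
    refine mul_le_mul (hw1 x) (pow_le_pow_left₀ (abs_nonneg _) ?_ 2) (by positivity) (by norm_num)
    exact (abs_real_inner_le_norm _ _).trans (mul_le_mul hx (hgb x) (norm_nonneg _) hr.le)
  have e : ∀ x, (‖∇ u x‖ ^ 2 + pos (u x)) * dv (fun x : E d => (wk r x ^ 2) • x) x -
      2 * inner ℝ (∇ u x) (fderiv ℝ (fun x : E d => (wk r x ^ 2) • x) x (∇ u x)) =
      (d : ℝ) * (gE u x * wk r x ^ 2) - 4 / r ^ 2 * (gE u x * (wk r x * ‖x‖ ^ 2)) -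
        2 * (‖∇ u x‖ ^ 2 * wk r x ^ 2) + 8 / r ^ 2 * (wk r x * inner ℝ x (∇ u x) ^ 2) := by
    intro x
    rw [wkx_dv, wkx_fderiv, inner_add_right, inner_smul_right, inner_smul_right, real_inner_self_eq_norm_sq,
      real_inner_comm x (∇ u x)]
    unfold gE
    ring
  rw [integral_congr_ae (Eventually.of_forall e)] at h
  have j12 : Integrable (fun x => (d : ℝ) * (gE u x * wk r x ^ 2) - 4 / r ^ 2 * (gE u x * (wk r x * ‖x‖ ^ 2))) :=
    (i1.const_mul _).sub (i2.const_mul _)
  have j123 : Integrable (fun x => (d : ℝ) * (gE u x * wk r x ^ 2) - 4 / r ^ 2 * (gE u x * (wk r x * ‖x‖ ^ 2))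
      - 2 * (‖∇ u x‖ ^ 2 * wk r x ^ 2)) := j12.sub (i3.const_mul _)
  rw [integral_add j123 (i4.const_mul _), integral_sub j12 (i3.const_mul _),
    integral_sub (i1.const_mul _) (i2.const_mul _), integral_const_mul, integral_const_mul, integral_const_mul,
    integral_const_mul] at h
  exact h

/-- identity from the outer variation with `η = wk²` -/
theorem weiss_I2 {K : ℝ≥0} {u : E d → ℝ} (hu : LM u K) {r : ℝ} (hr : 0 < r) :
    (∫ x, ‖∇ u x‖ ^ 2 * wk r x ^ 2) - 4 / r ^ 2 * (∫ x, wk r x * (u x * inner ℝ x (∇ u x))) = 0 := by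
  have hcs : HasCompactSupport (fun x : E d => wk r x ^ 2) :=
    HasCompactSupport.intro (isCompact_closedBall 0 r) fun x hx => by rw [wk_supp hr x hx]; simp
  obtain ⟨L, hL⟩ := (wk2_contDiff (d := d) r).lipschitzWith_of_hasCompactSupport hcs (by norm_num)
  have h := hu.eta hL hcs
  have hw : Measurable (wk r : E d → ℝ) := wk_meas r
  have hgr := measurable_grad u
  have hgb : ∀ x, ‖∇ u x‖ ≤ K := norm_grad_le hu.lip
  have hw1 : ∀ x : E d, |wk r x| ≤ 1 := fun x => by
    rw [abs_of_nonneg (wk_nonneg r x)]; exact wk_le_one r x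
  have hw2 : ∀ x : E d, |wk r x ^ 2| ≤ 1 := fun x => by
    rw [abs_pow]; exact pow_le_one₀ (abs_nonneg _) (hw1 x)
  have i3 : Integrable (fun x => ‖∇ u x‖ ^ 2 * wk r x ^ 2) := by
    refine int_cut ((hgr.norm.pow_const 2).mul (hw.pow_const 2)).aestronglyMeasurable (r := r)
      (C := (K : ℝ) ^ 2 * 1)
      (fun x hx => by rw [wk_supp hr x hx]; simp) (fun x hx => ?_)
    rw [abs_mul, abs_of_nonneg (by positivity : (0 : ℝ) ≤ ‖∇ u x‖ ^ 2)]
    exact mul_le_mul (pow_le_pow_left₀ (norm_nonneg _) (hgb x) 2) (hw2 x) (abs_nonneg _) (by positivity)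
  have hin : Measurable (fun x => inner ℝ x (∇ u x)) := measurable_id.inner hgr
  obtain ⟨M, hM⟩ := (isCompact_closedBall (0 : E d) r).exists_bound_of_continuousOn hu.lip.continuous.continuousOn
  have i5 : Integrable (fun x => wk r x * (u x * inner ℝ x (∇ u x))) := by
    refine int_cut (hw.mul (hu.lip.continuous.measurable.mul hin)).aestronglyMeasurable (r := r)
      (C := 1 * (M * (r * K)))
      (fun x hx => by rw [wk_supp hr x hx]; simp) (fun x hx => ?_)
    have hMx := hM x hx
    rw [mem_closedBall_zero_iff] at hx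
    rw [abs_mul, abs_mul]
    refine mul_le_mul (hw1 x) (mul_le_mul hMx ?_ (abs_nonneg _) ((norm_nonneg _).trans hMx)) (by positivity) (by norm_num)
    exact (abs_real_inner_le_norm _ _).trans (mul_le_mul hx (hgb x) (norm_nonneg _) hr.le)
  have e : ∀ x, (wk r x ^ 2 * ‖∇ u x‖ ^ 2 + u x * inner ℝ (∇ u x) (∇ (fun x : E d => wk r x ^ 2) x)) =
      ‖∇ u x‖ ^ 2 * wk r x ^ 2 - 4 / r ^ 2 * (wk r x * (u x * inner ℝ x (∇ u x))) := by
    intro x
    rw [real_inner_comm, inner_gradient, wk2_fderiv]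
    ring
  rw [integral_congr_ae (Eventually.of_forall e), integral_sub i3 (i5.const_mul _), integral_const_mul] at h
  exact h



/-- product of a locally Lipschitz function with a cut-off -/
theorem lip_mul_cut {K L : ℝ≥0} {f g : E d → ℝ} (hf : LipschitzWith K f) (hg : LipschitzWith L g) {r : ℝ}
    (h0 : ∀ x, x ∉ closedBall (0 : E d) r → g x = 0) : ∃ C : ℝ≥0, LipschitzWith C (fun x => f x * g x) := by
  obtain ⟨A, hA⟩ := (isCompact_closedBall (0 : E d) r).exists_bound_of_continuousOn hf.continuous.continuousOn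
  obtain ⟨B, hB⟩ := (isCompact_closedBall (0 : E d) r).exists_bound_of_continuousOn hg.continuous.continuousOn
  have hA' : ∀ x ∈ closedBall (0 : E d) r, |f x| ≤ |A| := fun x hx => (hA x hx).trans (le_abs_self A)
  have hB' : ∀ x, |g x| ≤ |B| := fun x => by
    by_cases hx : x ∈ closedBall (0 : E d) r
    · exact (hB x hx).trans (le_abs_self B)
    · rw [h0 x hx, abs_zero]; exact abs_nonneg _
  have key : ∀ x y, x ∈ closedBall (0 : E d) r → |f x * g x - f y * g y| ≤ (|A| * L + |B| * K) * dist x y := by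
    intro x y hx
    have e : f x * g x - f y * g y = f x * (g x - g y) + g y * (f x - f y) := by ring
    have h1 := hg.dist_le_mul x y
    have h2 := hf.dist_le_mul x y
    rw [Real.dist_eq] at h1 h2
    rw [e]
    refine (abs_add_le _ _).trans ?_
    rw [abs_mul, abs_mul]
    calc |f x| * |g x - g y| + |g y| * |f x - f y|
        ≤ |A| * (L * dist x y) + |B| * (K * dist x y) := by
          refine add_le_add (mul_le_mul (hA' x hx) h1 (abs_nonneg _) (abs_nonneg _))
            (mul_le_mul (hB' y) h2 (abs_nonneg _) (abs_nonneg _))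
      _ = (|A| * L + |B| * K) * dist x y := by ring
  refine ⟨(|A| * L + |B| * K).toNNReal, LipschitzWith.of_dist_le_mul fun x y => ?_⟩
  rw [Real.coe_toNNReal _ (by positivity), Real.dist_eq]
  by_cases hx : x ∈ closedBall (0 : E d) r
  · exact key x y hx
  · by_cases hy : y ∈ closedBall (0 : E d) r
    · rw [abs_sub_comm, dist_comm]; exact key y x hy
    · rw [h0 x hx, h0 y hy]; simp; positivity

theorem ae_norm_ne (hd : 0 < d) {r : ℝ} (hr : 0 < r) : ∀ᵐ x : E d, ‖x‖ ≠ r := by
  have : Nonempty (Fin d) := ⟨⟨0, hd⟩⟩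
  have h : volume (sphere (0 : E d) r) = 0 := Measure.addHaar_sphere_of_ne_zero volume 0 hr.ne'
  rw [ae_iff]
  convert h using 2
  ext x; simp

/-- integration by parts: divergence of `u² x` against the weight `wk` -/
theorem weiss_I3 {K : ℝ≥0} {u : E d → ℝ} (hu : LipschitzWith K u) {r : ℝ} (hr : 0 < r) :
    2 / r ^ 2 * (∫ x in ball 0 r, u x ^ 2 * ‖x‖ ^ 2) =
      2 * (∫ x, wk r x * (u x * inner ℝ x (∇ u x))) + d * (∫ x, u x ^ 2 * wk r x) := by
  rcases Nat.eq_zero_or_pos d with hd | hd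
  · subst hd
    have h0 : ∀ x : E 0, x = 0 := fun x => Subsingleton.elim x 0
    have e1 : (∫ x in ball (0 : E 0) r, u x ^ 2 * ‖x‖ ^ 2) = 0 := by
      have : ∀ x : E 0, u x ^ 2 * ‖x‖ ^ 2 = 0 := fun x => by rw [h0 x]; simp
      simp_rw [this]; simp
    have e2 : (∫ x : E 0, wk r x * (u x * inner ℝ x (∇ u x))) = 0 := by
      have : ∀ x : E 0, wk r x * (u x * inner ℝ x (∇ u x)) = 0 := fun x => by rw [h0 x]; simp
      simp_rw [this]; simp
    rw [e1, e2]; simp
  have hw : Measurable (wk r : E d → ℝ) := wk_meas r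
  have hgr := measurable_grad u
  have hgb : ∀ x, ‖∇ u x‖ ≤ K := norm_grad_le hu
  have hw1 : ∀ x : E d, |wk r x| ≤ 1 := fun x => by
    rw [abs_of_nonneg (wk_nonneg r x)]; exact wk_le_one r x
  have hin : Measurable (fun x => inner ℝ x (∇ u x)) := measurable_id.inner hgr
  obtain ⟨M, hM⟩ := (isCompact_closedBall (0 : E d) r).exists_bound_of_continuousOn hu.continuous.continuousOn
  have i5 : Integrable (fun x => wk r x * (u x * inner ℝ x (∇ u x))) := by
    refine int_cut (hw.mul (hu.continuous.measurable.mul hin)).aestronglyMeasurable (r := r)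
      (C := 1 * (M * (r * K)))
      (fun x hx => by rw [wk_supp hr x hx]; simp) (fun x hx => ?_)
    have hMx := hM x hx
    rw [mem_closedBall_zero_iff] at hx
    rw [abs_mul, abs_mul]
    refine mul_le_mul (hw1 x) (mul_le_mul hMx ?_ (abs_nonneg _) ((norm_nonneg _).trans hMx)) (by positivity) (by norm_num)
    exact (abs_real_inner_le_norm _ _).trans (mul_le_mul hx (hgb x) (norm_nonneg _) hr.le)
  obtain ⟨C1, hC1⟩ := lip_mul_cut hu (wk_lip (d := d) hr) (wk_supp hr)
  obtain ⟨C2, hC2⟩ := lip_mul_cut hu hC1 (r := r) (fun x hx => by rw [wk_supp hr x hx, mul_zero])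
  set g : E d → ℝ := fun x => u x * (u x * wk r x) with hg
  have hgc : HasCompactSupport g :=
    HasCompactSupport.intro (isCompact_closedBall 0 r) fun x hx => by simp only [hg]; rw [wk_supp hr x hx]; simp
  have h1 := ibpV (Y := fun x => x) contDiff_id hC2 hgc
  have h2 : ∀ x : E d, dv (fun x : E d => x) x = d := by
    intro x
    simp [dv, bv]
  simp_rw [h2] at h1
  rw [integral_mul_const] at h1
  have hae : ∀ᵐ x : E d, fderiv ℝ g x x = 2 * (wk r x * (u x * inner ℝ x (∇ u x))) -
      (2 / r ^ 2) * (ball (0 : E d) r).indicator (fun x => u x ^ 2 * ‖x‖ ^ 2) x := by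
    filter_upwards [hu.ae_differentiableAt, ae_norm_ne hd hr] with x hx hxr
    have hux := hx.hasFDerivAt
    rcases lt_or_gt_of_ne hxr with h | h
    · have hwx : HasFDerivAt (wk r) (-((r ^ 2)⁻¹ • ((2 : ℕ) • innerSL ℝ x))) x := by
        have h3 := (((hasStrictFDerivAt_norm_sq x).hasFDerivAt.const_mul ((r ^ 2)⁻¹)).const_sub 1)
        refine h3.congr_of_eventuallyEq ?_
        have : ball (0 : E d) r ∈ 𝓝 x := isOpen_ball.mem_nhds (by rwa [mem_ball_zero_iff])
        filter_upwards [this] with y hy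
        rw [mem_ball_zero_iff] at hy
        rw [wk_of_lt hr hy.le, div_eq_inv_mul]
      have h4 : HasFDerivAt g _ x := hux.mul (hux.mul hwx)
      rw [h4.fderiv, indicator_of_mem (by rwa [mem_ball_zero_iff])]
      have h5 : fderiv ℝ u x x = inner ℝ x (∇ u x) := by rw [real_inner_comm, inner_gradient]
      have h6 : (innerSL ℝ x) x = ‖x‖ ^ 2 := by rw [innerSL_apply_apply, real_inner_self_eq_norm_sq]
      simp only [two_smul, smul_neg, neg_apply, smul_apply, add_apply, smul_eq_mul, h5, h6]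
      field_simp
      ring
    · have h4 : g =ᶠ[𝓝 x] fun _ => 0 := by
        have : {y : E d | r < ‖y‖} ∈ 𝓝 x := (isOpen_lt continuous_const continuous_norm).mem_nhds h
        filter_upwards [this] with y hy
        simp only [hg]; rw [wk_of_ge hr (le_of_lt hy)]; simp
      rw [h4.fderiv_eq, indicator_of_notMem (by rw [mem_ball_zero_iff]; exact not_lt.2 h.le), wk_of_ge hr h.le]
      simp
  rw [integral_congr_ae hae] at h1
  have i6 : Integrable ((ball (0 : E d) r).indicator (fun x => u x ^ 2 * ‖x‖ ^ 2)) := by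
    rw [integrable_indicator_iff measurableSet_ball]
    exact ((hu.continuous.pow 2).mul (continuous_norm.pow 2)).locallyIntegrable.integrableOn_isCompact
      (isCompact_closedBall 0 r) |>.mono_set ball_subset_closedBall
  rw [integral_sub (i5.const_mul _) (i6.const_mul _), integral_const_mul, integral_const_mul,
    integral_indicator measurableSet_ball] at h1
  have h7 : (∫ x, g x) = ∫ x, u x ^ 2 * wk r x := by
    refine integral_congr_ae (Eventually.of_forall fun x => ?_)
    simp only [hg]; ring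
  rw [h7] at h1
  linarith

theorem hasDerivAt_inv_sq {s : ℝ} (hs : s ≠ 0) (c : ℝ) : HasDerivAt (fun s : ℝ => 1 - c / s ^ 2) (2 * c / s ^ 3) s := by
  have h1 := (((hasDerivAt_pow 2 s).inv (pow_ne_zero 2 hs)).const_mul c).const_sub 1
  refine (h1.congr_deriv ?_).congr_of_eventuallyEq (Eventually.of_forall fun t => ?_)
  · field_simp
    ring
  · simp [div_eq_mul_inv]

/-- derivatives with respect to `r` of the two integrals -/
theorem weiss_D1 {f : E d → ℝ} (hf : LocallyIntegrable f) {r : ℝ} (hr : 0 < r) :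
    HasDerivAt (fun r => ∫ x, f x * wk r x ^ 2) (4 / r ^ 3 * ∫ x, f x * (wk r x * ‖x‖ ^ 2)) r := by
  have hfm : AEStronglyMeasurable f := hf.aestronglyMeasurable
  have hI : IntegrableOn f (closedBall 0 (2 * r)) := hf.integrableOn_isCompact (isCompact_closedBall 0 (2 * r))
  have hs : Ioo (r / 2) (2 * r) ∈ 𝓝 r := Ioo_mem_nhds (by linarith) (by linarith)
  have hbi : Integrable ((closedBall (0 : E d) (2 * r)).indicator fun x => |f x| * (4 / (r / 2) ^ 3 * (2 * r) ^ 2)) := by
    rw [integrable_indicator_iff measurableSet_closedBall]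
    exact hI.norm.mul_const _
  have key := hasDerivAt_integral_of_dominated_loc_of_deriv_le (μ := (volume : Measure (E d)))
    (F := fun s x => f x * wk s x ^ 2) (x₀ := r) (s := Ioo (r / 2) (2 * r))
    (F' := fun s x => f x * (4 / s ^ 3 * (wk s x * ‖x‖ ^ 2)))
    (bound := (closedBall (0 : E d) (2 * r)).indicator fun x => |f x| * (4 / (r / 2) ^ 3 * (2 * r) ^ 2)) hs
    (Eventually.of_forall fun s => hfm.mul ((wk_meas s).pow_const 2).aestronglyMeasurable)
    ?_ ?_ ?_ hbi ?_
  · have h2 := key.2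
    have e : (∫ x, f x * (4 / r ^ 3 * (wk r x * ‖x‖ ^ 2))) = 4 / r ^ 3 * ∫ x, f x * (wk r x * ‖x‖ ^ 2) := by
      rw [← integral_const_mul]
      refine integral_congr_ae (Eventually.of_forall fun x => ?_)
      simp only; ring
    rw [e] at h2
    exact h2
  · -- integrability at r
    have : Integrable ((closedBall (0 : E d) (2 * r)).indicator fun x => |f x|) := by
      rw [integrable_indicator_iff measurableSet_closedBall]; exact hI.norm
    refine this.mono' (hfm.mul ((wk_meas r).pow_const 2).aestronglyMeasurable) (Eventually.of_forall fun x => ?_)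
    by_cases hx : x ∈ closedBall (0 : E d) (2 * r)
    · rw [indicator_of_mem hx, norm_mul, Real.norm_eq_abs, Real.norm_eq_abs, abs_pow,
        abs_of_nonneg (wk_nonneg r x)]
      have := pow_le_one₀ (n := 2) (wk_nonneg r x) (wk_le_one r x)
      have h0 := abs_nonneg (f x)
      nlinarith
    · rw [indicator_of_notMem hx]
      have : wk r x = 0 := wk_of_ge hr (by
        rw [mem_closedBall_zero_iff, not_le] at hx; linarith)
      rw [this]; simp
  · exact hfm.mul (((wk_meas r).mul (measurable_norm.pow_const 2)).const_mul _).aestronglyMeasurable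
  · refine Eventually.of_forall fun x s hs => ?_
    have hs0 : 0 < s := by linarith [hs.1]
    by_cases hx : x ∈ closedBall (0 : E d) (2 * r)
    · rw [indicator_of_mem hx]
      rw [mem_closedBall_zero_iff] at hx
      simp only [norm_mul, Real.norm_eq_abs]
      have h1 : |4 / s ^ 3| ≤ 4 / (r / 2) ^ 3 := by
        rw [abs_of_pos (by positivity)]
        gcongr
        exact hs.1.le
      have h2 : |wk s x| * |‖x‖ ^ 2| ≤ (2 * r) ^ 2 := by
        rw [abs_of_nonneg (wk_nonneg s x), abs_of_nonneg (by positivity)]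
        have h3 := wk_le_one s x
        have h4 : ‖x‖ ^ 2 ≤ (2 * r) ^ 2 := pow_le_pow_left₀ (norm_nonneg _) hx 2
        have h5 := wk_nonneg s x
        nlinarith [sq_nonneg ‖x‖]
      exact mul_le_mul_of_nonneg_left (mul_le_mul h1 h2 (by positivity) (by positivity)) (abs_nonneg _)
    · rw [indicator_of_notMem hx]
      have : wk s x = 0 := wk_of_ge hs0 (by
        rw [mem_closedBall_zero_iff, not_le] at hx; linarith [hs.2])
      simp [this]
  · refine Eventually.of_forall fun x s hs => ?_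
    have hs0 : 0 < s := by linarith [hs.1]
    have h1 := (hasDerivAt_q (1 - ‖x‖ ^ 2 / s ^ 2)).comp s (hasDerivAt_inv_sq hs0.ne' (‖x‖ ^ 2))
    have h2 := h1.const_mul (f x)
    refine h2.congr_deriv ?_
    unfold wk
    ring

theorem weiss_D2 {f : E d → ℝ} (hf : LocallyIntegrable f) {r : ℝ} (hr : 0 < r) :
    HasDerivAt (fun r => ∫ x, f x * wk r x) (2 / r ^ 3 * ∫ x in ball 0 r, f x * ‖x‖ ^ 2) r := by
  rcases Nat.eq_zero_or_pos d with hd | hd
  · subst hd
    have h0 : ∀ x : E 0, x = 0 := fun x => Subsingleton.elim x 0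
    have e1 : (∫ x in ball (0 : E 0) r, f x * ‖x‖ ^ 2) = 0 := by
      have : ∀ x : E 0, f x * ‖x‖ ^ 2 = 0 := fun x => by rw [h0 x]; simp
      simp_rw [this]; simp
    have e2 : (fun s : ℝ => ∫ x : E 0, f x * wk s x) = fun _ => ∫ x : E 0, f x := by
      ext s
      refine integral_congr_ae (Eventually.of_forall fun x => ?_)
      simp only
      rw [h0 x]; simp [wk]
    rw [e1, mul_zero, e2]
    exact hasDerivAt_const r _
  have hfm : AEStronglyMeasurable f := hf.aestronglyMeasurable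
  have hI : IntegrableOn f (closedBall 0 (2 * r)) := hf.integrableOn_isCompact (isCompact_closedBall 0 (2 * r))
  have hs : Ioo (r / 2) (2 * r) ∈ 𝓝 r := Ioo_mem_nhds (by linarith) (by linarith)
  set Cb : ℝ := 2 * (2 * r) ^ 2 / (r / 2) ^ 3 with hCb
  have hCb0 : 0 ≤ Cb := by positivity
  have hbi : Integrable ((closedBall (0 : E d) (2 * r)).indicator fun x => |f x| * Cb) := by
    rw [integrable_indicator_iff measurableSet_closedBall]
    exact hI.norm.mul_const _
  have hi0 : Integrable (fun x => f x * wk r x) := by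
    have : Integrable ((closedBall (0 : E d) (2 * r)).indicator fun x => |f x|) := by
      rw [integrable_indicator_iff measurableSet_closedBall]; exact hI.norm
    refine this.mono' (hfm.mul (wk_meas r).aestronglyMeasurable) (Eventually.of_forall fun x => ?_)
    by_cases hx : x ∈ closedBall (0 : E d) (2 * r)
    · rw [indicator_of_mem hx, norm_mul, Real.norm_eq_abs, Real.norm_eq_abs,
        abs_of_nonneg (wk_nonneg r x)]
      have := wk_le_one r x
      have h0 := abs_nonneg (f x)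
      nlinarith
    · rw [indicator_of_notMem hx]
      have : wk r x = 0 := wk_of_ge hr (by
        rw [mem_closedBall_zero_iff, not_le] at hx; linarith)
      rw [this]; simp
  have key := hasDerivAt_integral_of_dominated_loc_of_lip (μ := (volume : Measure (E d)))
    (F := fun s x => f x * wk s x) (x₀ := r) (s := Ioo (r / 2) (2 * r))
    (F' := fun x => (ball (0 : E d) r).indicator (fun x => f x * (2 * ‖x‖ ^ 2 / r ^ 3)) x)
    (bound := (closedBall (0 : E d) (2 * r)).indicator fun x => |f x| * Cb) hs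
    (Eventually.of_forall fun s => hfm.mul (wk_meas s).aestronglyMeasurable)
    hi0 ?_ ?_ hbi ?_
  · have h2 := key.2
    have e : (∫ x, (ball (0 : E d) r).indicator (fun x => f x * (2 * ‖x‖ ^ 2 / r ^ 3)) x) =
        2 / r ^ 3 * ∫ x in ball 0 r, f x * ‖x‖ ^ 2 := by
      rw [integral_indicator measurableSet_ball, ← integral_const_mul]
      refine integral_congr_ae (Eventually.of_forall fun x => ?_)
      simp only; ring
    rw [e] at h2
    exact h2
  · refine AEStronglyMeasurable.indicator ?_ measurableSet_ball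
    exact hfm.mul (((measurable_norm.pow_const 2).const_mul 2).div_const _).aestronglyMeasurable
  · refine Eventually.of_forall fun x => ?_
    have hconv : Convex ℝ (Ioo (r / 2) (2 * r)) := convex_Ioo _ _
    have h1 : LipschitzOnWith (Real.nnabs (if ‖x‖ ≤ 2 * r then Cb else 0)) (fun s => wk s x) (Ioo (r / 2) (2 * r)) := by
      by_cases hx : ‖x‖ ≤ 2 * r
      · rw [if_pos hx]
        have h2 : LipschitzOnWith (Real.nnabs Cb) (fun s => 1 - ‖x‖ ^ 2 / s ^ 2) (Ioo (r / 2) (2 * r)) := by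
          refine hconv.lipschitzOnWith_of_nnnorm_hasDerivWithin_le
            (f' := fun s => 2 * ‖x‖ ^ 2 / s ^ 3) (fun s hs => ?_) (fun s hs => ?_)
          · have hs0 : 0 < s := by linarith [hs.1]
            exact (hasDerivAt_inv_sq hs0.ne' (‖x‖ ^ 2)).hasDerivWithinAt
          · have hs0 : 0 < s := by linarith [hs.1]
            rw [← NNReal.coe_le_coe, coe_nnnorm, Real.coe_nnabs, abs_of_nonneg hCb0, Real.norm_eq_abs,
              abs_of_nonneg (by positivity), hCb]
            have h5 : r / 2 ≤ s := hs.1.le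
            gcongr
        intro s hs t ht
        refine le_trans ?_ (h2 hs ht)
        rw [edist_dist, edist_dist]
        apply ENNReal.ofReal_le_ofReal
        rw [Real.dist_eq, Real.dist_eq]
        unfold wk
        refine (abs_max_sub_max_le_max _ _ _ _).trans ?_
        simp
      · rw [if_neg hx]
        intro s hs t ht
        have hx' : 2 * r ≤ ‖x‖ := (not_le.1 hx).le
        have e1 : wk s x = 0 := wk_of_ge (by linarith [hs.1]) (by linarith [hs.2])
        have e2 : wk t x = 0 := wk_of_ge (by linarith [ht.1]) (by linarith [ht.2])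
        simp [e1, e2]
    have h3 : (closedBall (0 : E d) (2 * r)).indicator (fun x => |f x| * Cb) x =
        |f x| * (if ‖x‖ ≤ 2 * r then Cb else 0) := by
      by_cases hx : ‖x‖ ≤ 2 * r
      · rw [if_pos hx, indicator_of_mem (by rwa [mem_closedBall_zero_iff])]
      · rw [if_neg hx, indicator_of_notMem (by rwa [mem_closedBall_zero_iff]), mul_zero]
    intro s hs t ht
    have h4 := h1 hs ht
    rw [edist_dist, edist_dist] at h4 ⊢
    rw [← ENNReal.ofReal_coe_nnreal, ← ENNReal.ofReal_mul (by positivity)] at h4 ⊢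
    rw [ENNReal.ofReal_le_ofReal_iff (by positivity)] at h4 ⊢
    rw [h3, Real.coe_nnabs, abs_mul, abs_abs]
    rw [Real.coe_nnabs] at h4
    rw [Real.dist_eq] at h4 ⊢
    rw [← mul_sub, abs_mul, mul_assoc]
    exact mul_le_mul_of_nonneg_left h4 (abs_nonneg _)
  · filter_upwards [ae_norm_ne hd hr] with x hxr
    rcases lt_or_gt_of_ne hxr with h | h
    · rw [indicator_of_mem (by rwa [mem_ball_zero_iff])]
      refine HasDerivAt.const_mul (f x) ?_
      refine (hasDerivAt_inv_sq hr.ne' (‖x‖ ^ 2)).congr_of_eventuallyEq ?_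
      filter_upwards [Ioi_mem_nhds h] with s hs
      exact wk_of_lt (lt_of_le_of_lt (norm_nonneg _) hs) (le_of_lt hs)
    · rw [indicator_of_notMem (by rw [mem_ball_zero_iff]; exact not_lt.2 h.le)]
      refine (hasDerivAt_const r (0 : ℝ)).congr_of_eventuallyEq ?_
      filter_upwards [Ioo_mem_nhds hr h] with s hs
      rw [wk_of_ge hs.1 hs.2.le, mul_zero]

/-- the monotonicity formula -/
theorem weiss {K : ℝ≥0} {u : E d → ℝ} (hu : LM u K) {r : ℝ} (hr : 0 < r) :
    HasDerivAt (Ws u) (8 / r ^ (d + 3) * ∫ x, wk r x * (inner ℝ x (∇ u x) - u x) ^ 2) r := by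
  have hI1 := weiss_I1 hu hr
  have hI2 := weiss_I2 hu hr
  have hI3 := weiss_I3 hu.lip hr
  have hl1 : LocallyIntegrable (fun x => ‖∇ u x‖ ^ 2 + pos (u x)) := by
    intro x
    exact ⟨ball x 1, ball_mem_nhds x one_pos, gE_integrableOn hu.lip measure_ball_lt_top⟩
  have hl2 : LocallyIntegrable (fun x => u x ^ 2) := (hu.lip.continuous.pow 2).locallyIntegrable
  have hD1 := weiss_D1 hl1 hr
  have hD2 := weiss_D2 hl2 hr
  have hw : Measurable (wk r : E d → ℝ) := wk_meas r
  have hgr := measurable_grad u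
  have hgb : ∀ x, ‖∇ u x‖ ≤ K := norm_grad_le hu.lip
  have hw1 : ∀ x : E d, |wk r x| ≤ 1 := fun x => by
    rw [abs_of_nonneg (wk_nonneg r x)]; exact wk_le_one r x
  have hin : Measurable (fun x => inner ℝ x (∇ u x)) := measurable_id.inner hgr
  obtain ⟨M, hM⟩ := (isCompact_closedBall (0 : E d) r).exists_bound_of_continuousOn hu.lip.continuous.continuousOn
  have i4 : Integrable (fun x => wk r x * inner ℝ x (∇ u x) ^ 2) := by
    refine int_cut (hw.mul (hin.pow_const 2)).aestronglyMeasurable (r := r)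
      (C := 1 * (r * K) ^ 2)
      (fun x hx => by rw [wk_supp hr x hx]; simp) (fun x hx => ?_)
    rw [mem_closedBall_zero_iff] at hx
    rw [abs_mul, abs_pow]
    refine mul_le_mul (hw1 x) (pow_le_pow_left₀ (abs_nonneg _) ?_ 2) (by positivity) (by norm_num)
    exact (abs_real_inner_le_norm _ _).trans (mul_le_mul hx (hgb x) (norm_nonneg _) hr.le)
  have i5 : Integrable (fun x => wk r x * (u x * inner ℝ x (∇ u x))) := by
    refine int_cut (hw.mul (hu.lip.continuous.measurable.mul hin)).aestronglyMeasurable (r := r)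
      (C := 1 * (M * (r * K)))
      (fun x hx => by rw [wk_supp hr x hx]; simp) (fun x hx => ?_)
    have hMx := hM x hx
    rw [mem_closedBall_zero_iff] at hx
    rw [abs_mul, abs_mul]
    refine mul_le_mul (hw1 x) (mul_le_mul hMx ?_ (abs_nonneg _) ((norm_nonneg _).trans hMx)) (by positivity) (by norm_num)
    exact (abs_real_inner_le_norm _ _).trans (mul_le_mul hx (hgb x) (norm_nonneg _) hr.le)
  have i6 : Integrable (fun x => u x ^ 2 * wk r x) :=
    ((hu.lip.continuous.pow 2).mul (wk_cont r)).integrable_of_hasCompactSupport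
      (HasCompactSupport.intro (isCompact_closedBall 0 r) fun x hx => by simp [wk_supp hr x hx])
  have hexp : (∫ x, wk r x * (inner ℝ x (∇ u x) - u x) ^ 2) =
      (∫ x, wk r x * inner ℝ x (∇ u x) ^ 2) - 2 * (∫ x, wk r x * (u x * inner ℝ x (∇ u x))) +
        ∫ x, u x ^ 2 * wk r x := by
    have e : ∀ x : E d, wk r x * (inner ℝ x (∇ u x) - u x) ^ 2 =
        wk r x * inner ℝ x (∇ u x) ^ 2 - 2 * (wk r x * (u x * inner ℝ x (∇ u x))) + u x ^ 2 * wk r x := by
      intro x; ring
    have j : Integrable (fun x => wk r x * inner ℝ x (∇ u x) ^ 2 - 2 * (wk r x * (u x * inner ℝ x (∇ u x)))) :=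
      i4.sub (i5.const_mul _)
    rw [integral_congr_ae (Eventually.of_forall e), integral_add j i6, integral_sub i4 (i5.const_mul _),
      integral_const_mul]
  set A := ∫ x, (‖∇ u x‖ ^ 2 + pos (u x)) * wk r x ^ 2
  set A1 := ∫ x, (‖∇ u x‖ ^ 2 + pos (u x)) * (wk r x * ‖x‖ ^ 2)
  set G := ∫ x, ‖∇ u x‖ ^ 2 * wk r x ^ 2
  set P := ∫ x, wk r x * inner ℝ x (∇ u x) ^ 2
  set Q := ∫ x, wk r x * (u x * inner ℝ x (∇ u x))
  set B := ∫ x, u x ^ 2 * wk r x
  set B1 := ∫ x in ball (0 : E d) r, u x ^ 2 * ‖x‖ ^ 2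
  have hr0 : r ≠ 0 := hr.ne'
  have h4 : HasDerivAt (fun s : ℝ => 4 / s ^ 2) (-8 / r ^ 3) r := by
    have h1 := ((hasDerivAt_pow 2 r).inv (pow_ne_zero 2 hr0)).const_mul 4
    refine (h1.congr_deriv ?_).congr_of_eventuallyEq (Eventually.of_forall fun t => ?_)
    · field_simp
      ring
    · simp [div_eq_mul_inv]
  have h5 := ((hD1.sub (h4.mul hD2)).div (hasDerivAt_pow d r) (pow_ne_zero d hr0))
  refine h5.congr_deriv ?_
  rw [hexp]
  have hA1 : 4 / r ^ 2 * A1 = d * A - 2 * G + 8 / r ^ 2 * P := by linarith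
  have hG : G = 4 / r ^ 2 * Q := by linarith
  have hB1 : 2 / r ^ 2 * B1 = 2 * Q + d * B := hI3
  have hA1' : A1 = r ^ 2 / 4 * (d * A - 2 * (4 / r ^ 2 * Q) + 8 / r ^ 2 * P) := by
    rw [← hG, ← hA1]; field_simp
  have hB1' : B1 = r ^ 2 / 2 * (2 * Q + d * B) := by
    rw [← hB1]; field_simp
  have hR : (d : ℝ) * r ^ (d - 1) = d * r ^ d / r := by
    rcases Nat.eq_zero_or_pos d with hd | hd
    · subst hd; simp
    · obtain ⟨k, rfl⟩ : ∃ k, d = k + 1 := ⟨d - 1, by omega⟩
      rw [Nat.add_sub_cancel, pow_succ]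
      field_simp
  simp only [Pi.sub_apply, Pi.mul_apply]
  rw [hR, hA1', hB1', pow_add]
  have hRd : r ^ d ≠ 0 := pow_ne_zero d hr0
  field_simp
  ring


end Crest.Agent.R097
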