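import Crest.Agent.R097.Weiss1

/-! W2h (part a): monotonicity, scaling and boundedness of the smoothed Weiss energy. -/
set_option autoImplicit false
open MeasureTheory Metric Set Filter Topology
open scoped NNReal RealInnerProductSpace Gradient ContDiff Laplacian

namespace Crest.Agent.R097.W2
variable {d : ℕ}

theorem Ws_mono' {K : ℝ≥0} {u : E d → ℝ} (hu : LM u K) : MonotoneOn (Ws u) (Ioi 0) := by
  have hder : ∀ r ∈ Ioi (0 : ℝ), HasDerivAt (Ws u)
      (8 / r ^ (d + 3) * ∫ x, wk r x * (inner ℝ x (∇ u x) - u x) ^ 2) r := fun r hr => weiss hu hr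
  refine monotoneOn_of_deriv_nonneg (convex_Ioi 0) (fun r hr => (hder r hr).continuousAt.continuousWithinAt) ?_ ?_
  · rw [interior_Ioi]
    exact fun r hr => (hder r hr).differentiableAt.differentiableWithinAt
  · rw [interior_Ioi]
    intro r hr
    rw [(hder r hr).deriv]
    have hr' : 0 < r := hr
    refine mul_nonneg (by positivity) (integral_nonneg fun x => ?_)
    exact mul_nonneg (wk_nonneg r x) (sq_nonneg _)

lemma grad_blow0 (u : E d → ℝ) {r : ℝ} (hr : r ≠ 0) (x : E d) :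
    ∇ (blow u 0 r) x = ∇ u (r • x) := by
  have h1 : fderiv ℝ (blow u 0 r) x = fderiv ℝ u (r • x) := by
    have h2 : blow u 0 r = fun x => r⁻¹ • (fun y => u (r • y)) x := by
      ext y; simp [blow, div_eq_inv_mul]
    have h3 : fderiv ℝ (fun y => u (r • y)) x = r • fderiv ℝ u (r • x) := by
      rw [fderiv_comp_smul (f := u) r]
    have h4 : fderiv ℝ (fun x => r⁻¹ • (fun y => u (r • y)) x) x
        = r⁻¹ • fderiv ℝ (fun y => u (r • y)) x :=
      congrFun (fderiv_const_smul_field (R := ℝ) (𝕜 := ℝ) (f := fun y => u (r • y)) r⁻¹) x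
    rw [h2, h4, h3, smul_smul, inv_mul_cancel₀ hr, one_smul]
  unfold gradient
  rw [h1]

lemma pos_div' (t : ℝ) {r : ℝ} (hr : 0 < r) : pos (t / r) = pos t := by
  unfold pos
  have : 0 < t / r ↔ 0 < t := by
    constructor
    · intro h
      have := mul_pos h hr
      rwa [div_mul_cancel₀ _ hr.ne'] at this
    · intro h; positivity
  simp [this]

lemma blow_lip0 {K : ℝ≥0} {u : E d → ℝ} (hu : LipschitzWith K u) {r : ℝ} (hr : 0 < r) :
    LipschitzWith K (blow u 0 r) := by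
  refine LipschitzWith.of_dist_le_mul fun x y => ?_
  have h1 := hu.dist_le_mul (0 + r • x) (0 + r • y)
  have h2 : dist (0 + r • x) (0 + r • y) = r * dist x y := by
    rw [dist_add_left, dist_smul₀, Real.norm_eq_abs, abs_of_pos hr]
  rw [h2, Real.dist_eq] at h1
  rw [Real.dist_eq, blow, blow, ← sub_div, abs_div, abs_of_pos hr, div_le_iff₀ hr]
  linarith

lemma wk_scale {ρ r : ℝ} (hρ : 0 < ρ) (hr : 0 < r) (x : E d) : wk (ρ * r) (ρ • x) = wk r x := by
  unfold wk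
  rw [norm_smul, Real.norm_eq_abs, abs_of_pos hρ]
  congr 2
  field_simp

/-- scaling of the energy (no minimality needed) -/
theorem Ws_blow0 (u : E d → ℝ) {ρ r : ℝ} (hρ : 0 < ρ) (hr : 0 < r) :
    Ws (blow u 0 ρ) r = Ws u (ρ * r) := by
  have e1 : (∫ x, (‖∇ (blow u 0 ρ) x‖ ^ 2 + pos (blow u 0 ρ x)) * wk r x ^ 2) =
      (ρ ^ d)⁻¹ * ∫ x, (‖∇ u x‖ ^ 2 + pos (u x)) * wk (ρ * r) x ^ 2 := by
    have h1 : ∀ x : E d, (‖∇ (blow u 0 ρ) x‖ ^ 2 + pos (blow u 0 ρ x)) * wk r x ^ 2 =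
        (fun y => (‖∇ u y‖ ^ 2 + pos (u y)) * wk (ρ * r) y ^ 2) (ρ • x) := by
      intro x
      simp only
      rw [grad_blow0 u hρ.ne', wk_scale hρ hr]
      have : blow u 0 ρ x = u (ρ • x) / ρ := by simp [blow]
      rw [this, pos_div' _ hρ]
    simp_rw [h1]
    rw [Measure.integral_comp_smul (volume : Measure (E d))
      (fun y => (‖∇ u y‖ ^ 2 + pos (u y)) * wk (ρ * r) y ^ 2) ρ, finrank_euclideanSpace, Fintype.card_fin,
      smul_eq_mul, abs_of_nonneg (by positivity)]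
  have e2 : (∫ x, blow u 0 ρ x ^ 2 * wk r x) =
      (ρ ^ d)⁻¹ * ((ρ ^ 2)⁻¹ * ∫ x, u x ^ 2 * wk (ρ * r) x) := by
    have h1 : ∀ x : E d, blow u 0 ρ x ^ 2 * wk r x =
        (ρ ^ 2)⁻¹ * (fun y => u y ^ 2 * wk (ρ * r) y) (ρ • x) := by
      intro x
      simp only
      rw [wk_scale hρ hr]
      have : blow u 0 ρ x = u (ρ • x) / ρ := by simp [blow]
      rw [this]
      field_simp
    simp_rw [h1]
    rw [integral_const_mul, Measure.integral_comp_smul (volume : Measure (E d))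
      (fun y => u y ^ 2 * wk (ρ * r) y) ρ, finrank_euclideanSpace, Fintype.card_fin,
      smul_eq_mul, abs_of_nonneg (by positivity)]
    ring
  unfold Ws
  rw [e1, e2]
  have hρ0 : ρ ≠ 0 := hρ.ne'
  have hr0 : r ≠ 0 := hr.ne'
  have hρd : ρ ^ d ≠ 0 := pow_ne_zero _ hρ0
  have hrd : r ^ d ≠ 0 := pow_ne_zero _ hr0
  field_simp
  rw [mul_pow]
  ring

theorem Ws_blow' {K : ℝ≥0} {u : E d → ℝ} (_hu : LM u K) {ρ r : ℝ} (hρ : 0 < ρ) (hr : 0 < r) :
    Ws (blow u 0 ρ) r = Ws u (ρ * r) := Ws_blow0 u hρ hr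

/-- bound at scale one -/
theorem Ws_one_bdd {K : ℝ≥0} {u : E d → ℝ} (hu : LipschitzWith K u) (h0 : u 0 = 0) :
    |Ws u 1| ≤ (5 * (K : ℝ) ^ 2 + 1) * (volume (closedBall (0 : E d) 1)).toReal := by
  have hgb : ∀ x, ‖∇ u x‖ ≤ K := norm_grad_le hu
  have hub : ∀ x ∈ closedBall (0 : E d) 1, |u x| ≤ K := by
    intro x hx
    have h := hu.dist_le_mul x 0
    rw [h0, Real.dist_eq, sub_zero, dist_zero_right] at h
    rw [mem_closedBall_zero_iff] at hx
    calc |u x| ≤ K * ‖x‖ := h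
      _ ≤ K * 1 := mul_le_mul_of_nonneg_left hx K.2
      _ = K := mul_one _
  have h1 : ‖∫ x, (‖∇ u x‖ ^ 2 + pos (u x)) * wk 1 x ^ 2‖ ≤
      ((K : ℝ) ^ 2 + 1) * (volume (closedBall (0 : E d) 1)).toReal := by
    have e : (∫ x, (‖∇ u x‖ ^ 2 + pos (u x)) * wk 1 x ^ 2) =
        ∫ x in closedBall (0 : E d) 1, (‖∇ u x‖ ^ 2 + pos (u x)) * wk 1 x ^ 2 := by
      rw [setIntegral_eq_integral_of_forall_compl_eq_zero]
      intro x hx
      rw [wk_supp one_pos x hx]; simp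
    rw [e]
    refine norm_setIntegral_le_of_norm_le_const (isCompact_closedBall 0 1).measure_lt_top fun x _ => ?_
    have hp0 : 0 ≤ pos (u x) := by unfold pos; split_ifs <;> norm_num
    have hp1 : pos (u x) ≤ 1 := by unfold pos; split_ifs <;> norm_num
    have hw := pow_le_one₀ (n := 2) (wk_nonneg 1 x) (wk_le_one 1 x)
    have hg : ‖∇ u x‖ ^ 2 ≤ (K : ℝ) ^ 2 := pow_le_pow_left₀ (norm_nonneg _) (hgb x) 2
    rw [Real.norm_eq_abs, abs_of_nonneg (by positivity)]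
    calc (‖∇ u x‖ ^ 2 + pos (u x)) * wk 1 x ^ 2 ≤ ((K : ℝ) ^ 2 + 1) * 1 := by gcongr
      _ = _ := mul_one _
  have h2 : ‖∫ x, u x ^ 2 * wk 1 x‖ ≤ (K : ℝ) ^ 2 * (volume (closedBall (0 : E d) 1)).toReal := by
    have e : (∫ x, u x ^ 2 * wk 1 x) = ∫ x in closedBall (0 : E d) 1, u x ^ 2 * wk 1 x := by
      rw [setIntegral_eq_integral_of_forall_compl_eq_zero]
      intro x hx
      rw [wk_supp one_pos x hx]; simp
    rw [e]
    refine norm_setIntegral_le_of_norm_le_const (isCompact_closedBall 0 1).measure_lt_top fun x hx => ?_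
    have hg : u x ^ 2 ≤ (K : ℝ) ^ 2 := by
      rw [← sq_abs]; exact pow_le_pow_left₀ (abs_nonneg _) (hub x hx) 2
    rw [Real.norm_eq_abs, abs_of_nonneg (mul_nonneg (sq_nonneg _) (wk_nonneg 1 x))]
    calc u x ^ 2 * wk 1 x ≤ (K : ℝ) ^ 2 * 1 :=
          mul_le_mul hg (wk_le_one 1 x) (wk_nonneg 1 x) (by positivity)
      _ = _ := mul_one _
  unfold Ws
  rw [one_pow, one_pow, div_one, div_one]
  rw [Real.norm_eq_abs] at h1 h2
  have h3 := abs_sub (∫ x, (‖∇ u x‖ ^ 2 + pos (u x)) * wk 1 x ^ 2) (4 * ∫ x, u x ^ 2 * wk 1 x)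
  rw [abs_mul, abs_of_pos (by norm_num : (0 : ℝ) < 4)] at h3
  linarith

theorem Ws_bdd' (d : ℕ) (K : ℝ≥0) : ∃ C : ℝ, ∀ u : E d → ℝ, LM u K → u 0 = 0 → ∀ r : ℝ, 0 < r → |Ws u r| ≤ C := by
  refine ⟨(5 * (K : ℝ) ^ 2 + 1) * (volume (closedBall (0 : E d) 1)).toReal, fun u hu h0 r hr => ?_⟩
  have h1 : Ws (blow u 0 r) 1 = Ws u (r * 1) := Ws_blow0 u hr one_pos
  rw [mul_one] at h1
  rw [← h1]
  refine Ws_one_bdd (blow_lip0 hu.lip hr) ?_
  simp [blow, h0]

end Crest.Agent.R097.W2
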