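import Crest.Agent.R097.Weiss1

/-! W2h: homogeneity of minimisers with constant Weiss energy (helper870). -/
set_option autoImplicit false
open MeasureTheory Metric Set Filter Topology
open scoped NNReal RealInnerProductSpace Gradient ContDiff Laplacian

namespace Crest.Agent.R097
namespace W2
variable {d : ℕ}

theorem integrable_wk {K : ℝ≥0} {u : E d → ℝ} (hu : LipschitzWith K u) {r : ℝ} (hr : 0 < r) :
    Integrable (fun x => wk r x * (inner ℝ x (∇ u x) - u x) ^ 2) := by
  have hw : Measurable (wk r : E d → ℝ) := wk_meas r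
  have hgr := measurable_grad u
  have hgb : ∀ x, ‖∇ u x‖ ≤ K := norm_grad_le hu
  have hw1 : ∀ x : E d, |wk r x| ≤ 1 := fun x => by
    rw [abs_of_nonneg (wk_nonneg r x)]; exact wk_le_one r x
  have hin : Measurable (fun x => inner ℝ x (∇ u x)) := measurable_id.inner hgr
  obtain ⟨M, hM⟩ :=
    (isCompact_closedBall (0 : E d) r).exists_bound_of_continuousOn hu.continuous.continuousOn
  refine int_cut (hw.mul ((hin.sub hu.continuous.measurable).pow_const 2)).aestronglyMeasurable
    (r := r) (C := 1 * (r * K + M) ^ 2)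
    (fun x hx => by rw [wk_supp hr x hx]; simp) (fun x hx => ?_)
  have hMx := hM x hx
  rw [mem_closedBall_zero_iff] at hx
  rw [Real.norm_eq_abs] at hMx
  have hb : |inner ℝ x (∇ u x) - u x| ≤ r * K + M := by
    refine (abs_sub _ _).trans (add_le_add ?_ hMx)
    exact (abs_real_inner_le_norm _ _).trans (mul_le_mul hx (hgb x) (norm_nonneg _) hr.le)
  rw [abs_mul, abs_pow]
  exact mul_le_mul (hw1 x) (pow_le_pow_left₀ (abs_nonneg _) hb 2) (by positivity) (by norm_num)

theorem radial_ae {K : ℝ≥0} {u : E d → ℝ} (hu : LM u K)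
    (h : ∀ r s : ℝ, 0 < r → 0 < s → Ws u r = Ws u s) :
    ∀ᵐ x : E d, inner ℝ x (∇ u x) = u x := by
  have key : ∀ n : ℕ, ∀ᵐ x : E d, wk (n + 1) x * (inner ℝ x (∇ u x) - u x) ^ 2 = 0 := by
    intro n
    have hr : (0 : ℝ) < n + 1 := by positivity
    have h1 := weiss hu hr
    have h2 : HasDerivAt (Ws u) 0 ((n : ℝ) + 1) := by
      refine (hasDerivAt_const ((n : ℝ) + 1) (Ws u ((n : ℝ) + 1))).congr_of_eventuallyEq ?_
      filter_upwards [Ioi_mem_nhds hr] with s hs
      exact h s _ hs hr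
    have h3 := h1.unique h2
    have h4 : (∫ x : E d, wk ((n : ℝ) + 1) x * (inner ℝ x (∇ u x) - u x) ^ 2) = 0 := by
      rcases mul_eq_zero.1 h3 with h5 | h5
      · exfalso
        have : (0 : ℝ) < 8 / ((n : ℝ) + 1) ^ (d + 3) := by positivity
        linarith
      · exact h5
    exact (integral_eq_zero_iff_of_nonneg
      (fun x => mul_nonneg (wk_nonneg _ _) (sq_nonneg _)) (integrable_wk hu.lip hr)).1 h4
  filter_upwards [ae_all_iff.2 key] with x hx
  obtain ⟨n, hn⟩ := exists_nat_gt ‖x‖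
  have hr : (0 : ℝ) < n + 1 := by positivity
  have h1 := hx n
  have hlt : ‖x‖ < (n : ℝ) + 1 := hn.trans (by linarith)
  have hpos : 0 < wk ((n : ℝ) + 1) x := by
    rw [wk_of_lt hr hlt.le, sub_pos, div_lt_one (by positivity)]
    exact pow_lt_pow_left₀ hlt (norm_nonneg _) (by norm_num)
  rcases mul_eq_zero.1 h1 with h2 | h2
  · exact absurd h2 hpos.ne'
  · have := pow_eq_zero_iff (two_ne_zero) |>.1 h2
    linarith

theorem radial_on {K : ℝ≥0} {u : E d → ℝ} (hu : LM u K)
    (h : ∀ r s : ℝ, 0 < r → 0 < s → Ws u r = Ws u s) {x : E d} (hx : 0 < u x) :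
    inner ℝ x (∇ u x) = u x := by
  have hop : IsOpen {x | 0 < u x} := isOpen_lt continuous_const hu.lip.continuous
  have hC : ContDiffOn ℝ ∞ u {x | 0 < u x} := hu.harm.1
  have hfc : ContinuousOn (fderiv ℝ u) {x | 0 < u x} :=
    hC.continuousOn_fderiv_of_isOpen hop (by norm_cast)
  have hgc : ContinuousOn (∇ u) {x | 0 < u x} := by
    unfold gradient
    exact (InnerProductSpace.toDual ℝ (E d)).symm.continuous.comp_continuousOn hfc
  exact Measure.eqOn_open_of_ae_eq (μ := volume)
    (f := fun x => inner ℝ x (∇ u x)) (g := u) (ae_restrict_of_ae (radial_ae hu h)) hop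
    (continuousOn_id.inner hgc) hu.lip.continuous.continuousOn hx

theorem sq_deriv {K : ℝ≥0} {u : E d → ℝ} (hu : LM u K)
    (h : ∀ r s : ℝ, 0 < r → 0 < s → Ws u r = Ws u s) (x : E d) {t : ℝ} (ht : 0 < t) :
    HasDerivAt (fun s : ℝ => u (s • x) ^ 2) (2 * u (t • x) ^ 2 / t) t := by
  rcases (hu.nonneg (t • x)).lt_or_eq with hpos | hzero
  · have hop : IsOpen {x | 0 < u x} := isOpen_lt continuous_const hu.lip.continuous
    have hC : ContDiffOn ℝ ∞ u {x | 0 < u x} := hu.harm.1
    have hd : DifferentiableAt ℝ u (t • x) :=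
      (hC.differentiableOn (by norm_cast)).differentiableAt (hop.mem_nhds hpos)
    have h1 := hd.hasGradientAt.hasFDerivAt
    have h2 : HasDerivAt (fun s : ℝ => s • x) x t := by
      simpa using (hasDerivAt_id t).smul_const x
    have h3 := h1.comp_hasDerivAt t h2
    have h4 : (InnerProductSpace.toDual ℝ (E d)) (∇ u (t • x)) x = u (t • x) / t := by
      rw [InnerProductSpace.toDual_apply_apply, real_inner_comm]
      have h5 := radial_on hu h hpos
      rw [real_inner_smul_left] at h5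
      field_simp
      linarith
    rw [h4] at h3
    refine (h3.pow 2).congr_deriv ?_
    simp only [Function.comp]
    field_simp
    norm_num
    ring
  · rw [← hzero]
    have hb : ∀ s : ℝ, |u (s • x) ^ 2| ≤ (K * ‖x‖) ^ 2 * |s - t| ^ 2 := by
      intro s
      have h1 := hu.lip.dist_le_mul (s • x) (t • x)
      rw [Real.dist_eq, ← hzero, sub_zero, dist_eq_norm, ← sub_smul, norm_smul,
        Real.norm_eq_abs] at h1
      rw [abs_pow, ← mul_pow]
      refine pow_le_pow_left₀ (abs_nonneg _) (h1.trans (le_of_eq ?_)) 2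
      ring
    rw [hasDerivAt_iff_isLittleO]
    have e : (fun s : ℝ => u (s • x) ^ 2 - u (t • x) ^ 2 - (s - t) • (2 * 0 ^ 2 / t)) =
        fun s : ℝ => u (s • x) ^ 2 := by
      funext s
      rw [← hzero]
      simp
    rw [e]
    have h1 : (fun s : ℝ => u (s • x) ^ 2) =O[𝓝 t] fun s => |s - t| ^ 2 := by
      refine Asymptotics.IsBigO.of_bound ((K * ‖x‖) ^ 2) (Eventually.of_forall fun s => ?_)
      rw [Real.norm_eq_abs, Real.norm_eq_abs, abs_of_nonneg (by positivity : 0 ≤ |s - t| ^ 2)]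
      exact hb s
    have h2 : (fun s : ℝ => |s - t| ^ 2) =o[𝓝 t] fun s => s - t := by
      have h3 : (fun s : ℝ => |s - t| ^ 2) = fun s => (s - t) * (s - t) := by
        funext s
        rw [sq_abs]
        ring
      rw [h3]
      have h4 : (fun s : ℝ => s - t) =o[𝓝 t] fun _ => (1 : ℝ) := by
        rw [Asymptotics.isLittleO_one_iff]
        have : Tendsto (fun s : ℝ => s - t) (𝓝 t) (𝓝 (t - t)) :=
          (continuous_id.sub continuous_const).tendsto t
        simpa using this
      simpa using h4.mul_isBigO (Asymptotics.isBigO_refl (fun s : ℝ => s - t) (𝓝 t))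
    exact h1.trans_isLittleO h2

theorem hom_of_Ws' {K : ℝ≥0} {u : E d → ℝ} (hu : LM u K)
    (h : ∀ r s : ℝ, 0 < r → 0 < s → Ws u r = Ws u s) : Hom1 u := by
  intro r hr x
  have hd : ∀ t : ℝ, 0 < t → HasDerivAt (fun s : ℝ => u (s • x) ^ 2 / s ^ 2) 0 t := by
    intro t ht
    have h1 := (sq_deriv hu h x ht).div (hasDerivAt_pow 2 t) (by positivity)
    refine h1.congr_deriv ?_
    field_simp
    simp
  have hc : (fun s : ℝ => u (s • x) ^ 2 / s ^ 2) r = (fun s : ℝ => u (s • x) ^ 2 / s ^ 2) 1 := by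
    refine isOpen_Ioi.is_const_of_deriv_eq_zero isPreconnected_Ioi
      (fun t ht => (hd t ht).differentiableAt.differentiableWithinAt)
      (fun t ht => (hd t ht).deriv) (x := r) (y := 1) hr ?_
    exact (one_pos : (0 : ℝ) < 1)
  simp only [one_smul, one_pow, div_one] at hc
  have h1 : u (r • x) ^ 2 = (r * u x) ^ 2 := by
    rw [div_eq_iff (by positivity)] at hc
    rw [hc]; ring
  exact (pow_left_inj₀ (hu.nonneg _) (mul_nonneg hr.le (hu.nonneg _)) two_ne_zero).1 h1

end W2
end Crest.Agent.R097
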