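import Crest.Agent.R097.Weiss2a
import Crest.Agent.R097.C2

/-! W2h (part c): convergence of the smoothed Weiss energy. -/
set_option autoImplicit false
open MeasureTheory Metric Set Filter Topology
open scoped NNReal RealInnerProductSpace Gradient ContDiff Laplacian

namespace Crest.Agent.R097.W2
variable {d : ℕ}

theorem Ws_lim' (hd : 1 ≤ d) {K : ℝ≥0} {u : ℕ → E d → ℝ} {v : E d → ℝ} (hu : ∀ k, LM (u k) K)
    (h : ∀ x, Tendsto (fun k => u k x) atTop (𝓝 (v x))) {r : ℝ} (hr : 0 < r) :
    Tendsto (fun k => Ws (u k) r) atTop (𝓝 (Ws v r)) := by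
  have hlip : ∀ k, LipschitzWith K (u k) := fun k => (hu k).lip
  have hv : LipschitzWith K v := lip_of_ptw hlip h
  obtain ⟨h0, hptw⟩ := lim_ptw hd hu h
  have hae : ∀ᵐ x : E d, x ∉ frontier {x | 0 < v x} := by
    rw [ae_iff]; simpa using h0
  have hw : Measurable (wk r : E d → ℝ) := wk_meas r
  -- first integral
  have T1 : Tendsto (fun k => ∫ x, (‖∇ (u k) x‖ ^ 2 + pos (u k x)) * wk r x ^ 2) atTop
      (𝓝 (∫ x, (‖∇ v x‖ ^ 2 + pos (v x)) * wk r x ^ 2)) := by
    refine tendsto_integral_of_dominated_convergence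
      (fun x => (closedBall (0 : E d) r).indicator (fun _ => (K : ℝ) ^ 2 + 1) x) (fun k => ?_) ?_ (fun k => ?_) ?_
    · have hg : Measurable (gE (u k)) := gE_meas (hlip k).continuous
      exact (hg.mul (hw.pow_const 2)).aestronglyMeasurable
    · rw [integrable_indicator_iff measurableSet_closedBall]
      exact integrableOn_const (isCompact_closedBall 0 r).measure_lt_top.ne
    · refine Eventually.of_forall fun x => ?_
      by_cases hx : x ∈ closedBall (0 : E d) r
      · rw [indicator_of_mem hx, norm_mul, Real.norm_eq_abs, Real.norm_eq_abs]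
        have h1 : |‖∇ (u k) x‖ ^ 2 + pos (u k x)| ≤ (K : ℝ) ^ 2 + 1 := gE_bound (hlip k) x
        have h2 : |wk r x ^ 2| ≤ 1 := by
          rw [abs_pow, abs_of_nonneg (wk_nonneg r x)]
          exact pow_le_one₀ (wk_nonneg r x) (wk_le_one r x)
        calc _ ≤ ((K : ℝ) ^ 2 + 1) * 1 := mul_le_mul h1 h2 (abs_nonneg _) (by positivity)
          _ = _ := mul_one _
      · rw [indicator_of_notMem hx, wk_supp hr x hx]; simp
    · filter_upwards [hae] with x hx
      obtain ⟨h1, h2⟩ := hptw x hx
      have h3 : Tendsto (fun k => pos (u k x)) atTop (𝓝 (pos (v x))) :=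
        tendsto_const_nhds.congr' (by filter_upwards [h2] with k hk; exact hk.symm)
      exact (((h1.norm).pow 2).add h3).mul_const _
  have T2 : Tendsto (fun k => ∫ x, u k x ^ 2 * wk r x) atTop (𝓝 (∫ x, v x ^ 2 * wk r x)) := by
    obtain ⟨B, hB⟩ : ∃ B : ℝ, ∀ k, |u k 0| ≤ B := by
      obtain ⟨B, hB⟩ := (h 0).abs.bddAbove_range
      exact ⟨B, fun k => hB ⟨k, rfl⟩⟩
    have hB0 : 0 ≤ B := (abs_nonneg _).trans (hB 0)
    refine tendsto_integral_of_dominated_convergence
      (fun x => (closedBall (0 : E d) r).indicator (fun _ => (B + K * r) ^ 2) x) (fun k => ?_) ?_ (fun k => ?_) ?_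
    · exact (((hlip k).continuous.measurable.pow_const 2).mul hw).aestronglyMeasurable
    · rw [integrable_indicator_iff measurableSet_closedBall]
      exact integrableOn_const (isCompact_closedBall 0 r).measure_lt_top.ne
    · refine Eventually.of_forall fun x => ?_
      by_cases hx : x ∈ closedBall (0 : E d) r
      · rw [indicator_of_mem hx, norm_mul, Real.norm_eq_abs, Real.norm_eq_abs]
        have h1 : |u k x| ≤ B + K * r := by
          have h3 := (hlip k).dist_le_mul x 0
          rw [Real.dist_eq, dist_zero_right] at h3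
          rw [mem_closedBall_zero_iff] at hx
          have h4 : (K : ℝ) * ‖x‖ ≤ K * r := mul_le_mul_of_nonneg_left hx K.2
          have h5 := hB k
          have h6 : |u k x| ≤ |u k x - u k 0| + |u k 0| := by
            have := abs_add_le (u k x - u k 0) (u k 0)
            rwa [sub_add_cancel] at this
          linarith
        have h1' : |u k x ^ 2| ≤ (B + K * r) ^ 2 := by
          rw [abs_pow]; exact pow_le_pow_left₀ (abs_nonneg _) h1 2
        have h2 : |wk r x| ≤ 1 := by
          rw [abs_of_nonneg (wk_nonneg r x)]; exact wk_le_one r x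
        calc _ ≤ (B + K * r) ^ 2 * 1 := mul_le_mul h1' h2 (abs_nonneg _) (by positivity)
          _ = _ := mul_one _
      · rw [indicator_of_notMem hx, wk_supp hr x hx]; simp
    · exact Eventually.of_forall fun x => ((h x).pow 2).mul_const _
  exact (T1.sub (T2.const_mul _)).div_const _

end Crest.Agent.R097.W2
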