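import Crest.Agent.R097.Weiss1
import Crest.Agent.R097.Weiss2a
import Crest.Agent.R097.Weiss2b
import Crest.Agent.R097.Weiss2c

/-! W2h: consequences of the Weiss formula: bounds, limits, homogeneity. -/
set_option autoImplicit false
open MeasureTheory Metric Set Filter Topology
open scoped NNReal RealInnerProductSpace Gradient ContDiff Laplacian

namespace Crest.Agent.R097
variable {d : ℕ}

theorem Ws_mono {K : ℝ≥0} {u : E d → ℝ} (hu : LM u K) : MonotoneOn (Ws u) (Ioi 0) := W2.Ws_mono' hu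

theorem Ws_bdd (d : ℕ) (K : ℝ≥0) : ∃ C : ℝ, ∀ u : E d → ℝ, LM u K → u 0 = 0 → ∀ r : ℝ, 0 < r → |Ws u r| ≤ C := W2.Ws_bdd' d K

theorem Ws_blow {K : ℝ≥0} {u : E d → ℝ} (hu : LM u K) {ρ r : ℝ} (hρ : 0 < ρ) (hr : 0 < r) :
    Ws (blow u 0 ρ) r = Ws u (ρ * r) := W2.Ws_blow' hu hρ hr

theorem Ws_lim (hd : 1 ≤ d) {K : ℝ≥0} {u : ℕ → E d → ℝ} {v : E d → ℝ} (hu : ∀ k, LM (u k) K)
    (h : ∀ x, Tendsto (fun k => u k x) atTop (𝓝 (v x))) {r : ℝ} (hr : 0 < r) :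
    Tendsto (fun k => Ws (u k) r) atTop (𝓝 (Ws v r)) := W2.Ws_lim' hd hu h hr

theorem hom_of_Ws {K : ℝ≥0} {u : E d → ℝ} (hu : LM u K) (h : ∀ r s : ℝ, 0 < r → 0 < s → Ws u r = Ws u s) :
    Hom1 u := W2.hom_of_Ws' hu h

end Crest.Agent.R097
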